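import Vale.Agent.P022D.V.Spec2

/-!
# P022D, block V: the square of `W` and the traces
-/

set_option autoImplicit false
set_option linter.all false

open Matrix
open scoped MatrixGroups

noncomputable section

namespace Vale.Agent.P022D.V

namespace Wq

variable {M M₀ q : ℕ}

theorem cast_eq (h : M₀ ∣ M) (x y : ZMod M) :
    ZMod.castHom h (ZMod M₀) x = ZMod.castHom h (ZMod M₀) y ↔ Cg M M₀ x y := by
  constructor
  · intro e
    obtain ⟨a, rfl⟩ := ZMod.intCast_surjective x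
    obtain ⟨b, rfl⟩ := ZMod.intCast_surjective y
    rw [map_intCast, map_intCast, eq_comm, ZMod.intCast_eq_intCast_iff_dvd_sub] at e
    obtain ⟨t, ht⟩ := e
    exact ⟨t, by rw [eq_add_of_sub_eq' ht]; push_cast; ring⟩
  · rintro ⟨t, rfl⟩
    simp only [map_add, map_mul, map_natCast, ZMod.natCast_self, zero_mul, add_zero]

theorem mem_Kq (h : M₀ ∣ M) (g : GM M) : g ∈ Kq M M₀ ↔ pr h g = 1 := by
  rw [Units.ext_iff, ← Matrix.ext_iff]
  refine forall_congr' fun i => forall_congr' fun j => ?_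
  refine (cast_eq h _ _).symm.trans (Eq.congr rfl ?_)
  rw [Units.val_one, Matrix.one_apply, Matrix.one_apply]
  split_ifs
  · exact map_one (ZMod.castHom h (ZMod M₀))
  · exact map_zero (ZMod.castHom h (ZMod M₀))

theorem K_mul (h : M₀ ∣ M) {a b : GM M} (ha : a ∈ Kq M M₀) (hb : b ∈ Kq M M₀) :
    a * b ∈ Kq M M₀ := by
  rw [mem_Kq h] at ha hb ⊢
  rw [map_mul, ha, hb, mul_one]

theorem K_inv (h : M₀ ∣ M) {a : GM M} (ha : a ∈ Kq M M₀) : a⁻¹ ∈ Kq M M₀ := by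
  rw [mem_Kq h] at ha ⊢
  rw [map_inv, ha, inv_one]

theorem un_K (x : ZMod M) : un ((M₀ : ZMod M) * x) ∈ Kq M M₀ := by
  intro i j
  rw [un_coe]
  fin_cases i <;> fin_cases j
  · exact ⟨0, by simp⟩
  · exact ⟨x, by simp⟩
  · exact ⟨0, by simp⟩
  · exact ⟨0, by simp⟩

theorem dg_K {a d : (ZMod M)ˣ} (ha : Cg M M₀ a 1) (hd : Cg M M₀ d 1) : dg a d ∈ Kq M M₀ := by
  intro i j
  rw [dg_coe]
  fin_cases i <;> fin_cases j
  · simpa [Cg] using ha
  · exact ⟨0, by simp⟩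
  · exact ⟨0, by simp⟩
  · simpa [Cg] using hd

theorem B_mul (h : M₀ ∣ M) {a b : GM M} (ha : a ∈ Bq M M₀) (hb : b ∈ Bq M M₀) :
    a * b ∈ Bq M M₀ :=
  ⟨K_mul h ha.1 hb.1, by simp [Matrix.mul_apply, ha.2, hb.2]⟩

theorem B_inv (h : M₀ ∣ M) {a : GM M} (ha : a ∈ Bq M M₀) : a⁻¹ ∈ Bq M M₀ :=
  ⟨K_inv h ha.1, by
    rw [Matrix.coe_units_inv, Matrix.inv_def, Matrix.adjugate_fin_two]
    simp [ha.2]⟩

theorem pr_dg (h : M₀ ∣ M) (a d : (ZMod M)ˣ) : pr h (dg a d) =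
    dg (Units.map (ZMod.castHom h (ZMod M₀)).toMonoidHom a)
      (Units.map (ZMod.castHom h (ZMod M₀)).toMonoidHom d) := by
  apply Units.ext
  ext i j
  fin_cases i <;> fin_cases j <;> simp [pr, dg_coe, -ZMod.castHom_apply]

theorem pr_un (h : M₀ ∣ M) : pr h (un 1) = un 1 := by
  apply Units.ext
  ext i j
  fin_cases i <;> fin_cases j <;> simp [pr, un_coe, -ZMod.castHom_apply]

theorem Dq_dg (a d : (ZMod M)ˣ) {g : GM M} (h : Dq M M₀ g) : Dq M M₀ (dg a d * g) := by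
  constructor
  · simpa [dg_coe, Matrix.mul_apply, mul_left_comm (M₀ : ZMod M)] using h.1
  · simpa [dg_coe, Matrix.mul_apply, mul_left_comm (M₀ : ZMod M)] using h.2

theorem Dq_dg' (a d : (ZMod M)ˣ) {g : GM M} (h : Dq M M₀ g) : Dq M M₀ (g * dg a d) := by
  constructor
  · simpa [dg_coe, Matrix.mul_apply, ← mul_assoc] using h.1
  · simpa [dg_coe, Matrix.mul_apply, ← mul_assoc] using h.2

theorem M_zero (h : Sp M M₀ q) : (M₀ : ZMod M) * q = 0 := by
  rw [← Nat.cast_mul, ← h.eq, ZMod.natCast_self]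

theorem Dq_K (h : Sp M M₀ q) {g : GM M} (hg : g ∈ Kq M q) : Dq M M₀ g := by
  obtain ⟨a, ha⟩ := hg 0 1
  obtain ⟨b, hb⟩ := hg 1 0
  constructor
  · rw [ha, mul_add, ← mul_assoc, M_zero h]
    simp
  · rw [hb, mul_add, ← mul_assoc, M_zero h]
    simp

theorem dvd_of_zero (h : Sp M M₀ q) {n : ℤ} (e : (M₀ : ZMod M) * n = 0) : (q : ℤ) ∣ n := by
  have h0 : (M₀ : ℤ) ≠ 0 := by
    have := h.odd.pos
    rw [h.eq] at this
    exact_mod_cast (Nat.pos_of_mul_pos_right this).ne'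
  rw [← Int.cast_natCast, ← Int.cast_mul, ZMod.intCast_zmod_eq_zero_iff_dvd] at e
  conv_lhs at e => rw [h.eq]
  rwa [Nat.cast_mul, mul_dvd_mul_iff_left h0] at e

theorem un_dg (a d : (ZMod M)ˣ) (y : ZMod M) : 
    un y * dg a d = dg a d * un (y * ((a⁻¹ * d : (ZMod M)ˣ) : ZMod M)) := by
  apply Units.ext
  ext i j
  fin_cases i <;> fin_cases j <;> simp [dg_coe, un_coe, Matrix.mul_apply, mul_left_comm (a : ZMod M)]

theorem conj_un {g : GM M} (h : Dq M M₀ g) : ∃ t t' : ZMod M,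
    g * un (M₀ : ZMod M) = un ((M₀ : ZMod M) * t) * g ∧ (M₀ : ZMod M) * t * t' = M₀ := by
  obtain ⟨δ, hδ⟩ := (Matrix.GeneralLinearGroup.det g).isUnit.exists_right_inv
  rw [Matrix.GeneralLinearGroup.val_det_apply, Matrix.det_fin_two] at hδ
  obtain ⟨h1, h2⟩ := h
  refine ⟨δ * g.1 0 0 ^ 2, δ * g.1 1 1 ^ 2, Units.ext ?_, ?_⟩
  · ext i j
    fin_cases i <;> fin_cases j <;> simp [un_coe, Matrix.mul_apply]
    · linear_combination (δ * g.1 0 0 ^ 2) * h2
    · linear_combination (-(M₀ : ZMod M) * g.1 0 0) * hδ -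
        (δ * g.1 0 0 * g.1 0 1) * h2
    · linear_combination h2
  · linear_combination (M₀ : ZMod M) * (g.1 0 0 * g.1 1 1 * δ + 1) * hδ
      + (g.1 0 0 * g.1 1 1 * δ + 1) * δ * g.1 0 1 * h2

variable {S R : Type} [CommRing S] [CommRing R] [Algebra S R]

theorem iv {H : Set (GM M)} {w : FT M R} : w ∈ Iv S R H ↔ ∀ h ∈ H, ∀ g, w (g * h) = w g :=
  forall₂_congr fun h _ => by rw [one_smul, funext_iff]; rfl

theorem Uo_Vo {p : ℕ} (hp : 0 < p) (s : PowerSeries R) : Uo p (Vo p s) = s := by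
  ext n
  simp [Uo, Vo, Nat.mul_div_cancel_left _ hp]

theorem Vo_zero (p : ℕ) : Vo p (0 : PowerSeries R) = 0 := by
  ext n
  simp [Vo]

theorem Uo_zero (p : ℕ) : Uo p (0 : PowerSeries R) = 0 := by
  ext n
  simp [Uo]

theorem Vo_add (p : ℕ) (s t : PowerSeries R) : Vo p (s + t) = Vo p s + Vo p t := by
  ext n
  simp only [Vo, PowerSeries.coeff_mk, map_add]
  split_ifs <;> simp

theorem Vo_nsmul (p m : ℕ) (s : PowerSeries R) : Vo p (m • s) = m • Vo p s := by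
  ext n
  simp only [Vo, PowerSeries.coeff_mk, map_nsmul]
  split_ifs <;> simp

theorem coeff_VU (p : ℕ) (s : PowerSeries R) (n : ℕ) :
    (Vo p (Uo p s)).coeff n = if p ∣ n then s.coeff n else 0 := by
  rw [Vo, PowerSeries.coeff_mk]
  split_ifs with h
  · rw [Uo, PowerSeries.coeff_mk, Nat.mul_div_cancel' h]
  · rfl

theorem TC_add {z : R} {w w' : FT M R} (h : TC z w) (h' : TC z w') : TC z (w + w') := fun g n => by
  rw [Pi.add_apply, Pi.add_apply, map_add, map_add, mul_add, h, h']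

theorem TC_sub {z : R} {w w' : FT M R} (h : TC z w) (h' : TC z w') : TC z (w - w') := fun g n => by
  rw [Pi.sub_apply, Pi.sub_apply, map_sub, map_sub, mul_sub, h, h']

theorem left_zero (hT : TN) [NeZero M] {z : R} (hz : PZ M z) {w : FT M R} (hw : TC z w) (y : ZMod M)
    {g : GM M} (h : w g = 0) : w (un y * g) = 0 := by
  ext n
  have := ((hT ℤ R M).2 z hz w hw).1 y.val g n
  rw [ZMod.natCast_zmod_val, h, map_zero] at this
  have hu : IsUnit z := IsUnit.of_pow_eq_one hz.pow (NeZero.ne M)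
  rw [map_zero]
  exact (hu.pow _).mul_right_eq_zero.1 this

/-- the values at the diagonal elements and their translates by `s` determine the tuple -/
theorem ext0 (hG : GRP) (hT : TN) (h : Sp M M₀ q) {z : R} (hz : PZ M z) {s : GM M}
    (hs : IsS M M₀ s) {w : FT M R} (h1 : w ∈ Iv S R (Uq M M₀)) (h2 : TC z w)
    (h3 : ∀ g, Dq M M₀ g → w g = 0 ∧ w (g * s) = 0) : w = 0 := by
  haveI : NeZero M := ⟨h.odd.pos.ne'⟩
  obtain ⟨-, -, g3, g4, g5, -, g7, g8⟩ := hG M M₀ q h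
  funext g
  obtain ⟨k, hk, a, ha, rfl⟩ := g5 g
  rcases g8 s hs k hk with hb | ⟨x, -, b, hb, rfl⟩
  · obtain ⟨_, ⟨y, rfl⟩, c, d, -, -, rfl⟩ := g7 k hb
    rw [← mul_assoc, ← g4 _ (un_K y) a ha, mul_assoc]
    exact left_zero hT hz h2 _ (h3 _ (Dq_dg' _ _ (Dq_K h ha))).1
  · obtain ⟨_, ⟨y, rfl⟩, c, d, hc, hd, rfl⟩ := g7 b hb
    rw [un_dg, mul_assoc (M₀ : ZMod M), ← mul_assoc _ (dg c d), ← mul_assoc a,
      iv.1 h1 _ ⟨_, rfl⟩, mul_assoc _ s, (g3 s hs).2 c d hc hd, ← mul_assoc a,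
      ← g4 _ (un_K _) a ha, mul_assoc, ← mul_assoc a]
    exact left_zero hT hz h2 _ (h3 _ (Dq_dg' _ _ (Dq_K h ha))).2

theorem VU_eq (hT : TN) (h : Sp M M₀ q) {z : R} (hz : PZ M z) {w : FT M R}
    (h1 : w ∈ Iv S R (Uq M M₀)) (h2 : TC z w) {g : GM M} (hg : Dq M M₀ g) :
    Vo q (Uo q (w g)) = w g := by
  haveI : NeZero M := ⟨h.odd.pos.ne'⟩
  ext n
  rw [coeff_VU]
  split_ifs with hn
  · rfl
  obtain ⟨t, t', e1, e2⟩ := conj_un hg
  have := ((hT ℤ R M).2 z hz w h2).1 ((M₀ : ZMod M) * t).val g n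
  rw [ZMod.natCast_zmod_val, ← e1, iv.1 h1 _ ⟨1, by simp⟩] at this
  refine ((hz.unit (((M₀ : ZMod M) * t).val * n) fun k => hn ?_).mul_right_eq_zero.1
    (by rw [sub_mul, this, one_mul, sub_self])).symm
  rw [← ZMod.natCast_eq_zero_iff, Nat.cast_mul, ZMod.natCast_zmod_val] at k
  refine Int.natCast_dvd_natCast.1 (dvd_of_zero h ?_)
  rw [Int.cast_natCast, ← e2]
  linear_combination t' * k

theorem Ts_eq (s : GM M) (w : FT M R) : Ts S R M₀ q s w = Nu S R M M₀ q (rt S R s w) := by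
  simp only [Ts, Nu, LinearMap.sum_apply, AlgHom.toLinearMap_apply, map_mul, AlgHom.mul_apply]

theorem Ts_val (hT : TN) (h : Sp M M₀ q) {z : R} (hz : PZ M z) (s : GM M) {w : FT M R}
    (h2 : TC z w) {g : GM M} (hg : Dq M M₀ g) :
    Ts S R M₀ q s w g = q • Vo q (Uo q (w (g * s))) := by
  ext n
  rw [Ts_eq, ((hT S R M).2 z hz _ (((hT S R M).2 z hz w h2).2.1 s)).2.2.1 M₀ q h g hg.2 n,
    map_nsmul, coeff_VU, rt_apply]
  split_ifs <;> simp

/-- the representatives of the cosets -/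
def rep (M₀ : ℕ) (s : GM M) : Option (Fin q) → GM M
  | none => 1
  | some x => un ((M₀ : ZMod M) * ((x : ℕ) : ZMod M)) * s

theorem s_mul {s : GM M} (hs : IsS M M₀ s) (y : ZMod M) {b : GM M} (hb : b ∈ Bq M M₀) :
    (M₀ : ZMod M) * (un y * s * b : GM M) 1 0 = M₀ * b 0 0 ∧
      (M₀ : ZMod M) * (un y * s * b : GM M) 0 0 = M₀ * (y * b 0 0) := by
  have e := fun i j => congrFun (congrFun hs.2 i) j
  have e00 := e 0 0
  have e10 := e 1 0
  have e2 := hb.2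
  simp at e00 e10
  simp [un_coe, Matrix.mul_apply, e2, Matrix.vecMul, dotProduct]
  constructor
  · linear_combination b 0 0 * e10
  · linear_combination b 0 0 * e00 + y * b 0 0 * e10

theorem b_ne (h : Sp M M₀ q) {b : GM M} (hb : b ∈ Bq M M₀) : (M₀ : ZMod M) * b 0 0 ≠ 0 := by
  intro e
  obtain ⟨δ, hδ⟩ := (Matrix.GeneralLinearGroup.det b).isUnit.exists_right_inv
  rw [Matrix.GeneralLinearGroup.val_det_apply, Matrix.det_fin_two, hb.2] at hδ
  have := dvd_of_zero h (n := 1) (by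
    push_cast
    linear_combination (-(M₀ : ZMod M)) * hδ + (b.1 1 1 * δ) * e)
  exact h.prime.one_lt.ne' (by exact_mod_cast Int.eq_one_of_dvd_one (by positivity) this)

theorem one_B : (1 : GM M) ∈ Bq M M₀ := ⟨fun i j => ⟨0, by simp⟩, by simp⟩

theorem rep_inj (h : Sp M M₀ q) {s : GM M} (hs : IsS M M₀ s) {t t' : Option (Fin q)} {b : GM M}
    (hb : b ∈ Bq M M₀) (e : rep M₀ s t' = rep M₀ s t * b) : t' = t := by
  rcases t with _ | x <;> rcases t' with _ | x' <;> simp only [rep] at e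
  · rfl
  · have := (s_mul hs ((M₀ : ZMod M) * ((x' : ℕ) : ZMod M)) one_B).1
    rw [mul_one, e, one_mul] at this
    exact absurd (this.symm.trans (by rw [show b 1 0 = 0 from hb.2, mul_zero])) (b_ne h one_B)
  · have := (s_mul hs ((M₀ : ZMod M) * ((x : ℕ) : ZMod M)) hb).1
    rw [← e] at this
    exact absurd (this.symm.trans (by simp)) (b_ne h hb)
  · obtain ⟨a1, a2⟩ := s_mul hs ((M₀ : ZMod M) * ((x : ℕ) : ZMod M)) hb
    obtain ⟨a3, a4⟩ := s_mul hs ((M₀ : ZMod M) * ((x' : ℕ) : ZMod M)) one_B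
    rw [mul_one, e, a1] at a3
    rw [mul_one, e, a2] at a4
    have a5 : (1 : GM M) 0 0 = 1 := by simp
    rw [a5] at a3 a4
    have a6 := dvd_of_zero h (n := M₀ * ((x' : ℕ) - (x : ℕ))) (by
      push_cast
      linear_combination ((M₀ : ZMod M) * ((x : ℕ) : ZMod M)) * a3 - a4)
    have a7 := (Nat.isCoprime_iff_coprime.2 h.cop.symm).dvd_of_dvd_mul_left a6
    have a8 := Nat.ModEq.eq_of_lt_of_lt ((Nat.modEq_iff_dvd).2 a7) x.2 x'.2
    rw [Fin.ext a8]

theorem tr_mem (hG : GRP) (h : Sp M M₀ q) {s : GM M} (hs : IsS M M₀ s) {w : FT M R}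
    (hw : w ∈ Iv S R (Bq M M₀)) : w + Ts S R M₀ q s w ∈ Iv S R (Kq M M₀) := by
  have e : ∀ g, (w + Ts S R M₀ q s w) g = ∑ t : Option (Fin q), w (g * rep M₀ s t) := by
    intro g
    rw [Fintype.sum_option, Pi.add_apply, Ts, LinearMap.sum_apply, Finset.sum_apply,
      Finset.sum_range]
    simp only [rep, mul_one]
    rfl
  refine iv.2 fun k hk g => ?_
  have h1 : ∀ t : Option (Fin q), ∃ t' : Option (Fin q), ∃ b ∈ Bq M M₀,
      k * rep M₀ s t = rep M₀ s t' * b := by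
    intro t
    have : k * rep M₀ s t ∈ Kq M M₀ := by
      refine K_mul h.dvd hk ?_
      rcases t with _ | x
      · exact one_B.1
      · exact K_mul h.dvd (un_K _) hs.1
    rcases (hG M M₀ q h).2.2.2.2.2.2.2 s hs _ this with hb | ⟨x, hx, b, hb, e⟩
    · exact ⟨none, _, hb, (one_mul _).symm⟩
    · exact ⟨some ⟨x, hx⟩, b, hb, e⟩
  choose φ b hb hφ using h1
  have h2 : Function.Injective φ := by
    intro t t' e
    refine rep_inj h hs (B_mul h.dvd (B_inv h.dvd (hb t')) (hb t)) (mul_left_cancel (a := k) ?_)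
    rw [← mul_assoc, hφ, hφ, e, mul_assoc, mul_inv_cancel_left]
  rw [e, e, ← (Finite.injective_iff_bijective.1 h2).sum_comp fun t => w (g * rep M₀ s t)]
  refine Finset.sum_congr rfl fun t _ => ?_
  rw [mul_assoc, hφ, ← mul_assoc, iv.1 hw _ (hb t)]

end Wq

open Wq

theorem wf2 (hG : GRP) (hT : TN) (hW : WF1) : WF2 := by
  intro S R _ _ _ M M₀ q z h s c hz hs hc
  have hq := h.prime.pos
  have W := hW S R M M₀ q z h hz.pow
  have A : ∀ w ∈ Iv S R (Uq M M₀), TC z w → ∀ g, Dq M M₀ g →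
      Ts S R M₀ q s (Wa S R M M₀ q w) g = 0 ∧ Ts S R M₀ q s (Wb S R M M₀ q z w) g =
        (q : ℕ) • Vo q (Uo q (Uo q (w (dg 1 c * g)))) := by
    intro w hw ht g hg
    obtain ⟨a1, -, -, -, -, -, a7⟩ := W w hw
    rw [Ts_val hT h hz s (a7 ht).1 hg, Ts_val hT h hz s (a7 ht).2 hg, (a1 s c g hs hc hg).2.2.1,
      (a1 s c g hs hc hg).2.2.2, Uo_zero, Vo_zero, smul_zero]
    exact ⟨rfl, rfl⟩
  refine ⟨fun w hw ht => ?_, fun w hw => tr_mem hG h hs hw, fun w hw => ?_, fun u w hu ht => ?_⟩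
  · obtain ⟨a1, ⟨a2, a3⟩, -, a4, -, -, a7⟩ := W w hw
    obtain ⟨b1, ⟨b2, b3⟩, -, -, -, -, b7⟩ := W _ a2
    obtain ⟨c1, ⟨c2, c3⟩, -, -, -, -, c7⟩ := W _ a3
    obtain ⟨t1, t2⟩ := a7 ht
    have e1 : Wa S R M M₀ q (Wa S R M M₀ q w) = 0 :=
      ext0 hG hT h hz hs b2 (b7 t1).1 fun g hg => by
        rw [(b1 s c g hs hc hg).1, (a1 s c _ hs hc (Dq_dg _ _ hg)).2.2.1, Vo_zero]
        exact ⟨rfl, (b1 s c g hs hc hg).2.2.1⟩
    have e2 : Wb S R M M₀ q z (Wb S R M M₀ q z w) = 0 :=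
      ext0 hG hT h hz hs c3 (c7 t2).2 fun g hg => by
        rw [(c1 s c g hs hc hg).2.2.2, (a1 s c _ hs hc (Dq_dg _ _ hg)).2.1, Uo_zero]
        exact ⟨(c1 s c g hs hc hg).2.1, rfl⟩
    have e3 : Wa S R M M₀ q (Wb S R M M₀ q z w) + Wb S R M M₀ q z (Wa S R M M₀ q w) =
        rt S R (dg c c) w := by
      refine sub_eq_zero.1 (ext0 hG hT h hz hs
        (Submodule.sub_mem _ (Submodule.add_mem _ c2 b3) (a4 c c ⟨0, by simp⟩).1)
        (TC_sub (TC_add (c7 t2).1 (b7 t1).2) (((hT S R M).2 z hz w ht).2.1 _)) fun g hg => ?_)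
      simp only [Pi.sub_apply, Pi.add_apply, rt_apply]
      rw [(c1 s c g hs hc hg).1, (b1 s c g hs hc hg).2.1, (c1 s c g hs hc hg).2.2.1,
        (b1 s c g hs hc hg).2.2.2, (a1 s c _ hs hc (Dq_dg _ _ hg)).2.2.2,
        (a1 s c _ hs hc (Dq_dg _ _ hg)).1, Uo_Vo hq, ← mul_assoc, ← mul_assoc, dg_mul, dg_mul,
        one_mul, mul_one, VU_eq hT h hz hw ht (Dq_dg _ _ hg), ← dg_center, ← dg_center,
        mul_assoc]
      simp
    refine ⟨e1, e2, e3, fun k => ?_, A w hw ht⟩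
    simp only [W1, LinearMap.add_apply, LinearMap.smul_apply, map_add, map_nsmul, e1, e2, ← e3,
      smul_zero, zero_add, add_zero, smul_add]
    exact add_comm _ _
  · have e : ∀ x : ZMod M, rt S R (un ((M₀ : ZMod M) * x) * s) w = w := fun x =>
      (hw _ (K_mul h.dvd (un_K _) hs.1)).trans (one_smul _ _)
    simp only [Ts, LinearMap.sum_apply, AlgHom.toLinearMap_apply, e, Finset.sum_const,
      Finset.card_range, succ_nsmul']
  · have hd : M / M₀ = q := by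
      have := h.odd.pos
      rw [h.eq] at this ⊢
      exact Nat.mul_div_cancel_left _ (Nat.pos_of_mul_pos_right this)
    have iw : ∀ (w : FT M₀ R) g, ifl S R h.dvd w g = Vo q (w (pr h.dvd g)) := fun w g =>
      congrArg (fun n => Vo n (w (pr h.dvd g))) hd
    have iK : ∀ w : FT M₀ R, ifl S R h.dvd w ∈ Iv S R (Kq M M₀) := fun w => iv.2 fun k hk g => by
      rw [iw, iw, map_mul, (mem_Kq h.dvd k).1 hk, mul_one]
    have tc : TC z (ifl S R h.dvd w) := by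
      intro g n
      rw [iw, iw, map_mul, pr_un, Vo, Vo, PowerSeries.coeff_mk, PowerSeries.coeff_mk]
      split_ifs with hn
      · rw [← ht (pr h.dvd g), ← pow_mul, Nat.mul_div_cancel' hn]
      · exact mul_zero _
    refine ⟨iK w, tc, fun i => ?_⟩
    have iU : ifl S R h.dvd w ∈ Iv S R (Uq M M₀) := iv.2 fun k ⟨x, hx⟩ g =>
      iv.1 (iK w) k (hx ▸ un_K x) g
    obtain ⟨a1, ⟨a2, a3⟩, -, a4, -, -, -⟩ := W _ iU
    obtain ⟨-, -, -, -, g5, -, g7, -⟩ := hG M M₀ q h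
    have iB : W1 S R M M₀ q z (i + 1) (ifl S R h.dvd w) ∈ Iv S R (Bq M M₀) := by
      intro b hb
      obtain ⟨v, hv, a, d, ha, hd, rfl⟩ := g7 b hb
      have e := iK w _ (dg_K hd ha)
      obtain ⟨-, e1, e2⟩ := a4 d a (by
        obtain ⟨x, hx⟩ := ha
        obtain ⟨y, hy⟩ := hd
        exact ⟨y - x, by rw [hx, hy]; ring⟩)
      rw [e, one_smul] at e1 e2
      simp only [W1, LinearMap.add_apply, LinearMap.smul_apply, map_mul, AlgHom.mul_apply, map_add,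
        map_nsmul, ← e1, ← e2, a2 v hv, a3 v hv, one_smul]
    funext g
    obtain ⟨k, hk, a, ha, rfl⟩ := g5 g
    have hD := Dq_K h ha
    have hc' : Units.map (ZMod.castHom h.dvd (ZMod M₀)).toMonoidHom c = u := Units.ext (by
      rw [hu, ← map_natCast (ZMod.castHom h.dvd (ZMod M₀))]
      exact (cast_eq h.dvd _ _).2 hc.1)
    rw [LinearMap.add_apply, Module.End.one_apply, iv.1 (tr_mem hG h hs iB) k hk, Pi.smul_apply,
      iv.1 (iK _) k hk]
    simp only [W1, LinearMap.add_apply, LinearMap.smul_apply, map_add, map_nsmul, Pi.add_apply,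
      Pi.smul_apply, (A _ iU tc a hD).1, (A _ iU tc a hD).2, (a1 s c a hs hc hD).1,
      (a1 s c a hs hc hD).2.1, iw, map_mul, (mem_Kq h.dvd s).1 hs.1, pr_dg, hc', map_one, Uo_Vo hq,
      Tf, smul_zero, add_zero, zero_add, mul_one, smul_add, smul_smul]
    rw [pow_succ', add_comm, Vo_add, Vo_nsmul, smul_add, smul_smul]
    rfl

end Vale.Agent.P022D.V
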