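import Vale.Agent.P022D.V.Spec

/-!
# P022D, block V: the divisible carrier
-/

set_option linter.all false

open Matrix
open scoped MatrixGroups

noncomputable section

namespace Vale.Agent.P022D.V

namespace Dv

section formal

variable {M : ℕ} {S : Type} [CommRing S] {R R' : Type} [CommRing R] [Algebra S R]
  [CommRing R'] [Algebra S R']

theorem ml_dep (φ : R →ₗ[S] R') (w : FT M R) :
    ml S M φ (dep S R M w) = dep S R' M (ml S M φ w) := by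
  ext g n
  rw [ml_coeff]
  change φ ((PowerSeries.mk fun n => if Even n then 0 else (w g).coeff n).coeff n) =
    (PowerSeries.mk fun n => if Even n then 0 else (ml S M φ w g).coeff n).coeff n
  rw [PowerSeries.coeff_mk, PowerSeries.coeff_mk, ml_coeff]
  split_ifs
  · exact map_zero φ
  · rfl

theorem ml_rt (φ : R →ₗ[S] R') (h : GM M) (w : FT M R) :
    ml S M φ (rt S R h w) = rt S R' h (ml S M φ w) := rfl

theorem ml_ep (φ : R →ₗ[S] R') (k : ℕ) (w : FT M R) :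
    ml S M φ (ep S R M k w) = ep S R' M k (ml S M φ w) := by
  simp only [ep, LinearMap.smul_apply, AlgHom.toLinearMap_apply, map_zsmul, ml_rt]

theorem dep_coeff (w : FT M R) (g : GM M) (n : ℕ) :
    (dep S R M w g).coeff n = if Even n then 0 else (w g).coeff n :=
  PowerSeries.coeff_mk n fun n => if Even n then 0 else (w g).coeff n

theorem dep_mem (w : FT M R) : dep S R M w ∈ Od S M R := fun g n hn => by
  rw [dep_coeff, if_pos hn]

theorem dep_eq {w : FT M R} (h : w ∈ Od S M R) : dep S R M w = w := by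
  ext g n
  rw [dep_coeff]
  split_ifs with hn
  · exact (h g n hn).symm
  · rfl

theorem rt_Od (h : GM M) {w : FT M R} (hw : w ∈ Od S M R) : rt S R h w ∈ Od S M R :=
  fun g n hn => hw (g * h) n hn

theorem ep_succ (k : ℕ) (w : FT M R) : ep S R M (k + 1) w = -ep S R M k w := by
  simp only [ep, LinearMap.smul_apply, pow_succ, mul_neg, mul_one, neg_smul,
    LinearMap.neg_apply]

theorem ml_inj {φ : R →ₗ[S] R'} (h : Function.Injective φ) : Function.Injective (ml S M φ) := by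
  intro w w' e
  ext g n
  apply h
  rw [← ml_coeff, ← ml_coeff, e]

theorem ml_Od {φ : R →ₗ[S] R'} (h : Function.Injective φ) {w : FT M R} :
    ml S M φ w ∈ Od S M R' ↔ w ∈ Od S M R := by
  refine ⟨fun k g n hn => h ?_, fun k g n hn => ?_⟩
  · rw [← ml_coeff, k g n hn, map_zero]
  · rw [ml_coeff, k g n hn, map_zero]

end formal

variable {O : Type} [CommRing O] [Co O] {M : ℕ}

theorem j_ne {a : O} (ha : a ≠ 0) : (Co.j a : ℂ) ≠ 0 :=
  fun e => ha (Co.inj (O := O) (by rw [e, map_zero]))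

theorem mul_ne {a b : O} (ha : a ≠ 0) (hb : b ≠ 0) : a * b ≠ 0 := fun e => by
  have := congrArg (Co.j : O →+* ℂ) e
  rw [map_mul, map_zero] at this
  exact mul_ne_zero (j_ne ha) (j_ne hb) this

theorem two_pow_ne (n : ℕ) : (2 : O) ^ n ≠ 0 := fun e => by
  have := congrArg (Co.j : O →+* ℂ) e
  rw [map_pow, map_ofNat, map_zero] at this
  exact pow_ne_zero n two_ne_zero this

theorem two_ne : (2 : O) ≠ 0 := by simpa using two_pow_ne (O := O) 1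

theorem dvd_two_pow {a : O} (ha : a ≠ 0) : ∃ n : ℕ, a ∣ 2 ^ n := by
  obtain ⟨n, hn⟩ := Co.rk (O := O) (Co.j a)⁻¹
  obtain ⟨c, hc⟩ := Co.fix (O := O) _ hn fun σ hσ => by
    rw [map_mul, map_inv₀, hσ, map_pow, map_ofNat]
  refine ⟨n, c, Co.inj (O := O) ?_⟩
  rw [map_mul, hc, map_pow, map_ofNat, mul_left_comm, mul_inv_cancel₀ (j_ne ha), mul_one]

theorem dv_inj {a : O} (ha : a ≠ 0) : Function.Injective (dv a) := by
  rw [injective_iff_map_eq_zero]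
  intro x hx
  obtain ⟨y, rfl⟩ := Ideal.Quotient.mk_surjective x
  rw [dv_mk, eD_eq_zero] at hx
  rw [Ideal.Quotient.eq_zero_iff_mem, Ideal.mem_span_singleton']
  refine ⟨amk _ hx, av_inj ?_⟩
  rw [map_mul, av_amk, av_alg, div_mul_cancel₀ _ (j_ne ha)]

theorem ml_rho {a b : O} (ha : a ≠ 0) (hb : b ≠ 0) (v : FT M (RR (a * b))) :
    ml O M (dv a) (rho M a b v) = b • ml O M (dv (a * b)) v := by
  ext g n
  rw [Pi.smul_apply, PowerSeries.coeff_smul, ml_coeff, ml_coeff]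
  obtain ⟨y, hy⟩ := Ideal.Quotient.mk_surjective ((v g).coeff n)
  have e : (rho M a b v g).coeff n = Ideal.Quotient.mk _ y := by
    simp only [rho, mp, AlgHom.coe_mk, RingHom.coe_mk, MonoidHom.coe_mk, OneHom.coe_mk,
      PowerSeries.coeff_map]
    rw [← hy]
    rfl
  rw [e, ← hy, dv_mk, dv_mk, Algebra.smul_def, alg_RD, eD_mul, av_alg, map_mul]
  congr 1
  have := j_ne ha
  have := j_ne hb
  field_simp

theorem smul_self (a : O) (v : FT M (RR a)) : a • v = 0 := by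
  ext g n
  rw [Pi.smul_apply, PowerSeries.coeff_smul]
  obtain ⟨y, hy⟩ := Ideal.Quotient.mk_surjective ((v g).coeff n)
  rw [← hy]
  change Ideal.Quotient.mk _ (a • y) = 0
  rw [Ideal.Quotient.eq_zero_iff_mem, Algebra.smul_def]
  exact Ideal.mul_mem_right _ _ (Ideal.mem_span_singleton_self _)

/-- the image of a family of spaces in the divisible module -/
def Im (W : ∀ a : O, Submodule O (FT M (RR a))) (a : O) : Submodule O (FT M (RD O)) :=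
  (W a).map (ml O M (dv a))

/-- the properties of a family which are used -/
structure Fm (W : ∀ a : O, Submodule O (FT M (RR a))) : Prop where
  sur : ∀ a b, a ≠ 0 → b ≠ 0 → (W (a * b)).map (rho M a b).toLinearMap = W a
  ker : ∀ a b, a ≠ 0 → b ≠ 0 → ∀ v ∈ W (a * b), b • v = 0 → ∃ v' ∈ W (a * b), v = a • v'
  dep : ∀ a, a ≠ 0 → ∀ v ∈ W a, dep O _ M v ∈ W a
  rt : ∀ a, a ≠ 0 → ∀ h, ∀ v ∈ W a, rt O _ h v ∈ W a

variable {W : ∀ a : O, Submodule O (FT M (RR a))}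

theorem Fm.lift (F : Fm W) {a b : O} (ha : a ≠ 0) (hb : b ≠ 0) {v : FT M (RD O)}
    (h : v ∈ Im W a) : ∃ v' ∈ Im W (a * b), v = b • v' := by
  obtain ⟨x, hx, rfl⟩ := h
  rw [← F.sur a b ha hb] at hx
  obtain ⟨y, hy, rfl⟩ := hx
  exact ⟨_, ⟨y, hy, rfl⟩, ml_rho ha hb y⟩

theorem Fm.down (F : Fm W) {a b : O} (ha : a ≠ 0) (hb : b ≠ 0) {v : FT M (RD O)}
    (h : v ∈ Im W (a * b)) : b • v ∈ Im W a := by
  obtain ⟨y, hy, rfl⟩ := h
  refine ⟨rho M a b y, ?_, ml_rho ha hb y⟩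
  rw [← F.sur a b ha hb]
  exact ⟨y, hy, rfl⟩

theorem Fm.mono (F : Fm W) {a c : O} (hc : c ≠ 0) (h : a ∣ c) : Im W a ≤ Im W c := by
  obtain ⟨b, rfl⟩ := h
  intro v hv
  obtain ⟨v', h', rfl⟩ := F.lift (left_ne_zero_of_mul hc) (right_ne_zero_of_mul hc) hv
  exact Submodule.smul_mem _ _ h'

theorem Fm.tors (F : Fm W) {a b : O} (ha : a ≠ 0) (hb : b ≠ 0) {v : FT M (RD O)}
    (h : v ∈ Im W a) (h0 : b • v = 0) : v ∈ Im W b := by
  obtain ⟨y, hy, rfl⟩ := F.mono (mul_ne ha hb) (dvd_mul_right a b) h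
  have h1 : b • y = 0 := ml_inj (dv_inj (mul_ne ha hb)) (by rw [map_smul, map_zero]; exact h0)
  obtain ⟨y', hy', rfl⟩ := F.ker a b ha hb y hy h1
  rw [map_smul]
  apply F.down hb ha
  rw [mul_comm b a]
  exact ⟨y', hy', rfl⟩

theorem Im_tors {a : O} {v : FT M (RD O)} (h : v ∈ Im W a) : a • v = 0 := by
  obtain ⟨y, hy, rfl⟩ := h
  rw [← map_smul, smul_self, map_zero]

theorem Fm.dep' (F : Fm W) {a : O} (ha : a ≠ 0) {v : FT M (RD O)} (h : v ∈ Im W a) :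
    V.dep O _ M v ∈ Im W a := by
  obtain ⟨y, hy, rfl⟩ := h
  exact ⟨_, F.dep a ha y hy, ml_dep _ _⟩

theorem Fm.rt' (F : Fm W) {a : O} (ha : a ≠ 0) (g : GM M) {v : FT M (RD O)} (h : v ∈ Im W a) :
    V.rt O _ g v ∈ Im W a := by
  obtain ⟨y, hy, rfl⟩ := h
  exact ⟨_, F.rt a ha g y hy, ml_rt _ _ _⟩

theorem Fm.mem_iSup (F : Fm W) {v : FT M (RD O)} :
    v ∈ ⨆ n : ℕ, Im W ((2 : O) ^ n) ↔ ∃ a, a ≠ 0 ∧ v ∈ Im W a := by
  rw [Submodule.mem_iSup_of_directed _ (Monotone.directed_le fun m n h =>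
    F.mono (two_pow_ne n) (pow_dvd_pow 2 h))]
  refine ⟨fun ⟨n, h⟩ => ⟨_, two_pow_ne n, h⟩, fun ⟨a, ha, h⟩ => ?_⟩
  obtain ⟨n, hn⟩ := dvd_two_pow ha
  exact ⟨n, F.mono (two_pow_ne n) hn h⟩

theorem map_Od {a : O} (ha : a ≠ 0) {v : FT M (RD O)} :
    v ∈ (W a ⊓ Od O M (RR a)).map (ml O M (dv a)) ↔ v ∈ Im W a ∧ v ∈ Od O M (RD O) := by
  refine ⟨?_, ?_⟩
  · rintro ⟨y, ⟨h1, h2⟩, rfl⟩
    exact ⟨⟨y, h1, rfl⟩, (ml_Od (dv_inj ha)).2 h2⟩
  · rintro ⟨⟨y, h1, rfl⟩, h2⟩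
    exact ⟨y, ⟨h1, (ml_Od (dv_inj ha)).1 h2⟩, rfl⟩

/-- the consequences for the depleted part of the union -/
theorem Fm.main (F : Fm W) {X : Submodule O (FT M (RD O))}
    (hX : ∀ v, v ∈ X ↔ (∃ a, a ≠ 0 ∧ v ∈ Im W a) ∧ v ∈ Od O M (RD O)) :
    (∀ b : O, b ≠ 0 → (∀ v ∈ X, ∃ v' ∈ X, v = b • v') ∧
      ∀ v, (v ∈ X ∧ b • v = 0) ↔ v ∈ (W b ⊓ Od O M (RR b)).map (ml O M (dv b))) ∧
    (∀ v ∈ X, ∃ n : ℕ, (2 : O) ^ n • v = 0) ∧ ∀ h, ∀ v ∈ X, V.rt O _ h v ∈ X := by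
  refine ⟨fun b hb => ⟨fun v hv => ?_, fun v => ?_⟩, fun v hv => ?_, fun h v hv => ?_⟩
  · obtain ⟨⟨a, ha, h1⟩, h2⟩ := (hX v).1 hv
    obtain ⟨v', h3, e⟩ := F.lift ha hb h1
    refine ⟨V.dep O _ M v', (hX _).2 ⟨⟨_, mul_ne ha hb, F.dep' (mul_ne ha hb) h3⟩, dep_mem _⟩, ?_⟩
    rw [← map_smul, ← e, dep_eq h2]
  · rw [map_Od hb, hX]
    exact ⟨fun ⟨⟨⟨a, ha, h1⟩, h2⟩, h3⟩ => ⟨F.tors ha hb h1 h3, h2⟩,
      fun ⟨h1, h2⟩ => ⟨⟨⟨b, hb, h1⟩, h2⟩, Im_tors h1⟩⟩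
  · obtain ⟨⟨a, ha, h1⟩, -⟩ := (hX v).1 hv
    obtain ⟨n, hn⟩ := dvd_two_pow ha
    exact ⟨n, Im_tors (F.mono (two_pow_ne n) hn h1)⟩
  · obtain ⟨⟨a, ha, h1⟩, h2⟩ := (hX v).1 hv
    exact (hX _).2 ⟨⟨a, ha, F.rt' ha h h1⟩, rt_Od h h2⟩

end Dv

open Dv

variable (O : Type) [CommRing O] [Co O]

/-- **the divisible carrier** -/
theorem div (h1 : VS1 O) (h2 : VS2 O) (h3 : VS3 O) (hF : FLAT O) (hS : SER O) (hP : PAR O) :
    DIV O := by
  intro M hM hM3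
  have F1 : ∀ k, Fm (fun a : O => VV M k a) := fun k =>
    ⟨fun a b ha hb => (hF M k a b hM ha hb).1,
      fun a b ha hb v hv h => (hF M k a b hM ha hb).2.2.1 v hv
        (((hF M k a b hM ha hb).2.2.2.2 v).1 h),
      fun a ha => (hS M k a hM ha).1, fun a ha => (h3 M a hM ha).2.2.2.1 k⟩
  have F2 : ∀ k, Fm (fun a : O => V2 M k a) := fun k =>
    ⟨fun a b ha hb => (hF M k a b hM ha hb).2.1,
      fun a b ha hb v hv h => (hF M k a b hM ha hb).2.2.2.1 v hv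
        (((hF M k a b hM ha hb).2.2.2.2 v).1 h),
      fun a ha => (hS M k a hM ha).2.1, fun a ha => (h3 M a hM ha).2.2.2.2.1 k⟩
  have X1 : ∀ k v, v ∈ XD1 O M k ↔
      (∃ a, a ≠ 0 ∧ v ∈ Im (fun a : O => VV M k a) a) ∧ v ∈ Od O M (RD O) := fun k v =>
    and_congr_left' (F1 k).mem_iSup
  have X2' : ∀ i v, v ∈ XD O M i ↔
      (∃ a, a ≠ 0 ∧ v ∈ Im (fun a : O => V2 M (i + 1) a) a) ∧ v ∈ Od O M (RD O) := by
    intro i v
    constructor
    · intro hv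
      obtain ⟨f, hf, g, hg, rfl⟩ := Submodule.mem_sup.1 hv
      obtain ⟨⟨a, ha, f1⟩, f2⟩ := (X1 _ _).1 hf
      obtain ⟨⟨b, hb, g1⟩, g2⟩ := (X1 _ _).1 hg
      have hab := mul_ne ha hb
      exact ⟨⟨a * b, hab, add_mem
        ((F2 (i + 1)).mono hab (dvd_mul_right a b)
          (Submodule.map_mono ((h3 M a hM ha).2.2.2.2.2.2.1 (i + 1)).1 f1))
        ((F2 (i + 1)).mono hab (dvd_mul_left b a)
          (Submodule.map_mono ((h3 M b hM hb).2.2.2.2.2.2.1 (i + 1)).2 g1))⟩, add_mem f2 g2⟩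
    · rintro ⟨⟨a, ha, x, hx, rfl⟩, ho⟩
      obtain ⟨n, hn⟩ := dvd_two_pow ha
      obtain ⟨y, rfl, y1, y2⟩ := ((h2 M (n + 2) a hM (by omega)
        (hn.trans (pow_dvd_pow 2 (by omega)))).2 (i + 1) x).1 hx
      have ha2 := mul_ne ha (two_ne (O := O))
      have e : ml O M (dv a) (rho M a 2 y) =
          dep O _ M (ml O M (dv (a * 2)) (y + ep O _ M (i + 1) y)) +
          dep O _ M (ml O M (dv (a * 2)) (y - ep O _ M (i + 1) y)) := by
        rw [← map_add, ← map_add, add_add_sub_cancel, ← two_smul O y, map_smul,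
          ← ml_rho ha two_ne, dep_eq ho]
      rw [e]
      exact Submodule.add_mem_sup
        ((X1 _ _).2 ⟨⟨_, ha2, (F1 _).dep' ha2 ⟨_, y1, rfl⟩⟩, dep_mem _⟩)
        ((X1 _ _).2 ⟨⟨_, ha2, (F1 _).dep' ha2 ⟨_, y2, rfl⟩⟩, dep_mem _⟩)
  have E1 : ∀ k, ∀ v ∈ XD1 O M k, ep O _ M k v = v := by
    intro k v hv
    obtain ⟨⟨a, ha, x, hx, rfl⟩, -⟩ := (X1 _ _).1 hv
    rw [← ml_ep, (h3 M a hM ha).2.2.2.2.2.1 k x hx]
  refine ⟨fun a ha => ml_inj (dv_inj ha), fun k => ((F1 k).main (X1 k)).1,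
    fun i => ((F2 (i + 1)).main (X2' i)).1, fun i v hv => ⟨((F2 (i + 1)).main (X2' i)).2.1 v hv,
      fun h => ((F2 (i + 1)).main (X2' i)).2.2 h v hv, E1 _ v, fun he => ?_⟩,
    fun k => ((F1 k).main (X1 k)).2.2⟩
  obtain ⟨f, hf, g, hg, rfl⟩ := Submodule.mem_sup.1 hv
  refine add_mem hf ?_
  have e1 := E1 _ g hg
  rw [ep_succ, neg_eq_iff_eq_neg] at e1
  rw [map_add, E1 _ f hf, e1, add_right_inj, neg_eq_iff_add_eq_zero, ← two_smul O g] at he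
  obtain ⟨⟨a, ha, g1⟩, g2⟩ := (X1 _ _).1 hg
  obtain ⟨y, hy, rfl⟩ := (F1 _).tors ha two_ne g1 he
  refine (X1 _ _).2 ⟨⟨2, two_ne, y, ?_, rfl⟩, g2⟩
  have p := (hP M hM hM3).2
  change y ∈ VV M (i + 1) (2 : O)
  rw [p _ 2 dvd_rfl, ← p (i + 2) 2 dvd_rfl]
  exact hy

end Vale.Agent.P022D.V
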