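import Vale.Agent.P022D.V.TrT

/-!
# P022D, block V: the unions over the weights, flatness
-/

set_option autoImplicit false
set_option linter.all false

open UpperHalfPlane hiding I
open Matrix Function.Periodic
open scoped MatrixGroups ModularForm

noncomputable section

namespace Vale.Agent.P022D.V

open Vale.Agent.P022 Vale.Agent.P022.H218.L3 Vale.Agent.P027M.M

namespace Tr

variable {O : Type} [CommRing O] [Co O] {M : ℕ}

theorem pow_cong {R : Type} [CommRing R] {x : R} {c : ℕ} (h : (2 : R) ^ (c + 1) ∣ x - 1) (t : ℕ) :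
    (2 : R) ^ (c + 1 + t) ∣ x ^ 2 ^ t - 1 := by
  induction t with
  | zero => simpa using h
  | succ t ih =>
    rw [← add_assoc, pow_succ 2 (c + 1 + t), pow_succ 2 t, pow_mul,
      show ∀ y : R, y ^ 2 - 1 = (y - 1) * (y + 1) from fun y => by ring]
    refine mul_dvd_mul ih ?_
    obtain ⟨d, hd⟩ := (dvd_pow_self 2 (by omega)).trans ih
    exact ⟨d + 1, by linear_combination hd⟩

theorem red_surj (ϖ : O) : Function.Surjective (red M ϖ) := by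
  intro v
  choose y hy using fun g n => Ideal.Quotient.mk_surjective ((v g).coeff n)
  refine ⟨fun g => PowerSeries.mk (y g), ?_⟩
  ext g n
  rw [← hy]
  simp [red, mp]

theorem red_coeff (ϖ : O) (y : FT M (AA O)) (g : GM M) (n : ℕ) :
    (red M ϖ y g).coeff n = Ideal.Quotient.mk _ ((y g).coeff n) := by
  simp [red, mp]

theorem red_eq_zero {ϖ : O} {y : FT M (AA O)} : red M ϖ y = 0 ↔ ∃ z, y = ϖ • z := by
  constructor
  · intro h
    have : ∀ g n, ∃ c, c * algebraMap O (AA O) ϖ = (y g).coeff n := fun g n =>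
      Ideal.mem_span_singleton'.1 (Ideal.Quotient.eq_zero_iff_mem.1 (by
        rw [← red_coeff, h]; simp))
    choose c hc using this
    refine ⟨fun g => PowerSeries.mk (c g), ?_⟩
    ext g n
    rw [← hc, Pi.smul_apply, PowerSeries.coeff_smul, PowerSeries.coeff_mk, Algebra.smul_def,
      mul_comm]
  · rintro ⟨z, rfl⟩
    ext g n
    rw [red_coeff, Pi.smul_apply, PowerSeries.coeff_smul, Algebra.smul_def]
    exact Ideal.Quotient.eq_zero_iff_mem.2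
      (Ideal.mul_mem_right _ _ (Ideal.mem_span_singleton_self _))

theorem j_ne {a : O} (ha : a ≠ 0) : (Co.j a : ℂ) ≠ 0 :=
  fun e => ha (Co.inj (O := O) (by rw [e, map_zero]))

theorem smul_cancel {a : O} (ha : a ≠ 0) {x y : FT M (AA O)} (h : a • x = a • y) : x = y := by
  ext g n
  have := congrArg (fun w : FT M (AA O) => av O ((w g).coeff n)) h
  simp only [Pi.smul_apply, PowerSeries.coeff_smul] at this
  rw [Algebra.smul_def, Algebra.smul_def, map_mul, map_mul, av_alg] at this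
  exact av_inj (mul_left_cancel₀ (j_ne ha) this)

theorem two_cancel {x y : FT M (AA O)} (h : 2 * x = 2 * y) : x = y :=
  smul_cancel (two_ne (O := O)) (by rwa [Algebra.smul_def, Algebra.smul_def, map_ofNat])

theorem rho_red (ϖ ϖ' : O) (y : FT M (AA O)) : rho M ϖ ϖ' (red M (ϖ * ϖ') y) = red M ϖ y := by
  ext g n
  simp [rho, red, mp]

theorem L_sat' (hM : 0 < M) {k : ℕ} {a : O} (ha : a ≠ 0) {u : FT M (AA O)}
    (h : a • u ∈ L O M k) : u ∈ L O M k := by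
  rw [Algebra.smul_def] at h
  refine L_div hM (l := 0) h (L_alg a) fun g => ⟨fun _ => Co.j a, ?_, fun _ => j_ne ha⟩
  rw [alg_eq, PowerSeries.map_C]
  exact hs_const _

theorem L2_sat (hM : 0 < M) {k : ℕ} {a : O} (ha : a ≠ 0) {u : FT M (AA O)}
    (h : a • u ∈ L2 O M k) : u ∈ L2 O M k :=
  ⟨L_sat' hM ha (by rw [← map_smul]; exact h.1), L_sat' hM ha (by rw [← map_smul]; exact h.2)⟩

theorem ep_L (hM : 0 < M) {k : ℕ} {w : FT M (AA O)} (h : w ∈ L O M k) : ep O _ M k w = w := by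
  rw [ep_eq, rt_ng hM h, ← mul_assoc, ← mul_pow]
  simp

theorem ep_L' (hM : 0 < M) {k : ℕ} {w : FT M (AA O)} (h : w ∈ L O M (k + 1)) :
    ep O _ M k w = -w := by
  rw [ep_eq, rt_ng hM h, pow_succ, ← mul_assoc, ← mul_assoc, ← mul_pow]
  simp

theorem ep_cong {S R : Type} [CommRing S] [CommRing R] [Algebra S R] {k l s : ℕ}
    (h : k ≡ l [MOD 2 ^ (s + 1)]) : ep S R M k = ep S R M l := by
  rw [ep, ep, neg_one_pow_eq_pow_mod_two, neg_one_pow_eq_pow_mod_two (n := l),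
    h.of_dvd (dvd_pow_self 2 (Nat.succ_ne_zero s))]

theorem red_ep (ϖ : O) (k : ℕ) (w : FT M (AA O)) :
    red M ϖ (ep O _ M k w) = ep O _ M k (red M ϖ w) := by
  rw [ep_eq, ep_eq, map_mul, map_pow, map_neg, map_one]
  rfl

theorem L_le_L2 (hM : 0 < M) (k : ℕ) : L O M k ≤ L2 O M k ∧ L O M (k + 1) ≤ L2 O M k := by
  refine ⟨fun w h => mem_L2'.2 ?_, fun w h => mem_L2'.2 ?_⟩
  · rw [← ep_eq, ep_L hM h, sub_self]
    exact ⟨add_mem h h, zero_mem _⟩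
  · rw [← ep_eq, ep_L' hM h, add_neg_cancel, sub_neg_eq_add]
    exact ⟨zero_mem _, add_mem h h⟩

theorem L2_rt {k : ℕ} {w : FT M (AA O)} (h : w ∈ L2 O M k) (x : GM M) :
    rt O (AA O) x w ∈ L2 O M k := by
  rw [mem_L2'] at h ⊢
  have e : rt O (AA O) (ng M) (rt O (AA O) x w) = rt O (AA O) x (rt O (AA O) (ng M) w) := by
    rw [← AlgHom.mul_apply, ← AlgHom.mul_apply, ← map_mul, ← map_mul, ng_comm]
  have h1 := L_rt h.1 x
  have h2 := L_rt h.2 x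
  rw [map_add, map_mul, map_pow, map_neg, map_one, ← e] at h1
  rw [map_sub, map_mul, map_pow, map_neg, map_one, ← e] at h2
  exact ⟨h1, h2⟩

theorem exists_s {ϖ : O} (h0 : ϖ ≠ 0) (t : ℕ) : ∃ s, ϖ ∣ 2 ^ (s + 2 + 1) ∧ t ≤ s := by
  obtain ⟨n, hn⟩ := dvd_two_pow h0
  exact ⟨n + t, hn.trans (pow_dvd_pow 2 (by omega)), by omega⟩

theorem mem_inf_sup {X : Type} [AddCommGroup X] [Module O X] (F : ℕ → Submodule O X) (s : ℕ)
    (h : ∀ k k', k ≤ k' → k ≡ k' [MOD 2 ^ s] → F k ≤ F k') (k₀ : ℕ) (v : X) :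
    v ∈ (⨅ s, ⨆ k : {k : ℕ // k ≡ k₀ [MOD 2 ^ s]}, F k.1) ↔ ∃ k, k ≡ k₀ [MOD 2 ^ s] ∧ v ∈ F k := by
  constructor
  · intro hv
    haveI : Nonempty {k : ℕ // k ≡ k₀ [MOD 2 ^ s]} := ⟨⟨k₀, Nat.ModEq.refl _⟩⟩
    obtain ⟨⟨k, hk⟩, h1⟩ := (Submodule.mem_iSup_of_directed _ (by
      rintro ⟨a, ha⟩ ⟨b, hb⟩
      rcases le_total a b with k | k
      · exact ⟨⟨b, hb⟩, h a b k (ha.trans hb.symm), le_rfl⟩
      · exact ⟨⟨a, ha⟩, le_rfl, h b a k (hb.trans ha.symm)⟩)).1 ((Submodule.mem_iInf _).1 hv s)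
    exact ⟨k, hk, h1⟩
  · rintro ⟨k, hk, hv⟩
    refine (Submodule.mem_iInf _).2 fun t => ?_
    have e : ∀ a b : ℕ, k₀ + 2 ^ a * (2 ^ b * k) ≡ k₀ [MOD 2 ^ a] := fun a b =>
      ((Nat.ModEq.refl k₀).add (Nat.modEq_zero_iff_dvd.2 (dvd_mul_right _ _))).trans
        (by rw [add_zero])
    refine Submodule.mem_iSup_of_mem ⟨_, e t s⟩
      (h k (k₀ + 2 ^ t * (2 ^ s * k)) ?_ (hk.trans ?_) hv)
    · rw [← mul_assoc, ← pow_add]
      exact (Nat.le_mul_of_pos_left k (by positivity)).trans (Nat.le_add_left _ _)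
    · rw [mul_left_comm]
      exact (e s t).symm

end Tr

open Tr

variable (O : Type) [CommRing O] [Co O]

theorem vs1 : VS1 O := by
  intro M s ϖ hM hs h2
  haveI : NeZero M := ⟨hM.pos.ne'⟩
  obtain ⟨t, rfl⟩ := Nat.exists_eq_add_of_le' hs
  have e : red M ϖ (ET O M ^ 2 ^ t) = 1 := by
    obtain ⟨c, hc⟩ := pow_cong (x := ET O M) (c := 3) ⟨15 * sT O M, by rw [ET]; ring⟩ t
    rw [eq_add_of_sub_eq hc, map_add, map_mul, red_two (by rwa [show 3 + 1 + t = t + 2 + 2 by ring]),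
      zero_mul, zero_add, map_one]
  have key : ∀ k k', k ≤ k' → k ≡ k' [MOD 2 ^ (t + 2)] →
      Fil M k ϖ ≤ Fil M k' ϖ ∧ Fil2 M k ϖ ≤ Fil2 M k' ϖ := by
    intro k k' h1 h3
    obtain ⟨c, hc⟩ := (Nat.modEq_iff_dvd' h1).1 h3
    have h4 : k' = k + 2 * (2 * (2 ^ t * c)) := by
      rw [← Nat.add_sub_cancel' h1, hc]
      ring
    have h5 : ET O M ^ (2 ^ t * c) ∈ L O M (2 * (2 * (2 ^ t * c))) := by
      rw [← mul_assoc]
      exact L_pow E_mem _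
    have h6 : ∀ w, red M ϖ (ET O M ^ (2 ^ t * c) * w) = red M ϖ w := fun w => by
      rw [map_mul, pow_mul, map_pow, e, one_pow, one_mul]
    rw [h4]
    constructor
    · rintro _ ⟨w, hw, rfl⟩
      exact ⟨_, by rw [add_comm]; exact L_mul h5 hw, h6 w⟩
    · rintro _ ⟨w, hw, rfl⟩
      exact ⟨_, L2_mul hM.pos h5 hw, h6 w⟩
  exact ⟨key, mem_inf_sup (fun k => Fil M k ϖ) _ fun k k' a b => (key k k' a b).1⟩

variable {O}

namespace Tr

variable {M : ℕ} {ϖ : O}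

theorem mem_VV (hM : Odd M) {s : ℕ} (h : ϖ ∣ 2 ^ (s + 2 + 2)) {k₀ : ℕ} {v : FT M (RR ϖ)} :
    v ∈ VV M k₀ ϖ ↔ ∃ k, k ≡ k₀ [MOD 2 ^ (s + 2)] ∧ ∃ w ∈ L O M k, red M ϖ w = v :=
  (vs1 O M (s + 2) ϖ hM (by omega) h).2 k₀ v

theorem mem_V2 (hM : Odd M) {s : ℕ} (h : ϖ ∣ 2 ^ (s + 2 + 2)) {k₀ : ℕ} {v : FT M (RR ϖ)} :
    v ∈ V2 M k₀ ϖ ↔ ∃ k, k ≡ k₀ [MOD 2 ^ (s + 2)] ∧ ∃ w ∈ L2 O M k, red M ϖ w = v :=
  mem_inf_sup (fun k => Fil2 M k ϖ) _
    (fun k k' a b => ((vs1 O M (s + 2) ϖ hM (by omega) h).1 k k' a b).2) k₀ v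

theorem dvd_succ {n : ℕ} (h : ϖ ∣ 2 ^ n) : ϖ ∣ 2 ^ (n + 1) := h.trans (pow_dvd_pow 2 n.le_succ)

theorem zA_eq [NeZero M] : V.zA O M = zA O M := dif_pos ze_memA

theorem rd_T1 : rd M ModularGroup.T = un 1 := by
  apply Units.ext
  ext i j
  rw [rd_apply, un_coe, ModularGroup.coe_T]
  fin_cases i <;> fin_cases j <;> simp

theorem TC_L [NeZero M] {k : ℕ} {w : FT M (AA O)} (h : w ∈ L O M k) : TC (V.zA O M) w := by
  obtain ⟨⟨F, h1, h2⟩, -⟩ := h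
  intro g n
  have hC : (M : ℂ) ≠ 0 := by exact_mod_cast NeZero.ne M
  have e : HS M (PowerSeries.rescale (ze M 1) ((w (un 1 * g)).map (av O))) (F g) := by
    intro τ
    have h3 := h2 (un 1 * g) (ModularGroup.T • τ)
    have h4 := congrFun (h1.eqv ModularGroup.T g) τ
    rw [rd_T1, ModularForm.SL_slash_apply, ModularGroup.denom_apply] at h4
    have h5 : qParam M ((ModularGroup.T • τ : ℍ) : ℂ) = ze M 1 * qParam M τ := by
      rw [UpperHalfPlane.modular_T_smul, qParam, qParam, ze, ← Complex.exp_add]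
      congr 1
      simp only [coe_vadd]
      push_cast
      field_simp
    rw [h5] at h3
    have h6 := H236.Ev.rescale h3
    simp only [ModularGroup.coe_T, of_apply, cons_val', cons_val_zero, cons_val_one,
      cons_val_fin_one, Int.cast_zero, zero_mul, Int.cast_one, zero_add, _root_.one_zpow,
      mul_one] at h4
    rwa [h4] at h6
  apply av_inj
  have := congrArg (PowerSeries.coeff n) (hs_unique (NeZero.pos M) e (h2 g))
  rw [PowerSeries.coeff_rescale, PowerSeries.coeff_map, PowerSeries.coeff_map] at this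
  rw [map_mul, map_pow, zA_eq, ← this]
  rfl

theorem TC_L2 [NeZero M] {k : ℕ} {w : FT M (AA O)} (h : w ∈ L2 O M k) : TC (V.zA O M) w := by
  intro g n
  have h1 := TC_L h.1 g n
  have h2 := TC_L h.2 g n
  simp only [LinearMap.add_apply, LinearMap.sub_apply, Module.End.one_apply, Pi.add_apply,
    Pi.sub_apply, map_add, map_sub] at h1 h2
  have h3 : (2 : AA O) ≠ 0 := fun e => by
    have := congrArg (av O) e
    rw [map_ofNat, map_zero] at this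
    exact two_ne_zero this
  refine mul_left_cancel₀ h3 ?_
  linear_combination h1 + h2

theorem TC_red {z : AA O} {w : FT M (AA O)} (h : TC z w) :
    TC (Ideal.Quotient.mk _ z) (red M ϖ w) := by
  intro g n
  rw [red_coeff, red_coeff, ← map_pow, ← map_mul, h]

theorem dv_mul (a : AA O) (x : RR ϖ) : cD a * dv ϖ x = dv ϖ (Ideal.Quotient.mk _ a * x) := by
  obtain ⟨y, rfl⟩ := Ideal.Quotient.mk_surjective x
  rw [← map_mul, dv_mk, dv_mk, eD_mul, map_mul, mul_div_assoc]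

theorem VV_le_V2 (hM : Odd M) (h0 : ϖ ≠ 0) (k : ℕ) :
    VV M k ϖ ≤ V2 M k ϖ ∧ VV M (k + 1) ϖ ≤ V2 M k ϖ := by
  obtain ⟨s, hs, -⟩ := exists_s h0 0
  replace hs := dvd_succ hs
  refine ⟨fun v hv => ?_, fun v hv => ?_⟩
  · obtain ⟨l, h1, w, h2, rfl⟩ := (mem_VV hM hs).1 hv
    exact (mem_V2 hM hs).2 ⟨l, h1, w, (L_le_L2 hM.pos l).1 h2, rfl⟩
  · obtain ⟨l, h1, w, h2, rfl⟩ := (mem_VV hM hs).1 hv
    cases l with
    | zero =>
      obtain ⟨d, hd⟩ := Nat.exists_eq_add_of_le' (Nat.one_le_two_pow (n := s + 2))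
      obtain ⟨y, h3, h4⟩ := ((vs1 O M (s + 2) ϖ hM (by omega) hs).1 0 (d + 1) (by omega)
        (by rw [← hd]; exact (Nat.modEq_zero_iff_dvd.2 dvd_rfl).symm)).1 ⟨w, h2, rfl⟩
      refine (mem_V2 hM hs).2 ⟨d, ?_, y, (L_le_L2 hM.pos d).2 h3, h4⟩
      refine Nat.ModEq.add_right_cancel' 1 ?_
      rw [← hd]
      exact (Nat.modEq_zero_iff_dvd.2 dvd_rfl).trans h1
    | succ l =>
      exact (mem_V2 hM hs).2 ⟨l, Nat.ModEq.add_right_cancel' 1 h1, w, (L_le_L2 hM.pos l).2 h2, rfl⟩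

theorem VV_mul (hM : Odd M) (h0 : ϖ ≠ 0) {k l : ℕ} {v w : FT M (RR ϖ)} (hv : v ∈ VV M k ϖ)
    (hw : w ∈ VV M l ϖ) : v * w ∈ VV M (k + l) ϖ := by
  obtain ⟨s, hs, -⟩ := exists_s h0 0
  replace hs := dvd_succ hs
  obtain ⟨a, h1, x, h2, rfl⟩ := (mem_VV hM hs).1 hv
  obtain ⟨b, h3, y, h4, rfl⟩ := (mem_VV hM hs).1 hw
  exact (mem_VV hM hs).2 ⟨a + b, h1.add h3, _, L_mul h2 h4, map_mul _ _ _⟩

theorem VV_rt {k : ℕ} (h : GM M) {v : FT M (RR ϖ)} (hv : v ∈ VV M k ϖ) :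
    rt O _ h v ∈ VV M k ϖ := by
  refine (Submodule.mem_iInf _).2 fun s => Submodule.mem_comap.1 ((iSup_le ?_ :
    _ ≤ Submodule.comap (rt O _ h).toLinearMap _) ((Submodule.mem_iInf _).1 hv s))
  rintro l _ ⟨w, hw, rfl⟩
  exact Submodule.mem_iSup_of_mem l ⟨_, L_rt hw h, rfl⟩

theorem V2_rt {k : ℕ} (h : GM M) {v : FT M (RR ϖ)} (hv : v ∈ V2 M k ϖ) :
    rt O _ h v ∈ V2 M k ϖ :=
  V2_map (rt O _ h).toLinearMap
    (fun s l hl w hw => ⟨l, modEq_down hl, _, L2_rt hw h, rfl⟩) hv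

end Tr

variable (O)

theorem vs2 : VS2 O := by
  intro M s ϖ hM hs h2
  obtain ⟨t, rfl⟩ := Nat.exists_eq_add_of_le' hs
  have h3 : ϖ * 2 ∣ 2 ^ (t + 2 + 2) := by
    rw [pow_succ 2 (t + 2 + 1)]
    exact mul_dvd_mul_right h2 2
  refine ⟨fun k₀ v => mem_V2 hM (dvd_succ h2), fun k₀ v => ?_⟩
  rw [mem_V2 hM (dvd_succ h2)]
  constructor
  · rintro ⟨k, hk, w, hw, rfl⟩
    refine ⟨red M _ w, rho_red _ _ _, ?_, ?_⟩
    · rw [← ep_cong hk, ← red_ep, ← map_add]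
      exact (mem_VV hM h3).2 ⟨k, hk, _, hw.1, rfl⟩
    · rw [← ep_cong hk, ← red_ep, ← map_sub]
      exact (mem_VV hM h3).2 ⟨k + 1, hk.add_right 1, _, hw.2, rfl⟩
  · rintro ⟨v', rfl, a1, a2⟩
    obtain ⟨k, hk, b1⟩ := (mem_VV hM h3).1 a1
    obtain ⟨l, hl, b2⟩ := (mem_VV hM h3).1 a2
    have e : k + 2 ^ (t + 2) * l ≡ k [MOD 2 ^ (t + 2)] :=
      ((Nat.ModEq.refl k).add (Nat.modEq_zero_iff_dvd.2 (dvd_mul_right _ _))).trans
        (by rw [add_zero])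
    have c := (vs1 O M (t + 2) _ hM hs h3).1
    obtain ⟨u, hu, e1⟩ := (c k _ (Nat.le_add_right _ _) e.symm).1 b1
    obtain ⟨x, hx, e2⟩ := (c l (k + 2 ^ (t + 2) * l + 1) (by
      have := Nat.le_mul_of_pos_left l (show 0 < 2 ^ (t + 2) by positivity)
      omega) (hl.trans ((e.trans hk).add_right 1).symm)).1 b2
    obtain ⟨y, rfl⟩ := red_surj _ v'
    rw [AlgHom.toLinearMap_apply] at e1 e2
    obtain ⟨z, hz⟩ := (red_eq_zero (ϖ := ϖ * 2) (y := u + x - 2 * y)).1 (by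
      rw [map_sub, map_add, e1, e2, two_mul y, map_add]
      ring)
    have e3 : 2 * (y + ϖ • z) = u + x := by
      rw [Algebra.smul_def, map_mul, map_ofNat] at hz
      rw [Algebra.smul_def]
      linear_combination -hz
    have e4 := congrArg (ep O _ M (k + 2 ^ (t + 2) * l)) e3
    rw [two_mul, map_add, map_add _ u, ep_L hM.pos hu, ep_L' hM.pos hx] at e4
    refine ⟨_, e.trans hk, y + ϖ • z, mem_L2'.2 ?_, ?_⟩
    · rw [← ep_eq, two_cancel (x := y + ϖ • z + _) (y := u) (by linear_combination e3 + e4),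
        two_cancel (x := y + ϖ • z - _) (y := x) (by linear_combination e3 - e4)]
      exact ⟨hu, hx⟩
    · rw [rho_red, map_add, red_eq_zero.2 ⟨z, rfl⟩, add_zero]

theorem vs3 : VS3 O := by
  intro M ϖ hM h0
  haveI : NeZero M := ⟨hM.pos.ne'⟩
  obtain ⟨s, hs, -⟩ := exists_s h0 0
  replace hs := dvd_succ hs
  have t2 : ∀ (ϖ : O), ϖ ≠ 0 → ∀ k, ∀ v ∈ V2 M k ϖ, TC (zR M ϖ) v := by
    intro ϖ h0 k v hv
    obtain ⟨s, hs, -⟩ := exists_s h0 0
    obtain ⟨l, -, w, hw, rfl⟩ := (mem_V2 hM (dvd_succ hs)).1 hv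
    exact TC_red (TC_L2 hw)
  refine ⟨fun k l v hv w hw => VV_mul hM h0 hv hw, fun k v hv w hw => V2_mul hM.pos hv hw,
    (mem_VV hM hs).2 ⟨0, Nat.ModEq.refl _, 1, L_one, map_one _⟩, fun k h v => VV_rt h,
    fun k h v => V2_rt h, fun k v hv => ?_, VV_le_V2 hM h0,
    fun k w hw => ⟨TC_L hw, ep_L hM.pos hw⟩, t2 ϖ h0, fun k v hv => ?_⟩
  · obtain ⟨l, hl, w, hw, rfl⟩ := (mem_VV hM hs).1 hv
    rw [← ep_cong hl, ← red_ep, ep_L hM.pos hw]
  · refine Submodule.iSup_induction _ (motive := fun v => TC (zD O M) v) hv ?_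
      (fun g n => by simp) fun a b ha hb g n => ?_
    · rintro n _ ⟨x, hx, rfl⟩ g m
      have h1 : (2 : O) ^ n ≠ 0 := fun e => j_ne (two_ne (O := O)) (by
        have := congrArg (Co.j : O →+* ℂ) e
        rw [map_pow, map_zero] at this
        exact (pow_eq_zero_iff (by rintro rfl; simp at this)).1 this)
      rw [ml_coeff, ml_coeff, zD, ← map_pow, dv_mul, map_pow (Ideal.Quotient.mk _),
        ← t2 _ h1 k x ((VV_le_V2 hM h1 k).1 hx) g m]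
      rfl
    · rw [Pi.add_apply, Pi.add_apply, map_add, map_add, mul_add, ha, hb]

theorem flat : FLAT O := by
  intro M k ϖ ϖ' hM h0 h0'
  have h1 : ϖ * ϖ' ≠ 0 := fun e => mul_ne_zero (j_ne h0) (j_ne h0') (by
    rw [← map_mul, e, map_zero])
  obtain ⟨s, hs, -⟩ := exists_s h1 0
  replace hs := dvd_succ hs
  have hs' := (dvd_mul_right ϖ ϖ').trans hs
  refine ⟨le_antisymm ?_ fun v hv => ?_, le_antisymm ?_ fun v hv => ?_, fun v hv e => ?_,
    fun v hv e => ?_, fun v => ?_⟩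
  · rintro _ ⟨v, hv, rfl⟩
    obtain ⟨l, hl, w, hw, rfl⟩ := (mem_VV hM hs).1 hv
    exact (mem_VV hM hs').2 ⟨l, hl, w, hw, (rho_red _ _ _).symm⟩
  · obtain ⟨l, hl, w, hw, rfl⟩ := (mem_VV hM hs').1 hv
    exact ⟨_, (mem_VV hM hs).2 ⟨l, hl, w, hw, rfl⟩, rho_red _ _ _⟩
  · rintro _ ⟨v, hv, rfl⟩
    obtain ⟨l, hl, w, hw, rfl⟩ := (mem_V2 hM hs).1 hv
    exact (mem_V2 hM hs').2 ⟨l, hl, w, hw, (rho_red _ _ _).symm⟩
  · obtain ⟨l, hl, w, hw, rfl⟩ := (mem_V2 hM hs').1 hv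
    exact ⟨_, (mem_V2 hM hs).2 ⟨l, hl, w, hw, rfl⟩, rho_red _ _ _⟩
  · obtain ⟨l, hl, w, hw, rfl⟩ := (mem_VV hM hs).1 hv
    rw [rho_red] at e
    obtain ⟨z, rfl⟩ := red_eq_zero.1 e
    exact ⟨_, (mem_VV hM hs).2 ⟨l, hl, z, L_sat' hM.pos h0 hw, rfl⟩, map_smul _ _ _⟩
  · obtain ⟨l, hl, w, hw, rfl⟩ := (mem_V2 hM hs).1 hv
    rw [rho_red] at e
    obtain ⟨z, rfl⟩ := red_eq_zero.1 e
    exact ⟨_, (mem_V2 hM hs).2 ⟨l, hl, z, L2_sat hM.pos h0 hw, rfl⟩, map_smul _ _ _⟩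
  · obtain ⟨y, rfl⟩ := red_surj _ v
    rw [rho_red, ← map_smul, red_eq_zero, red_eq_zero]
    refine exists_congr fun z => ⟨fun e => smul_cancel h0' ?_, fun e => ?_⟩
    · rw [e, smul_smul, mul_comm]
    · rw [e, smul_smul, mul_comm]

end Vale.Agent.P022D.V
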