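import Vale.Agent.P022D.V.Hk0
import Vale.Agent.P022D.V.Div
import Vale.Agent.P022D.V.TrV

/-!
# P022D, block V: change of level
-/

set_option autoImplicit false
set_option linter.all false

open UpperHalfPlane hiding I
open Matrix Filter Topology Function.Periodic
open scoped MatrixGroups Manifold ModularForm

noncomputable section

namespace Vale.Agent.P022D.V

open Vale.Agent.P022 Vale.Agent.P022.H218.L3 Vale.Agent.P027M.M Vale.Agent.P022D.V.Tr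
  Vale.Agent.P022D.V.Hk

namespace Ds

variable {O : Type} [CommRing O] [Co O] {M M₀ : ℕ}

theorem cast_eq_iff [NeZero M] (h : M₀ ∣ M) (x y : ZMod M) :
    ZMod.castHom h (ZMod M₀) x = ZMod.castHom h (ZMod M₀) y ↔ ∃ t, x = y + (M₀ : ZMod M) * t := by
  constructor
  · intro e
    rw [← sub_eq_zero, ← map_sub, ← ZMod.natCast_zmod_val (x - y), map_natCast,
      ZMod.natCast_eq_zero_iff] at e
    obtain ⟨t, ht⟩ := e
    refine ⟨t, ?_⟩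
    rw [← Nat.cast_mul, ← ht, ZMod.natCast_zmod_val, add_sub_cancel]
  · rintro ⟨t, rfl⟩
    rw [map_add, map_mul, map_natCast, ZMod.natCast_self, zero_mul, add_zero]

theorem pr_apply (h : M₀ ∣ M) (g : GM M) (i j : Fin 2) :
    (pr h g : Matrix (Fin 2) (Fin 2) (ZMod M₀)) i j =
      ZMod.castHom h (ZMod M₀) ((g : Matrix (Fin 2) (Fin 2) (ZMod M)) i j) := rfl

theorem pr_rd (h : M₀ ∣ M) (γ : SL(2, ℤ)) : pr h (rd M γ) = rd M₀ γ := by
  apply Units.ext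
  ext i j
  rw [pr_apply, rd_apply, rd_apply, map_intCast]

theorem pr_dg (h : M₀ ∣ M) (a d : (ZMod M)ˣ) :
    pr h (dg a d) = dg (ZMod.unitsMap h a) (ZMod.unitsMap h d) := by
  apply Units.ext
  ext i j
  rw [pr_apply, dg_coe, dg_coe]
  fin_cases i <;> fin_cases j <;> simp [ZMod.unitsMap_val]

theorem pr_un (h : M₀ ∣ M) (x : ZMod M) : pr h (un x) = un (ZMod.castHom h (ZMod M₀) x) := by
  apply Units.ext
  ext i j
  rw [pr_apply, un_coe, un_coe]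
  fin_cases i <;> fin_cases j <;> simp [-ZMod.castHom_apply]

theorem pr_ng (h : M₀ ∣ M) : pr h (dg (-1) (-1)) = dg (-1) (-1) := by
  have e : ZMod.unitsMap h (-1) = -1 := Units.ext (by
    change ZMod.castHom h (ZMod M₀) (-1) = -1
    rw [map_neg, map_one])
  rw [pr_dg, e]

theorem mem_Kq [NeZero M] (h : M₀ ∣ M) {g : GM M} : g ∈ Kq M M₀ ↔ pr h g = 1 := by
  rw [Units.ext_iff, ← Matrix.ext_iff]
  refine forall_congr' fun i => forall_congr' fun j => ?_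
  rw [← cast_eq_iff h, pr_apply, Units.val_one, Matrix.one_apply, Matrix.one_apply]
  split_ifs <;> simp only [map_one, map_zero]

theorem kq_eq [NeZero M] (h : M₀ ∣ M) : Kq M M₀ = ((pr h).ker : Set (GM M)) :=
  Set.ext fun _ => mem_Kq h

theorem pr_surj [NeZero M] (h : M₀ ∣ M) : Function.Surjective (pr h) := by
  intro g
  have : NeZero M₀ := ⟨ne_zero_of_dvd_ne_zero (NeZero.ne M) h⟩
  obtain ⟨γ, e⟩ := exists_rd g
  obtain ⟨d, hd⟩ := ZMod.unitsMap_surjective h (GeneralLinearGroup.det g)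
  exact ⟨rd M γ * dg 1 d, by rw [map_mul, pr_rd, pr_dg, map_one, hd, ← e]⟩

section formal

variable {S R : Type} [CommRing S] [CommRing R] [Algebra S R]

theorem ifl_apply (h : M₀ ∣ M) (w : FT M₀ R) (g : GM M) :
    ifl S R h w g = Vo (M / M₀) (w (pr h g)) := rfl

theorem Uo_Vo {r : ℕ} (hr : r ≠ 0) (s : PowerSeries R) : Uo r (Vo r s) = s := by
  ext n
  simp [Uo, Vo, Nat.mul_div_cancel_left _ (Nat.pos_of_ne_zero hr)]

theorem Vo_Uo {r : ℕ} {s : PowerSeries R} (h : ∀ n, ¬ r ∣ n → s.coeff n = 0) :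
    Vo r (Uo r s) = s := by
  ext n
  rw [Vo, Uo, PowerSeries.coeff_mk]
  split_ifs with hn
  · rw [PowerSeries.coeff_mk, Nat.mul_div_cancel' hn]
  · exact (h n hn).symm

theorem div_ne [NeZero M] (h : M₀ ∣ M) : M / M₀ ≠ 0 := fun e => NeZero.ne M (by
  rw [← Nat.mul_div_cancel' h, e, mul_zero])

theorem ifl_inj [NeZero M] (h : M₀ ∣ M) : Function.Injective (ifl S R h) := by
  intro w w' e
  funext g
  obtain ⟨g, rfl⟩ := pr_surj h g
  rw [← Uo_Vo (div_ne h) (w _), ← Uo_Vo (div_ne h) (w' _), ← ifl_apply (S := S), e, ifl_apply]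

theorem ifl_rt (h : M₀ ∣ M) (k : GM M) (w : FT M₀ R) :
    rt S R k (ifl S R h w) = ifl S R h (rt S R (pr h k) w) := by
  funext g
  rw [rt_apply, ifl_apply, ifl_apply, rt_apply, map_mul]

theorem ifl_ep (h : M₀ ∣ M) (k : ℕ) (w : FT M₀ R) :
    ep S R M k (ifl S R h w) = ifl S R h (ep S R M₀ k w) := by
  rw [ep, ep, LinearMap.smul_apply, LinearMap.smul_apply, map_zsmul, AlgHom.toLinearMap_apply,
    AlgHom.toLinearMap_apply, ifl_rt, pr_ng]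

theorem ifl_Iv [NeZero M] (h : M₀ ∣ M) (w : FT M₀ R) : ifl S R h w ∈ Iv S R (Kq M M₀) :=
  fun k hk => by rw [ifl_rt, (mem_Kq h).1 hk, map_one, one_smul]; rfl

theorem fib [NeZero M] (h : M₀ ∣ M) {w : FT M R} (hw : w ∈ Iv S R (Kq M M₀)) {g g' : GM M}
    (e : pr h g = pr h g') : w g = w g' := by
  have := congrFun (hw (g⁻¹ * g') ((mem_Kq h).2 (by rw [map_mul, map_inv, e, inv_mul_cancel]))) g
  rw [rt_apply, mul_inv_cancel_left, one_smul] at this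
  exact this.symm

/-- the descent of an invariant tuple -/
def dsc [NeZero M] (h : M₀ ∣ M) (w : FT M R) : FT M₀ R :=
  fun g => Uo (M / M₀) (w (Function.surjInv (pr_surj h) g))

theorem ifl_dsc [NeZero M] (h : M₀ ∣ M) {w : FT M R} (hw : w ∈ Iv S R (Kq M M₀))
    (hg : ∀ g n, ¬ M / M₀ ∣ n → (w g).coeff n = 0) : ifl S R h (dsc h w) = w := by
  funext g
  rw [ifl_apply, dsc, Vo_Uo (hg _)]
  exact fib h hw (Function.surjInv_eq _ _)

theorem ifl_Od [NeZero M] (h : M₀ ∣ M) (hM : Odd M) (w : FT M₀ R) :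
    ifl S R h w ∈ Od S M R ↔ w ∈ Od S M₀ R := by
  have ho : Odd (M / M₀) := Odd.of_dvd_nat hM (Nat.div_dvd_of_dvd h)
  constructor
  · intro e g n hn
    obtain ⟨g, rfl⟩ := pr_surj h g
    have := e g (M / M₀ * n) (hn.mul_left _)
    rwa [ifl_apply, Vo, PowerSeries.coeff_mk, if_pos (dvd_mul_right _ _),
      Nat.mul_div_cancel_left _ ho.pos] at this
  · intro e g n hn
    rw [ifl_apply, Vo, PowerSeries.coeff_mk]
    split_ifs with hd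
    · refine e _ _ ?_
      rw [← Nat.mul_div_cancel' hd] at hn
      exact (Nat.even_mul.1 hn).resolve_left (Nat.not_even_iff_odd.2 ho)
    · rfl

theorem map_inf_Od [NeZero M] (h : M₀ ∣ M) (hM : Odd M) {A : Submodule S (FT M₀ R)}
    {B C : Submodule S (FT M R)} (e : A.map (ifl S R h) = B ⊓ C) :
    (A ⊓ Od S M₀ R).map (ifl S R h) = B ⊓ Od S M R ⊓ C := by
  rw [inf_right_comm, ← e]
  ext v
  constructor
  · rintro ⟨w, ⟨h1, h2⟩, rfl⟩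
    exact ⟨⟨w, h1, rfl⟩, (ifl_Od h hM w).2 h2⟩
  · rintro ⟨⟨w, h1, rfl⟩, h2⟩
    exact ⟨w, ⟨h1, (ifl_Od h hM w).1 h2⟩, rfl⟩

theorem ifl_ml {R' : Type} [CommRing R'] [Algebra S R'] (h : M₀ ∣ M) (φ : R →ₗ[S] R')
    (w : FT M₀ R) : ml S M φ (ifl S R h w) = ifl S R' h (ml S M₀ φ w) := by
  ext g n
  rw [ml_coeff, ifl_apply, ifl_apply, Vo, Vo, PowerSeries.coeff_mk, PowerSeries.coeff_mk]
  split_ifs
  · rw [ml_coeff]
  · exact map_zero _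

end formal

theorem ifl_red (h : M₀ ∣ M) (ϖ : O) (w : FT M₀ (AA O)) :
    red M ϖ (ifl O _ h w) = ifl O _ h (red M₀ ϖ w) := by
  funext g
  exact map_Vo (Ideal.Quotient.mk _) (M / M₀) (w (pr h g))

theorem ze_down [NeZero M] (h : M₀ ∣ M) : ze M 1 ^ (M / M₀) = ze M₀ 1 := by
  have := ze_pow (div_ne h) (Nat.pos_of_dvd_of_pos h (NeZero.pos M))
  rwa [Nat.mul_div_cancel' h] at this

theorem q_down [NeZero M] (h : M₀ ∣ M) (τ : ℂ) : qParam M τ ^ (M / M₀) = qParam M₀ τ := by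
  have := q_pow (div_ne h) (Nat.pos_of_dvd_of_pos h (NeZero.pos M)) τ
  rwa [Nat.mul_div_cancel' h] at this

theorem gal_down [NeZero M] (h : M₀ ∣ M) {σ : ℂ ≃+* ℂ} {a : (ZMod M)ˣ}
    (ha : σ (ze M 1) = ze M 1 ^ (a : ZMod M).val) :
    σ (ze M₀ 1) = ze M₀ 1 ^ ((ZMod.unitsMap h a : (ZMod M₀)ˣ) : ZMod M₀).val := by
  have h0 := Nat.pos_of_dvd_of_pos h (NeZero.pos M)
  rw [ZMod.unitsMap_val, ← ZMod.natCast_val, ZMod.val_natCast,
    ← pow_eq_pow_mod _ (ze_prim h0).pow_eq_one, ← ze_down h, map_pow, ha, ← pow_mul, ← pow_mul,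
    mul_comm]

theorem L_ifl [NeZero M] (h : M₀ ∣ M) {k : ℕ} {w : FT M₀ (AA O)} (hw : w ∈ L O M₀ k) :
    ifl O _ h w ∈ L O M k := by
  obtain ⟨⟨F, h1, h2⟩, h3⟩ := hw
  refine ⟨⟨fun g => F (pr h g), ⟨fun g => h1.bdd _, fun γ g => ?_⟩, fun g τ => ?_⟩,
    gal_iff.2 fun σ hσ a ha g => ?_⟩
  · rw [map_mul, pr_rd, h1.eqv]
  · rw [ifl_apply, map_Vo]
    refine hs_sup (div_ne h) ?_
    rw [q_down h]
    exact h2 _ τ
  · rw [ifl_apply, ifl_apply, map_Vo, map_Vo, map_mul, pr_dg, map_one,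
      gal_iff.1 h3 σ hσ _ (gal_down h ha)]

theorem L_gap [NeZero M] (h : M₀ ∣ M) {k : ℕ} {w : FT M (AA O)} (hw : w ∈ L O M k)
    (hi : w ∈ Iv O _ (Kq M M₀)) (g : GM M) (n : ℕ) (hn : ¬ M / M₀ ∣ n) : (w g).coeff n = 0 := by
  refine gap (NeZero.pos M) hw (x := M₀) (fib h hi ?_) fun e => hn ?_
  · rw [map_mul, pr_un, map_natCast, ZMod.natCast_self, un_zero, one_mul]
  · exact Nat.dvd_of_mul_dvd_mul_left (Nat.pos_of_dvd_of_pos h (NeZero.pos M)) (by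
      rwa [Nat.mul_div_cancel' h])

theorem L_dsc [NeZero M] (h : M₀ ∣ M) {k : ℕ} {w : FT M (AA O)} (hw : w ∈ L O M k)
    (hi : w ∈ Iv O _ (Kq M M₀)) : dsc h w ∈ L O M₀ k := by
  have hg := L_gap h hw hi
  have h0 := Nat.pos_of_dvd_of_pos h (NeZero.pos M)
  have : NeZero M₀ := ⟨h0.ne'⟩
  obtain ⟨⟨F, h1, h2⟩, h3⟩ := hw
  refine ⟨⟨fun g => F (Function.surjInv (pr_surj h) g), ⟨fun g => h1.bdd _, fun γ g => ?_⟩,
    fun g τ => ?_⟩, fun σ hσ a ha g n => ?_⟩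
  · have e : w (Function.surjInv (pr_surj h) (rd M₀ γ * g)) =
        w (rd M γ * Function.surjInv (pr_surj h) g) := fib h hi (by
      rw [map_mul, pr_rd, Function.surjInv_eq (pr_surj h), Function.surjInv_eq (pr_surj h)])
    have e2 := h2 (Function.surjInv (pr_surj h) (rd M₀ γ * g))
    rw [e] at e2
    rw [hs_fun e2 (h2 _), h1.eqv]
  · have := hs_sub (div_ne h) (h2 (Function.surjInv (pr_surj h) g) τ) fun n hn => by
      rw [PowerSeries.coeff_map, hg _ n hn, map_zero]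
    rw [q_down h] at this
    exact this.congr_fun fun n => by simp [dsc, Uo]
  · obtain ⟨b, hb⟩ := exists_exp (M := M) σ
    have e : ZMod.unitsMap h b = a := Units.ext (ZMod.val_injective _
      ((ze_prim h0).pow_inj (ZMod.val_lt _) (ZMod.val_lt _) ((gal_down h hb).symm.trans ha)))
    have e2 : w (Function.surjInv (pr_surj h) (dg 1 a * g)) =
        w (dg 1 b * Function.surjInv (pr_surj h) g) := fib h hi (by
      rw [map_mul, pr_dg, map_one, e, Function.surjInv_eq (pr_surj h),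
        Function.surjInv_eq (pr_surj h)])
    rw [dsc, dsc, e2, Uo, Uo, PowerSeries.coeff_mk, PowerSeries.coeff_mk, h3 σ hσ b hb]

theorem L_ex [NeZero M] (h : M₀ ∣ M) {k : ℕ} {w : FT M (AA O)} (hw : w ∈ L O M k)
    (hi : w ∈ Iv O _ (Kq M M₀)) : ∃ w₀ ∈ L O M₀ k, ifl O _ h w₀ = w :=
  ⟨_, L_dsc h hw hi, ifl_dsc h hi (L_gap h hw hi)⟩

theorem L2_ifl [NeZero M] (h : M₀ ∣ M) {k : ℕ} {w : FT M₀ (AA O)} (hw : w ∈ L2 O M₀ k) :
    ifl O _ h w ∈ L2 O M k := by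
  have a := L_ifl h hw.1
  have b := L_ifl h hw.2
  rw [LinearMap.add_apply, map_add, ← ifl_ep] at a
  rw [LinearMap.sub_apply, map_sub, ← ifl_ep] at b
  exact ⟨a, b⟩

theorem L2_ex [NeZero M] (h : M₀ ∣ M) {k : ℕ} {w : FT M (AA O)} (hw : w ∈ L2 O M k)
    (hi : w ∈ Iv O _ (Kq M M₀)) : ∃ w₀ ∈ L2 O M₀ k, ifl O _ h w₀ = w := by
  have he : ep O _ M k w ∈ Iv O _ (Kq M M₀) := by
    rw [ep, LinearMap.smul_apply]
    refine zsmul_mem (fun x hx => ?_) _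
    rw [AlgHom.toLinearMap_apply, ← AlgHom.mul_apply, ← map_mul, ← dg_center, map_mul,
      AlgHom.mul_apply, hi x hx, map_smul]
  have m1 : w + ep O _ M k w ∈ L O M k := hw.1
  have m2 : w - ep O _ M k w ∈ L O M (k + 1) := hw.2
  obtain ⟨a, ha, ea⟩ := L_ex h m1 (add_mem hi he)
  obtain ⟨b, hb, eb⟩ := L_ex h m2 (sub_mem hi he)
  have e : ifl O _ h (dsc h w) = w := ifl_dsc h hi fun g n hn => by
    have h1 := L_gap h m1 (add_mem hi he) g n hn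
    have h2 := L_gap h m2 (sub_mem hi he) g n hn
    change PowerSeries.coeff n (w g + ep O _ M k w g) = 0 at h1
    change PowerSeries.coeff n (w g - ep O _ M k w g) = 0 at h2
    rw [map_add] at h1
    rw [map_sub] at h2
    have h3 : (2 : AA O) ≠ 0 := fun e => by
      have := congrArg (av O) e
      rw [map_ofNat, map_zero] at this
      exact two_ne_zero this
    exact (mul_eq_zero.1 (by linear_combination h1 + h2)).resolve_left h3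
  refine ⟨dsc h w, ⟨?_, ?_⟩, e⟩
  · have : dsc h w + ep O _ M₀ k (dsc h w) = a := ifl_inj (S := O) h (by
      rw [map_add, ← ifl_ep, e]; exact ea.symm)
    rw [← this] at ha
    exact ha
  · have : dsc h w - ep O _ M₀ k (dsc h w) = b := ifl_inj (S := O) h (by
      rw [map_sub, ← ifl_ep, e]; exact eb.symm)
    rw [← this] at hb
    exact hb

theorem ng_not [NeZero M] (h : M₀ ∣ M) (h3 : 3 ≤ M₀) : dg (-1) (-1) ∉ (pr h).ker := by
  intro e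
  rw [MonoidHom.mem_ker, pr_ng] at e
  have h1 := congrArg (fun g : GM M₀ => (g : Matrix (Fin 2) (Fin 2) (ZMod M₀)) 0 0) e
  simp only [dg_coe, Units.val_one, Matrix.one_apply_eq, of_apply, cons_val', cons_val_zero,
    Units.val_neg] at h1
  have h2 : ((2 : ℕ) : ZMod M₀) = 0 := by push_cast; linear_combination -h1
  have := Nat.le_of_dvd two_pos ((ZMod.natCast_eq_zero_iff _ _).1 h2)
  omega

/-- passage to the reductions -/
theorem up [NeZero M] (h : M₀ ∣ M) (ϖ : O) (k : ℕ) (A : ℕ → Submodule O (FT M₀ (AA O)))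
    (B : ℕ → Submodule O (FT M (AA O))) (h1 : ∀ j, ∀ w ∈ A j, ifl O _ h w ∈ B j)
    (h2 : ∀ v ∈ (⨅ s, ⨆ j : {j : ℕ // j ≡ k [MOD 2 ^ s]}, (B j.1).map (red M ϖ).toLinearMap) ⊓
      Iv O _ (Kq M M₀), ∀ s, ∃ j, j ≡ k [MOD 2 ^ s] ∧ ∃ w ∈ A j, red M ϖ (ifl O _ h w) = v) :
    (⨅ s, ⨆ j : {j : ℕ // j ≡ k [MOD 2 ^ s]}, (A j.1).map (red M₀ ϖ).toLinearMap).map (ifl O _ h) =
      (⨅ s, ⨆ j : {j : ℕ // j ≡ k [MOD 2 ^ s]}, (B j.1).map (red M ϖ).toLinearMap) ⊓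
        Iv O _ (Kq M M₀) := by
  refine le_antisymm (le_inf (le_iInf fun s => (Submodule.map_mono (iInf_le _ s)).trans ?_) ?_) ?_
  · rw [Submodule.map_iSup]
    refine iSup_mono fun j => ?_
    rintro _ ⟨_, ⟨w, hw, rfl⟩, rfl⟩
    exact ⟨_, h1 _ w hw, ifl_red h ϖ w⟩
  · rintro _ ⟨w, -, rfl⟩
    exact ifl_Iv h w
  · intro v hv
    obtain ⟨-, -, w, -, e⟩ := h2 v hv 0
    refine ⟨red M₀ ϖ w, (Submodule.mem_iInf _).2 fun s => ?_, by rw [← ifl_red, e]⟩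
    obtain ⟨j, hj, w', hw', e'⟩ := h2 v hv s
    refine Submodule.mem_iSup_of_mem ⟨j, hj⟩ ⟨w', hw', ifl_inj (S := O) h ?_⟩
    rw [AlgHom.toLinearMap_apply, ← ifl_red, ← ifl_red, e, e']

theorem VD_tor {k : ℕ} {v : FT M (RD O)} (hv : v ∈ VD O M k) : ∃ n : ℕ, (2 : O) ^ n • v = 0 := by
  refine Submodule.iSup_induction _ (motive := fun v => ∃ n : ℕ, (2 : O) ^ n • v = 0) hv ?_
    ⟨0, smul_zero _⟩ ?_
  · rintro n _ ⟨x, -, rfl⟩
    exact ⟨n, by rw [← map_smul, Dv.smul_self, map_zero]⟩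
  · rintro x y ⟨m, hm⟩ ⟨n, hn⟩
    refine ⟨m + n, ?_⟩
    rw [smul_add, pow_add, mul_smul, mul_smul, hn, smul_zero, add_zero, smul_comm, hm, smul_zero]

/-- passage to the divisible modules -/
theorem upD [NeZero M] (h : M₀ ∣ M) {A : Submodule O (FT M₀ (RD O))} {B : Submodule O (FT M (RD O))}
    {A' : ∀ ϖ : O, Submodule O (FT M₀ (RR ϖ))} {B' : ∀ ϖ : O, Submodule O (FT M (RR ϖ))}
    (tA : ∀ v ∈ A, ∃ n : ℕ, (2 : O) ^ n • v = 0) (tB : ∀ v ∈ B, ∃ n : ℕ, (2 : O) ^ n • v = 0)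
    (hA : ∀ ϖ : O, ϖ ≠ 0 → ∀ v, (v ∈ A ∧ ϖ • v = 0) ↔ v ∈ (A' ϖ).map (ml O M₀ (dv ϖ)))
    (hB : ∀ ϖ : O, ϖ ≠ 0 → ∀ v, (v ∈ B ∧ ϖ • v = 0) ↔ v ∈ (B' ϖ).map (ml O M (dv ϖ)))
    (e : ∀ ϖ : O, ϖ ≠ 0 → (A' ϖ).map (ifl O _ h) = B' ϖ ⊓ Iv O _ (Kq M M₀)) :
    A.map (ifl O _ h) = B ⊓ Iv O _ (Kq M M₀) := by
  ext v
  constructor
  · rintro ⟨w, hw, rfl⟩
    obtain ⟨n, hn⟩ := tA w hw
    obtain ⟨x, hx, rfl⟩ := (hA _ (Dv.two_pow_ne n) w).1 ⟨hw, hn⟩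
    have h1 : ifl O _ h x ∈ B' _ ⊓ Iv O _ (Kq M M₀) := e _ (Dv.two_pow_ne n) ▸ ⟨x, hx, rfl⟩
    exact ⟨((hB _ (Dv.two_pow_ne n) _).2 ⟨_, h1.1, ifl_ml h _ x⟩).1, ifl_Iv h _⟩
  · rintro ⟨h1, h2⟩
    obtain ⟨n, hn⟩ := tB v h1
    obtain ⟨x, hx, rfl⟩ := (hB _ (Dv.two_pow_ne n) v).1 ⟨h1, hn⟩
    have h3 : x ∈ (A' _).map (ifl O _ h) := by
      rw [e _ (Dv.two_pow_ne n)]
      refine ⟨hx, fun g hg => Dv.ml_inj (Dv.dv_inj (Dv.two_pow_ne n)) ?_⟩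
      rw [map_smul, ← h2 g hg]
      rfl
    obtain ⟨y, hy, rfl⟩ := h3
    exact ⟨_, ((hA _ (Dv.two_pow_ne n) _).2 ⟨y, hy, rfl⟩).1, (ifl_ml h _ y).symm⟩

end Ds

open Ds

variable (O : Type) [CommRing O] [Co O]

/-- **change of level, lattices** -/
theorem desc : DESC O := by
  intro M₀ M k h hM
  have : NeZero M := ⟨hM.pos.ne'⟩
  refine ⟨le_antisymm ?_ fun w hw => L_ex h hw.1 hw.2, kq_eq h, pr_surj h⟩
  rintro _ ⟨w, hw, rfl⟩
  exact ⟨L_ifl h hw, ifl_Iv h w⟩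

/-- **change of level, reductions** -/
theorem descv (hL : LIFT O) (hD : DIV O) : DESCV O := by
  intro M₀ M h hM h3
  have : NeZero M := ⟨hM.pos.ne'⟩
  have hM3 : 3 ≤ M := h3.trans (Nat.le_of_dvd hM.pos h)
  have hM0 : Odd M₀ := Odd.of_dvd_nat hM h
  have a1 : ∀ (k : ℕ) (ϖ : O), ϖ ≠ 0 →
      (VV M₀ k ϖ).map (ifl O _ h) = VV M k ϖ ⊓ Iv O _ (Kq M M₀) := fun k ϖ h0 =>
    up h ϖ k (L O M₀) (L O M) (fun _ _ => L_ifl h) fun v hv s => by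
      rw [kq_eq h] at hv
      obtain ⟨j, hj, -, w, hw, e⟩ := (hL M k s ϖ hM hM3 h0 (pr h).ker (fun _ => 1) rfl
        fun _ _ _ _ => (mul_one _).symm).2 (fun e => absurd e (ng_not h h3)) v hv
      obtain ⟨w₀, h1, rfl⟩ := L_ex h hw.1 (by rw [kq_eq h]; exact hw.2)
      exact ⟨j, hj, w₀, h1, e⟩
  have a2 : ∀ (k : ℕ) (ϖ : O), ϖ ≠ 0 →
      (V2 M₀ k ϖ).map (ifl O _ h) = V2 M k ϖ ⊓ Iv O _ (Kq M M₀) := fun k ϖ h0 =>
    up h ϖ k (L2 O M₀) (L2 O M) (fun _ _ => L2_ifl h) fun v hv s => by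
      rw [kq_eq h] at hv
      obtain ⟨j, hj, -, w, hw, e⟩ := (hL M k s ϖ hM hM3 h0 (pr h).ker (fun _ => 1) rfl
        fun _ _ _ _ => (mul_one _).symm).1 v hv
      obtain ⟨w₀, h1, rfl⟩ := L2_ex h hw.1 (by rw [kq_eq h]; exact hw.2)
      exact ⟨j, hj, w₀, h1, e⟩
  refine ⟨fun k ϖ h0 => ⟨a1 k ϖ h0, a2 k ϖ h0, map_inf_Od h hM (a2 _ ϖ h0),
    map_inf_Od h hM (a1 _ ϖ h0)⟩, fun k => ⟨?_, ?_⟩⟩
  · exact upD h (fun v hv => VD_tor hv.1) (fun v hv => VD_tor hv.1)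
      (fun ϖ h0 => ((hD M₀ hM0 h3).2.1 k ϖ h0).2) (fun ϖ h0 => ((hD M hM hM3).2.1 k ϖ h0).2)
      fun ϖ h0 => map_inf_Od h hM (a1 _ ϖ h0)
  · exact upD h (fun v hv => ((hD M₀ hM0 h3).2.2.2.1 k v hv).1)
      (fun v hv => ((hD M hM hM3).2.2.2.1 k v hv).1)
      (fun ϖ h0 => ((hD M₀ hM0 h3).2.2.1 k ϖ h0).2) (fun ϖ h0 => ((hD M hM hM3).2.2.1 k ϖ h0).2)
      fun ϖ h0 => map_inf_Od h hM (a2 _ ϖ h0)

end Vale.Agent.P022D.V
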