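import Vale.Agent.P022D.V.All0
import Vale.Agent.P022D.V.Desc

/-!
# P022D, block V: closed statements, second part
-/

set_option linter.all false

namespace Vale.Agent.P022D.V.All

variable (O : Type) [CommRing O] [Co O]

theorem descv : DESCV O := V.descv O (lift O) (div O)

theorem ih : IH O := V.ih O (ih0 O) wf1 grp (desc O) (root O)

theorem gen : GEN O :=
  V.gen O (root O) (unr O) (vs3 O) (irr O) (descv O) (wv O) (ih O) grp tn wf1 wf2

end Vale.Agent.P022D.V.All
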