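import Vale.Agent.P022D.V.Spec2

/-!
# P022D, block V: formal commutation rules
-/

set_option linter.all false

open Matrix
open scoped MatrixGroups

noncomputable section

namespace Vale.Agent.P022D.V

variable {M : ℕ} {S : Type} [CommRing S] {R R' : Type} [CommRing R] [Algebra S R]
  [CommRing R'] [Algebra S R']

/-! ### series -/

theorem Uo_coeff (p : ℕ) (s : PowerSeries R) (n : ℕ) : (Uo p s).coeff n = s.coeff (p * n) :=
  PowerSeries.coeff_mk _ _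

theorem Vo_coeff (p : ℕ) (s : PowerSeries R) (n : ℕ) :
    (Vo p s).coeff n = if p ∣ n then s.coeff (n / p) else 0 := PowerSeries.coeff_mk _ _

theorem Uo_Uo (p p' : ℕ) (s : PowerSeries R) : Uo p (Uo p' s) = Uo (p * p') s := by
  ext n
  simp only [Uo_coeff]
  congr 2
  ring

theorem Vo_Vo (p p' : ℕ) (s : PowerSeries R) : Vo p (Vo p' s) = Vo (p * p') s := by
  ext n
  simp only [Vo_coeff]
  by_cases h : p ∣ n
  · rw [if_pos h, Nat.div_div_eq_div_mul]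
    simp only [Nat.dvd_div_iff_mul_dvd h]
  · rw [if_neg h, if_neg fun h' => h ((dvd_mul_right p p').trans h')]

theorem Uo_Vo {p : ℕ} (hp : 0 < p) (s : PowerSeries R) : Uo p (Vo p s) = s := by
  ext n
  rw [Uo_coeff, Vo_coeff, if_pos (dvd_mul_right p n), Nat.mul_div_cancel_left n hp]

theorem Uo_Vo_comm {p p' : ℕ} (h : Nat.Coprime p p') (s : PowerSeries R) :
    Uo p (Vo p' s) = Vo p' (Uo p s) := by
  ext n
  simp only [Uo_coeff, Vo_coeff, h.symm.dvd_mul_left]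
  split_ifs with h1
  · rw [Nat.mul_div_assoc p h1]
  · rfl

theorem Vo_inj {p : ℕ} (hp : 0 < p) : Function.Injective (Vo p : PowerSeries R → PowerSeries R) :=
  Function.LeftInverse.injective (Uo_Vo hp)

theorem Uo_one (s : PowerSeries R) : Uo 1 s = s := by
  ext n
  rw [Uo_coeff, one_mul]

theorem Vo_one (s : PowerSeries R) : Vo 1 s = s := by
  ext n
  rw [Vo_coeff, if_pos (one_dvd n), Nat.div_one]

/-! ### values -/

theorem Uf_apply (p : ℕ) (u : (ZMod M)ˣ) (w : FT M R) (g : GM M) :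
    Uf S R p u w g = Uo p (w (dg 1 u * g)) := rfl

theorem Vf_apply (p : ℕ) (u : (ZMod M)ˣ) (w : FT M R) (g : GM M) :
    Vf S R p u w g = Vo p (w (dg u 1 * g)) := rfl

theorem Tf_apply (i p : ℕ) (u : (ZMod M)ˣ) (w : FT M R) :
    Tf S R i p u w = Uf S R p u w + (p ^ i : ℕ) • Vf S R p u w := rfl

theorem Sf_apply (i p : ℕ) (u : (ZMod M)ˣ) (w : FT M R) :
    Sf S R i p u w = (p ^ i : ℕ) • rt S R (dg u u) w := rfl

theorem ep_apply (k : ℕ) (w : FT M R) :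
    ep S R M k w = ((-1 : ℤ) ^ k) • rt S R (dg (-1 : (ZMod M)ˣ) (-1)) w := rfl

theorem pw_apply (i p : ℕ) (w : FT M R) :
    pw S R M i p w = w + ((p - 1) / 2 : ℕ) • (w - ep S R M (i + 1) w) := rfl

theorem T2_apply (i p : ℕ) (u : (ZMod M)ˣ) (w : FT M R) :
    T2 S R i p u w = Uf S R p u w + (p ^ i : ℕ) • Vf S R p u (pw S R M i p w) := rfl

theorem S2_apply (i p : ℕ) (u : (ZMod M)ˣ) (w : FT M R) :
    S2 S R i p u w = Sf S R i p u (pw S R M i p w) := rfl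

theorem dep_coeff (w : FT M R) (g : GM M) (n : ℕ) :
    (dep S R M w g).coeff n = if Even n then 0 else (w g).coeff n :=
  PowerSeries.coeff_mk n fun n => if Even n then 0 else (w g).coeff n

theorem ifl_apply {M₀ : ℕ} (h : M₀ ∣ M) (w : FT M₀ R) (g : GM M) :
    ifl S R h w g = Vo (M / M₀) (w (pr h g)) := rfl

theorem Ts_apply (M₀ q : ℕ) (s : GM M) (w : FT M R) : Ts S R M₀ q s w =
    ∑ x ∈ Finset.range q, rt S R (un ((M₀ : ZMod M) * (x : ZMod M)) * s) w :=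
  LinearMap.sum_apply _ _ _

theorem Nu_apply (M₀ q : ℕ) (w : FT M R) : Nu S R M M₀ q w =
    ∑ x ∈ Finset.range q, rt S R (un ((M₀ : ZMod M) * (x : ZMod M))) w :=
  LinearMap.sum_apply _ _ _

open Classical in
theorem Wa_apply (M₀ q : ℕ) (w : FT M R) (g : GM M) : Wa S R M M₀ q w g =
    if (M₀ : ZMod M) * (g : Matrix (Fin 2) (Fin 2) (ZMod M)) 1 0 = 0 then
      Vo q (w (wA M M₀ q g)) else 0 := rfl

open Classical in
theorem Wb_apply (M₀ q : ℕ) (z : R) (w : FT M R) (g : GM M) : Wb S R M M₀ q z w g =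
    if (M₀ : ZMod M) * (g : Matrix (Fin 2) (Fin 2) (ZMod M)) 1 0 = 0 then 0 else
      PowerSeries.mk fun n => z ^ ((wB M M₀ q g).1 * n) * (w (wB M M₀ q g).2).coeff (q * n) := rfl

theorem W1_apply (M₀ q : ℕ) (z : R) (k : ℕ) (w : FT M R) :
    W1 S R M M₀ q z k w = (q ^ k : ℕ) • Wa S R M M₀ q w + Wb S R M M₀ q z w := rfl

theorem W2_apply (M₀ q : ℕ) (z : R) (i : ℕ) (w : FT M R) : W2 S R M M₀ q z i w =
    (q ^ (i + 1) : ℕ) • Wa S R M M₀ q (pw S R M i q w) + Wb S R M M₀ q z w := rfl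

theorem mem_Od {w : FT M R} : w ∈ Od S M R ↔ ∀ g n, Even n → (w g).coeff n = 0 := Iff.rfl

theorem mem_Eg {H : Set (GM M)} {χ : GM M → S} {w : FT M R} :
    w ∈ Eg S R H χ ↔ ∀ h ∈ H, rt S R h w = χ h • w := Iff.rfl

theorem mem_Iv {H : Set (GM M)} {w : FT M R} : w ∈ Iv S R H ↔ ∀ h ∈ H, rt S R h w = w := by
  simp only [Iv, mem_Eg, one_smul]

theorem mem_Wh {z : S} {w : FT M R} :
    w ∈ Wh S R M z ↔ ∀ x : ℕ, z ^ x • rt S R (un (x : ZMod M)) w = w := Iff.rfl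

/-! ### right translations -/

theorem rt_rt (h h' : GM M) (w : FT M R) : rt S R h (rt S R h' w) = rt S R (h * h') w := by
  rw [map_mul, AlgHom.mul_apply]

theorem rt_one (w : FT M R) : rt S R 1 w = w := by rw [map_one, AlgHom.one_apply]

theorem rt_sc (h : GM M) (a : (ZMod M)ˣ) (w : FT M R) :
    rt S R h (rt S R (dg a a) w) = rt S R (dg a a) (rt S R h w) := by
  rw [rt_rt, rt_rt, dg_center]

theorem rt_Uf (h : GM M) (p : ℕ) (u : (ZMod M)ˣ) (w : FT M R) :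
    rt S R h (Uf S R p u w) = Uf S R p u (rt S R h w) := by
  funext g
  simp only [rt_apply, Uf_apply, mul_assoc]

theorem rt_Vf (h : GM M) (p : ℕ) (u : (ZMod M)ˣ) (w : FT M R) :
    rt S R h (Vf S R p u w) = Vf S R p u (rt S R h w) := by
  funext g
  simp only [rt_apply, Vf_apply, mul_assoc]

theorem rt_Tf (h : GM M) (i p : ℕ) (u : (ZMod M)ˣ) (w : FT M R) :
    rt S R h (Tf S R i p u w) = Tf S R i p u (rt S R h w) := by
  simp only [Tf_apply, map_add, map_nsmul, rt_Uf, rt_Vf]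

theorem rt_Sf (h : GM M) (i p : ℕ) (u : (ZMod M)ˣ) (w : FT M R) :
    rt S R h (Sf S R i p u w) = Sf S R i p u (rt S R h w) := by
  rw [Sf_apply, Sf_apply, map_nsmul, rt_sc]

theorem rt_ep (h : GM M) (k : ℕ) (w : FT M R) :
    rt S R h (ep S R M k w) = ep S R M k (rt S R h w) := by
  rw [ep_apply, ep_apply, map_zsmul, rt_sc]

theorem rt_pw (h : GM M) (i p : ℕ) (w : FT M R) :
    rt S R h (pw S R M i p w) = pw S R M i p (rt S R h w) := by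
  simp only [pw_apply, map_add, map_nsmul, map_sub, rt_ep]

theorem rt_T2 (h : GM M) (i p : ℕ) (u : (ZMod M)ˣ) (w : FT M R) :
    rt S R h (T2 S R i p u w) = T2 S R i p u (rt S R h w) := by
  simp only [T2_apply, map_add, map_nsmul, rt_Uf, rt_Vf, rt_pw]

theorem rt_S2 (h : GM M) (i p : ℕ) (u : (ZMod M)ˣ) (w : FT M R) :
    rt S R h (S2 S R i p u w) = S2 S R i p u (rt S R h w) := by
  simp only [S2_apply, rt_Sf, rt_pw]

theorem rt_dep (h : GM M) (w : FT M R) : rt S R h (dep S R M w) = dep S R M (rt S R h w) := rfl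

/-! ### maps which commute with the translations -/

section gen

variable {M' : ℕ} (Φ : FT M R →ₗ[S] FT M' R')

theorem gen_ep (h : ∀ w, Φ (rt S R (dg (-1) (-1)) w) = rt S R' (dg (-1) (-1)) (Φ w)) (k : ℕ)
    (w : FT M R) : Φ (ep S R M k w) = ep S R' M' k (Φ w) := by
  rw [ep_apply, ep_apply, map_zsmul, h]

theorem gen_pw (h : ∀ w, Φ (rt S R (dg (-1) (-1)) w) = rt S R' (dg (-1) (-1)) (Φ w)) (i p : ℕ)
    (w : FT M R) : Φ (pw S R M i p w) = pw S R' M' i p (Φ w) := by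
  rw [pw_apply, pw_apply, map_add, map_nsmul, map_sub, gen_ep Φ h]

theorem gen_Sf {u : (ZMod M)ˣ} {u' : (ZMod M')ˣ}
    (h : ∀ w, Φ (rt S R (dg u u) w) = rt S R' (dg u' u') (Φ w)) (i p : ℕ) (w : FT M R) :
    Φ (Sf S R i p u w) = Sf S R' i p u' (Φ w) := by
  rw [Sf_apply, Sf_apply, map_nsmul, h]

theorem gen_S2 {u : (ZMod M)ˣ} {u' : (ZMod M')ˣ}
    (h : ∀ w, Φ (rt S R (dg u u) w) = rt S R' (dg u' u') (Φ w))
    (h' : ∀ w, Φ (rt S R (dg (-1) (-1)) w) = rt S R' (dg (-1) (-1)) (Φ w)) (i p : ℕ)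
    (w : FT M R) : Φ (S2 S R i p u w) = S2 S R' i p u' (Φ w) := by
  rw [S2_apply, S2_apply, gen_Sf Φ h, gen_pw Φ h']

theorem gen_Tf {p : ℕ} {u : (ZMod M)ˣ} {u' : (ZMod M')ˣ}
    (hU : ∀ w, Φ (Uf S R p u w) = Uf S R' p u' (Φ w))
    (hV : ∀ w, Φ (Vf S R p u w) = Vf S R' p u' (Φ w)) (i : ℕ) (w : FT M R) :
    Φ (Tf S R i p u w) = Tf S R' i p u' (Φ w) := by
  rw [Tf_apply, Tf_apply, map_add, map_nsmul, hU, hV]

theorem gen_T2 {p : ℕ} {u : (ZMod M)ˣ} {u' : (ZMod M')ˣ}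
    (hU : ∀ w, Φ (Uf S R p u w) = Uf S R' p u' (Φ w))
    (hV : ∀ w, Φ (Vf S R p u w) = Vf S R' p u' (Φ w))
    (h' : ∀ w, Φ (rt S R (dg (-1) (-1)) w) = rt S R' (dg (-1) (-1)) (Φ w)) (i : ℕ) (w : FT M R) :
    Φ (T2 S R i p u w) = T2 S R' i p u' (Φ w) := by
  rw [T2_apply, T2_apply, map_add, map_nsmul, hU, hV, gen_pw Φ h']

end gen

theorem Eg_map (Φ : FT M R →ₗ[S] FT M R') (hΦ : ∀ h w, rt S R' h (Φ w) = Φ (rt S R h w))
    {H : Set (GM M)} {χ : GM M → S} {w : FT M R} (hw : w ∈ Eg S R H χ) : Φ w ∈ Eg S R' H χ :=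
  fun h hh => by rw [hΦ, hw h hh, map_smul]

theorem Wh_map (Φ : FT M R →ₗ[S] FT M R') (hΦ : ∀ h w, rt S R' h (Φ w) = Φ (rt S R h w))
    {z : S} {w : FT M R} (hw : w ∈ Wh S R M z) : Φ w ∈ Wh S R' M z :=
  fun x => by rw [hΦ, ← map_smul, hw x]

/-! ### products -/

theorem Uf_Uf (p p' : ℕ) (u u' : (ZMod M)ˣ) (w : FT M R) :
    Uf S R p u (Uf S R p' u' w) = Uf S R (p * p') (u * u') w := by
  funext g
  rw [Uf_apply, Uf_apply, Uf_apply, Uo_Uo, ← mul_assoc, dg_mul, mul_one, mul_comm u']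

theorem Vf_Vf (p p' : ℕ) (u u' : (ZMod M)ˣ) (w : FT M R) :
    Vf S R p u (Vf S R p' u' w) = Vf S R (p * p') (u * u') w := by
  funext g
  rw [Vf_apply, Vf_apply, Vf_apply, Vo_Vo, ← mul_assoc, dg_mul, mul_one, mul_comm u']

theorem Uf_Vf {p : ℕ} (hp : 0 < p) (u : (ZMod M)ˣ) (w : FT M R) :
    Uf S R p u (Vf S R p u w) = rt S R (dg u u) w := by
  funext g
  rw [Uf_apply, Vf_apply, Uo_Vo hp, ← mul_assoc, dg_mul, mul_one, one_mul, dg_center, rt_apply]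

theorem Uf_Vf_comm {p p' : ℕ} (h : Nat.Coprime p p') (u u' : (ZMod M)ˣ) (w : FT M R) :
    Uf S R p u (Vf S R p' u' w) = Vf S R p' u' (Uf S R p u w) := by
  funext g
  rw [Uf_apply, Vf_apply, Vf_apply, Uf_apply, Uo_Vo_comm h, ← mul_assoc, ← mul_assoc, dg_comm]

theorem Uf_Uf_comm (p p' : ℕ) (u u' : (ZMod M)ˣ) (w : FT M R) :
    Uf S R p u (Uf S R p' u' w) = Uf S R p' u' (Uf S R p u w) := by
  rw [Uf_Uf, Uf_Uf, mul_comm p, mul_comm u]

theorem Vf_Vf_comm (p p' : ℕ) (u u' : (ZMod M)ˣ) (w : FT M R) :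
    Vf S R p u (Vf S R p' u' w) = Vf S R p' u' (Vf S R p u w) := by
  rw [Vf_Vf, Vf_Vf, mul_comm p, mul_comm u]

/-- an operator which commutes with all translations commutes with `ep pw Sf S2` -/
theorem com_ep (Φ : Module.End S (FT M R)) (h : ∀ g w, rt S R g (Φ w) = Φ (rt S R g w)) (k : ℕ)
    (w : FT M R) : Φ (ep S R M k w) = ep S R M k (Φ w) := gen_ep Φ (fun w => (h _ w).symm) k w

theorem com_pw (Φ : Module.End S (FT M R)) (h : ∀ g w, rt S R g (Φ w) = Φ (rt S R g w))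
    (i p : ℕ) (w : FT M R) : Φ (pw S R M i p w) = pw S R M i p (Φ w) :=
  gen_pw Φ (fun w => (h _ w).symm) i p w

theorem com_Sf (Φ : Module.End S (FT M R)) (h : ∀ g w, rt S R g (Φ w) = Φ (rt S R g w))
    (i p : ℕ) (u : (ZMod M)ˣ) (w : FT M R) : Φ (Sf S R i p u w) = Sf S R i p u (Φ w) :=
  gen_Sf Φ (fun w => (h _ w).symm) i p w

theorem com_S2 (Φ : Module.End S (FT M R)) (h : ∀ g w, rt S R g (Φ w) = Φ (rt S R g w))
    (i p : ℕ) (u : (ZMod M)ˣ) (w : FT M R) : Φ (S2 S R i p u w) = S2 S R i p u (Φ w) :=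
  gen_S2 Φ (fun w => (h _ w).symm) (fun w => (h _ w).symm) i p w

theorem Tf_comm_cop {p p' : ℕ} (h : Nat.Coprime p p') (i i' : ℕ) (u u' : (ZMod M)ˣ) :
    Commute (Tf S R i p u) (Tf S R i' p' u') := by
  refine LinearMap.ext fun w => gen_Tf (Tf S R i p u) (fun w => ?_) (fun w => ?_) i' w
  · exact (gen_Tf (Uf S R p' u') (Uf_Uf_comm p' p u' u) (Uf_Vf_comm h.symm u' u) i w).symm
  · exact (gen_Tf (Vf S R p' u') (fun w => (Uf_Vf_comm h u u' w).symm) (Vf_Vf_comm p' p u' u)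
      i w).symm

theorem T2_comm_cop {p p' : ℕ} (h : Nat.Coprime p p') (i i' : ℕ) (u u' : (ZMod M)ˣ) :
    Commute (T2 S R i p u) (T2 S R i' p' u') := by
  refine LinearMap.ext fun w => gen_T2 (T2 S R i p u) (fun w => ?_) (fun w => ?_)
    (fun w => (rt_T2 _ i p u w).symm) i' w
  · exact (gen_T2 (Uf S R p' u') (Uf_Uf_comm p' p u' u) (Uf_Vf_comm h.symm u' u)
      (fun w => (rt_Uf _ p' u' w).symm) i w).symm
  · exact (gen_T2 (Vf S R p' u') (fun w => (Uf_Vf_comm h u u' w).symm) (Vf_Vf_comm p' p u' u)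
      (fun w => (rt_Vf _ p' u' w).symm) i w).symm

theorem Tf_comm (i : ℕ) {p p' : ℕ} {u u' : (ZMod M)ˣ} (hp : p.Prime) (hp' : p'.Prime)
    (hu : (u : ZMod M) = p) (hu' : (u' : ZMod M) = p') :
    Commute (Tf S R i p u) (Tf S R i p' u') := by
  by_cases e : p = p'
  · subst e
    rw [Units.ext (hu.trans hu'.symm)]
  · exact Tf_comm_cop ((Nat.coprime_primes hp hp').2 e) i i u u'

theorem T2_comm (i : ℕ) {p p' : ℕ} {u u' : (ZMod M)ˣ} (hp : p.Prime) (hp' : p'.Prime)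
    (hu : (u : ZMod M) = p) (hu' : (u' : ZMod M) = p') :
    Commute (T2 S R i p u) (T2 S R i p' u') := by
  by_cases e : p = p'
  · subst e
    rw [Units.ext (hu.trans hu'.symm)]
  · exact T2_comm_cop ((Nat.coprime_primes hp hp').2 e) i i u u'

theorem Sf_comm (i i' p p' : ℕ) (u u' : (ZMod M)ˣ) : Commute (Sf S R i p u) (Sf S R i' p' u') :=
  LinearMap.ext fun w => com_Sf _ (fun g => rt_Sf g i p u) i' p' u' w

theorem S2_comm (i i' p p' : ℕ) (u u' : (ZMod M)ˣ) : Commute (S2 S R i p u) (S2 S R i' p' u') :=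
  LinearMap.ext fun w => com_S2 _ (fun g => rt_S2 g i p u) i' p' u' w

theorem Tf_Sf_comm (i i' p p' : ℕ) (u u' : (ZMod M)ˣ) :
    Commute (Tf S R i p u) (Sf S R i' p' u') :=
  LinearMap.ext fun w => com_Sf _ (fun g => rt_Tf g i p u) i' p' u' w

theorem T2_S2_comm (i i' p p' : ℕ) (u u' : (ZMod M)ˣ) :
    Commute (T2 S R i p u) (S2 S R i' p' u') :=
  LinearMap.ext fun w => com_S2 _ (fun g => rt_T2 g i p u) i' p' u' w

/-! ### the depletion -/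

theorem dep_rt (h : GM M) (w : FT M R) : dep S R M (rt S R h w) = rt S R h (dep S R M w) := rfl

theorem dep_Vo {p : ℕ} (hp : Odd p) (s : PowerSeries R) (n : ℕ) :
    (if Even n then 0 else (Vo p s).coeff n) =
      if p ∣ n then (if Even (n / p) then 0 else s.coeff (n / p)) else 0 := by
  rw [Vo_coeff]
  by_cases h : p ∣ n
  · obtain ⟨m, rfl⟩ := h
    simp only [dvd_mul_right, if_true, Nat.mul_div_cancel_left m hp.pos, Nat.even_mul,
      Nat.not_even_iff_odd.2 hp, false_or]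
  · simp only [h, if_false, ite_self]

theorem dep_Uf {p : ℕ} (hp : Odd p) (u : (ZMod M)ˣ) (w : FT M R) :
    dep S R M (Uf S R p u w) = Uf S R p u (dep S R M w) := by
  ext g n
  simp only [dep_coeff, Uf_apply, Uo_coeff, Nat.even_mul, Nat.not_even_iff_odd.2 hp, false_or]

theorem dep_Vf {p : ℕ} (hp : Odd p) (u : (ZMod M)ˣ) (w : FT M R) :
    dep S R M (Vf S R p u w) = Vf S R p u (dep S R M w) := by
  ext g n
  rw [dep_coeff, Vf_apply, Vf_apply, dep_Vo hp, Vo_coeff, dep_coeff]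

theorem dep_Tf (i : ℕ) {p : ℕ} (hp : Odd p) (u : (ZMod M)ˣ) (w : FT M R) :
    dep S R M (Tf S R i p u w) = Tf S R i p u (dep S R M w) :=
  gen_Tf _ (dep_Uf hp u) (dep_Vf hp u) i w

theorem dep_T2 (i : ℕ) {p : ℕ} (hp : Odd p) (u : (ZMod M)ˣ) (w : FT M R) :
    dep S R M (T2 S R i p u w) = T2 S R i p u (dep S R M w) :=
  gen_T2 _ (dep_Uf hp u) (dep_Vf hp u) (dep_rt _) i w

theorem dep_Sf (i p : ℕ) (u : (ZMod M)ˣ) (w : FT M R) :
    dep S R M (Sf S R i p u w) = Sf S R i p u (dep S R M w) := com_Sf _ rt_dep i p u w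

theorem dep_S2 (i p : ℕ) (u : (ZMod M)ˣ) (w : FT M R) :
    dep S R M (S2 S R i p u w) = S2 S R i p u (dep S R M w) := com_S2 _ rt_dep i p u w

theorem dep_ep (k : ℕ) (w : FT M R) : dep S R M (ep S R M k w) = ep S R M k (dep S R M w) :=
  com_ep _ rt_dep k w

theorem dep_pw (i p : ℕ) (w : FT M R) :
    dep S R M (pw S R M i p w) = pw S R M i p (dep S R M w) := com_pw _ rt_dep i p w

theorem dep_mem (w : FT M R) : dep S R M w ∈ Od S M R := fun g n hn => by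
  rw [dep_coeff, if_pos hn]

theorem dep_eq {w : FT M R} (h : w ∈ Od S M R) : dep S R M w = w := by
  ext g n
  rw [dep_coeff]
  split_ifs with hn
  · exact (h g n hn).symm
  · rfl

theorem dep_dep (w : FT M R) : dep S R M (dep S R M w) = dep S R M w := dep_eq (dep_mem w)

theorem Od_map {M' : ℕ} (Φ : FT M R → FT M' R')
    (hΦ : ∀ w, dep S R' M' (Φ w) = Φ (dep S R M w)) {w : FT M R} (h : w ∈ Od S M R) :
    Φ w ∈ Od S M' R' := by
  rw [← dep_eq h, ← hΦ]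
  exact dep_mem _

theorem Od_rt (g : GM M) {w : FT M R} (h : w ∈ Od S M R) : rt S R g w ∈ Od S M R :=
  Od_map _ (dep_rt g) h

theorem Od_Uf {p : ℕ} (hp : Odd p) (u : (ZMod M)ˣ) {w : FT M R} (h : w ∈ Od S M R) :
    Uf S R p u w ∈ Od S M R := Od_map _ (dep_Uf hp u) h

theorem Od_Vf {p : ℕ} (hp : Odd p) (u : (ZMod M)ˣ) {w : FT M R} (h : w ∈ Od S M R) :
    Vf S R p u w ∈ Od S M R := Od_map _ (dep_Vf hp u) h

theorem Od_Tf (i : ℕ) {p : ℕ} (hp : Odd p) (u : (ZMod M)ˣ) {w : FT M R} (h : w ∈ Od S M R) :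
    Tf S R i p u w ∈ Od S M R := Od_map _ (dep_Tf i hp u) h

theorem Od_T2 (i : ℕ) {p : ℕ} (hp : Odd p) (u : (ZMod M)ˣ) {w : FT M R} (h : w ∈ Od S M R) :
    T2 S R i p u w ∈ Od S M R := Od_map _ (dep_T2 i hp u) h

theorem Od_Sf (i p : ℕ) (u : (ZMod M)ˣ) {w : FT M R} (h : w ∈ Od S M R) :
    Sf S R i p u w ∈ Od S M R := Od_map _ (dep_Sf i p u) h

theorem Od_S2 (i p : ℕ) (u : (ZMod M)ˣ) {w : FT M R} (h : w ∈ Od S M R) :
    S2 S R i p u w ∈ Od S M R := Od_map _ (dep_S2 i p u) h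

theorem Od_ep (k : ℕ) {w : FT M R} (h : w ∈ Od S M R) : ep S R M k w ∈ Od S M R :=
  Od_map _ (dep_ep k) h

theorem Od_pw (i p : ℕ) {w : FT M R} (h : w ∈ Od S M R) : pw S R M i p w ∈ Od S M R :=
  Od_map _ (dep_pw i p) h

theorem Od_dep (w : FT M R) : dep S R M w ∈ Od S M R := dep_mem w

/-! ### change of level -/

section level

variable {M₀ : ℕ} (h : M₀ ∣ M)

theorem pr_coe (g : GM M) (i j : Fin 2) : (pr h g : Matrix (Fin 2) (Fin 2) (ZMod M₀)) i j =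
    ZMod.castHom h (ZMod M₀) ((g : Matrix (Fin 2) (Fin 2) (ZMod M)) i j) := rfl

theorem pr_dg (a d : (ZMod M)ˣ) : pr h (dg a d) =
    dg (Units.map (ZMod.castHom h (ZMod M₀) : ZMod M →* ZMod M₀) a)
      (Units.map (ZMod.castHom h (ZMod M₀) : ZMod M →* ZMod M₀) d) := by
  apply Units.ext
  ext i j
  rw [pr_coe, dg_coe, dg_coe]
  fin_cases i <;> fin_cases j <;> first | rfl | exact map_zero _

theorem pr_un (x : ZMod M) : pr h (un x) = un (ZMod.castHom h (ZMod M₀) x) := by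
  apply Units.ext
  ext i j
  rw [pr_coe, un_coe, un_coe]
  fin_cases i <;> fin_cases j <;> first | rfl | exact map_zero _ | exact map_one _

theorem pr_rd (γ : SL(2, ℤ)) : pr h (rd M γ) = rd M₀ γ := by
  apply Units.ext
  ext i j
  rw [pr_coe, rd_apply, rd_apply, map_intCast]

theorem um_coe {u : (ZMod M)ˣ} {p : ℕ} (hu : (u : ZMod M) = p) :
    ((Units.map (ZMod.castHom h (ZMod M₀) : ZMod M →* ZMod M₀) u : (ZMod M₀)ˣ) : ZMod M₀) = p := by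
  rw [Units.coe_map, hu]
  exact map_natCast (ZMod.castHom h (ZMod M₀)) p

theorem um_eq {u : (ZMod M)ˣ} {u₀ : (ZMod M₀)ˣ} {p : ℕ} (hu : (u : ZMod M) = p)
    (hu₀ : (u₀ : ZMod M₀) = p) :
    Units.map (ZMod.castHom h (ZMod M₀) : ZMod M →* ZMod M₀) u = u₀ :=
  Units.ext ((um_coe h hu).trans hu₀.symm)

theorem pr_neg : pr h (dg (-1) (-1)) = dg (-1) (-1) := by
  have e : Units.map (ZMod.castHom h (ZMod M₀) : ZMod M →* ZMod M₀) (-1) = -1 := by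
    apply Units.ext
    rw [Units.coe_map, Units.val_neg, Units.val_neg, Units.val_one, Units.val_one]
    exact (map_neg (ZMod.castHom h (ZMod M₀)) 1).trans (congrArg _ (map_one _))
  rw [pr_dg, e]

theorem pr_surj (hM : M ≠ 0) : Function.Surjective (pr h) := by
  have : NeZero M := ⟨hM⟩
  intro g
  let f : Matrix (Fin 2) (Fin 2) (ZMod M) →+* Matrix (Fin 2) (Fin 2) (ZMod M₀) :=
    (ZMod.castHom h (ZMod M₀)).mapMatrix
  choose x hx using fun i j => ZMod.castHom_surjective h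
    ((g : Matrix (Fin 2) (Fin 2) (ZMod M₀)) i j)
  obtain ⟨A, hA⟩ : ∃ A, f A = g := ⟨Matrix.of x, Matrix.ext hx⟩
  obtain ⟨a, b, hab, e⟩ : ∃ a b : ℕ, a < b ∧ A ^ a = A ^ b := by
    obtain ⟨a, b, hab, e⟩ := Finite.exists_ne_map_eq_of_infinite fun n : ℕ => A ^ n
    rcases lt_or_gt_of_ne hab with h1 | h1
    exacts [⟨a, b, h1, e⟩, ⟨b, a, h1, e.symm⟩]
  obtain ⟨d, rfl⟩ := Nat.exists_eq_add_of_lt hab
  have e1 : ∀ k, A ^ (a + k * (d + 1)) = A ^ a := by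
    intro k
    induction k with
    | zero => simp
    | succ k ih => rw [Nat.succ_mul, ← add_assoc, pow_add, ih, ← pow_add, ← add_assoc, ← e]
  obtain ⟨n, hn, hn2⟩ : ∃ n, A ^ (n + 1) * A ^ (n + 1) = A ^ (n + 1) ∧ True := by
    refine ⟨a * (d + 1) + d, ?_, trivial⟩
    have e2 : a * (d + 1) + d + 1 + (a * (d + 1) + d + 1) =
        a + (a + 1) * (d + 1) + (a * d + d + 1) := by ring
    have e3 : a + (a * d + d + 1) = a * (d + 1) + d + 1 := by ring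
    rw [← pow_add, e2, pow_add, e1, ← pow_add, e3]
  have hf : f (A ^ (n + 1)) = 1 := by
    have h1 := congrArg f hn
    rw [map_mul, map_pow, hA, ← Units.val_pow_eq_pow_val] at h1
    rw [map_pow, hA, ← Units.val_pow_eq_pow_val]
    exact (g ^ (n + 1)).isUnit.mul_left_cancel (h1.trans (mul_one _).symm)
  obtain ⟨E, hE⟩ : ∃ E, E = A ^ (n + 1) := ⟨_, rfl⟩
  have c1 : E * A ^ n = A ^ n * E := by rw [hE, ← pow_add, ← pow_add, add_comm]
  have c2 : A * A ^ n = E := by rw [hE, pow_succ']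
  rw [← hE] at hn hf
  have inv : (A * E + (1 - E)) * (A ^ n * E + (1 - E)) = 1 := by
    have h1 : A * E * (A ^ n * E) = E := by
      rw [mul_assoc, ← mul_assoc E, c1, mul_assoc, hn, ← mul_assoc, c2, hn]
    have h2 : A * E * (1 - E) = 0 := by rw [mul_assoc, mul_sub, mul_one, hn, sub_self, mul_zero]
    have h3 : (1 - E) * (A ^ n * E) = 0 := by
      rw [← c1, ← mul_assoc, sub_mul, one_mul, hn, sub_self, zero_mul]
    have h4 : (1 - E) * (1 - E) = 1 - E := by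
      rw [sub_mul, one_mul, mul_sub, mul_one, hn, sub_self, sub_zero]
    rw [add_mul, mul_add, mul_add, h1, h2, h3, h4, add_zero, zero_add, add_sub_cancel]
  refine ⟨⟨_, _, inv, mul_eq_one_comm.1 inv⟩, Units.ext ?_⟩
  change f (A * E + (1 - E)) = g
  rw [map_add, map_mul, map_sub, map_one, hf, hA, mul_one, sub_self, add_zero]

theorem ifl_rt (g : GM M) (w : FT M₀ R) :
    ifl S R h (rt S R (pr h g) w) = rt S R g (ifl S R h w) := by
  funext x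
  rw [ifl_apply, rt_apply, rt_apply, ifl_apply, map_mul]

theorem ifl_neg (w : FT M₀ R) :
    ifl S R h (rt S R (dg (-1) (-1)) w) = rt S R (dg (-1) (-1)) (ifl S R h w) := by
  rw [← ifl_rt, pr_neg]

theorem ifl_ep (k : ℕ) (w : FT M₀ R) : ifl S R h (ep S R M₀ k w) = ep S R M k (ifl S R h w) :=
  gen_ep _ (ifl_neg h) k w

theorem ifl_pw (i p : ℕ) (w : FT M₀ R) :
    ifl S R h (pw S R M₀ i p w) = pw S R M i p (ifl S R h w) := gen_pw _ (ifl_neg h) i p w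

variable {p : ℕ} {u : (ZMod M)ˣ} {u₀ : (ZMod M₀)ˣ}

theorem ifl_sc (hu : (u : ZMod M) = p) (hu₀ : (u₀ : ZMod M₀) = p) (w : FT M₀ R) :
    ifl S R h (rt S R (dg u₀ u₀) w) = rt S R (dg u u) (ifl S R h w) := by
  rw [← ifl_rt, pr_dg, um_eq h hu hu₀]

theorem ifl_Uf (hu : (u : ZMod M) = p) (hu₀ : (u₀ : ZMod M₀) = p) (w : FT M₀ R) :
    ifl S R h (Uf S R p u₀ w) = Uf S R p u (ifl S R h w) := by
  have hc : Nat.Coprime p (M / M₀) :=
    ((ZMod.isUnit_iff_coprime p M).1 (hu ▸ u.isUnit)).coprime_dvd_right (Nat.div_dvd_of_dvd h)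
  funext g
  rw [ifl_apply, Uf_apply, Uf_apply, ifl_apply, Uo_Vo_comm hc, map_mul, pr_dg, um_eq h hu hu₀,
    map_one]

theorem ifl_Vf (hu : (u : ZMod M) = p) (hu₀ : (u₀ : ZMod M₀) = p) (w : FT M₀ R) :
    ifl S R h (Vf S R p u₀ w) = Vf S R p u (ifl S R h w) := by
  funext g
  rw [ifl_apply, Vf_apply, Vf_apply, ifl_apply, Vo_Vo, Vo_Vo, mul_comm p, map_mul, pr_dg,
    um_eq h hu hu₀, map_one]

theorem ifl_Tf (i : ℕ) (hu : (u : ZMod M) = p) (hu₀ : (u₀ : ZMod M₀) = p) (w : FT M₀ R) :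
    ifl S R h (Tf S R i p u₀ w) = Tf S R i p u (ifl S R h w) :=
  gen_Tf _ (ifl_Uf h hu hu₀) (ifl_Vf h hu hu₀) i w

theorem ifl_Sf (i : ℕ) (hu : (u : ZMod M) = p) (hu₀ : (u₀ : ZMod M₀) = p) (w : FT M₀ R) :
    ifl S R h (Sf S R i p u₀ w) = Sf S R i p u (ifl S R h w) := gen_Sf _ (ifl_sc h hu hu₀) i p w

theorem ifl_T2 (i : ℕ) (hu : (u : ZMod M) = p) (hu₀ : (u₀ : ZMod M₀) = p) (w : FT M₀ R) :
    ifl S R h (T2 S R i p u₀ w) = T2 S R i p u (ifl S R h w) :=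
  gen_T2 _ (ifl_Uf h hu hu₀) (ifl_Vf h hu hu₀) (ifl_neg h) i w

theorem ifl_S2 (i : ℕ) (hu : (u : ZMod M) = p) (hu₀ : (u₀ : ZMod M₀) = p) (w : FT M₀ R) :
    ifl S R h (S2 S R i p u₀ w) = S2 S R i p u (ifl S R h w) :=
  gen_S2 _ (ifl_sc h hu hu₀) (ifl_neg h) i p w

include h in
theorem div_odd (hM : Odd M) : Odd (M / M₀) := hM.of_dvd_nat (Nat.div_dvd_of_dvd h)

theorem ifl_dep (hM : Odd M) (w : FT M₀ R) :
    ifl S R h (dep S R M₀ w) = dep S R M (ifl S R h w) := by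
  ext g n
  rw [dep_coeff, ifl_apply, ifl_apply, dep_Vo (div_odd h hM), Vo_coeff, dep_coeff]

theorem ifl_inj (hM : Odd M) : Function.Injective (ifl S R h) := by
  intro w w' e
  funext g
  obtain ⟨x, rfl⟩ := pr_surj h hM.pos.ne' g
  exact Vo_inj (div_odd h hM).pos (congrFun e x)

theorem ifl_Od (hM : Odd M) {w : FT M₀ R} : ifl S R h w ∈ Od S M R ↔ w ∈ Od S M₀ R := by
  refine ⟨fun hw => ?_, Od_map _ fun w => (ifl_dep h hM w).symm⟩
  have e := dep_eq hw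
  rw [← ifl_dep h hM] at e
  rw [← ifl_inj h hM e]
  exact dep_mem w

end level

/-! ### change of coefficients -/

section coef

variable (φ : R →ₗ[S] R')

theorem ml_apply (w : FT M R) (g : GM M) :
    ml S M φ w g = PowerSeries.mk fun n => φ ((w g).coeff n) := rfl

theorem ml_Vo (p : ℕ) (s : PowerSeries R) : (PowerSeries.mk fun n => φ ((Vo p s).coeff n)) =
    Vo p (PowerSeries.mk fun n => φ (s.coeff n)) := by
  ext n
  simp only [PowerSeries.coeff_mk, Vo_coeff]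
  split_ifs
  · rfl
  · exact map_zero φ

theorem ml_rt (h : GM M) (w : FT M R) : ml S M φ (rt S R h w) = rt S R' h (ml S M φ w) := rfl

theorem ml_Uf (p : ℕ) (u : (ZMod M)ˣ) (w : FT M R) :
    ml S M φ (Uf S R p u w) = Uf S R' p u (ml S M φ w) := by
  ext g n
  simp only [ml_coeff, Uf_apply, Uo_coeff]

theorem ml_Vf (p : ℕ) (u : (ZMod M)ˣ) (w : FT M R) :
    ml S M φ (Vf S R p u w) = Vf S R' p u (ml S M φ w) := funext fun g => ml_Vo φ p _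

theorem ml_Tf (i p : ℕ) (u : (ZMod M)ˣ) (w : FT M R) :
    ml S M φ (Tf S R i p u w) = Tf S R' i p u (ml S M φ w) :=
  gen_Tf _ (ml_Uf φ p u) (ml_Vf φ p u) i w

theorem ml_Sf (i p : ℕ) (u : (ZMod M)ˣ) (w : FT M R) :
    ml S M φ (Sf S R i p u w) = Sf S R' i p u (ml S M φ w) := gen_Sf _ (ml_rt φ _) i p w

theorem ml_ep (k : ℕ) (w : FT M R) : ml S M φ (ep S R M k w) = ep S R' M k (ml S M φ w) :=
  gen_ep _ (ml_rt φ _) k w

theorem ml_pw (i p : ℕ) (w : FT M R) : ml S M φ (pw S R M i p w) = pw S R' M i p (ml S M φ w) :=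
  gen_pw _ (ml_rt φ _) i p w

theorem ml_T2 (i p : ℕ) (u : (ZMod M)ˣ) (w : FT M R) :
    ml S M φ (T2 S R i p u w) = T2 S R' i p u (ml S M φ w) :=
  gen_T2 _ (ml_Uf φ p u) (ml_Vf φ p u) (ml_rt φ _) i w

theorem ml_S2 (i p : ℕ) (u : (ZMod M)ˣ) (w : FT M R) :
    ml S M φ (S2 S R i p u w) = S2 S R' i p u (ml S M φ w) :=
  gen_S2 _ (ml_rt φ _) (ml_rt φ _) i p w

theorem ml_dep (w : FT M R) : ml S M φ (dep S R M w) = dep S R' M (ml S M φ w) := by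
  ext g n
  simp only [ml_coeff, dep_coeff]
  split_ifs
  · exact map_zero φ
  · rfl

theorem ml_ifl {M₀ : ℕ} (h : M₀ ∣ M) (w : FT M₀ R) :
    ml S M φ (ifl S R h w) = ifl S R' h (ml S M₀ φ w) := funext fun g => ml_Vo φ _ _

theorem ml_Ts (M₀ q : ℕ) (s : GM M) (w : FT M R) :
    ml S M φ (Ts S R M₀ q s w) = Ts S R' M₀ q s (ml S M φ w) := by
  simp only [Ts_apply, map_sum, ml_rt]

theorem ml_Nu (M₀ q : ℕ) (w : FT M R) :
    ml S M φ (Nu S R M M₀ q w) = Nu S R' M M₀ q (ml S M φ w) := by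
  simp only [Nu_apply, map_sum, ml_rt]

theorem ml_Wa (M₀ q : ℕ) (w : FT M R) :
    ml S M φ (Wa S R M M₀ q w) = Wa S R' M M₀ q (ml S M φ w) := by
  funext g
  rw [ml_apply, Wa_apply, Wa_apply]
  split_ifs
  · exact ml_Vo φ _ _
  · ext n
    simp

theorem ml_pow {z : R} {z' : R'} (hz : ∀ x, φ (z * x) = z' * φ x) (n : ℕ) (x : R) :
    φ (z ^ n * x) = z' ^ n * φ x := by
  induction n with
  | zero => simp
  | succ n ih => rw [pow_succ', pow_succ', mul_assoc, mul_assoc, hz, ih]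

theorem ml_Wb (M₀ q : ℕ) {z : R} {z' : R'} (hz : ∀ x, φ (z * x) = z' * φ x) (w : FT M R) :
    ml S M φ (Wb S R M M₀ q z w) = Wb S R' M M₀ q z' (ml S M φ w) := by
  funext g
  rw [ml_apply, Wb_apply, Wb_apply]
  split_ifs
  · ext n
    simp
  · ext n
    simp only [PowerSeries.coeff_mk, ml_coeff, ml_pow φ hz]

theorem ml_W1 (M₀ q : ℕ) {z : R} {z' : R'} (hz : ∀ x, φ (z * x) = z' * φ x) (k : ℕ)
    (w : FT M R) : ml S M φ (W1 S R M M₀ q z k w) = W1 S R' M M₀ q z' k (ml S M φ w) := by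
  rw [W1_apply, W1_apply, map_add, map_nsmul, ml_Wa, ml_Wb φ M₀ q hz]

theorem ml_W2 (M₀ q : ℕ) {z : R} {z' : R'} (hz : ∀ x, φ (z * x) = z' * φ x) (i : ℕ)
    (w : FT M R) : ml S M φ (W2 S R M M₀ q z i w) = W2 S R' M M₀ q z' i (ml S M φ w) := by
  rw [W2_apply, W2_apply, map_add, map_nsmul, ml_Wa, ml_pw, ml_Wb φ M₀ q hz]

theorem TC_ml {z : R} {z' : R'} (hz : ∀ x, φ (z * x) = z' * φ x) {w : FT M R} (h : TC z w) :
    TC z' (ml S M φ w) := fun g n => by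
  rw [ml_coeff, ml_coeff, ← ml_pow φ hz, h]

theorem Od_ml {w : FT M R} (h : w ∈ Od S M R) : ml S M φ w ∈ Od S M R' :=
  Od_map _ (fun w => (ml_dep φ w).symm) h

end coef

theorem mp_eq_ml (φ : R →ₐ[S] R') (w : FT M R) : mp S M φ w = ml S M φ.toLinearMap w := by
  ext g n
  rw [ml_coeff]
  exact PowerSeries.coeff_map _ _ _

theorem mp_lin (φ : R →ₐ[S] R') : (mp S M φ).toLinearMap = ml S M φ.toLinearMap :=
  LinearMap.ext (mp_eq_ml φ)

theorem mp_coeff (φ : R →ₐ[S] R') (w : FT M R) (g : GM M) (n : ℕ) :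
    (mp S M φ w g).coeff n = φ ((w g).coeff n) := PowerSeries.coeff_map _ _ _

theorem mp_rt (φ : R →ₐ[S] R') (h : GM M) (w : FT M R) :
    mp S M φ (rt S R h w) = rt S R' h (mp S M φ w) := by
  rw [mp_eq_ml, mp_eq_ml, ml_rt]

theorem mp_Uf (φ : R →ₐ[S] R') (p : ℕ) (u : (ZMod M)ˣ) (w : FT M R) :
    mp S M φ (Uf S R p u w) = Uf S R' p u (mp S M φ w) := by
  rw [mp_eq_ml, mp_eq_ml, ml_Uf]

theorem mp_Vf (φ : R →ₐ[S] R') (p : ℕ) (u : (ZMod M)ˣ) (w : FT M R) :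
    mp S M φ (Vf S R p u w) = Vf S R' p u (mp S M φ w) := by
  rw [mp_eq_ml, mp_eq_ml, ml_Vf]

theorem mp_Tf (φ : R →ₐ[S] R') (i p : ℕ) (u : (ZMod M)ˣ) (w : FT M R) :
    mp S M φ (Tf S R i p u w) = Tf S R' i p u (mp S M φ w) := by
  rw [mp_eq_ml, mp_eq_ml, ml_Tf]

theorem mp_Sf (φ : R →ₐ[S] R') (i p : ℕ) (u : (ZMod M)ˣ) (w : FT M R) :
    mp S M φ (Sf S R i p u w) = Sf S R' i p u (mp S M φ w) := by
  rw [mp_eq_ml, mp_eq_ml, ml_Sf]

theorem mp_ep (φ : R →ₐ[S] R') (k : ℕ) (w : FT M R) :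
    mp S M φ (ep S R M k w) = ep S R' M k (mp S M φ w) := by
  rw [mp_eq_ml, mp_eq_ml, ml_ep]

theorem mp_pw (φ : R →ₐ[S] R') (i p : ℕ) (w : FT M R) :
    mp S M φ (pw S R M i p w) = pw S R' M i p (mp S M φ w) := by
  rw [mp_eq_ml, mp_eq_ml, ml_pw]

theorem mp_T2 (φ : R →ₐ[S] R') (i p : ℕ) (u : (ZMod M)ˣ) (w : FT M R) :
    mp S M φ (T2 S R i p u w) = T2 S R' i p u (mp S M φ w) := by
  rw [mp_eq_ml, mp_eq_ml, ml_T2]

theorem mp_S2 (φ : R →ₐ[S] R') (i p : ℕ) (u : (ZMod M)ˣ) (w : FT M R) :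
    mp S M φ (S2 S R i p u w) = S2 S R' i p u (mp S M φ w) := by
  rw [mp_eq_ml, mp_eq_ml, ml_S2]

theorem mp_dep (φ : R →ₐ[S] R') (w : FT M R) :
    mp S M φ (dep S R M w) = dep S R' M (mp S M φ w) := by
  rw [mp_eq_ml, mp_eq_ml, ml_dep]

theorem mp_Ts (φ : R →ₐ[S] R') (M₀ q : ℕ) (s : GM M) (w : FT M R) :
    mp S M φ (Ts S R M₀ q s w) = Ts S R' M₀ q s (mp S M φ w) := by
  rw [mp_eq_ml, mp_eq_ml, ml_Ts]

theorem mp_Nu (φ : R →ₐ[S] R') (M₀ q : ℕ) (w : FT M R) :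
    mp S M φ (Nu S R M M₀ q w) = Nu S R' M M₀ q (mp S M φ w) := by
  rw [mp_eq_ml, mp_eq_ml, ml_Nu]

theorem mp_Wa (φ : R →ₐ[S] R') (M₀ q : ℕ) (w : FT M R) :
    mp S M φ (Wa S R M M₀ q w) = Wa S R' M M₀ q (mp S M φ w) := by
  rw [mp_eq_ml, mp_eq_ml, ml_Wa]

theorem mp_ifl (φ : R →ₐ[S] R') {M₀ : ℕ} (h : M₀ ∣ M) (w : FT M₀ R) :
    mp S M φ (ifl S R h w) = ifl S R' h (mp S M₀ φ w) := by
  rw [mp_eq_ml, mp_eq_ml, ml_ifl]

theorem mp_Wb (φ : R →ₐ[S] R') (M₀ q : ℕ) (z : R) (w : FT M R) :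
    mp S M φ (Wb S R M M₀ q z w) = Wb S R' M M₀ q (φ z) (mp S M φ w) := by
  rw [mp_eq_ml, mp_eq_ml, ml_Wb φ.toLinearMap M₀ q (map_mul φ z)]

theorem mp_W1 (φ : R →ₐ[S] R') (M₀ q : ℕ) (z : R) (k : ℕ) (w : FT M R) :
    mp S M φ (W1 S R M M₀ q z k w) = W1 S R' M M₀ q (φ z) k (mp S M φ w) := by
  rw [mp_eq_ml, mp_eq_ml, ml_W1 φ.toLinearMap M₀ q (map_mul φ z)]

theorem mp_W2 (φ : R →ₐ[S] R') (M₀ q : ℕ) (z : R) (i : ℕ) (w : FT M R) :
    mp S M φ (W2 S R M M₀ q z i w) = W2 S R' M M₀ q (φ z) i (mp S M φ w) := by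
  rw [mp_eq_ml, mp_eq_ml, ml_W2 φ.toLinearMap M₀ q (map_mul φ z)]

theorem TC_mp (φ : R →ₐ[S] R') {z : R} {w : FT M R} (h : TC z w) : TC (φ z) (mp S M φ w) := by
  rw [mp_eq_ml]
  exact TC_ml φ.toLinearMap (map_mul φ z) h

theorem Od_mp (φ : R →ₐ[S] R') {w : FT M R} (h : w ∈ Od S M R) : mp S M φ w ∈ Od S M R' := by
  rw [mp_eq_ml]
  exact Od_ml _ h

/-! ### stable subspaces -/

section stab

variable {H : Set (GM M)} {χ : GM M → S} {z : S} {w : FT M R}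

theorem Eg_Uf (p : ℕ) (u : (ZMod M)ˣ) (hw : w ∈ Eg S R H χ) :
    Uf S R p u w ∈ Eg S R H χ :=
  Eg_map _ (fun h => rt_Uf h p u) hw

theorem Iv_Uf (p : ℕ) (u : (ZMod M)ˣ) (hw : w ∈ Iv S R H) :
    Uf S R p u w ∈ Iv S R H :=
  Eg_map _ (fun h => rt_Uf h p u) hw

theorem Wh_Uf (p : ℕ) (u : (ZMod M)ˣ) (hw : w ∈ Wh S R M z) :
    Uf S R p u w ∈ Wh S R M z :=
  Wh_map _ (fun h => rt_Uf h p u) hw

theorem Eg_Vf (p : ℕ) (u : (ZMod M)ˣ) (hw : w ∈ Eg S R H χ) :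
    Vf S R p u w ∈ Eg S R H χ :=
  Eg_map _ (fun h => rt_Vf h p u) hw

theorem Iv_Vf (p : ℕ) (u : (ZMod M)ˣ) (hw : w ∈ Iv S R H) :
    Vf S R p u w ∈ Iv S R H :=
  Eg_map _ (fun h => rt_Vf h p u) hw

theorem Wh_Vf (p : ℕ) (u : (ZMod M)ˣ) (hw : w ∈ Wh S R M z) :
    Vf S R p u w ∈ Wh S R M z :=
  Wh_map _ (fun h => rt_Vf h p u) hw

theorem Eg_Tf (i p : ℕ) (u : (ZMod M)ˣ) (hw : w ∈ Eg S R H χ) :
    Tf S R i p u w ∈ Eg S R H χ :=
  Eg_map _ (fun h => rt_Tf h i p u) hw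

theorem Iv_Tf (i p : ℕ) (u : (ZMod M)ˣ) (hw : w ∈ Iv S R H) :
    Tf S R i p u w ∈ Iv S R H :=
  Eg_map _ (fun h => rt_Tf h i p u) hw

theorem Wh_Tf (i p : ℕ) (u : (ZMod M)ˣ) (hw : w ∈ Wh S R M z) :
    Tf S R i p u w ∈ Wh S R M z :=
  Wh_map _ (fun h => rt_Tf h i p u) hw

theorem Eg_Sf (i p : ℕ) (u : (ZMod M)ˣ) (hw : w ∈ Eg S R H χ) :
    Sf S R i p u w ∈ Eg S R H χ :=
  Eg_map _ (fun h => rt_Sf h i p u) hw

theorem Iv_Sf (i p : ℕ) (u : (ZMod M)ˣ) (hw : w ∈ Iv S R H) :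
    Sf S R i p u w ∈ Iv S R H :=
  Eg_map _ (fun h => rt_Sf h i p u) hw

theorem Wh_Sf (i p : ℕ) (u : (ZMod M)ˣ) (hw : w ∈ Wh S R M z) :
    Sf S R i p u w ∈ Wh S R M z :=
  Wh_map _ (fun h => rt_Sf h i p u) hw

theorem Eg_ep (k : ℕ) (hw : w ∈ Eg S R H χ) :
    ep S R M k w ∈ Eg S R H χ :=
  Eg_map _ (fun h => rt_ep h k) hw

theorem Iv_ep (k : ℕ) (hw : w ∈ Iv S R H) :
    ep S R M k w ∈ Iv S R H :=
  Eg_map _ (fun h => rt_ep h k) hw

theorem Wh_ep (k : ℕ) (hw : w ∈ Wh S R M z) :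
    ep S R M k w ∈ Wh S R M z :=
  Wh_map _ (fun h => rt_ep h k) hw

theorem Eg_pw (i p : ℕ) (hw : w ∈ Eg S R H χ) :
    pw S R M i p w ∈ Eg S R H χ :=
  Eg_map _ (fun h => rt_pw h i p) hw

theorem Iv_pw (i p : ℕ) (hw : w ∈ Iv S R H) :
    pw S R M i p w ∈ Iv S R H :=
  Eg_map _ (fun h => rt_pw h i p) hw

theorem Wh_pw (i p : ℕ) (hw : w ∈ Wh S R M z) :
    pw S R M i p w ∈ Wh S R M z :=
  Wh_map _ (fun h => rt_pw h i p) hw

theorem Eg_T2 (i p : ℕ) (u : (ZMod M)ˣ) (hw : w ∈ Eg S R H χ) :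
    T2 S R i p u w ∈ Eg S R H χ :=
  Eg_map _ (fun h => rt_T2 h i p u) hw

theorem Iv_T2 (i p : ℕ) (u : (ZMod M)ˣ) (hw : w ∈ Iv S R H) :
    T2 S R i p u w ∈ Iv S R H :=
  Eg_map _ (fun h => rt_T2 h i p u) hw

theorem Wh_T2 (i p : ℕ) (u : (ZMod M)ˣ) (hw : w ∈ Wh S R M z) :
    T2 S R i p u w ∈ Wh S R M z :=
  Wh_map _ (fun h => rt_T2 h i p u) hw

theorem Eg_S2 (i p : ℕ) (u : (ZMod M)ˣ) (hw : w ∈ Eg S R H χ) :
    S2 S R i p u w ∈ Eg S R H χ :=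
  Eg_map _ (fun h => rt_S2 h i p u) hw

theorem Iv_S2 (i p : ℕ) (u : (ZMod M)ˣ) (hw : w ∈ Iv S R H) :
    S2 S R i p u w ∈ Iv S R H :=
  Eg_map _ (fun h => rt_S2 h i p u) hw

theorem Wh_S2 (i p : ℕ) (u : (ZMod M)ˣ) (hw : w ∈ Wh S R M z) :
    S2 S R i p u w ∈ Wh S R M z :=
  Wh_map _ (fun h => rt_S2 h i p u) hw

theorem Eg_dep (hw : w ∈ Eg S R H χ) :
    dep S R M w ∈ Eg S R H χ :=
  Eg_map _ (fun h => rt_dep h) hw

theorem Iv_dep (hw : w ∈ Iv S R H) :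
    dep S R M w ∈ Iv S R H :=
  Eg_map _ (fun h => rt_dep h) hw

theorem Wh_dep (hw : w ∈ Wh S R M z) :
    dep S R M w ∈ Wh S R M z :=
  Wh_map _ (fun h => rt_dep h) hw

theorem Eg_ml (φ : R →ₗ[S] R') (hw : w ∈ Eg S R H χ) : ml S M φ w ∈ Eg S R' H χ :=
  Eg_map _ (fun h w => (ml_rt φ h w).symm) hw

theorem Eg_mp (φ : R →ₐ[S] R') (hw : w ∈ Eg S R H χ) : mp S M φ w ∈ Eg S R' H χ := by
  rw [mp_eq_ml]
  exact Eg_ml _ hw

theorem Eg_sc (a : (ZMod M)ˣ) (hw : w ∈ Eg S R H χ) : rt S R (dg a a) w ∈ Eg S R H χ :=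
  Eg_map (rt S R (dg a a)).toLinearMap (fun h => rt_sc h a) hw

theorem Iv_ml (φ : R →ₗ[S] R') (hw : w ∈ Iv S R H) : ml S M φ w ∈ Iv S R' H :=
  Eg_map _ (fun h w => (ml_rt φ h w).symm) hw

theorem Iv_mp (φ : R →ₐ[S] R') (hw : w ∈ Iv S R H) : mp S M φ w ∈ Iv S R' H := by
  rw [mp_eq_ml]
  exact Iv_ml _ hw

theorem Iv_sc (a : (ZMod M)ˣ) (hw : w ∈ Iv S R H) : rt S R (dg a a) w ∈ Iv S R H :=
  Eg_map (rt S R (dg a a)).toLinearMap (fun h => rt_sc h a) hw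

theorem Wh_ml (φ : R →ₗ[S] R') (hw : w ∈ Wh S R M z) : ml S M φ w ∈ Wh S R' M z :=
  Wh_map _ (fun h w => (ml_rt φ h w).symm) hw

theorem Wh_mp (φ : R →ₐ[S] R') (hw : w ∈ Wh S R M z) : mp S M φ w ∈ Wh S R' M z := by
  rw [mp_eq_ml]
  exact Wh_ml _ hw

theorem Wh_sc (a : (ZMod M)ˣ) (hw : w ∈ Wh S R M z) : rt S R (dg a a) w ∈ Wh S R M z :=
  Wh_map (rt S R (dg a a)).toLinearMap (fun h => rt_sc h a) hw

end stab

end Vale.Agent.P022D.V
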