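import Vale.Agent.P022D.V.Spec2

/-!
# P022D, block V: group theory at `q`
-/

set_option linter.all false

open Matrix
open scoped MatrixGroups

noncomputable section

namespace Vale.Agent.P022D.V

namespace GrpP

/-- matrices modulo `M` -/
abbrev Mt (M : ℕ) : Type := Matrix (Fin 2) (Fin 2) (ZMod M)

/-- the two idempotents -/
structure Dat (M M₀ q : ℕ) (e f : ZMod M) : Prop where
  add : e + f = 1
  mul : e * f = 0
  eM : ∃ u, e = (M₀ : ZMod M) * u
  fq : ∃ v, f = (q : ZMod M) * v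
  fM : f * (M₀ : ZMod M) = 0
  eq : e * (q : ZMod M) = 0

theorem dat {M M₀ q : ℕ} (h : Sp M M₀ q) : ∃ e f, Dat M M₀ q e f := by
  obtain ⟨u, v, huv⟩ := Nat.isCoprime_iff_coprime.2 h.cop
  have h1 : (u : ZMod M) * M₀ + v * q = 1 := by
    have := congrArg (Int.cast : ℤ → ZMod M) huv
    simpa using this
  have h0 : (M₀ : ZMod M) * q = 0 := by
    rw [← Nat.cast_mul, ← h.eq, ZMod.natCast_self]
  exact ⟨M₀ * u, q * v, by linear_combination h1, by linear_combination (u * v : ZMod M) * h0,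
    ⟨_, rfl⟩, ⟨_, rfl⟩, by linear_combination (v : ZMod M) * h0,
    by linear_combination (u : ZMod M) * h0⟩

variable {M M₀ q : ℕ} {e f : ZMod M}

theorem Dat.symm (D : Dat M M₀ q e f) : Dat M q M₀ f e :=
  ⟨by rw [add_comm, D.add], by rw [mul_comm, D.mul], D.fq, D.eM, D.eq, D.fM⟩

theorem Dat.ee (D : Dat M M₀ q e f) : e * e = e := by
  linear_combination e * D.add - D.mul

theorem Dat.mu (D : Dat M M₀ q e f) {t : ZMod M} (h : f * t = 0) :
    ∃ x, t = (M₀ : ZMod M) * x := by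
  obtain ⟨u, hu⟩ := D.eM
  exact ⟨u * t, by linear_combination h - t * D.add + t * hu⟩

theorem Dat.cg (D : Dat M M₀ q e f) {x y : ZMod M} : Cg M M₀ x y ↔ f * x = f * y := by
  constructor
  · rintro ⟨t, rfl⟩
    linear_combination t * D.fM
  · intro h
    obtain ⟨t, ht⟩ := D.mu (t := x - y) (by linear_combination h)
    exact ⟨t, by linear_combination ht⟩

theorem Dat.mm (D : Dat M M₀ q e f) {x y : ZMod M} :
    (M₀ : ZMod M) * x = M₀ * y ↔ e * x = e * y := by
  obtain ⟨u, hu⟩ := D.eM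
  constructor
  · intro h
    linear_combination u * h + (x - y) * hu
  · intro h
    linear_combination (M₀ : ZMod M) * h - (M₀ : ZMod M) * (x - y) * D.add + (x - y) * D.fM

theorem Dat.kq (D : Dat M M₀ q e f) {g : GM M} : g ∈ Kq M M₀ ↔ f • (g : Mt M) = f • (1 : Mt M) := by
  constructor
  · intro h
    ext i j
    exact D.cg.1 (h i j)
  · intro h i j
    exact D.cg.2 (congrFun (congrFun h i) j)

theorem Dat.kq' (D : Dat M M₀ q e f) {g : GM M} : g ∈ Kq M M₀ ↔
    f * (g : Mt M) 0 0 = f ∧ f * (g : Mt M) 0 1 = 0 ∧ f * (g : Mt M) 1 0 = 0 ∧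
      f * (g : Mt M) 1 1 = f := by
  rw [D.kq, ← Matrix.ext_iff]
  simp [Fin.forall_fin_two, and_assoc]

theorem Dat.ext (D : Dat M M₀ q e f) {g h : GM M} (h1 : e • (g : Mt M) = e • (h : Mt M))
    (h2 : f • (g : Mt M) = f • (h : Mt M)) : g = h := by
  apply Units.ext
  rw [← one_smul (ZMod M) (g : Mt M), ← one_smul (ZMod M) (h : Mt M), ← D.add, add_smul, add_smul,
    h1, h2]

theorem Dat.kmul (D : Dat M M₀ q e f) {g h : GM M} (hg : g ∈ Kq M M₀) (hh : h ∈ Kq M M₀) :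
    g * h ∈ Kq M M₀ := by
  rw [D.kq] at hg hh ⊢
  rw [Units.val_mul, ← Matrix.smul_mul, hg, Matrix.smul_mul, Matrix.one_mul, hh]

theorem Dat.isS (D : Dat M M₀ q e f) {s : GM M} : IsS M M₀ s ↔ (s : Mt M) = !![f, e; e, f] := by
  have ee := D.ee
  have ff := D.symm.ee
  have ef := D.mul
  have h : (M₀ : ZMod M) • (s : Mt M) = (M₀ : ZMod M) • (!![0, 1; 1, 0] : Mt M) ↔
      e * (s : Mt M) 0 0 = 0 ∧ e * (s : Mt M) 0 1 = e ∧ e * (s : Mt M) 1 0 = e ∧
        e * (s : Mt M) 1 1 = 0 := by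
    rw [← Matrix.ext_iff]
    simp only [Matrix.smul_apply, smul_eq_mul, D.mm]
    simp [Fin.forall_fin_two, and_assoc]
  rw [IsS, D.kq', h]
  constructor
  · rintro ⟨⟨a, b, c, d⟩, a', b', c', d'⟩
    rw [Matrix.eta_fin_two (s : Mt M)]
    have h1 : (s : Mt M) 0 0 = f := by linear_combination a + a' - (s : Mt M) 0 0 * D.add
    have h2 : (s : Mt M) 0 1 = e := by linear_combination b + b' - (s : Mt M) 0 1 * D.add
    have h3 : (s : Mt M) 1 0 = e := by linear_combination c + c' - (s : Mt M) 1 0 * D.add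
    have h4 : (s : Mt M) 1 1 = f := by linear_combination d + d' - (s : Mt M) 1 1 * D.add
    rw [h1, h2, h3, h4]
  · intro hs
    rw [hs]
    have fe : f * e = 0 := by rw [mul_comm, ef]
    exact ⟨⟨ff, fe, fe, ff⟩, ef, ee, ee, ef⟩

theorem Dat.ss (D : Dat M M₀ q e f) : (!![f, e; e, f] : Mt M) * !![f, e; e, f] = 1 := by
  rw [Matrix.mul_fin_two, Matrix.one_fin_two]
  have h1 : f * f + e * e = 1 := by rw [D.ee, D.symm.ee, D.symm.add]
  have h2 : f * e + e * f = 0 := by rw [D.mul, D.symm.mul, add_zero]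
  rw [h1, h2, add_comm (e * f), h2, add_comm (e * e), h1]

/-- gluing of two matrices -/
def mix (D : Dat M M₀ q e f) (g h : GM M) : GM M :=
  ⟨e • (g : Mt M) + f • (h : Mt M), e • ((g⁻¹ : GM M) : Mt M) + f • ((h⁻¹ : GM M) : Mt M),
    by simp only [add_mul, mul_add, Matrix.smul_mul, Matrix.mul_smul, smul_smul, D.ee, D.symm.ee,
        D.mul, D.symm.mul, zero_smul, Units.mul_inv, add_zero, zero_add, smul_add]
       rw [← add_smul, D.add, one_smul],
    by simp only [add_mul, mul_add, Matrix.smul_mul, Matrix.mul_smul, smul_smul, D.ee, D.symm.ee,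
        D.mul, D.symm.mul, zero_smul, Units.inv_mul, add_zero, zero_add, smul_add]
       rw [← add_smul, D.add, one_smul]⟩

theorem mix_e (D : Dat M M₀ q e f) (g h : GM M) : e • (mix D g h : Mt M) = e • (g : Mt M) := by
  show e • (e • (g : Mt M) + f • (h : Mt M)) = _
  rw [smul_add, smul_smul, smul_smul, D.ee, D.mul, zero_smul, add_zero]

theorem mix_f (D : Dat M M₀ q e f) (g h : GM M) : f • (mix D g h : Mt M) = f • (h : Mt M) := by
  show f • (e • (g : Mt M) + f • (h : Mt M)) = _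
  rw [smul_add, smul_smul, smul_smul, D.symm.ee, D.symm.mul, zero_smul, zero_add]

/-- the part at `q` is a field -/
theorem Dat.inv (D : Dat M M₀ q e f) (h : Sp M M₀ q) {c : ZMod M} (hc : f * c = 0) (h0 : c ≠ 0) :
    ∃ y, c * y = e := by
  haveI : NeZero M := ⟨h.odd.pos.ne'⟩
  have hn : (c.val : ZMod M) = c := ZMod.natCast_zmod_val c
  have hd : ¬ q ∣ c.val := by
    rintro ⟨k, hk⟩
    rw [hk, Nat.cast_mul] at hn
    exact h0 (by linear_combination hc - c * D.add - e * hn + (k : ZMod M) * D.eq)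
  obtain ⟨a, b, hab⟩ := Nat.isCoprime_iff_coprime.2 (h.prime.coprime_iff_not_dvd.2 hd)
  have h1 : (a : ZMod M) * q + b * c = 1 := by
    have := congrArg (Int.cast : ℤ → ZMod M) hab
    rwa [Int.cast_add, Int.cast_mul, Int.cast_mul, Int.cast_natCast, Int.cast_natCast, hn,
      Int.cast_one] at this
  exact ⟨e * b, by linear_combination e * h1 - (a : ZMod M) * D.eq⟩

theorem Dat.rep (D : Dat M M₀ q e f) (h : Sp M M₀ q) (x : ZMod M) :
    ∃ k < q, (M₀ : ZMod M) * x = M₀ * ((k : ℕ) : ZMod M) := by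
  haveI : NeZero M := ⟨h.odd.pos.ne'⟩
  refine ⟨x.val % q, Nat.mod_lt _ h.prime.pos, D.mm.2 ?_⟩
  have h1 := congrArg (Nat.cast : ℕ → ZMod M) (Nat.mod_add_div x.val q)
  rw [Nat.cast_add, Nat.cast_mul, ZMod.natCast_zmod_val] at h1
  linear_combination -e * h1 + ((x.val / q : ℕ) : ZMod M) * D.eq

theorem un_kq (D : Dat M M₀ q e f) {t : ZMod M} (h : f * t = 0) : un t ∈ Kq M M₀ :=
  D.kq'.2 ⟨mul_one f, h, mul_zero f, mul_one f⟩

theorem dg_kq (D : Dat M M₀ q e f) {a d : (ZMod M)ˣ} (ha : f * a = f) (hd : f * d = f) :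
    dg a d ∈ Kq M M₀ := D.kq'.2 ⟨ha, mul_zero f, mul_zero f, hd⟩

theorem low (D : Dat M M₀ q e f) {s : GM M} (hs : (s : Mt M) = !![f, e; e, f]) {t : ZMod M}
    (h : f * t = 0) : ((s * un t * s : GM M) : Mt M) = !![1, 0; t, 1] := by
  rw [Units.val_mul, Units.val_mul, hs, un_coe, Matrix.mul_fin_two, Matrix.mul_fin_two]
  have ee := D.ee
  have ff := D.symm.ee
  have ef := D.mul
  have ad := D.add
  have h1 : (f * 1 + e * 0) * f + (f * t + e * 1) * e = 1 := by
    linear_combination ee + ff + ad + e * h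
  have h2 : (f * 1 + e * 0) * e + (f * t + e * 1) * f = 0 := by
    linear_combination 2 * ef + f * h
  have h3 : (e * 1 + f * 0) * f + (e * t + f * 1) * e = t := by
    linear_combination 2 * ef + t * ee + t * ad - h
  have h4 : (e * 1 + f * 0) * e + (e * t + f * 1) * f = 1 := by
    linear_combination ee + ff + ad + e * h
  rw [h1, h2, h3, h4]

theorem det_val (g : GM M) : ((Matrix.GeneralLinearGroup.det g : (ZMod M)ˣ) : ZMod M) =
    (g : Mt M) 0 0 * (g : Mt M) 1 1 - (g : Mt M) 0 1 * (g : Mt M) 1 0 := by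
  rw [Matrix.GeneralLinearGroup.val_det_apply, Matrix.det_fin_two]

theorem sl (D : Dat M M₀ q e f) (h : Sp M M₀ q) (H : Subgroup (GM M)) {s : GM M}
    (hs : IsS M M₀ s) (hH : ∀ u ∈ Uq M M₀, u ∈ H ∧ s * u * s ∈ H) :
    ∀ g ∈ Kq M M₀, Matrix.GeneralLinearGroup.det g = 1 → g ∈ H := by
  have hs' := D.isS.1 hs
  have hU : ∀ t, f * t = 0 → un t ∈ H ∧ s * un t * s ∈ H := fun t ht => by
    obtain ⟨x, rfl⟩ := D.mu ht
    exact hH _ ⟨x, rfl⟩
  have big : ∀ g ∈ Kq M M₀, Matrix.GeneralLinearGroup.det g = 1 → ∀ y, (g : Mt M) 1 0 * y = e →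
      g ∈ H := by
    intro g hg hd y hy
    obtain ⟨a, b, c, d⟩ := D.kq'.1 hg
    have hd' := det_val g
    rw [hd, Units.val_one] at hd'
    have ad := D.add
    have he : g = un (((g : Mt M) 0 0 - 1) * y) * (s * un ((g : Mt M) 1 0) * s) *
        un (((g : Mt M) 1 1 - 1) * y) := by
      apply Units.ext
      rw [Units.val_mul, Units.val_mul, low D hs' c, un_coe, un_coe, Matrix.mul_fin_two,
        Matrix.mul_fin_two]
      have h1 : 1 * 1 + ((g : Mt M) 0 0 - 1) * y * (g : Mt M) 1 0 = (g : Mt M) 0 0 := by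
        linear_combination ((g : Mt M) 0 0 - 1) * hy + ((g : Mt M) 0 0 - 1) * ad - a
      rw [h1]
      have h2 : (g : Mt M) 0 0 * (((g : Mt M) 1 1 - 1) * y) +
          (1 * 0 + ((g : Mt M) 0 0 - 1) * y * 1) * 1 = (g : Mt M) 0 1 := by
        linear_combination -y * hd' + (g : Mt M) 0 1 * hy + (g : Mt M) 0 1 * ad - b
      have h3 : (0 * 1 + 1 * (g : Mt M) 1 0) * (((g : Mt M) 1 1 - 1) * y) + (0 * 0 + 1 * 1) * 1 =
          (g : Mt M) 1 1 := by
        linear_combination ((g : Mt M) 1 1 - 1) * hy + ((g : Mt M) 1 1 - 1) * ad - d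
      rw [h2, h3]
      simp only [mul_one, mul_zero, add_zero, zero_add, one_mul]
      exact Matrix.eta_fin_two _
    rw [he]
    exact H.mul_mem (H.mul_mem (hU _ (by linear_combination y * a)).1 (hU _ c).2)
      (hU _ (by linear_combination y * d)).1
  intro g hg hd
  obtain ⟨a, b, c, d⟩ := D.kq'.1 hg
  by_cases h0 : (g : Mt M) 1 0 = 0
  · have hl := low D hs' D.symm.mul
    have hd' := det_val g
    rw [hd, Units.val_one, h0] at hd'
    have h1 : s * un e * s * g ∈ H := by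
      refine big _ (D.kmul (D.kmul (D.kmul hs.1 (un_kq D D.symm.mul)) hs.1) hg) ?_
        ((g : Mt M) 1 1) ?_
      · rw [map_mul, hd, mul_one]
        apply Units.ext
        rw [det_val, hl]
        simp
      · rw [Units.val_mul, hl, Matrix.mul_apply, Fin.sum_univ_two, h0]
        show (e * (g : Mt M) 0 0 + 1 * 0) * (g : Mt M) 1 1 = e
        linear_combination -e * hd'
    exact (H.mul_mem_cancel_left (hU e D.symm.mul).2).1 h1
  · obtain ⟨y, hy⟩ := D.inv h c h0
    exact big g hg hd y hy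

end GrpP

open GrpP

theorem grp : GRP := by
  intro M M₀ q h
  obtain ⟨e, f, D⟩ := dat h
  have ee := D.ee
  have ff := D.symm.ee
  have ef := D.mul
  have ad := D.add
  have ss : ∀ s, IsS M M₀ s → s * s = 1 := fun s hs =>
    Units.ext (by rw [Units.val_mul, D.isS.1 hs, D.ss, Units.val_one])
  refine ⟨⟨⟨_, _, D.ss, D.ss⟩, D.isS.2 rfl⟩, ?_, fun s hs => ⟨ss s hs, fun a d ha hd => ?_⟩,
    fun g hg k hk => ?_, fun g => ?_, fun H s hs hH => ⟨sl D h H hs hH, fun hd g hg => ?_⟩,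
    fun g hg => ?_, fun s hs g hg => ?_⟩
  · obtain ⟨v, hv⟩ := D.fq
    have h1 : (f * q + e) * (f * v + e) = 1 := by
      linear_combination (v + (q : ZMod M)) * ef + ee + ad - f * f * hv + (f + 1) * ff
    exact ⟨Units.mkOfMulEqOne _ _ h1, D.cg.2 (by
      show f * (f * q + e) = f * q
      linear_combination (q : ZMod M) * ff + ef), D.symm.cg.2 (by
      show e * (f * q + e) = e * 1
      linear_combination (q : ZMod M) * ef + ee)⟩
  · have ha' := D.cg.1 ha
    have hd' := D.cg.1 hd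
    apply Units.ext
    rw [Units.val_mul, Units.val_mul, D.isS.1 hs, dg_coe, dg_coe, Matrix.mul_fin_two,
      Matrix.mul_fin_two]
    simp only [mul_zero, zero_mul, add_zero, zero_add]
    rw [mul_comm (d : ZMod M) f, mul_comm (a : ZMod M) f, mul_comm (d : ZMod M) e,
      mul_comm (a : ZMod M) e, ha', hd']
  · rw [D.kq] at hg
    rw [D.symm.kq] at hk
    refine D.ext ?_ ?_
    · rw [Units.val_mul, Units.val_mul, ← Matrix.mul_smul, ← Matrix.smul_mul, hk, Matrix.mul_smul,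
        Matrix.smul_mul, Matrix.mul_one, Matrix.one_mul]
    · rw [Units.val_mul, Units.val_mul, ← Matrix.smul_mul, ← Matrix.mul_smul, hg, Matrix.mul_smul,
        Matrix.smul_mul, Matrix.mul_one, Matrix.one_mul]
  · refine ⟨mix D g 1, D.kq.2 (mix_f D g 1), mix D 1 g, D.symm.kq.2 (mix_e D 1 g), D.ext ?_ ?_⟩
    · rw [Units.val_mul, ← Matrix.smul_mul, mix_e, Units.val_one, Matrix.smul_mul, Matrix.one_mul,
        mix_e]
    · rw [Units.val_mul, ← Matrix.mul_smul, mix_f, Units.val_one, Matrix.mul_smul, Matrix.mul_one,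
        mix_f]
  · obtain ⟨a, b, c, d⟩ := D.kq'.1 hg
    let δ := Matrix.GeneralLinearGroup.det g
    have h1 : f * (δ : ZMod M) = f := by
      rw [det_val]
      linear_combination (g : Mt M) 1 1 * a + d - (g : Mt M) 1 0 * b
    have h2 : f * ((δ⁻¹ : (ZMod M)ˣ) : ZMod M) = f := by
      have h3 : (δ : ZMod M) * ((δ⁻¹ : (ZMod M)ˣ) : ZMod M) = 1 := Units.mul_inv δ
      linear_combination f * h3 - ((δ⁻¹ : (ZMod M)ˣ) : ZMod M) * h1
    have h4 : g * dg 1 δ⁻¹ ∈ H := by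
      refine sl D h H hs hH _ (D.kmul hg (dg_kq D (mul_one f) h2)) ?_
      have h5 : Matrix.GeneralLinearGroup.det (dg 1 δ⁻¹ : GM M) = δ⁻¹ := by
        apply Units.ext
        rw [det_val, dg_coe]
        simp
      rw [map_mul, h5, mul_inv_cancel]
    exact (H.mul_mem_cancel_right (hd δ⁻¹ (D.cg.2 (h2.trans (mul_one f).symm)))).1 h4
  · obtain ⟨a, b, c, d⟩ := D.kq'.1 hg.1
    have h0 : (g : Mt M) 1 0 = 0 := hg.2
    have hu : IsUnit ((g : Mt M) 0 0 * (g : Mt M) 1 1) := by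
      have h1 := det_val g
      rw [h0, mul_zero, sub_zero] at h1
      rw [← h1]
      exact Units.isUnit _
    obtain ⟨x, hx⟩ := isUnit_of_mul_isUnit_left hu
    obtain ⟨y, hy⟩ := isUnit_of_mul_isUnit_right hu
    obtain ⟨t, ht⟩ := D.mu (t := (g : Mt M) 0 1 * ((y⁻¹ : (ZMod M)ˣ) : ZMod M))
      (by linear_combination ((y⁻¹ : (ZMod M)ˣ) : ZMod M) * b)
    refine ⟨_, ⟨t, rfl⟩, x, y, D.cg.2 (by rw [hx, a, mul_one]), D.cg.2 (by rw [hy, d, mul_one]),
      Units.ext ?_⟩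
    rw [Units.val_mul, un_coe, dg_coe, Matrix.mul_fin_two, ← ht]
    simp only [mul_zero, zero_mul, add_zero, zero_add, one_mul]
    rw [Units.inv_mul_cancel_right, hx, hy, ← h0]
    exact Matrix.eta_fin_two _
  · obtain ⟨a, b, c, d⟩ := D.kq'.1 hg
    by_cases h0 : (g : Mt M) 1 0 = 0
    · exact Or.inl ⟨hg, h0⟩
    obtain ⟨y, hy⟩ := D.inv h c h0
    obtain ⟨t, ht⟩ := D.mu (t := e * (g : Mt M) 0 0 * y)
      (by linear_combination (g : Mt M) 0 0 * y * ef)
    obtain ⟨k, hk, hkt⟩ := D.rep h t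
    refine Or.inr ⟨k, hk, s * (un (-(e * (g : Mt M) 0 0 * y)) * g), ⟨D.kmul hs.1 (D.kmul
      (un_kq D (by linear_combination -(g : Mt M) 0 0 * y * ef)) hg), ?_⟩, ?_⟩
    · rw [Units.val_mul, Units.val_mul, D.isS.1 hs, un_coe, Matrix.mul_apply, Fin.sum_univ_two,
        Matrix.mul_apply, Matrix.mul_apply, Fin.sum_univ_two, Fin.sum_univ_two]
      show e * (1 * (g : Mt M) 0 0 + -(e * (g : Mt M) 0 0 * y) * (g : Mt M) 1 0) +
        f * (0 * (g : Mt M) 0 0 + 1 * (g : Mt M) 1 0) = 0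
      linear_combination c - e * e * (g : Mt M) 0 0 * hy - (e + 1) * (g : Mt M) 0 0 * ee
    · have h1 : un (e * (g : Mt M) 0 0 * y) * un (-(e * (g : Mt M) 0 0 * y)) = 1 :=
        Units.ext (un (e * (g : Mt M) 0 0 * y)).val_inv
      rw [← hkt, ← ht, mul_assoc, ← mul_assoc s s, ss s hs, one_mul, ← mul_assoc, h1, one_mul]

end Vale.Agent.P022D.V
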