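import Vale.Agent.P022D.V.Spec2

/-!
# P022D, block V: cyclicity of the Whittaker part
-/

set_option linter.all false

open Matrix
open scoped MatrixGroups

noncomputable section

namespace Vale.Agent.P022D.V

open Vale.Agent.P022 Vale.Agent.P027M.M

namespace Cyc

section formal

variable {S R : Type} [CommRing S] [CommRing R] [Algebra S R] {M M₀ q : ℕ}

theorem rt_rt (g h : GM M) (w : FT M R) : rt S R g (rt S R h w) = rt S R (g * h) w := by
  rw [map_mul]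
  rfl

theorem rt_one (w : FT M R) : rt S R 1 w = w := by
  rw [map_one]
  rfl

theorem un_mul (x y : ZMod M) : un x * un y = un (x + y) := by
  apply Units.ext
  rw [Units.val_mul, un_coe, un_coe, un_coe]
  ext i j; fin_cases i <;> fin_cases j <;> simp [Matrix.mul_apply, Fin.sum_univ_two, add_comm]

theorem mem_Iv {H : Set (GM M)} {w : FT M R} : w ∈ Iv S R H ↔ ∀ h ∈ H, rt S R h w = w :=
  forall₂_congr fun h _ => by rw [one_smul]

theorem un_Kq (x : ZMod M) : un ((M₀ : ZMod M) * x) ∈ Kq M M₀ := by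
  intro i j
  rw [un_coe]
  fin_cases i <;> fin_cases j
  exacts [⟨0, by simp⟩, ⟨x, by simp⟩, ⟨0, by simp⟩, ⟨0, by simp⟩]

theorem dg_Kq {a d : (ZMod M)ˣ} (ha : Cg M M₀ a 1) (hd : Cg M M₀ d 1) : dg a d ∈ Kq M M₀ := by
  obtain ⟨x, hx⟩ := ha
  obtain ⟨y, hy⟩ := hd
  intro i j
  rw [dg_coe]
  fin_cases i <;> fin_cases j
  exacts [⟨x, by simpa using hx⟩, ⟨0, by simp⟩, ⟨0, by simp⟩, ⟨y, by simpa using hy⟩]

theorem cg_one : Cg M M₀ ((1 : (ZMod M)ˣ) : ZMod M) 1 := ⟨0, by simp⟩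

theorem cg_inv {b : (ZMod M)ˣ} (hb : Cg M M₀ b 1) : Cg M M₀ ((b⁻¹ : (ZMod M)ˣ) : ZMod M) 1 := by
  obtain ⟨x, hx⟩ := hb
  refine ⟨-(x * (b⁻¹ : (ZMod M)ˣ)), ?_⟩
  have h := b.mul_inv
  linear_combination h - ((b⁻¹ : (ZMod M)ˣ) : ZMod M) * hx

theorem det_dg (a d : (ZMod M)ˣ) : Matrix.GeneralLinearGroup.det (dg a d) = a * d := by
  apply Units.ext
  rw [Matrix.GeneralLinearGroup.val_det_apply, dg_coe, Matrix.det_fin_two_of]
  simp

theorem nu_apply (w : FT M R) : Nu S R M M₀ q w =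
    ∑ x ∈ Finset.range q, rt S R (un ((M₀ : ZMod M) * (x : ZMod M))) w := by
  rw [Nu, LinearMap.sum_apply]
  rfl

theorem nu_inv (h : Sp M M₀ q) (w : FT M R) : Nu S R M M₀ q w ∈ Iv S R (Uq M M₀) := by
  have : NeZero M := ⟨h.odd.pos.ne'⟩
  have h0 : (M₀ : ZMod M) * q = 0 := by rw [← Nat.cast_mul, ← h.eq, ZMod.natCast_self]
  have h1 : ∀ n : ℕ, ∑ x ∈ Finset.range q,
      rt S R (un ((M₀ : ZMod M) * ((x + n : ℕ) : ZMod M))) w = Nu S R M M₀ q w := by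
    intro n
    induction n with
    | zero => exact (nu_apply w).symm
    | succ n ih =>
      have a1 := Finset.sum_range_succ'
        (fun x => rt S R (un ((M₀ : ZMod M) * ((x + n : ℕ) : ZMod M))) w) q
      rw [Finset.sum_range_succ, ih] at a1
      have a2 : (M₀ : ZMod M) * ((q + n : ℕ) : ZMod M) = M₀ * ((0 + n : ℕ) : ZMod M) := by
        push_cast
        linear_combination h0
      rw [a2] at a1
      rw [add_right_cancel a1]
      exact Finset.sum_congr rfl fun x _ => by rw [add_assoc, add_comm 1 n]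
  rw [mem_Iv]
  rintro _ ⟨y, rfl⟩
  rw [← h1 y.val, h1, nu_apply, map_sum, ← nu_apply, ← h1 y.val]
  refine Finset.sum_congr rfl fun x _ => ?_
  rw [rt_rt, un_mul]
  push_cast
  rw [ZMod.natCast_zmod_val, mul_add, add_comm]

/-- the operator which removes `q` from the exponents -/
def Ph (S R : Type) [CommRing S] [CommRing R] [Algebra S R] (M M₀ q : ℕ) (z : R) (k : ℕ)
    (s : GM M) : Module.End S (FT M R) :=
  ((q : Module.End S (FT M R)) - Nu S R M M₀ q) * (rt S R s).toLinearMap * W1 S R M M₀ q z k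

theorem ph_apply (z : R) (k : ℕ) (s : GM M) (w : FT M R) : Ph S R M M₀ q z k s w =
    q • rt S R s (W1 S R M M₀ q z k w) - Nu S R M M₀ q (rt S R s (W1 S R M M₀ q z k w)) := by
  rw [Ph, Module.End.mul_apply, Module.End.mul_apply, LinearMap.sub_apply,
    Module.End.natCast_apply]
  rfl

theorem w1_apply (z : R) (k : ℕ) (w : FT M R) :
    W1 S R M M₀ q z k w = q ^ k • Wa S R M M₀ q w + Wb S R M M₀ q z w := rfl

theorem ph_comm (hG : GRP) (h1 : WF1) (h : Sp M M₀ q) {z : R} (hz : z ^ M = 1) (k : ℕ)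
    {s : GM M} (hs : IsS M M₀ s) {w : FT M R} (hw : w ∈ Iv S R (Uq M M₀)) {g : GM M}
    (hg : g ∈ Kq M q) : rt S R g w ∈ Iv S R (Uq M M₀) ∧
      Ph S R M M₀ q z k s (rt S R g w) = rt S R g (Ph S R M M₀ q z k s w) := by
  obtain ⟨a1, a2, a3⟩ := (h1 S R M M₀ q z h hz w hw).2.2.1 g hg
  have c := (hG M M₀ q h).2.2.2.1
  refine ⟨a1, ?_⟩
  have e : W1 S R M M₀ q z k (rt S R g w) = rt S R g (W1 S R M M₀ q z k w) := by
    rw [w1_apply, w1_apply, a2, a3, map_add, map_nsmul]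
  rw [ph_apply, ph_apply, e, rt_rt, c s hs.1 g hg, ← rt_rt, map_sub, map_nsmul, nu_apply, nu_apply,
    map_sum]
  congr 1
  refine Finset.sum_congr rfl fun x _ => ?_
  rw [rt_rt, c _ (un_Kq _) g hg, ← rt_rt]

theorem ph_coeff (hT : TN) (h1 : WF1) (h : Sp M M₀ q) {z : R} (hz : PZ M z) (k : ℕ)
    {s : GM M} (hs : IsS M M₀ s) {c : (ZMod M)ˣ} (hc : IsC M M₀ q c) {w : FT M R}
    (hw : w ∈ Iv S R (Uq M M₀)) (ht : TC z (rt S R s (W1 S R M M₀ q z k w))) (d : (ZMod M)ˣ)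
    (n : ℕ) (hn : ¬ q ∣ n → (w (dg 1 (c * d))).coeff (q * n) = 0) :
    (Ph S R M M₀ q z k s w (dg 1 d)).coeff n = 0 := by
  have hd : Dq M M₀ (dg 1 d) := ⟨by simp [dg_coe], by simp [dg_coe]⟩
  obtain ⟨-, -, a1, a2⟩ := (h1 S R M M₀ q z h hz.pow w hw).1 s c _ hs hc hd
  have a3 := ((hT S R M).2 z hz _ ht).2.2.1 M₀ q h (dg 1 d) hd.2 n
  rw [ph_apply, Pi.sub_apply, map_sub, a3, Pi.smul_apply, map_nsmul, nsmul_eq_mul]
  split_ifs with hq
  · exact sub_self _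
  · rw [rt_apply, w1_apply, Pi.add_apply, Pi.smul_apply, a1, a2, smul_zero, zero_add, Uo,
      PowerSeries.coeff_mk, dg_mul, one_mul, hn hq, mul_zero, sub_zero]

theorem cancel {X : Type} [AddCommGroup X] [Module S X] {n : ℕ} (hn : IsUnit (n : S)) {x : X}
    (h : n • x = 0) : x = 0 := by
  rw [← Nat.cast_smul_eq_nsmul S] at h
  exact hn.smul_eq_zero.1 h

theorem ph_kill (hG : GRP) (hT : TN) (h1 : WF1) (h2 : WF2) (h : Sp M M₀ q) {z : R} (hz : PZ M z)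
    (hq : IsUnit (q : S)) (k : ℕ) {s : GM M} (hs : IsS M M₀ s) {w : FT M R}
    (hw : w ∈ Iv S R (Uq M M₀)) (ht : TC z w) (h0 : Ph S R M M₀ q z k s w = 0)
    {b : (ZMod M)ˣ} (hb : Cg M M₀ b 1) : rt S R (dg b 1) w = rt S R (dg 1 b) w := by
  obtain ⟨-, ⟨c, hc⟩, g3, -, -, g6, -⟩ := hG M M₀ q h
  obtain ⟨-, a2, -, a4, -⟩ := h1 S R M M₀ q z h hz.pow w hw
  have hy : W1 S R M M₀ q z k w ∈ Iv S R (Uq M M₀) :=
    add_mem (nsmul_mem a2.1 _) a2.2
  rw [ph_apply, sub_eq_zero] at h0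
  have b1 : ∀ u ∈ Uq M M₀, rt S R u (rt S R s (W1 S R M M₀ q z k w)) =
      rt S R s (W1 S R M M₀ q z k w) := by
    intro u hu
    rw [← sub_eq_zero]
    refine cancel hq ?_
    rw [smul_sub, ← map_nsmul, h0, mem_Iv.1 (nu_inv h _) u hu, sub_self]
  let H : Subgroup (GM M) :=
    { carrier := {g | rt S R g (W1 S R M M₀ q z k w) = W1 S R M M₀ q z k w}
      one_mem' := rt_one _
      mul_mem' := fun {g g'} hg hg' => by
        change rt S R (g * g') _ = _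
        rw [← rt_rt, hg', hg]
      inv_mem' := fun {g} hg => by
        change rt S R g⁻¹ _ = _
        conv_lhs => rw [← hg]
        rw [rt_rt, inv_mul_cancel, rt_one] }
  have b2 : dg b b⁻¹ ∈ H := by
    refine (g6 H s hs fun u hu => ⟨mem_Iv.1 hy u hu, ?_⟩).1 _ (dg_Kq hb (cg_inv hb))
      (by rw [det_dg, mul_inv_cancel])
    change rt S R (s * u * s) _ = _
    rw [← rt_rt, ← rt_rt, b1 u hu, rt_rt, (g3 s hs).1, rt_one]
  have b3 : Cg M M₀ ((b⁻¹ : (ZMod M)ˣ) : ZMod M) b := by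
    obtain ⟨x, hx⟩ := hb
    obtain ⟨y, hy⟩ := cg_inv (M₀ := M₀) ⟨x, hx⟩
    exact ⟨y - x, by linear_combination hy - hx⟩
  obtain ⟨c1, c2, c3⟩ := a4 b⁻¹ b b3
  have b4 : W1 S R M M₀ q z k (rt S R (dg b⁻¹ b) w - w) = 0 := by
    rw [map_sub, sub_eq_zero, w1_apply, c2, c3, ← map_nsmul, ← map_add]
    exact b2
  have b5 : TC z (rt S R (dg b⁻¹ b) w - w) := by
    intro g n
    rw [Pi.sub_apply, Pi.sub_apply, map_sub, map_sub, mul_sub, ht,
      ((hT S R M).2 z hz w ht).2.1 _ g n]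
  have b6 := ((h2 S R M M₀ q z h s c hz hs hc).1 _ (sub_mem c1 hw) b5).2.2.2.1 k
  rw [b4, map_zero] at b6
  have b7 := congrArg (rt S R (dg c c)⁻¹)
    (cancel (S := S) (by rw [Nat.cast_pow]; exact hq.pow k) b6.symm)
  rw [rt_rt, inv_mul_cancel, rt_one, map_zero, sub_eq_zero] at b7
  conv_lhs => rw [← b7]
  rw [rt_rt, dg_mul, mul_inv_cancel, one_mul]

/-- the product of the differences of the diamond operators -/
def Dl (S R : Type) [CommRing S] [CommRing R] [Algebra S R] {M : ℕ} (b : ℕ → (ZMod M)ˣ)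
    (l : List ℕ) : Module.End S (FT M R) :=
  (l.map fun q => ((rt S R (dg (b q) 1)).toLinearMap -
    (rt S R (dg 1 (b q))).toLinearMap : Module.End S (FT M R))).prod

theorem dl_cons (b : ℕ → (ZMod M)ˣ) (p : ℕ) (l : List ℕ) (w : FT M R) : Dl S R b (p :: l) w =
    rt S R (dg (b p) 1) (Dl S R b l w) - rt S R (dg 1 (b p)) (Dl S R b l w) := rfl

theorem dl_comm (hG : GRP) (h1 : WF1) (h : Sp M M₀ q) {z : R} (hz : z ^ M = 1) (k : ℕ)
    {s : GM M} (hs : IsS M M₀ s) {w : FT M R} (hw : w ∈ Iv S R (Uq M M₀)) (b : ℕ → (ZMod M)ˣ)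
    (l : List ℕ) (hl : ∀ p ∈ l, Cg M q (b p) 1) : Dl S R b l w ∈ Iv S R (Uq M M₀) ∧
      Ph S R M M₀ q z k s (Dl S R b l w) = Dl S R b l (Ph S R M M₀ q z k s w) := by
  induction l with
  | nil => exact ⟨hw, rfl⟩
  | cons p l ih =>
    obtain ⟨a1, a2⟩ := ih fun p hp => hl p (List.mem_cons_of_mem _ hp)
    have hp := hl p List.mem_cons_self
    obtain ⟨b1, b2⟩ := ph_comm hG h1 h hz k hs a1 (dg_Kq hp cg_one)
    obtain ⟨c1, c2⟩ := ph_comm hG h1 h hz k hs a1 (dg_Kq cg_one hp)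
    rw [dl_cons, dl_cons, map_sub, b2, c2, a2]
    exact ⟨sub_mem b1 c1, rfl⟩

end formal

theorem dvd_div {M p q : ℕ} (h : Sp M (M / p) p) (hq : q ∣ M) (hc : Nat.Coprime q p) :
    q ∣ M / p := hc.dvd_of_dvd_mul_right (h.eq ▸ hq)

theorem Cg.of_dvd {M N N' : ℕ} {x y : ZMod M} (h : Cg M N x y) (hd : N' ∣ N) : Cg M N' x y := by
  obtain ⟨t, ht⟩ := h
  obtain ⟨c, rfl⟩ := hd
  exact ⟨c * t, by rw [ht]; push_cast; ring⟩

variable {O : Type} [CommRing O] [Co O]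

theorem two_pow_ne (hR : ROOT O) (n : ℕ) : (2 : O) ^ n ≠ 0 := fun h => by
  have h1 := congrArg (Co.j : O →+* ℂ) h
  rw [map_pow, map_ofNat, map_zero] at h1
  exact pow_ne_zero n two_ne_zero h1

theorem nil (hI : IRR O) (hD : DIV O) (hR : ROOT O) {M i : ℕ} (hM : Odd M) (h3 : 3 ≤ M)
    {v : FT M (RD O)} (hv : v ∈ XD1 O M (i + 1)) (h0 : ∀ d, v (dg 1 d) = 0) : v = 0 := by
  obtain ⟨d1, d2, -, d4, -⟩ := hD M hM h3
  obtain ⟨n, hn⟩ := (d4 i v (Submodule.mem_sup_left hv)).1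
  obtain ⟨x, hx, rfl⟩ := ((d2 (i + 1) _ (two_pow_ne hR n)).2 v).1 ⟨hv, hn⟩
  have : x = 0 := by
    funext g
    refine hI M (i + 1) _ hM (two_pow_ne hR n) x hx.1
      (dg 1 (Matrix.GeneralLinearGroup.det g)) ?_ g (by rw [det_dg, one_mul])
    refine congrFun (d1 _ (two_pow_ne hR n) (a₁ := fun _ => x (dg 1 _)) (a₂ := 0) ?_) 1
    rw [map_zero]
    exact funext fun _ => h0 _
  rw [this, map_zero]

theorem claim (hI : IRR O) (hD : DIV O) (hW : WV O) (hV : VS3 O) (hR : ROOT O) (h1 : WF1)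
    (h2 : WF2) (hG : GRP) (hT : TN) {M i : ℕ} (hM : Odd M) (h3 : 3 ≤ M) (b : ℕ → (ZMod M)ˣ)
    (l : List ℕ) (hn : l.Nodup) (hl : ∀ q ∈ l, Sp M (M / q) q ∧ Cg M (M / q) (b q) 1)
    (v : FT M (RD O)) (hv : v ∈ XD1 O M (i + 1)) (hu : ∀ q ∈ l, v ∈ Iv O _ (Uq M (M / q)))
    (h0 : ∀ d m, Nat.Coprime m l.prod → (v (dg 1 d)).coeff (l.prod * m) = 0) :
    Dl O _ b l v = 0 := by
  have d5 := (hD M hM h3).2.2.2.2 (i + 1)
  have hz := (hR M hM).2.2.2.2.2.1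
  have tc : ∀ w ∈ XD1 O M (i + 1), TC (zD O M) w := fun w hw =>
    (hV M 2 hM (hR M hM).2.2.2.2.2.2.2.2.2).2.2.2.2.2.2.2.2.2 _ w hw.1
  induction l generalizing v with
  | nil =>
    refine nil (v := v) hI hD hR hM h3 hv fun d => PowerSeries.ext fun m => ?_
    simpa using h0 d m (by simp)
  | cons q l ih =>
    obtain ⟨hq, hb⟩ := hl q List.mem_cons_self
    have hl' := fun p hp => hl p (List.mem_cons_of_mem q hp)
    obtain ⟨hql, hn'⟩ := List.nodup_cons.1 hn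
    obtain ⟨⟨s, hs⟩, ⟨c, hc⟩, -⟩ := hG M _ q hq
    have hqM : q ∣ M := Dvd.intro_left _ hq.eq.symm
    have hdv : ∀ p ∈ l, q ∣ M / p := fun p hp => dvd_div (hl' p hp).1 hqM
      ((Nat.coprime_primes hq.prime (hl' p hp).1.prime).2 fun e => hql (e ▸ hp))
    have hvq := hu q List.mem_cons_self
    have a1 : rt O _ s (W1 O _ M (M / q) q (zD O M) (i + 1) v) ∈ XD1 O M (i + 1) :=
      d5 _ _ ((hW M _ q hq h3).2.2 _ v ⟨hv, hvq⟩)
    have a2 : Ph O _ M (M / q) q (zD O M) (i + 1) s v ∈ XD1 O M (i + 1) := by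
      rw [ph_apply, nu_apply]
      exact sub_mem (nsmul_mem a1 _) (sum_mem fun x _ => d5 _ _ a1)
    have a3 := ih hn' hl' _ a2 (fun p hp => ?_) fun d m hm => ?_
    · obtain ⟨b1, b2⟩ := dl_comm hG h1 hq hz.pow (i + 1) hs hvq b l
        fun p hp => Cg.of_dvd (hl' p hp).2 (hdv p hp)
      have b3 : ∀ l' : List ℕ, Dl O _ b l' v ∈ XD1 O M (i + 1) := by
        intro l'
        induction l' with
        | nil => exact hv
        | cons p l' ih' => exact sub_mem (d5 _ _ ih') (d5 _ _ ih')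
      have b4 : IsUnit (q : O) := by
        obtain ⟨e, he⟩ := hqM
        exact isUnit_of_dvd_unit ⟨e, by rw [← Nat.cast_mul, ← he]⟩ (hR M hM).2.2.2.1
      rw [dl_cons, sub_eq_zero]
      exact ph_kill hG hT h1 h2 hq hz b4 (i + 1) hs b1 (tc _ (b3 l)) (b2.trans a3) hb
    · rw [mem_Iv]
      rintro _ ⟨x, rfl⟩
      obtain ⟨e, he⟩ := hdv p hp
      have c1 : un (((M / p : ℕ) : ZMod M) * x) ∈ Kq M q := by
        rw [he, Nat.cast_mul, mul_assoc]
        exact un_Kq _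
      rw [← (ph_comm hG h1 hq hz.pow (i + 1) hs hvq c1).2,
        mem_Iv.1 (hu p (List.mem_cons_of_mem q hp)) _ ⟨x, rfl⟩]
    · refine ph_coeff hT h1 hq hz (i + 1) hs hc hvq (tc _ a1) d _ fun hnd => ?_
      have c2 := h0 (c * d) m (by
        rw [List.prod_cons]
        exact Nat.Coprime.mul_right ((hq.prime.coprime_iff_not_dvd.2
          fun e => hnd (e.mul_left _)).symm) hm)
      rwa [List.prod_cons, mul_assoc] at c2

theorem ze_pw {N Q : ℕ} (hN : N ≠ 0) (hQ : Q ≠ 0) : ze (N * Q) 1 ^ Q = ze N 1 := by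
  have h1 : (N : ℂ) ≠ 0 := by exact_mod_cast hN
  have h2 : (Q : ℂ) ≠ 0 := by exact_mod_cast hQ
  rw [ze, ze, ← Complex.exp_nat_mul]
  congr 1
  push_cast
  field_simp

theorem sp_of {M N : ℕ} {l : List ℕ} (hM : Odd M) (e : M = N * l.prod) (hn : l.Nodup)
    (hl : ∀ q ∈ l, q.Prime ∧ ¬ q ∣ N) {q : ℕ} (hq : q ∈ l) : Sp M (M / q) q ∧ N ∣ M / q := by
  have h1 : M / q = N * (l.erase q).prod := by
    rw [e, ← List.prod_erase hq, mul_left_comm, Nat.mul_div_cancel_left _ (hl q hq).1.pos]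
  refine ⟨⟨?_, ?_, (hl q hq).1, hM⟩, ⟨_, h1⟩⟩
  · rw [h1, e, mul_assoc, mul_comm _ q, List.prod_erase hq]
  · rw [h1]
    refine Nat.Coprime.mul_left ((hl q hq).1.coprime_iff_not_dvd.2 (hl q hq).2).symm ?_
    refine Nat.coprime_list_prod_left_iff.2 fun p hp => ?_
    obtain ⟨a1, a2⟩ := (hn.mem_erase_iff).1 hp
    exact (Nat.coprime_primes (hl p a2).1 (hl q hq).1).2 a1

end Cyc

open Cyc in
theorem cyc (O : Type) [CommRing O] [Co O] (hI : IRR O) (hD : DIV O) (hW : WV O) (hV : VS3 O)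
    (hR : ROOT O) (h1 : WF1) (h2 : WF2) (hG : GRP) (hT : TN) : CYC O := by
  intro M N i l z hM h3 e hn hl hz v hv h0 b hb
  have : NeZero M := ⟨hM.pos.ne'⟩
  have hQ : l.prod ≠ 0 := fun h => hM.pos.ne' (by rw [e, h, mul_zero])
  have hN : N ≠ 0 := by omega
  have h3' : 3 ≤ M := h3.trans (Nat.le_of_dvd hM.pos ⟨_, e⟩)
  obtain ⟨r1, r2, -, -, -, r6, -, -, -, r10⟩ := hR M hM
  have z1 : algebraMap O (AA O) z = zA O M ^ l.prod := av_inj (by
    rw [av_alg, map_pow, r1, hz, e, ze_pw hN hQ])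
  have z2 : z ^ N = 1 := Co.inj (by
    rw [map_pow, ← av_alg, z1, ← map_pow, ← pow_mul, mul_comm, ← e, r2.pow, map_one, map_one])
  have tc : TC (zD O M) v := (hV M 2 hM r10).2.2.2.2.2.2.2.2.2 _ v hv.1.1
  refine claim hI hD hW hV hR h1 h2 hG hT hM h3' b l hn
    (fun q hq => ⟨(sp_of hM e hn hl hq).1, hb q hq⟩) v hv.1 (fun q hq => ?_) fun d m hm => ?_
  · rw [mem_Iv]
    rintro _ ⟨x, rfl⟩
    obtain ⟨c, hc⟩ := (sp_of hM e hn hl hq).2
    have a1 := hv.2 (M / q * x.val)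
    rwa [Nat.cast_mul, ZMod.natCast_zmod_val, hc, mul_assoc, pow_mul, z2, one_pow, one_smul,
      ← hc] at a1
  · rcases Nat.even_or_odd m with hev | hod
    · exact hv.1.2 _ _ (hev.mul_left _)
    by_contra hne
    have a1 : ((l.prod * m : ℕ) : ZMod M) * (1 : (ZMod M)ˣ) = (l.prod : ℕ) * d := by
      by_contra a0
      exact hne (((hT O _ M).2 _ r6 v tc).2.2.2 N l.prod z e
        (by rw [alg_RD, z1, map_pow]; rfl) hv.2 1 d _ a0)
    have a2 : m ≡ (d : ZMod M).val [MOD N] := by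
      rw [Units.val_one, mul_one, ← ZMod.natCast_zmod_val (d : ZMod M), ← Nat.cast_mul,
        ZMod.natCast_eq_natCast_iff] at a1
      refine Nat.ModEq.mul_left_cancel' hQ ?_
      rwa [mul_comm _ N, ← e]
    have a3 : Nat.Coprime m M := by
      have a4 : Nat.Coprime (d : ZMod M).val N :=
        (ZMod.val_coe_unit_coprime d).coprime_dvd_right ⟨_, e⟩
      rw [e]
      exact Nat.Coprime.mul_right (by rw [Nat.Coprime, a2.gcd_eq]; exact a4) hm
    let u := ZMod.unitOfCoprime m a3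
    have a5 : Cg M N ((u⁻¹ * d : (ZMod M)ˣ) : ZMod M) 1 := by
      obtain ⟨t, ht⟩ := a2.dvd
      have a6 := congrArg (Int.cast : ℤ → ZMod M) ht
      push_cast at a6
      rw [ZMod.natCast_zmod_val] at a6
      have a7 : ((u⁻¹ : (ZMod M)ˣ) : ZMod M) * m = 1 := u.inv_mul
      exact ⟨(u⁻¹ : (ZMod M)ˣ) * t, by
        rw [Units.val_mul]; linear_combination a7 + ((u⁻¹ : (ZMod M)ˣ) : ZMod M) * a6⟩
    obtain ⟨t, t1, t2⟩ := (hT O (RD O) M).1 i m u hod rfl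
    have a8 := h0 (t * (rt O _ (dg 1 (u⁻¹ * d))).toLinearMap) (mul_mem
      (Algebra.adjoin_mono (by
        rintro _ ⟨p, u', p1, p2, -, p3, p4⟩
        exact Or.inl ⟨p, u', p1, p2, p3, p4⟩) t1)
      (Algebra.subset_adjoin (Or.inr ⟨1, _, cg_one, a5, rfl⟩)))
    rw [Module.End.mul_apply, t2 _ _ _ hm.symm, mul_one, AlgHom.toLinearMap_apply, rt_apply,
      dg_mul, one_mul, mul_inv_cancel_left, mul_comm] at a8
    exact hne a8

end Vale.Agent.P022D.V
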