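import Vale.Agent.P022D.V.Hk0

/-!
# P022D, block V: the Hecke operators preserve the lattices
-/

set_option autoImplicit false
set_option linter.all false

open UpperHalfPlane hiding I
open Matrix Filter Topology Function.Periodic
open scoped MatrixGroups Manifold ModularForm

noncomputable section

namespace Vale.Agent.P022D.V.Hk

open Vale.Agent.P022 Vale.Agent.P022.H218.L3 Vale.Agent.P027M.M Vale.Agent.P022D.V.Tr

variable {O : Type} [CommRing O] [Co O] {M : ℕ}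

open Classical in
/-- the class of an integral matrix -/
def rm (M : ℕ) (α : M2) : GM M :=
  if h : IsUnit (α.map (Int.cast : ℤ → ZMod M)) then h.unit else 1

theorem rm_eq {α : M2} {g : GM M}
    (h : (g : Matrix (Fin 2) (Fin 2) (ZMod M)) = α.map (Int.cast : ℤ → ZMod M)) : rm M α = g := by
  have hu : IsUnit (α.map (Int.cast : ℤ → ZMod M)) := h ▸ g.isUnit
  rw [rm, dif_pos hu]
  exact Units.ext (by rw [IsUnit.unit_spec, h])

theorem rm_coe {α : M2} (h : IsUnit ((α.det : ℤ) : ZMod M)) :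
    (rm M α : Matrix (Fin 2) (Fin 2) (ZMod M)) = α.map (Int.cast : ℤ → ZMod M) := by
  have hu : IsUnit (α.map (Int.cast : ℤ → ZMod M)) := by
    rw [Matrix.isUnit_iff_isUnit_det, det_map]; exact h
  rw [rm, dif_pos hu, IsUnit.unit_spec]

theorem rd_coe (γ : SL(2, ℤ)) : (rd M γ : Matrix (Fin 2) (Fin 2) (ZMod M)) =
    (γ : M2).map (Int.cast : ℤ → ZMod M) := rfl

/-- the representatives -/
def bt (M p : ℕ) : Option (Fin p) → M2
  | none => !![(p : ℤ), 0; 0, 1]
  | some y => !![1, ((M * y : ℕ) : ℤ); 0, (p : ℤ)]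

theorem bt_det (M p : ℕ) (i : Option (Fin p)) : (bt M p i).det = p := by
  cases i <;> simp [bt, Matrix.det_fin_two]

theorem bt_ex {p : ℕ} (hp : p.Prime) (hM : Nat.Coprime M p) {α : M2} (h : α.det = p) :
    ∃ (i : Option (Fin p)) (γ : SL(2, ℤ)), α = (γ : M2) * bt M p i := by
  have : Fact p.Prime := ⟨hp⟩
  have hp0 : (p : ℤ) ≠ 0 := by exact_mod_cast hp.ne_zero
  rw [Matrix.det_fin_two] at h
  by_cases hh : (p : ℤ) ∣ α 0 0 ∧ (p : ℤ) ∣ α 1 0
  · obtain ⟨⟨u, hu⟩, ⟨v, hv⟩⟩ := hh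
    refine ⟨none, ⟨!![u, α 0 1; v, α 1 1], ?_⟩, ?_⟩
    · rw [Matrix.det_fin_two_of]
      apply mul_left_cancel₀ hp0
      rw [hu, hv] at h
      linear_combination h
    · ext i j
      fin_cases i <;> fin_cases j <;> simp [bt, Matrix.mul_apply, Fin.sum_univ_two, hu, hv, mul_comm]
  · have hM0 : (M : ZMod p) ≠ 0 := by
      rw [Ne, ZMod.natCast_eq_zero_iff]
      exact (Nat.Prime.coprime_iff_not_dvd hp).1 hM.symm
    have hd : ((α 0 0 : ℤ) : ZMod p) * α 1 1 - α 0 1 * α 1 0 = 0 := by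
      have := congrArg (fun x : ℤ => (x : ZMod p)) h
      simpa using this
    obtain ⟨t, h1, h2⟩ : ∃ t : ZMod p, ((α 0 1 : ℤ) : ZMod p) = α 0 0 * t ∧
        ((α 1 1 : ℤ) : ZMod p) = α 1 0 * t := by
      by_cases h0 : ((α 0 0 : ℤ) : ZMod p) = 0
      · have h1 : ((α 1 0 : ℤ) : ZMod p) ≠ 0 := fun h1 =>
          hh ⟨(ZMod.intCast_zmod_eq_zero_iff_dvd _ p).1 h0,
            (ZMod.intCast_zmod_eq_zero_iff_dvd _ p).1 h1⟩
        refine ⟨α 1 1 / α 1 0, ?_, by field_simp⟩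
        rw [h0] at hd ⊢
        rw [zero_mul] at hd ⊢
        exact (mul_eq_zero.1 (neg_eq_zero.1 ((zero_sub _).symm.trans hd))).resolve_right h1
      · refine ⟨α 0 1 / α 0 0, by field_simp, ?_⟩
        field_simp
        linear_combination hd
    have e : (((M * (t / M).val : ℕ) : ℤ) : ZMod p) = t := by
      push_cast
      rw [ZMod.natCast_zmod_val]
      field_simp
    obtain ⟨u, hu⟩ : (p : ℤ) ∣ α 0 1 - α 0 0 * ((M * (t / M).val : ℕ) : ℤ) := by
      rw [← ZMod.intCast_zmod_eq_zero_iff_dvd, Int.cast_sub, Int.cast_mul, e, h1, sub_self]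
    obtain ⟨v, hv⟩ : (p : ℤ) ∣ α 1 1 - α 1 0 * ((M * (t / M).val : ℕ) : ℤ) := by
      rw [← ZMod.intCast_zmod_eq_zero_iff_dvd, Int.cast_sub, Int.cast_mul, e, h2, sub_self]
    refine ⟨some ⟨(t / M).val, ZMod.val_lt _⟩, ⟨!![α 0 0, u; α 1 0, v], ?_⟩, ?_⟩
    · rw [Matrix.det_fin_two_of]
      apply mul_left_cancel₀ hp0
      linear_combination h - α 0 0 * hv + α 1 0 * hu
    · push_cast at hu hv
      ext i j
      fin_cases i <;> fin_cases j <;>
        simp [bt, Matrix.mul_apply, Fin.sum_univ_two, -ZMod.natCast_val]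
      · linear_combination hu
      · linear_combination hv

theorem bt_uniq {p : ℕ} (hp : p.Prime) (hM : Nat.Coprime M p) {i j : Option (Fin p)}
    {γ : SL(2, ℤ)} (h : bt M p i = (γ : M2) * bt M p j) : i = j := by
  have h1 : ∀ x : ℤ, (1 : ℤ) ≠ x * p := fun x e =>
    hp.one_lt.ne' (by exact_mod_cast Int.eq_one_of_mul_eq_one_left (Int.natCast_nonneg p) e.symm)
  have h00 := congrFun (congrFun h 0) 0
  have h01 := congrFun (congrFun h 0) 1
  have h10 := congrFun (congrFun h 1) 0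
  have h11 := congrFun (congrFun h 1) 1
  rcases i with _ | i <;> rcases j with _ | j <;>
    simp only [bt, Matrix.mul_apply, Fin.sum_univ_two, of_apply, cons_val', cons_val_zero,
      cons_val_one, cons_val_fin_one, mul_zero, add_zero, mul_one, zero_add] at h00 h01 h10 h11
  · rfl
  · rw [← h10, zero_mul, zero_add] at h11
    exact absurd h11 (h1 _)
  · exact absurd h00 (h1 _)
  · rw [← h00, one_mul] at h01
    have h2 : (p : ℤ) ∣ M * ((j : ℕ) - (i : ℕ) : ℤ) := ⟨-γ 0 1, by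
      push_cast at h01; linear_combination -h01⟩
    have h3 : (i : ℕ) ≡ (j : ℕ) [MOD p] := Nat.modEq_iff_dvd.2
      ((Nat.isCoprime_iff_coprime.2 hM.symm).dvd_of_dvd_mul_left h2)
    exact congrArg some (Fin.ext (Nat.ModEq.eq_of_lt_of_lt h3 i.2 j.2))

theorem bt_sum {p : ℕ} (hp : p.Prime) (hM : Nat.Coprime M p) {X : Type} [AddCommMonoid X]
    (Φ : M2 → X) (hΦ : ∀ (γ : SL(2, ℤ)) (α : M2), α.det = p → Φ ((γ : M2) * α) = Φ α)
    (γ : SL(2, ℤ)) : ∑ i, Φ (bt M p i * (γ : M2)) = ∑ i, Φ (bt M p i) := by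
  have ex : ∀ i, ∃ (j : Option (Fin p)) (δ : SL(2, ℤ)), bt M p i * (γ : M2) = (δ : M2) * bt M p j :=
    fun i => bt_ex hp hM (by rw [Matrix.det_mul, bt_det, γ.det_coe, mul_one])
  choose j δ hj using ex
  have inj : Function.Injective j := by
    intro i i' e
    refine bt_uniq hp hM (γ := δ i * (δ i')⁻¹) ?_
    have h1 : (γ : M2) * ((γ⁻¹ : SL(2, ℤ)) : M2) = 1 :=
      (congrArg (fun x : SL(2, ℤ) => (x : M2)) (mul_inv_cancel γ))
    have h2 : (((δ i')⁻¹ : SL(2, ℤ)) : M2) * (δ i' : M2) = 1 :=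
      (congrArg (fun x : SL(2, ℤ) => (x : M2)) (inv_mul_cancel (δ i')))
    change _ = (δ i : M2) * (((δ i')⁻¹ : SL(2, ℤ)) : M2) * _
    rw [← mul_one (bt M p i'), ← h1, ← mul_assoc (bt M p i'), hj i',
      ← e, ← mul_assoc, ← mul_assoc, mul_assoc (δ i : M2), h2, mul_one,
      ← hj i, mul_assoc, h1, mul_one]
  exact Fintype.sum_bijective j (Finite.injective_iff_bijective.1 inj) _ _ fun i => by
    rw [hj, hΦ _ _ (bt_det _ _ _)]

theorem map_Uo {R S : Type} [CommRing R] [CommRing S] (φ : R →+* S) (p : ℕ) (s : PowerSeries R) :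
    (Uo p s).map φ = Uo p (s.map φ) := by
  ext n
  simp [Uo]

/-- the sum over the translates -/
theorem hs_U (k : ℤ) {p : ℕ} (hp : p ≠ 0) (hM : 0 < M) {s : PowerSeries ℂ} {f : ℍ → ℂ}
    (h : HS M s f) : HS M (Uo p s) (∑ y : Fin p, f ∣[k] gR (bt M p (some y))) := by
  intro τ
  have hp' : (p : ℂ) ≠ 0 := by exact_mod_cast hp
  have h1 := hasSum_sum (s := Finset.univ) fun (y : Fin p) _ => sum_U k hp hM h (M * y) τ
  have hz : ze (M * p) 1 ^ M = ze p 1 := by
    rw [mul_comm]; exact ze_pow hM.ne' (Nat.pos_of_ne_zero hp)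
  have pr := ze_prim (Nat.pos_of_ne_zero hp)
  have h2 : HasSum (fun n => ((p : ℂ)⁻¹ * s.coeff n * ∑ y ∈ Finset.range p, (ze p 1 ^ n) ^ y) *
      qParam (M * p : ℕ) τ ^ n) (∑ y : Fin p, (f ∣[k] gR (bt M p (some y))) τ) :=
    h1.congr_fun fun n => by
      rw [Finset.sum_range, Finset.mul_sum, Finset.sum_mul]
      refine Finset.sum_congr rfl fun y _ => ?_
      rw [mul_assoc M, pow_mul _ M, hz, ← pow_mul, mul_comm n]
  have h3 := hs_sub hp h2 fun n hn => by
    have h4 := mul_geom_sum (ze p 1 ^ n) p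
    rw [← pow_mul, mul_comm n p, pow_mul, pr.pow_eq_one, one_pow, sub_self] at h4
    rw [(mul_eq_zero.1 h4).resolve_left fun e =>
      hn ((pr.pow_eq_one_iff_dvd n).1 (sub_eq_zero.1 e)), mul_zero]
  rw [q_pow hp hM] at h3
  rw [Finset.sum_apply]
  refine h3.congr_fun fun m => ?_
  rw [pow_mul, pr.pow_eq_one, Uo, PowerSeries.coeff_mk]
  simp only [one_pow, Finset.sum_const, Finset.card_range, nsmul_eq_mul, mul_one]
  field_simp

theorem hol_sum {ι : Type} [Fintype ι] {f : ι → ℍ → ℂ} (h : ∀ i, f i ∈ Hol) : ∑ i, f i ∈ Hol :=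
  Hol.sum_mem fun i _ => h i

end Hk

open Vale.Agent.P022 Vale.Agent.P022.H218.L3 Vale.Agent.P027M.M Vale.Agent.P022D.V.Tr Hk

theorem Tf_apply1 {M : ℕ} {S R : Type} [CommRing S] [CommRing R] [Algebra S R] (i p : ℕ)
    (u : (ZMod M)ˣ) (w : FT M R) (g : GM M) :
    Tf S R i p u w g = Uo p (w (dg 1 u * g)) + (p ^ i : ℕ) • Vo p (w (dg u 1 * g)) := rfl

/-- **the Hecke operators preserve the lattices** -/
theorem hk (O : Type) [CommRing O] [Co O] : HK O := by
  intro M i p u hM hp hu w hw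
  obtain ⟨⟨F, h1, h2⟩, h3⟩ := hw
  have hM0 : 0 < M := hM.pos
  have hc : Nat.Coprime M p := by
    rw [Nat.coprime_comm, ← ZMod.isUnit_iff_coprime, ← hu]; exact u.isUnit
  have hp0 : (p : ℤ) ≠ 0 := by exact_mod_cast hp.ne_zero
  have hun : ∀ α : M2, α.det = p → IsUnit ((α.det : ℤ) : ZMod M) := fun α h => by
    rw [h, Int.cast_natCast, ← hu]; exact u.isUnit
  have r0 : rm M (bt M p none) = dg u 1 := rm_eq (by
    rw [dg_coe, hu]; ext a b; fin_cases a <;> fin_cases b <;> simp [bt])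
  have r1 : ∀ y, rm M (bt M p (some y)) = dg 1 u := fun y => rm_eq (by
    rw [dg_coe, hu]; ext a b; fin_cases a <;> fin_cases b <;> simp [bt])
  have hs : ∀ g, HS M ((Tf O (AA O) i p u w g).map (av O))
      (∑ j, F (rm M (bt M p j) * g) ∣[((i + 1 : ℕ) : ℤ)] gR (bt M p j)) := by
    intro g
    rw [Fintype.sum_option, Tf_apply1, map_add, map_nsmul, map_Uo, map_Vo, add_comm]
    simp only [r0, r1]
    refine hs_add ?_ (hs_U _ hp.ne_zero hM0 (h2 _))
    have := hs_V ((i + 1 : ℕ) : ℤ) hp.ne_zero (h2 (dg u 1 * g))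
    rwa [Nat.cast_add, Nat.cast_one, add_sub_cancel_right, zpow_natCast, ← Nat.cast_pow,
      Nat.cast_smul_eq_nsmul, ← Nat.cast_one (R := ℤ), ← Nat.cast_add, Nat.cast_one] at this
  refine ⟨⟨_, mk_tp hM0 (fun g => hol_sum fun j => sl_hol (h1.bdd _).1 _ _) (fun γ g => ?_)
    fun g => ⟨_, hs g⟩, hs⟩, gal_iff.2 fun σ hσ a ha g => ?_⟩
  · rw [← bt_sum hp hc (fun α => F (rm M α * g) ∣[((i + 1 : ℕ) : ℤ)] gR α) (fun δ α hα => by
      rw [sl_left _ _ (by rw [hα]; exact hp0), rm_eq (g := rd M δ * rm M α) (by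
        rw [Units.val_mul, rm_coe (hun α hα), rd_coe, map_mul']), mul_assoc, h1.eqv]) γ,
      SlashAction.sum_slash]
    refine Finset.sum_congr rfl fun j _ => ?_
    rw [sl_right _ _ (by rw [bt_det]; exact hp0), rm_eq (α := bt M p j * γ)
      (g := rm M (bt M p j) * rd M γ) (by
        rw [Units.val_mul, rm_coe (hun _ (bt_det _ _ _)), rd_coe, map_mul']), mul_assoc]
  · rw [Tf_apply1, Tf_apply1, map_add, map_add, map_nsmul, map_nsmul, map_Uo, map_Uo, map_Vo, map_Vo,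
      ← mul_assoc, ← mul_assoc, dg_comm 1 u 1 a, dg_comm u 1 1 a, mul_assoc, mul_assoc,
      gal_iff.1 h3 σ hσ a ha, gal_iff.1 h3 σ hσ a ha]

end Vale.Agent.P022D.V
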