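import Vale.Agent.P022D.V.Spec2
import Vale.Agent.P022D.V.TrV

/-!
# P022D, block V: the operator `W` on the reductions, the lemma of Ihara
-/

set_option linter.all false

open Matrix
open scoped MatrixGroups

noncomputable section

namespace Vale.Agent.P022D.V

open Tr

namespace Ih

section formal

variable {M : ℕ} {S R R' : Type} [CommRing S] [CommRing R] [Algebra S R] [CommRing R']
  [Algebra S R']

theorem ml_rt (φ : R →ₗ[S] R') (h : GM M) (w : FT M R) :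
    ml S M φ (rt S R h w) = rt S R' h (ml S M φ w) := rfl

theorem ml_Vo (φ : R →ₗ[S] R') (p : ℕ) (w : FT M R) (g : GM M) (n : ℕ) :
    φ ((Vo p (w g)).coeff n) = (Vo p (ml S M φ w g)).coeff n := by
  simp only [Vo, PowerSeries.coeff_mk, ml_coeff]
  split_ifs
  · rfl
  · exact map_zero φ

theorem ml_Wa (φ : R →ₗ[S] R') (M₀ q : ℕ) (w : FT M R) :
    ml S M φ (Wa S R M M₀ q w) = Wa S R' M M₀ q (ml S M φ w) := by
  ext g n
  rw [ml_coeff]
  simp only [Wa, LinearMap.coe_mk, AddHom.coe_mk]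
  split_ifs
  · exact ml_Vo φ q w _ n
  · simp

theorem ml_Wb (φ : R →ₗ[S] R') {z : R} {z' : R'} (hz : ∀ (m : ℕ) y, φ (z ^ m * y) = z' ^ m * φ y)
    (M₀ q : ℕ) (w : FT M R) :
    ml S M φ (Wb S R M M₀ q z w) = Wb S R' M M₀ q z' (ml S M φ w) := by
  ext g n
  rw [ml_coeff]
  simp only [Wb, LinearMap.coe_mk, AddHom.coe_mk]
  split_ifs
  · simp
  · simp only [PowerSeries.coeff_mk, hz, ml_coeff]

theorem ml_W1 (φ : R →ₗ[S] R') {z : R} {z' : R'} (hz : ∀ (m : ℕ) y, φ (z ^ m * y) = z' ^ m * φ y)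
    (M₀ q k : ℕ) (w : FT M R) :
    ml S M φ (W1 S R M M₀ q z k w) = W1 S R' M M₀ q z' k (ml S M φ w) := by
  simp only [W1, LinearMap.add_apply, LinearMap.smul_apply, map_add, map_nsmul, ml_Wa,
    ml_Wb φ hz]

theorem ml_ep (φ : R →ₗ[S] R') (k : ℕ) (w : FT M R) :
    ml S M φ (ep S R M k w) = ep S R' M k (ml S M φ w) := by
  simp only [ep, LinearMap.smul_apply, AlgHom.toLinearMap_apply, map_zsmul, ml_rt]

theorem ml_W2 (φ : R →ₗ[S] R') {z : R} {z' : R'} (hz : ∀ (m : ℕ) y, φ (z ^ m * y) = z' ^ m * φ y)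
    (M₀ q i : ℕ) (w : FT M R) :
    ml S M φ (W2 S R M M₀ q z i w) = W2 S R' M M₀ q z' i (ml S M φ w) := by
  simp only [W2, pw, LinearMap.add_apply, LinearMap.smul_apply, LinearMap.sub_apply,
    Module.End.mul_apply, Module.End.one_apply, map_add, map_sub, map_nsmul, ml_Wa,
    ml_Wb φ hz, ml_ep]

theorem ml_Tf (φ : R →ₗ[S] R') (i p : ℕ) (u : (ZMod M)ˣ) (w : FT M R) :
    ml S M φ (Tf S R i p u w) = Tf S R' i p u (ml S M φ w) := by
  have h1 : ml S M φ (Uf S R p u w) = Uf S R' p u (ml S M φ w) := by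
    ext g n
    simp [Uf, Uo, ml_coeff]
  have h2 : ml S M φ (Vf S R p u w) = Vf S R' p u (ml S M φ w) := by
    ext g n
    rw [ml_coeff]
    exact ml_Vo φ p w _ n
  simp only [Tf, LinearMap.add_apply, LinearMap.smul_apply, map_add, map_nsmul, h1, h2]

theorem ep_ep (k : ℕ) (w : FT M R) : ep S R M k (ep S R M k w) = w := by
  simp only [ep, LinearMap.smul_apply, AlgHom.toLinearMap_apply, map_zsmul, smul_smul]
  rw [← mul_pow, ← AlgHom.mul_apply, ← map_mul, dg_mul]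
  simp [dg_one]

theorem ep_Od (k : ℕ) {w : FT M R} (h : w ∈ Od S M R) : ep S R M k w ∈ Od S M R := by
  rw [ep, LinearMap.smul_apply]
  exact zsmul_mem (show rt S R _ w ∈ Od S M R from fun g n hn => h _ n hn) _

theorem Uf_Vf {p : ℕ} (hp : p ≠ 0) (u : (ZMod M)ˣ) (w : FT M R) :
    Uf S R p u (Vf S R p u w) = rt S R (dg u u) w := by
  ext g n
  simp only [Uf, Vf, Uo, Vo, LinearMap.coe_mk, AddHom.coe_mk, PowerSeries.coeff_mk, rt_apply,
    dvd_mul_right, if_true, Nat.mul_div_cancel_left n (Nat.pos_of_ne_zero hp)]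
  rw [← mul_assoc, dg_mul, mul_one, one_mul, dg_center]

theorem Vf_inj {p : ℕ} (hp : p ≠ 0) (u : (ZMod M)ˣ) {w : FT M R} (h : Vf S R p u w = 0) :
    w = 0 := by
  have h1 := Uf_Vf (S := S) hp u w
  rw [h, map_zero] at h1
  ext1 g
  have h2 := congrFun h1 (g * (dg u u)⁻¹)
  rw [rt_apply, inv_mul_cancel_right] at h2
  exact h2.symm

theorem un_mul (x y : ZMod M) : (un x : GM M) * un y = un (x + y) := by
  apply Units.ext
  rw [Units.val_mul, un_coe, un_coe, un_coe]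
  ext i j; fin_cases i <;> fin_cases j <;> simp [Matrix.mul_apply, Fin.sum_univ_two, add_comm]

theorem un_zero : (un 0 : GM M) = 1 := by
  apply Units.ext
  rw [un_coe]
  ext i j; fin_cases i <;> fin_cases j <;> simp

/-- the unipotent subgroup at `q` -/
def UqS (M M₀ : ℕ) : Subgroup (GM M) where
  carrier := Uq M M₀
  one_mem' := ⟨0, by simp only [mul_zero, un_zero]⟩
  mul_mem' := by
    rintro _ _ ⟨x, rfl⟩ ⟨y, rfl⟩
    exact ⟨x + y, by simp only [un_mul, mul_add]⟩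
  inv_mem' := by
    rintro _ ⟨x, rfl⟩
    refine ⟨-x, eq_inv_of_mul_eq_one_left ?_⟩
    simp only [un_mul, mul_neg, neg_add_cancel, un_zero]

theorem neg_notMem (hM : 3 ≤ M) (M₀ : ℕ) : dg (-1) (-1) ∉ UqS M M₀ := by
  rintro ⟨x, hx⟩
  have h := congrArg (fun g : GM M => (g : Matrix (Fin 2) (Fin 2) (ZMod M)) 0 0) hx
  simp only [un_coe, dg_coe, Matrix.of_apply, Matrix.cons_val', Matrix.cons_val_zero,
    Units.val_neg, Units.val_one, Matrix.cons_val_fin_one] at h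
  have h2 : ((2 : ℕ) : ZMod M) = 0 := by
    push_cast
    linear_combination h
  have := Nat.le_of_dvd two_pos ((ZMod.natCast_eq_zero_iff 2 M).1 h2)
  omega

theorem Uq_le (M₀ : ℕ) : Uq M M₀ ⊆ Kq M M₀ := by
  rintro _ ⟨x, rfl⟩ i j
  simp only [un_coe]
  fin_cases i <;> fin_cases j
  · exact ⟨0, by simp⟩
  · exact ⟨x, by simp⟩
  · exact ⟨0, by simp⟩
  · exact ⟨0, by simp⟩

theorem pr_one {M₀ : ℕ} (h : M₀ ∣ M) {g : GM M} (hg : g ∈ Kq M M₀) : pr h g = 1 := by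
  apply Units.ext
  ext i j
  obtain ⟨y, hy⟩ := hg i j
  change ZMod.castHom h (ZMod M₀) ((g : Matrix (Fin 2) (Fin 2) (ZMod M)) i j) =
    (1 : Matrix (Fin 2) (Fin 2) (ZMod M₀)) i j
  rw [hy, map_add, map_mul, map_natCast, ZMod.natCast_self, zero_mul, add_zero, Matrix.one_apply,
    Matrix.one_apply]
  split_ifs
  · exact map_one _
  · exact map_zero _

theorem pr_dg {M₀ : ℕ} (h : M₀ ∣ M) (c : (ZMod M)ˣ) :
    pr h (dg c 1) = dg (Units.map (ZMod.castHom h (ZMod M₀)).toMonoidHom c) 1 := by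
  apply Units.ext
  ext i j
  change ZMod.castHom h (ZMod M₀) ((dg c 1 : Matrix (Fin 2) (Fin 2) (ZMod M)) i j) = _
  rw [dg_coe, dg_coe]
  fin_cases i <;> fin_cases j
  · rfl
  · exact map_zero _
  · exact map_zero _
  · exact map_one _

theorem ifl_Iv {M₀ : ℕ} (h : M₀ ∣ M) (w : FT M₀ R) : ifl S R h w ∈ Iv S R (Uq M M₀) := by
  intro x hx
  ext1 g
  rw [one_smul, rt_apply]
  change Vo _ (w (pr h (g * x))) = Vo _ (w (pr h g))
  rw [map_mul, pr_one h (Uq_le M₀ hx), mul_one]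

end formal

variable {O : Type} [CommRing O] [Co O] {M : ℕ}

theorem red_ml (ϖ : O) (w : FT M (AA O)) : red M ϖ w =
    ml O M (Ideal.Quotient.mkₐ O (Ideal.span {algebraMap O (AA O) ϖ})).toLinearMap w := by
  ext g n
  rw [red_coeff, ml_coeff]
  rfl

theorem red_z (ϖ : O) (m : ℕ) (y : AA O) :
    (Ideal.Quotient.mkₐ O (Ideal.span {algebraMap O (AA O) ϖ})).toLinearMap (V.zA O M ^ m * y) =
      zR M ϖ ^ m * (Ideal.Quotient.mkₐ O (Ideal.span {algebraMap O (AA O) ϖ})).toLinearMap y := by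
  change Ideal.Quotient.mk _ _ = _ * Ideal.Quotient.mk _ _
  rw [map_mul, map_pow]
  rfl

theorem dv_z (ϖ : O) (m : ℕ) (y : RR ϖ) : dv ϖ (zR M ϖ ^ m * y) = zD O M ^ m * dv ϖ y := by
  rw [zD, ← map_pow, dv_mul, map_pow]
  rfl

theorem smul_self (ϖ : O) (x : FT M (RR ϖ)) : ϖ • x = 0 := by
  obtain ⟨y, rfl⟩ := red_surj ϖ x
  rw [← map_smul]
  exact red_eq_zero.2 ⟨y, rfl⟩

theorem pow_smul_cong {ϖ : O} {s : ℕ} (h : ϖ ∣ 2 ^ (s + 1)) {q k l : ℕ} (hq : Odd q)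
    (hk : k ≡ l [MOD 2 ^ s]) (x : FT M (RR ϖ)) : (q ^ k) • x = (q ^ l) • x := by
  have h0 : (2 ^ (s + 1) : ℕ) • x = 0 := by
    obtain ⟨c, hc⟩ := h
    rw [← Nat.cast_smul_eq_nsmul O, Nat.cast_pow, Nat.cast_ofNat, hc, mul_comm, mul_smul,
      smul_self, smul_zero]
  have h1 : q ^ 2 ^ s ≡ 1 [MOD 2 ^ (s + 1)] := by
    have h2 := Nat.ModEq.pow_totient (x := q) (n := 2 ^ (s + 1))
      (Nat.Coprime.pow_right _ hq.coprime_two_right)
    rwa [Nat.totient_prime_pow_succ Nat.prime_two, Nat.add_one_sub_one, mul_one] at h2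
  have h3 : ∀ k, (q ^ k) • x = (q ^ (k % 2 ^ s)) • x := by
    intro k
    have h4 : q ^ k ≡ q ^ (k % 2 ^ s) [MOD 2 ^ (s + 1)] := by
      conv_lhs => rw [← Nat.div_add_mod k (2 ^ s), pow_add, pow_mul]
      have := (h1.pow (k / 2 ^ s)).mul_right (q ^ (k % 2 ^ s))
      rwa [one_pow, one_mul] at this
    rw [nsmul_eq_mod_nsmul (q ^ k) h0, nsmul_eq_mod_nsmul (q ^ (k % 2 ^ s)) h0, h4]
  rw [h3 k, h3 l, hk]

theorem odd_q {M₀ q : ℕ} (h : Sp M M₀ q) : Odd q := (Nat.odd_mul.1 (h.eq ▸ h.odd)).2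

theorem odd_M0 {M₀ q : ℕ} (h : Sp M M₀ q) : Odd M₀ := (Nat.odd_mul.1 (h.eq ▸ h.odd)).1

theorem VD_tor {k : ℕ} {v : FT M (RD O)} (hv : v ∈ VD O M k) : ∃ n : ℕ, (2 : O) ^ n • v = 0 := by
  refine Submodule.iSup_induction _ (motive := fun v => ∃ n : ℕ, (2 : O) ^ n • v = 0) hv ?_
    ⟨0, smul_zero _⟩ ?_
  · rintro n _ ⟨x, -, rfl⟩
    exact ⟨n, by rw [← map_smul, smul_self, map_zero]⟩
  · rintro x y ⟨m, hm⟩ ⟨n, hn⟩
    refine ⟨m + n, ?_⟩
    rw [smul_add, pow_add, mul_smul, mul_smul, hn, smul_zero, add_zero, smul_comm, hm, smul_zero]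

theorem W2_alg {S X : Type} [CommRing S] [AddCommGroup X] [Module S X] (A B E : Module.End S X)
    (hE : ∀ x, E (E x) = x) (w : X) (h1 : A (E w) = E (A w)) (h2 : B (E w) = E (B w)) (t c : ℕ) :
    (1 + E) ((t • (A * (1 + c • (1 - E))) + B) w) = (t • A + B) (w + E w) ∧
      (1 - E) ((t • (A * (1 + c • (1 - E))) + B) w) = ((t * (2 * c + 1)) • A + B) (w - E w) := by
  simp only [LinearMap.add_apply, LinearMap.smul_apply, LinearMap.sub_apply,
    Module.End.mul_apply, Module.End.one_apply, map_add, map_sub, map_nsmul, h1, h2, hE]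
  constructor <;> module

theorem W2_L2 (hW : WL O) (hF : WF1) {M₀ q : ℕ} (h : Sp M M₀ q) (hz : V.zA O M ^ M = 1) {i : ℕ}
    {w : FT M (AA O)} (hw : w ∈ L2 O M (i + 1)) (hI : w ∈ Iv O _ (Uq M M₀)) :
    W2 O _ M M₀ q (V.zA O M) i w ∈ L2 O M (i + 1) := by
  have hc : ∀ x ∈ Iv O (AA O) (Uq M M₀), ep O _ M (i + 1) x ∈ Iv O (AA O) (Uq M M₀) ∧
      Wa O _ M M₀ q (ep O _ M (i + 1) x) = ep O _ M (i + 1) (Wa O _ M M₀ q x) ∧
      Wb O _ M M₀ q (V.zA O M) (ep O _ M (i + 1) x) =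
        ep O _ M (i + 1) (Wb O _ M M₀ q (V.zA O M) x) := by
    intro x hx
    obtain ⟨h1, h2, h3⟩ := (hF O _ M M₀ q _ h hz x hx).2.2.2.1 (-1) (-1) ⟨0, by simp⟩
    simp only [ep, LinearMap.smul_apply, AlgHom.toLinearMap_apply, map_zsmul, h2, h3]
    exact ⟨zsmul_mem h1 _, trivial, trivial⟩
  obtain ⟨c1, c2, c3⟩ := hc w hI
  obtain ⟨c, hq⟩ := odd_q h
  have e : (q - 1) / 2 = c := by omega
  have a1 := hW M M₀ q (i + 1) h _ ⟨hw.1, add_mem hI c1⟩
  have a2 := hW M M₀ q (i + 1 + 1) h _ ⟨hw.2, sub_mem hI c1⟩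
  have k := W2_alg (Wa O (AA O) M M₀ q) (Wb O (AA O) M M₀ q (V.zA O M)) (ep O _ M (i + 1))
    (ep_ep _) w c2 c3 (q ^ (i + 1)) c
  rw [← hq, ← pow_succ, ← e] at k
  rw [L2, Submodule.mem_inf, Submodule.mem_comap, Submodule.mem_comap, W2, pw, k.1, k.2]
  exact ⟨a1, a2⟩

end Ih

open Ih

variable (O : Type) [CommRing O] [Co O]

theorem wv (hW : WL O) (hL : LIFT O) (hD : DIV O) (hF : WF1) (hR : ROOT O) : WV O := by
  intro M M₀ q h hM
  obtain ⟨-, hzA, -, -, hzR, hzD, -⟩ := hR M h.odd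
  have p1 : ∀ (k : ℕ) (ϖ : O), ϖ ≠ 0 → ∀ v ∈ VV M k ϖ ⊓ Iv O _ (Uq M M₀),
      W1 O _ M M₀ q (zR M ϖ) k v ∈ VV M k ϖ := by
    intro k ϖ h0 v hv
    obtain ⟨s, hs, -⟩ := exists_s h0 0
    obtain ⟨k', hk, -, w, hw, rfl⟩ := (hL M k (s + 2) ϖ h.odd hM h0 (UqS M M₀) (fun _ => 1) rfl
      (fun _ _ _ _ => (mul_one _).symm)).2 (fun hn => absurd hn (neg_notMem hM M₀)) v hv
    refine (mem_VV h.odd (dvd_succ hs)).2 ⟨k', hk, _, hW M M₀ q k' h w hw, ?_⟩
    rw [red_ml, ml_W1 _ (red_z ϖ), ← red_ml]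
    simp only [W1, LinearMap.add_apply, LinearMap.smul_apply]
    rw [pow_smul_cong hs (odd_q h) hk]
  refine ⟨p1, fun i ϖ h0 v hv => ⟨?_, ?_⟩, fun k v hv => ?_⟩
  · obtain ⟨s, hs, -⟩ := exists_s h0 0
    obtain ⟨k', hk, hk2, w, hw, rfl⟩ := (hL M (i + 1) (s + 2) ϖ h.odd hM h0 (UqS M M₀)
      (fun _ => 1) rfl (fun _ _ _ _ => (mul_one _).symm)).1 v ⟨hv.1.1, hv.2⟩
    obtain ⟨j, rfl⟩ : ∃ j, k' = j + 1 := ⟨k' - 1, by omega⟩
    refine (mem_V2 h.odd (dvd_succ hs)).2 ⟨j + 1, hk, _, W2_L2 hW hF h hzA.pow hw.1 hw.2, ?_⟩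
    rw [red_ml, ml_W2 _ (red_z ϖ), ← red_ml]
    simp only [W2, pw, LinearMap.add_apply, LinearMap.smul_apply, ep_cong hk]
    rw [pow_smul_cong hs (odd_q h) hk]
  · have h1 := (hF O _ M M₀ q _ h (hzR ϖ).pow v hv.2).2.2.2.1 (-1) (-1) ⟨0, by simp⟩
    have h2 : ep O _ M (i + 1) v ∈ Iv O (RR ϖ) (Uq M M₀) := by
      rw [ep, LinearMap.smul_apply]
      exact zsmul_mem h1.1 _
    have h3 : pw O _ M i q v ∈ Iv O (RR ϖ) (Uq M M₀) :=
      add_mem hv.2 (nsmul_mem (sub_mem hv.2 h2) _)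
    have h4 : pw O _ M i q v ∈ Od O M (RR ϖ) :=
      add_mem hv.1.2 (nsmul_mem (sub_mem hv.1.2 (ep_Od _ hv.1.2)) _)
    exact add_mem (nsmul_mem ((hF O _ M M₀ q _ h (hzR ϖ).pow _ h3).2.2.2.2.2.1 h4).1 _)
      ((hF O _ M M₀ q _ h (hzR ϖ).pow _ hv.2).2.2.2.2.2.1 hv.1.2).2
  · obtain ⟨d1, d2, -⟩ := hD M h.odd hM
    obtain ⟨n, hn⟩ := VD_tor hv.1.1
    have h0 : (2 : O) ^ n ≠ 0 := fun e => j_ne (two_ne (O := O)) (by
      have := congrArg (Co.j : O →+* ℂ) e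
      rw [map_pow, map_zero] at this
      exact eq_zero_of_pow_eq_zero this)
    obtain ⟨x, hx, rfl⟩ := ((d2 k _ h0).2 v).1 ⟨hv.1, hn⟩
    have hI : x ∈ Iv O (RR ((2 : O) ^ n)) (Uq M M₀) := fun u hu => d1 _ h0 (by
      rw [ml_rt, map_smul]
      exact hv.2 u hu)
    have h5 := (hF O _ M M₀ q _ h (hzR _).pow _ hI).2.2.2.2.2.1 hx.2
    refine (((d2 k _ h0).2 _).2 ⟨_, ⟨p1 k _ h0 x ⟨hx.1, hI⟩,
      add_mem (nsmul_mem h5.1 _) h5.2⟩, ?_⟩).1
    exact ml_W1 _ (dv_z _) M₀ q k x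

theorem ih0 (hK : HK O) (hS : STURM O) : IH0 O := by
  intro M p u π hM _ hπ hp hp2 hu v hv hV
  have h2 : π ∣ 2 := hπ.dvd 2 fun h => two_nonunit (O := O) (by
    have := h.map (algebraMap O (AA O))
    rwa [map_ofNat] at this)
  have hs : π ∣ 2 ^ (0 + 2 + 2) := h2.trans (dvd_pow_self 2 (by norm_num))
  obtain ⟨k, hk, hvk⟩ := (mem_VV hM hs).1 hv.1
  obtain ⟨l, hl, hvl⟩ := (mem_VV hM hs).1 hV
  have mono := (vs1 O M 2 π hM le_rfl hs).1
  have b1 : v ∈ Fil M (k + l + 3 + 1) π :=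
    (mono k _ (by omega) (by unfold Nat.ModEq at *; omega)).1 hvk
  have b2 : Vf O _ p u v ∈ Fil M (k + l + 3 + 1) π :=
    (mono l _ (by omega) (by unfold Nat.ModEq at *; omega)).1 hvl
  generalize k + l + 3 = i at b1 b2
  have hT : ∀ x ∈ Fil M (i + 1) π, Tf O _ i p u x ∈ Fil M (i + 1) π := by
    rintro _ ⟨w, hw, rfl⟩
    refine ⟨_, hK M i p u hM hp hu w hw, ?_⟩
    change red M π _ = Tf O _ i p u (red M π w)
    rw [red_ml, ml_Tf, ← red_ml]
  have hr : ∀ g, ∀ x ∈ Fil M (i + 1) π, rt O _ g x ∈ Fil M (i + 1) π := by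
    rintro g _ ⟨w, hw, rfl⟩
    exact ⟨_, L_rt hw g, rfl⟩
  have key : ∀ j, (Vf O _ p u ^ j) v ∈ Fil M (i + 1) π ∧
      Vf O _ p u ((Vf O _ p u ^ j) v) ∈ Fil M (i + 1) π := by
    intro j
    induction j with
    | zero => exact ⟨b1, b2⟩
    | succ j ih =>
      rw [pow_succ', Module.End.mul_apply]
      refine ⟨ih.2, ?_⟩
      have h3 := sub_mem (hT _ ih.2) (hr (dg u u) _ ih.1)
      rw [Tf, LinearMap.add_apply, Uf_Vf hp.ne_zero, add_sub_cancel_left, LinearMap.smul_apply,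
        ← Nat.cast_smul_eq_nsmul O] at h3
      exact (Submodule.smul_mem_iff_of_isUnit _
        (odd_unit' ((hp.odd_of_ne_two hp2).pow))).1 h3
  have ord : ∀ j g n, n < p ^ j → (((Vf O _ p u ^ j) v) g).coeff n = 0 := by
    intro j
    induction j with
    | zero =>
      intro g n hn
      obtain rfl : n = 0 := by simpa using hn
      exact hv.2 g 0 Even.zero
    | succ j ih =>
      intro g n hn
      rw [pow_succ', Module.End.mul_apply]
      change (Vo p _).coeff n = 0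
      rw [Vo, PowerSeries.coeff_mk]
      split_ifs
      · exact ih _ _ (Nat.div_lt_of_lt_mul (by rwa [← pow_succ']))
      · rfl
  have hz := (hS M (i + 1) π hM hπ).1 _ (key ((i + 1) * M)).1 fun g n hn =>
    ord _ g n (lt_of_le_of_lt (by omega) (Nat.lt_pow_self hp.one_lt))
  generalize (i + 1) * M = j at hz
  induction j with
  | zero => exact hz
  | succ j ih =>
    rw [pow_succ', Module.End.mul_apply] at hz
    exact ih (Vf_inj hp.ne_zero u hz)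

theorem ih (h0 : IH0 O) (hF : WF1) (hG : GRP) (hD : DESC O) (hR : ROOT O) : IH O := by
  intro M M₀ q k h π hM hπ f hf g hg he
  obtain ⟨⟨s, hs⟩, ⟨c, hc⟩, -, -, g5, -⟩ := hG M M₀ q h
  obtain ⟨-, -, -, -, hzR, -⟩ := hR M h.odd
  have hsur := (hD M₀ M 0 h.dvd h.odd).2.2
  let u : (ZMod M₀)ˣ := Units.map (ZMod.castHom h.dvd (ZMod M₀)).toMonoidHom c
  have hu : (u : ZMod M₀) = q := by
    obtain ⟨t, ht⟩ := hc.1
    change ZMod.castHom h.dvd (ZMod M₀) (c : ZMod M) = q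
    rw [ht, map_add, map_mul, map_natCast, map_natCast, ZMod.natCast_self, zero_mul, add_zero]
  have hq : M / M₀ = q := by
    rw [h.eq]
    exact Nat.mul_div_cancel_left q (by omega)
  have hMq : (M₀ : ZMod M) * (q : ZMod M) = 0 := by
    rw [← Nat.cast_mul, ← h.eq, ZMod.natCast_self]
  have key : f + (q ^ k) • Vf O _ q u g = 0 := by
    ext g0 n
    obtain ⟨g1, rfl⟩ := hsur g0
    obtain ⟨k1, hk1, g2, hg2, rfl⟩ := g5 g1
    rw [map_mul, pr_one h.dvd hk1, mul_one]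
    have hd : Dq M M₀ g2 := by
      obtain ⟨y, hy⟩ := hg2 0 1
      obtain ⟨y', hy'⟩ := hg2 1 0
      refine ⟨?_, ?_⟩
      · rw [hy, Matrix.one_apply_ne (by decide), zero_add, ← mul_assoc, hMq, zero_mul]
      · rw [hy', Matrix.one_apply_ne (by decide), zero_add, ← mul_assoc, hMq, zero_mul]
    obtain ⟨a1, a2, -⟩ := (hF O _ M M₀ q _ h (hzR π).pow _ (ifl_Iv h.dvd g)).1 s c g2 hs hc hd
    have e := congrArg (PowerSeries.coeff (q * n)) (congrFun he g2)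
    rw [W1, LinearMap.add_apply, LinearMap.smul_apply, Pi.add_apply, Pi.add_apply, Pi.smul_apply,
      a1, a2, add_zero] at e
    have e1 : ifl O (RR π) h.dvd g (dg c 1 * g2 * s) = Vf O _ q u g (pr h.dvd g2) := by
      change Vo (M / M₀) (g (pr h.dvd (dg c 1 * g2 * s))) = Vo q (g (dg u 1 * pr h.dvd g2))
      rw [hq, map_mul, map_mul, pr_one h.dvd hs.1, mul_one, pr_dg]
    have e2 : ifl O (RR π) h.dvd f g2 = Vo q (f (pr h.dvd g2)) := by
      change Vo (M / M₀) _ = _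
      rw [hq]
    have e3 : ∀ t : PowerSeries (RR π), (Vo q t).coeff (q * n) = t.coeff n := fun t => by
      rw [Vo, PowerSeries.coeff_mk, if_pos (dvd_mul_right q n),
        Nat.mul_div_cancel_left n h.prime.pos]
    rw [e1, e2, map_add, map_nsmul, e3, e3] at e
    rw [Pi.add_apply, Pi.smul_apply, map_add, map_nsmul]
    exact e
  have hq2 : q ≠ 2 := by
    rintro rfl
    exact absurd (odd_q h) (by decide)
  have hV : Vf O _ q u g ∈ VV M₀ 0 π := by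
    have h3 : (q ^ k) • Vf O _ q u g ∈ VV M₀ 0 π := by
      rw [eq_neg_of_add_eq_zero_right key]
      exact neg_mem hf.1
    rw [← Nat.cast_smul_eq_nsmul O] at h3
    exact (Submodule.smul_mem_iff_of_isUnit _ (odd_unit' (odd_q h).pow)).1 h3
  have hg0 := h0 M₀ q u π (odd_M0 h) hM hπ h.prime hq2 hu g hg hV
  rw [hg0, map_zero, smul_zero, add_zero] at key
  exact ⟨key, hg0⟩

end Vale.Agent.P022D.V
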