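import Vale.Agent.P022D.V.Irr

/-! # P022 route D, block V, row IRR: convergent series version, bounded denominators -/

set_option linter.all false

open UpperHalfPlane hiding I
open Matrix Filter Topology CongruenceSubgroup Function.Periodic
open scoped MatrixGroups ModularForm Manifold IntermediateField

noncomputable section

namespace Vale.Agent.P022D.Irr

open Vale.Agent.P022 Vale.Agent.P022.H218.L3 Vale.Agent.P022.H231.L3 Vale.Agent.P022.H236.L3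
  Vale.Agent.P022.H542.L3 Vale.Agent.P027M.M Vale.Agent.P022.H236

theorem exL_hs {M : ℕ} {s : PowerSeries ℂ} {f : ℍ → ℂ}
    (h : ∀ τ : ℍ, HasSum (fun n : ℕ => s.coeff n * qParam M τ ^ n) (f τ)) :
    ExL M (HahnSeries.ofPowerSeries ℤ ℂ s) f := by
  have := exL_of_hasSum (a := fun n => s.coeff n) h
  rwa [show (PowerSeries.mk fun n => s.coeff n) = s from by ext n; simp] at this

/-- **IRR** for convergent series -/
theorem irr_hs (O : ValuationSubring ℂ) (hA : Arch O) {M : ℕ} (hM : 0 < M) (hu : (M : ℂ)⁻¹ ∈ O)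
    {k : ℕ} {f : ℍ → ℂ} (hf : IsMF (Gamma M) k f) {s t : PowerSeries ℂ} (γ : SL(2, ℤ))
    (hs : ∀ τ : ℍ, HasSum (fun n : ℕ => s.coeff n * qParam M τ ^ n) (f τ))
    (ht : ∀ τ : ℍ, HasSum (fun n : ℕ => t.coeff n * qParam M τ ^ n) ((f ∣[(k : ℤ)] γ) τ))
    (hi : ∀ n, s.coeff n ∈ O) (n : ℕ) : t.coeff n ∈ O :=
  haveI : NeZero M := ⟨hM.ne'⟩
  ofPS_int.1 (irrL hA hu hf (exL_hs hs) (ofPS_int.2 hi) γ (exL_hs ht)) n

/-- **bounded denominators** at all cusps, any level -/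
theorem bndL (O : ValuationSubring ℂ) (hA : Arch O) {N : ℕ} [NeZero N] {k : ℕ} {f : ℍ → ℂ}
    (hf : IsMF (Gamma N) k f) : ∃ c : ℂ, c ≠ 0 ∧ ∀ (γ : SL(2, ℤ)) (t : LS),
      ExL N t (f ∣[(k : ℤ)] γ) → HahnSeries.C c * t ∈ Int O := by
  have p : 0 < 12 := by norm_num
  have h1 : IsMF (Gamma N) (k * 12) (f ^ 12) := by
    have := hf.pow 12
    rwa [mul_comm] at this
  have m := div_mem_WW h1 (disc_pow _ k) (disc_pow_ne k)
  obtain ⟨d, d0, d1⟩ := ex_disc (l := 1) one_pos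
  obtain ⟨i1, -⟩ := good_red (O := O) one_pos (by simp) (pos12 (N := N)) d0
  obtain ⟨i2, -⟩ := good_red (O := O) one_pos (by simp) (pos12 (N := N)) d0.inv
  rw [map_inv₀] at i2
  have d2 := exL_one_sb (pos12 (N := N)) d1
  have d3 : sb (N * 12) pos12 d ≠ 0 := (map_ne_zero _).2 d0.ne
  have key : ∀ (δ : SL(2, ℤ)) (u : LS), ExL (N * 12) u (f ∣[(k : ℤ)] δ) →
      exW N (pr N δ⁻¹ • ⟨_, m⟩) = u ^ 12 * (sb (N * 12) pos12 d)⁻¹ ^ k := by
    intro δ u hu
    rw [inv_pow, ← div_eq_mul_inv]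
    refine exW_div (k := k * 12) m δ ?_ ?_ (pow_ne_zero _ d3)
    · have := pow_slash (k := k) f 12 δ
      rw [Nat.cast_ofNat] at this
      rw [this]
      exact hu.pow 12
    · rw [(disc_pow ⊤ k).slash δ (Subgroup.mem_top _)]
      exact d2.pow k
  have h2 : ∃ c : ℂ, c ≠ 0 ∧ (⟨_, m⟩ : WW N) * cst N c ∈ BB O (GG N) (exW N) := by
    rcases (dat (N := N) O).bnd hA ⟨_, m⟩ (fun g => by
      obtain ⟨δ, rfl⟩ := pr_surj N g
      obtain ⟨u, hu⟩ := ex_form (conjN hf δ⁻¹)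
      have := key δ⁻¹ u hu
      rw [inv_inv] at this
      rw [this]
      exact ((rat_form (NeZero.pos N) (conjN hf δ⁻¹) hu).pow _).mul ((Rat.of_int i2).pow _))
      with h | ⟨c, -, h, g, hg⟩
    · exact ⟨1, one_ne_zero, by rwa [map_one, mul_one]⟩
    · refine ⟨c, fun e => hg ?_, h⟩
      have e0 : (⟨_, m⟩ : WW N) * cst N c = 0 := by rw [e, map_zero, mul_zero]
      have : (⟨_, h⟩ : BB O (GG N) (exW N)) = 0 := Subtype.ext e0
      rw [this, smul_zero, map_zero]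
  obtain ⟨c, c0, h3⟩ := h2
  obtain ⟨r, rfl⟩ := IsAlgClosed.exists_pow_nat_eq c p
  refine ⟨r, fun e => c0 (by rw [e]; norm_num), fun γ t ht => ?_⟩
  have t1 := exL_period p (NeZero.ne N) ht
  have h5 := h3 (pr N γ⁻¹)
  rw [smul_mul', (dat (N := N) O).fix, map_mul, (dat (N := N) O).const, key γ _ t1] at h5
  have h6 := mul_mem h5 (pow_mem i1 k)
  have h4 : (sb 12 p t * HahnSeries.C r) ^ 12 ∈ Int O := by
    have e : ∀ a b c : LS, c ≠ 0 → a ^ 12 * c⁻¹ ^ k * b ^ 12 * c ^ k = (a * b) ^ 12 := by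
      intro a b c hc
      rw [mul_right_comm, mul_assoc (a ^ 12), ← mul_pow, inv_mul_cancel₀ hc, one_pow, mul_one,
        mul_pow]
    rw [← e _ _ _ d3, ← map_pow HahnSeries.C r 12]
    exact h6
  refine (sb_int p).1 ?_
  rw [map_mul, sb_C, mul_comm]
  exact int_of_pow hA ((rat_form (NeZero.pos N) (conjN hf γ) t1).mul (Rat.const r)) p h4

/-- **bounded denominators** for the expansions of Mathlib -/
theorem bnd (O : ValuationSubring ℂ) (hA : Arch O) {M : ℕ} (hM : 0 < M) {k : ℕ} {f : ℍ → ℂ}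
    (hf : IsMF (Gamma M) k f) : ∃ c : ℂ, c ≠ 0 ∧ ∀ (γ : SL(2, ℤ)) (n : ℕ),
      c * (qExpansion (M : ℝ) (f ∣[(k : ℤ)] γ)).coeff n ∈ O := by
  haveI : NeZero M := ⟨hM.ne'⟩
  obtain ⟨c, c0, h⟩ := bndL O hA hf
  refine ⟨c, c0, fun γ n => ?_⟩
  have := mem_Int.1 (h γ _ (isMF_exL hM.ne' (T_pow_Gamma M) (conjN hf γ))) n
  rwa [HahnSeries.C_mul_eq_smul, HahnSeries.coeff_smul, smul_eq_mul,
    LaurentSeries.coeff_coe_powerSeries] at this

end Vale.Agent.P022D.Irr
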