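import Vale.Agent.P022D.V.TrB

/-!
# P022D, block V: an element of trace one modulo an invariant element
-/

set_option autoImplicit false
set_option linter.all false

open Finset Polynomial

namespace Vale.Agent.P022D.V

variable {R H : Type*} [CommRing R] [Group H] [Fintype H] [DecidableEq H] [MulSemiringAction H R]

/-- a free action on the maximal ideals over `p` gives an element of trace one modulo `p` -/
theorem trace_mod_of_max (p : R) (hp : ∀ h : H, h • p = p)
    (hs : ∀ m : Ideal R, m.IsMaximal → p ∈ m → ∀ h : H, h ≠ 1 → ∃ a : R, h • a - a ∉ m) :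
    ∃ w r : R, trH H w = 1 + p * r := by
  have h1 : (1 : R) ∈ Ideal.span (Set.range (trH H : R → R)) ⊔ Ideal.span {p} := by
    rw [← Ideal.eq_top_iff_one]
    by_contra hc
    obtain ⟨m, hm, hle⟩ := Ideal.exists_le_maximal _ hc
    have hpm : p ∈ m := hle (Ideal.mem_sup_right (Ideal.mem_span_singleton_self p))
    have h2 : ∀ h : H, ∃ a : R, h ≠ 1 → h • a - a ∉ m := by
      intro h
      by_cases h1 : h = 1
      · exact ⟨0, fun k => absurd h1 k⟩
      · obtain ⟨a, ha⟩ := hs m hm hpm h h1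
        exact ⟨a, fun _ => ha⟩
    choose a ha using h2
    obtain ⟨h, hh, h0⟩ := (Ideal.IsPrime.prod_mem_iff (hp := hm.isPrime)).1
      (hle (Ideal.mem_sup_left (sep_mem a)))
    exact ha h (Finset.mem_erase.1 hh).1 h0
  obtain ⟨x, hx, z, hz, e⟩ := Submodule.mem_sup.1 h1
  obtain ⟨r, rfl⟩ := Ideal.mem_span_singleton.1 hz
  have h2 : nmH H x ∈ Ideal.span (Set.range (trH H : R → R)) := by
    rw [nmH, ← Finset.mul_prod_erase univ _ (Finset.mem_univ (1 : H)), one_smul]
    exact Ideal.mul_mem_right _ _ hx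
  obtain ⟨d, w, hw⟩ := pow_trace (fun g : H => smul_nmH g x) h2
  have h3 : p ∣ nmH H x ^ d - 1 := by
    rw [← Ideal.mem_span_singleton, ← Ideal.Quotient.eq_zero_iff_mem, map_sub, map_pow, nmH,
      map_prod, map_one, Finset.prod_eq_one, one_pow, sub_self]
    intro g _
    rw [eq_sub_of_add_eq e, smul_sub, smul_one, smul_mul', hp, map_sub, map_one,
      Ideal.Quotient.eq_zero_iff_mem.2 (Ideal.mem_span_singleton.2 (dvd_mul_right _ _)), sub_zero]
  obtain ⟨s, hs⟩ := h3
  exact ⟨w, s, by rw [← hw, ← hs]; ring⟩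

/-- the primes which contain the invariants of value zero are the cusps -/
theorem prime_cusp' {G F : Type*} [Group G] [Fintype G] [MulSemiringAction G R] [CommRing F]
    (c : R →+* F) (m : Ideal R) (hm : m.IsPrime)
    (hinv : ∀ x : R, (∀ g : G, g • x = x) → c x = 0 → x ∈ m) :
    ∃ g : G, ∀ x, c (g • x) = 0 → x ∈ m := by
  let K : G → Ideal R := fun g => RingHom.ker (c.comp (MulSemiringAction.toRingHom G R g))
  have h1 : (univ : Finset G).inf K ≤ m := by
    intro x hx
    have hx' : ∀ g : G, c (g • x) = 0 := fun g => (Finset.inf_le (f := K) (mem_univ g)) hx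
    have e1 : (MulSemiringAction.charpoly G x).map c = X ^ Fintype.card G := by
      rw [MulSemiringAction.charpoly_eq, Polynomial.map_prod]
      simp [hx']
    have e2 := MulSemiringAction.eval_charpoly G x
    have e3 : eval x (MulSemiringAction.charpoly G x - X ^ Fintype.card G) ∈ m := by
      rw [eval_eq_sum, Polynomial.sum]
      refine m.sum_mem fun n _ => m.mul_mem_right _ (hinv _ (fun g => ?_) ?_)
      · rw [coeff_sub, smul_sub, MulSemiringAction.smul_coeff_charpoly, coeff_X_pow]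
        split_ifs <;> simp
      · rw [← coeff_map, Polynomial.map_sub, e1]
        simp
    rw [eval_sub, e2, zero_sub, m.neg_mem_iff, eval_pow, eval_X] at e3
    exact hm.mem_of_pow_mem _ e3
  obtain ⟨g, -, hg⟩ := (Ideal.IsPrime.inf_le' hm).1 h1
  exact ⟨g, fun x hx => hg hx⟩

/-- the cusps are maximal ideals -/
theorem cusp_max {G F : Type*} [Group G] [Fintype G] [MulSemiringAction G R] [CommRing F]
    [IsDomain F] (c : R →+* F)
    (hu : ∀ x : R, (∀ g : G, g • x = x) → c x ≠ 0 → ∃ x', (∀ g : G, g • x' = x') ∧ c (x' * x) = 1)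
    (g : G) : (RingHom.ker (c.comp (MulSemiringAction.toRingHom G R g))).IsMaximal := by
  let A := FixedPoints.subring R G
  haveI : Algebra.IsInvariant A R G := ⟨fun b hb => ⟨⟨b, hb⟩, rfl⟩⟩
  haveI : Algebra.IsIntegral A R := Algebra.IsInvariant.isIntegral A R G
  haveI := RingHom.ker_isPrime (c.comp (MulSemiringAction.toRingHom G R g))
  refine Ideal.isMaximal_of_isIntegral_of_isMaximal_comap (R := A) _ (Ideal.isMaximal_iff.2 ⟨?_, ?_⟩)
  · rw [Ideal.mem_comap, map_one, RingHom.mem_ker, map_one]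
    exact one_ne_zero
  · intro J x hJ hx hxJ
    have key : ∀ z : A, z ∈ Ideal.comap (algebraMap A R)
        (RingHom.ker (c.comp (MulSemiringAction.toRingHom G R g))) ↔ c z = 0 := by
      intro z
      change c (g • (z : R)) = 0 ↔ _
      rw [z.2 g]
    obtain ⟨x', h1, h2⟩ := hu x x.2 fun k => hx ((key x).2 k)
    have h3 : (1 - ⟨x', h1⟩ * x : A) ∈ J := by
      refine hJ ((key _).2 ?_)
      change c (1 - x' * x) = 0
      rw [map_sub, map_one, h2, sub_self]
    simpa using J.add_mem h3 (J.mul_mem_left ⟨x', h1⟩ hxJ)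

/-- separation off the cusps and at the cusps gives an element of trace one modulo `p` -/
theorem trace_mod {G F : Type*} [Group G] [Fintype G] [MulSemiringAction G R] [CommRing F]
    [IsDomain F] (p y : R) (hp : ∀ h : H, h • p = p) (c : R →+* F)
    (h0 : ∀ x : R, (∀ g : G, g • x = x) → c x = 0 → ∃ r s, x = p * r + y * s)
    (hu : ∀ x : R, (∀ g : G, g • x = x) → c x ≠ 0 → ∃ x', (∀ g : G, g • x' = x') ∧ c (x' * x) = 1)
    (h1 : ∀ h : H, h ≠ 1 → ∃ (a b r : R) (n : ℕ), (h • a - a) * b = y ^ n + p * r)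
    (h2 : ∀ (g : G) (h : H), h ≠ 1 → ∃ a : R, c (g • (h • a - a)) ≠ 0) :
    ∃ w r : R, trH H w = 1 + p * r := by
  refine trace_mod_of_max p hp fun m hm hpm h hh => ?_
  by_cases hy : y ∈ m
  · obtain ⟨g, hg⟩ := prime_cusp' (G := G) c m hm.isPrime fun x k1 k2 => by
      obtain ⟨r, s, rfl⟩ := h0 x k1 k2
      exact m.add_mem (m.mul_mem_right _ hpm) (m.mul_mem_right _ hy)
    obtain ⟨a, ha⟩ := h2 g h hh
    refine ⟨a, fun k => ha ?_⟩
    have e := (cusp_max c hu g).eq_of_le hm.ne_top fun x hx => hg x hx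
    rw [← e] at k
    exact k
  · obtain ⟨a, b, r, n, ha⟩ := h1 h hh
    refine ⟨a, fun k => hy (hm.isPrime.mem_of_pow_mem n ?_)⟩
    rw [eq_sub_of_add_eq ha.symm]
    exact m.sub_mem (m.mul_mem_right _ k) (m.mul_mem_right _ hpm)

/-- improving the congruence -/
theorem trace_mod_pow {p : R} (h2 : p ∣ 2) {w r : R} (h : trH H w = 1 + p * r) (n : ℕ) :
    ∃ w' r' : R, trH H w' = 1 + p ^ (n + 1) * r' := by
  induction n with
  | zero => exact ⟨w, r, by rw [h, zero_add, pow_one]⟩
  | succ n ih =>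
    obtain ⟨v, s, hv⟩ := ih
    obtain ⟨t, ht⟩ := h2
    refine ⟨trH H v * v, t * s + p ^ n * s ^ 2, ?_⟩
    rw [trH_mul (fun g => smul_trH g v), hv]
    linear_combination (p ^ (n + 1) * s) * ht

end Vale.Agent.P022D.V
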