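import Vale.Agent.P022D.V.TrY
import Vale.Agent.P022D.V.TrC

/-!
# P022D, block V: the ring of integral functions with poles at the zeros of `E₄`, trace one
-/

set_option autoImplicit false
set_option linter.all false

open UpperHalfPlane hiding I
open Matrix Filter Topology Function.Periodic
open scoped MatrixGroups Manifold ModularForm

noncomputable section

namespace Vale.Agent.P022D.V.Tr

open Vale.Agent.P022 Vale.Agent.P022.H218.L3 Vale.Agent.P022.H236.L3 Vale.Agent.P022.H542.L3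
  Vale.Agent.P027M.M Vale.Agent.P022.H790.A

variable {O : Type} [CommRing O] [Co O] {M : ℕ}

/-- divisibility in `A` descends to `O` -/
theorem dvd_of {a b : O} (ha : a ≠ 0) (h : Co.j b / Co.j a ∈ (Co.A O : ValuationSubring ℂ)) :
    a ∣ b := by
  have h0 : (Co.j a : ℂ) ≠ 0 := fun e => ha (Co.inj (O := O) (by rw [e, map_zero]))
  obtain ⟨c, hc⟩ := Co.fix (O := O) _ h fun σ hσ => by rw [map_div₀, hσ, hσ]
  exact ⟨c, Co.inj (O := O) (by rw [map_mul, hc, mul_div_cancel₀ _ h0])⟩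

theorem two_ne : (2 : O) ≠ 0 := fun e => by
  have := congrArg (Co.j : O →+* ℂ) e
  rw [map_ofNat, map_zero] at this
  exact two_ne_zero this

theorem dvd_two_pow {a : O} (ha : a ≠ 0) : ∃ n : ℕ, a ∣ 2 ^ n := by
  obtain ⟨n, hn⟩ := Co.rk (O := O) (Co.j a)⁻¹
  exact ⟨n, dvd_of ha (by rwa [map_pow, map_ofNat, div_eq_mul_inv])⟩

theorem two_dvd_pow {a : O} (ha : ¬ IsUnit (algebraMap O (AA O) a)) : ∃ n : ℕ, 2 ∣ a ^ n := by
  by_cases h0 : (Co.j a : ℂ) = 0
  · exact ⟨1, by rw [Co.inj (O := O) (h0.trans (map_zero _).symm), pow_one]; exact dvd_zero _⟩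
  have h1 : (Co.j a : ℂ)⁻¹ ∉ (Co.A O : ValuationSubring ℂ) := fun k =>
    ha (IsUnit.of_mul_eq_one (amk _ k) (av_inj (by
      rw [map_mul, av_alg, av_amk, map_one, mul_inv_cancel₀ h0])))
  obtain ⟨m, hm⟩ := Co.arch (O := O) _ 2 h1 two_ne_zero
  refine ⟨m, dvd_of two_ne ?_⟩
  have := ((Co.A O : ValuationSubring ℂ).mem_or_inv_mem _).resolve_left hm
  rwa [mul_inv, inv_pow, inv_inv, mul_comm, ← div_eq_mul_inv, ← map_pow,
    ← map_ofNat (Co.j : O →+* ℂ) 2] at this

variable [NeZero M]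

theorem exists_exp (σ : ℂ ≃+* ℂ) : ∃ a : (ZMod M)ˣ, σ (ze M 1) = ze M 1 ^ (a : ZMod M).val := by
  have h := ze_prim (NeZero.pos M)
  obtain ⟨i, -, h1, h2⟩ := (h.isPrimitiveRoot_iff).1 (h.map_of_injective σ.injective)
  refine ⟨ZMod.unitOfCoprime i h1, ?_⟩
  rw [ZMod.coe_unitOfCoprime, ZMod.val_natCast, ← h2]
  exact pow_eq_pow_mod _ h.pow_eq_one

theorem E_coeff (g : GM M) : PowerSeries.constantCoeff (ET O M g) = 1 := by
  rw [← PowerSeries.coeff_zero_eq_constantCoeff_apply]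
  simp [ET, sT, ct, Vo, sg]

/-- **invariant tuples** -/
theorem inv_split {a : ℕ} {x : FT M (AA O)} (hx : x ∈ L O M (4 * (a + 3)))
    (hi : ∀ g, rt O (AA O) g x = x) : ∃ (c : O) (u : FT M (AA O)), u ∈ L O M (4 * a) ∧
      x = algebraMap O _ c * ET O M ^ (a + 3) + DT O M * u := by
  have hM := NeZero.pos M
  have h1 : ∀ g, x g = x 1 := fun g => by
    have := congrFun (hi g) 1
    rwa [rt_apply, one_mul] at this
  obtain ⟨c, hc⟩ := Co.fix (O := O) _ (av_mem ((x 1).coeff 0)) fun σ hσ => by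
    obtain ⟨b, hb⟩ := exists_exp (M := M) σ
    have := hx.2 σ hσ b hb 1 0
    rwa [h1] at this
  obtain ⟨z, hz⟩ : ∃ z, z = x - algebraMap O _ c * ET O M ^ (a + 3) := ⟨_, rfl⟩
  have h2 : z ∈ L O M (4 * (a + 3)) := by
    rw [hz, ← Algebra.smul_def]
    exact (L O M _).sub_mem hx ((L O M _).smul_mem _ (L_pow E_mem _))
  have h3 : ∀ g, z g = z 1 := fun g => by
    rw [hz, Pi.sub_apply, Pi.sub_apply, h1]
    rfl
  have h4 : (z 1).coeff 0 = 0 := by
    apply av_inj
    rw [hz, Pi.sub_apply, map_sub, map_sub, ← hc, alg_eq, Pi.mul_apply, Pi.pow_apply,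
      PowerSeries.coeff_C_mul, PowerSeries.coeff_zero_eq_constantCoeff_apply, map_pow, E_coeff,
      one_pow, mul_one, av_alg, sub_self, map_zero]
  obtain ⟨⟨F, k1, k2⟩, -⟩ := id h2
  have h5 : ∀ g, F g = F 1 := fun g => hs_fun (k2 g) (by rw [h3]; exact k2 1)
  have h6 : IsMF ⊤ (4 * (a + 3) : ℕ) (F 1) := (k1.bdd 1).isMF fun γ _ => by
    have := k1.eqv γ 1
    rwa [h5] at this
  have h7 := hs_unique hM (k2 1) (hs_up hM (hs_top h6))
  obtain ⟨s, hs⟩ : PowerSeries.X ^ M ∣ z 1 := by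
    rw [PowerSeries.X_pow_dvd_iff]
    intro m hm
    by_cases h0 : m = 0
    · rw [h0, h4]
    apply av_inj
    rw [← PowerSeries.coeff_map, h7, Vo, PowerSeries.coeff_mk, if_neg, map_zero]
    exact Nat.not_dvd_of_pos_of_lt (Nat.pos_of_ne_zero h0) hm
  obtain ⟨U, hU, hD⟩ := D_eq (O := O) (M := M)
  obtain ⟨U', hU'⟩ := hU.exists_right_inv
  have h8 : DT O M * (fun _ => U' * s) = z := by
    funext g
    rw [Pi.mul_apply, hD, h3, hs]
    linear_combination (PowerSeries.X ^ M * s) * hU'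
  refine ⟨c, fun _ => U' * s, L_div hM (l := 12) ?_ D_mem D_nv, by rw [h8, hz]; ring⟩
  rw [h8, show 4 * a + 12 = 4 * (a + 3) by ring]
  exact h2

theorem L_up {a : ℕ} {x : FT M (AA O)} (h : x * ET O M ^ a ∈ L O M (4 * a)) (b : ℕ) :
    x * ET O M ^ (a + b) ∈ L O M (4 * (a + b)) := by
  rw [pow_add, ← mul_assoc, mul_add]
  exact L_mul h (L_pow E_mem b)

/-- the quotients of forms of weight `4 a` by `E₄ ^ a` -/
def R0 (O : Type) [CommRing O] [Co O] (M : ℕ) [NeZero M] : Subalgebra O (FT M (AA O)) where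
  carrier := {x | ∃ a, x * ET O M ^ a ∈ L O M (4 * a)}
  mul_mem' := by
    rintro x y ⟨a, h⟩ ⟨b, h'⟩
    refine ⟨a + b, ?_⟩
    rw [pow_add, mul_mul_mul_comm, mul_add]
    exact L_mul h h'
  add_mem' := by
    rintro x y ⟨a, h⟩ ⟨b, h'⟩
    refine ⟨a + b, ?_⟩
    rw [add_mul]
    refine (L O M _).add_mem (L_up h b) ?_
    rw [add_comm]
    exact L_up h' a
  algebraMap_mem' c := ⟨0, by simpa using L_alg c⟩

theorem rt_E (g : GM M) : rt O (AA O) g (ET O M) = ET O M := rfl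

theorem rt_R0 (g : GM M) {x : FT M (AA O)} (hx : x ∈ R0 O M) : rt O (AA O) g x ∈ R0 O M := by
  obtain ⟨a, h⟩ := hx
  have := L_rt h g
  rw [map_mul, map_pow, rt_E] at this
  exact ⟨a, this⟩

instance : MulSemiringAction (GM M) (R0 O M) where
  smul g x := ⟨rt O (AA O) g x, rt_R0 g x.2⟩
  one_smul x := Subtype.ext (by
    change rt O (AA O) 1 x.1 = x.1
    rw [map_one]
    rfl)
  mul_smul g h x := Subtype.ext (by
    change rt O (AA O) (g * h) x.1 = rt O (AA O) g (rt O (AA O) h x.1)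
    rw [map_mul]
    rfl)
  smul_zero g := rfl
  smul_add g x y := rfl
  smul_one g := rfl
  smul_mul g x y := rfl

theorem coe_smul (g : GM M) (x : R0 O M) : ((g • x : R0 O M) : FT M (AA O)) = rt O (AA O) g x := rfl

/-- the inverse of `E₄` -/
def Ei (O : Type) [CommRing O] [Co O] (M : ℕ) [NeZero M] : FT M (AA O) := Ring.inverse (ET O M)

theorem Ei_mul : Ei O M * ET O M = 1 := Ring.inverse_mul_cancel _ E_unit

theorem rt_Ei (g : GM M) : rt O (AA O) g (Ei O M) = Ei O M := by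
  have h := congrArg (rt O (AA O) g) (Ei_mul (O := O) (M := M))
  rw [map_mul, rt_E, map_one] at h
  exact E_unit.mul_right_cancel (h.trans Ei_mul.symm)

theorem Ei_coeff (g : GM M) : PowerSeries.constantCoeff (Ei O M g) = 1 := by
  have := congrArg PowerSeries.constantCoeff (congrFun (Ei_mul (O := O) (M := M)) g)
  rwa [Pi.mul_apply, map_mul, E_coeff, mul_one, Pi.one_apply, map_one] at this

/-- a form divided by a power of `E₄` -/
def mk0 (a : ℕ) (w : FT M (AA O)) (h : w ∈ L O M (4 * a)) : R0 O M :=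
  ⟨w * Ei O M ^ a, a, by rwa [mul_assoc, ← mul_pow, Ei_mul, one_pow, mul_one]⟩

theorem coe_mk0 (a : ℕ) (w : FT M (AA O)) (h : w ∈ L O M (4 * a)) :
    (mk0 a w h : FT M (AA O)) = w * Ei O M ^ a := rfl

/-- the value at the cusp -/
def cu (O : Type) [CommRing O] [Co O] (M : ℕ) [NeZero M] :
    R0 O M →+* IsLocalRing.ResidueField (AA O) :=
  ((IsLocalRing.residue _).comp (PowerSeries.constantCoeff.comp
    (Pi.evalRingHom (fun _ : GM M => PowerSeries (AA O)) 1))).comp (R0 O M).val.toRingHom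

theorem cu_apply (x : R0 O M) :
    cu O M x = IsLocalRing.residue _ (PowerSeries.constantCoeff ((x : FT M (AA O)) 1)) := rfl

theorem cu_smul (g : GM M) (x : R0 O M) :
    cu O M (g • x) = IsLocalRing.residue _ (PowerSeries.constantCoeff ((x : FT M (AA O)) g)) := by
  rw [cu_apply, coe_smul, rt_apply, one_mul]

theorem cu_alg (c : O) :
    cu O M (algebraMap O _ c) = IsLocalRing.residue _ (algebraMap O (AA O) c) := by
  rw [cu_apply, Subalgebra.coe_algebraMap, alg_eq, PowerSeries.constantCoeff_C]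

/-- `1 / j` -/
def yy (O : Type) [CommRing O] [Co O] (M : ℕ) [NeZero M] : R0 O M := mk0 3 (DT O M) D_mem

theorem cu_yy : cu O M (yy O M) = 0 := by
  obtain ⟨U, -, hD⟩ := D_eq (O := O) (M := M)
  rw [cu_apply, yy, coe_mk0, Pi.mul_apply, hD, mul_assoc, map_mul, map_pow,
    PowerSeries.constantCoeff_X, zero_pow (NeZero.ne M), zero_mul, map_zero]

theorem inv_R0 (x : R0 O M) (hi : ∀ g : GM M, g • x = x) :
    ∃ (c : O) (s : R0 O M), x = algebraMap O _ c + yy O M * s := by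
  obtain ⟨a, h⟩ := x.2
  obtain ⟨c, u, hu, e⟩ := inv_split (L_up h 3) fun g => by
    rw [map_mul, map_pow, rt_E, ← coe_smul, hi]
  refine ⟨c, mk0 a u hu, Subtype.ext ((E_unit.pow (a + 3)).mul_right_cancel ?_)⟩
  rw [e, Subalgebra.coe_add, Subalgebra.coe_mul, yy, coe_mk0, coe_mk0, Subalgebra.coe_algebraMap]
  have : (Ei O M * ET O M) ^ (a + 3) = 1 := by rw [Ei_mul, one_pow]
  linear_combination (-(DT O M * u)) * this

/-- the element moves all cusps -/
def Fr (g : GM M) : Prop := Matrix.GeneralLinearGroup.det g = 1 → ∀ x : GM M,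
  vg ![0, 1] (x * g * x⁻¹) ≠ ![0, 1] ∧ vg ![0, 1] (x * g * x⁻¹) ≠ -![0, 1]

theorem G_sub (v w : Fin 2 → ZMod M) :
    Gw O v - Gw O w = (Xw O v - Xw O w) * (1 + 6 * (Xw O v + Xw O w)) := by
  rw [Gw, Gw]
  ring

theorem rt_Gw (v : Fin 2 → ZMod M) (h : GM M) : rt O (AA O) h (Gw O v) = Gw O (vg v h) := by
  rw [Gw, Gw, ← rt_Xw]
  rfl

theorem z_sub (hM : Odd M) {g : GM M} (hg : Matrix.GeneralLinearGroup.det g ≠ 1) (x : GM M) :
    ∃ u : AA O, IsUnit u ∧ (rt O (AA O) g (zT O M) - zT O M) x = PowerSeries.C u := by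
  refine ⟨_, ?_, by rw [Pi.sub_apply, rt_apply, zT, zT, ← map_sub]⟩
  refine (adm hM).sub fun e => hg ?_
  have := inv_injective (Units.ext e)
  rwa [map_mul, mul_eq_left] at this

theorem sep_off (hM : Odd M) {g : GM M} (hg : Fr g) :
    ∃ (a b r : R0 O M) (n : ℕ), (g • a - a) * b = yy O M ^ n + 2 * r := by
  have hp := NeZero.pos M
  by_cases hd : Matrix.GeneralLinearGroup.det g = 1
  · obtain ⟨v, hv⟩ : ∃ v : Fin 2 → ZMod M, v = ![0, 1] := ⟨_, rfl⟩
    obtain ⟨h1, h2⟩ := hg hd 1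
    rw [one_mul, inv_one, mul_one, ← hv] at h1 h2
    have h0 : v ≠ 0 := fun e => h1 (by rw [e, vg, Matrix.zero_vecMul])
    have h0' := vg_ne h0 g
    obtain ⟨U, hU, hD⟩ := D_eq (O := O) (M := M)
    have h3 : ∀ x, ∃ z, DT O M x = (Xw O (vg v g) - Xw O v) x * z := by
      intro x
      obtain ⟨W, hW, e⟩ := W_unit (O := O) hM (vg_ne h0' x) (vg_ne h0 x) (fun e => h1 (vg_inj x e))
        fun e => h2 (vg_inj x (e.trans (vg_neg v x).symm))
      obtain ⟨W', hW'⟩ := hW.exists_right_inv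
      obtain ⟨d, hd⟩ : ∃ d, M = A.eo (pr (vg (vg v g) x)) (pr (vg v x)) + d :=
        Nat.exists_eq_add_of_le ((min_le_left _ _).trans (by
          have := A.two_ab_le (pr (vg (vg v g) x)).1
          omega))
      refine ⟨W' * PowerSeries.X ^ d * U, ?_⟩
      rw [Pi.sub_apply, Xw, Xw, e, hD]
      generalize A.eo (pr (vg (vg v g) x)) (pr (vg v x)) = k at hd
      rw [show (PowerSeries.X ^ M : PowerSeries (AA O)) = PowerSeries.X ^ k * PowerSeries.X ^ d by
        rw [← pow_add, ← hd]]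
      linear_combination (-(PowerSeries.X ^ k * PowerSeries.X ^ d * U)) * hW'
    choose z hz using h3
    have h4 : (Xw O (vg v g) - Xw O v) * z = DT O M := funext fun x => (hz x).symm
    have h5 : z ∈ L O M 10 :=
      L_div hp (l := 2) (by rw [h4]; exact D_mem) (W_mem hM h0' h0) (W_nv hM h0' h0 h1 h2)
    obtain ⟨T, hT⟩ : ∃ T, T = Xw O (vg v g) + Xw O v := ⟨_, rfl⟩
    have h6 := S_mem (O := O) hM h0' h0
    rw [← hT] at h6
    have h7 : 6 * T + 18 * T ^ 2 - 120 * sT O M ∈ L O M 4 := by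
      refine L_sat hp (n := 2) (by norm_num) ?_
      have := (L O M 4).sub_mem (L_mul h6 h6) E_mem
      rwa [show (1 + 6 * T) * (1 + 6 * T) - ET O M = ((2 : ℕ) : FT M (AA O)) *
        (6 * T + 18 * T ^ 2 - 120 * sT O M) by rw [ET]; push_cast; ring] at this
    have h8 : z * (1 + 6 * T) ∈ L O M 12 := L_mul h5 h6
    refine ⟨mk0 1 _ (G_mem hM h0), mk0 3 _ h8, yy O M * mk0 1 _ h7, 1, Subtype.ext ?_⟩
    have e1 := G_sub (O := O) (vg v g) v
    have e2 := Ei_mul (O := O) (M := M)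
    rw [← hT] at e1
    simp only [Subalgebra.coe_mul, Subalgebra.coe_add, Subalgebra.coe_sub, pow_one, coe_smul, yy,
      coe_mk0, map_mul, rt_Gw, rt_Ei]
    rw [← sub_mul, e1, ← h4, show ((2 : R0 O M) : FT M (AA O)) = 2 from map_ofNat (R0 O M).val 2]
    rw [ET] at e2
    linear_combination ((Xw O (vg v g) - Xw O v) * z * Ei O M ^ 3) * e2
  · choose u hu e using z_sub (O := O) hM hd
    choose u' hu' using fun x => (hu x).exists_right_inv
    have h4 : (rt O (AA O) g (zT O M) - zT O M) * (fun x => PowerSeries.C (u' x)) = 1 := by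
      funext x
      rw [Pi.mul_apply, e, ← map_mul, hu', map_one, Pi.one_apply]
    have h5 : (fun x => PowerSeries.C (u' x)) ∈ L O M 0 :=
      L_div hp (l := 0) (by rw [h4]; exact L_one) ((L O M 0).sub_mem (L_rt z_mem g) z_mem) fun x =>
        ⟨fun _ => av O (u x), by rw [e, PowerSeries.map_C]; exact hs_const _,
          fun _ => ((hu x).map (av O)).ne_zero⟩
    refine ⟨mk0 0 _ z_mem, mk0 0 _ h5, 0, 0, Subtype.ext ?_⟩
    simpa [coe_smul, coe_mk0] using h4

theorem sep_cusp (hM : Odd M) {g : GM M} (hg : Fr g) (x : GM M) :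
    ∃ a : R0 O M, cu O M (x • (g • a - a)) ≠ 0 := by
  by_cases hd : Matrix.GeneralLinearGroup.det g = 1
  · obtain ⟨v, hv⟩ : ∃ v : Fin 2 → ZMod M, v = ![0, 1] := ⟨_, rfl⟩
    obtain ⟨h1, h2⟩ := hg hd x
    rw [← hv] at h1 h2
    have h0 : v ≠ 0 := fun e => h1 (by rw [e, vg, Matrix.zero_vecMul])
    refine ⟨mk0 1 _ (G_mem hM (vg_ne h0 x⁻¹)), ?_⟩
    obtain ⟨W, hW, e⟩ := W_unit (O := O) hM (vg_ne h0 _) h0 h1 h2
    have e0 : A.eo (pr (vg v (x * g * x⁻¹))) (pr v) = 0 := by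
      refine Nat.eq_zero_of_le_zero ((min_le_right _ _).trans (A.ab_eq_zero.2 ?_).le)
      rw [hv]
      rfl
    rw [e0, pow_zero, one_mul] at e
    rw [cu_smul, Ne, IsLocalRing.residue_eq_zero_iff, IsLocalRing.mem_maximalIdeal,
      mem_nonunits_iff, not_not, Subalgebra.coe_sub, coe_smul, coe_mk0, map_mul, pow_one, rt_Ei,
      rt_Gw, ← sub_mul, G_sub, Pi.mul_apply, Pi.mul_apply, Pi.sub_apply, map_mul, map_mul, Ei_coeff,
      mul_one, Xw, Xw, ← vg_mul, ← vg_mul, ← vg_mul, mul_inv_cancel, vg_one, e]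
    refine (hW.map _).mul ?_
    simp only [Pi.add_apply, Pi.mul_apply, Pi.one_apply, Pi.ofNat_apply, map_add, map_mul, map_one,
      map_ofNat]
    generalize PowerSeries.constantCoeff (Xw O _ x) + PowerSeries.constantCoeff (Xw O _ x) = t
    refine (IsLocalRing.isUnit_or_isUnit_of_add_one (a := 1 + 6 * t) (b := 2 * (-3 * t))
      (by ring)).resolve_right fun h => two_nonunit (O := O) (isUnit_of_mul_isUnit_left h)
  · obtain ⟨u, hu, e⟩ := z_sub (O := O) hM hd x
    refine ⟨mk0 0 _ z_mem, ?_⟩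
    rw [cu_smul, Ne, IsLocalRing.residue_eq_zero_iff, IsLocalRing.mem_maximalIdeal,
      mem_nonunits_iff, not_not, Subalgebra.coe_sub, coe_smul, coe_mk0, pow_zero, mul_one, e,
      PowerSeries.constantCoeff_C]
    exact hu

/-- **trace one modulo two** -/
theorem core (hM : Odd M) (H : Type) [Group H] [Fintype H] [DecidableEq H]
    [MulSemiringAction H (R0 O M)]
    (hH : ∀ h : H, h ≠ 1 → ∃ g : GM M, Fr g ∧ ∀ x : R0 O M, h • x = g • x) :
    ∃ w r : R0 O M, trH H w = 1 + 2 * r := by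
  classical
  refine trace_mod_of_max 2 (fun h => by rw [← one_add_one_eq_two, smul_add, smul_one])
    fun m hm hpm h hh => ?_
  obtain ⟨g, hg, e⟩ := hH h hh
  simp only [e]
  by_cases hy : yy O M ∈ m
  · obtain ⟨x, hx⟩ := prime_cusp' (G := GM M) (cu O M) m hm.isPrime fun x k1 k2 => by
      obtain ⟨c, s, rfl⟩ := inv_R0 x k1
      rw [map_add, map_mul, cu_yy, zero_mul, add_zero, cu_alg, IsLocalRing.residue_eq_zero_iff] at k2
      obtain ⟨n, b, hb⟩ := two_dvd_pow k2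
      refine m.add_mem (hm.isPrime.mem_of_pow_mem n ?_) (m.mul_mem_right _ hy)
      rw [← map_pow, hb, map_mul, map_ofNat]
      exact m.mul_mem_right _ hpm
    obtain ⟨a, ha⟩ := sep_cusp (O := O) hM hg x
    refine ⟨a, fun k => ha ?_⟩
    have e := (cusp_max (G := GM M) (cu O M) (fun z k1 k2 => ?_) x).eq_of_le hm.ne_top
      fun x k => hx x k
    · rw [← e] at k
      exact k
    · obtain ⟨c, s, rfl⟩ := inv_R0 z k1
      rw [map_add, map_mul, cu_yy, zero_mul, add_zero, cu_alg, Ne,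
        IsLocalRing.residue_eq_zero_iff, IsLocalRing.mem_maximalIdeal, mem_nonunits_iff,
        not_not] at k2
      obtain ⟨c', hc⟩ := (unit_of k2).exists_left_inv
      refine ⟨algebraMap O _ c', fun g => Subtype.ext ((rt O (AA O) g).commutes c'), ?_⟩
      rw [map_mul, map_add, map_mul, cu_yy, zero_mul, add_zero, ← map_mul, ← map_mul, hc, map_one,
        map_one]
  · obtain ⟨a, b, r, n, ha⟩ := sep_off (O := O) hM hg
    refine ⟨a, fun k => hy (hm.isPrime.mem_of_pow_mem n ?_)⟩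
    rw [eq_sub_of_add_eq ha.symm]
    exact m.sub_mem (m.mul_mem_right _ k) (m.mul_mem_right _ hpm)

end Vale.Agent.P022D.V.Tr
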