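import Vale.Agent.P022D.V.Spec2
import Vale.Agent.P022D.V.TrR
import Vale.Agent.P022D.V.IrrB

/-!
# P022D, block V, row IRR: the expansion principle
-/

set_option linter.all false

open UpperHalfPlane hiding I
open Matrix Function.Periodic CongruenceSubgroup
open scoped MatrixGroups ModularForm

noncomputable section

namespace Vale.Agent.P022D.V

open Vale.Agent.P022 Vale.Agent.P022.H218.L3 Vale.Agent.P027M.M

namespace IrrV

theorem lift_row {M : ℕ} (hM : M ≠ 0) {a b c d : ZMod M} (h : a * d - b * c = 1) :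
    ∃ c' d' : ℕ, (c' : ZMod M) = c ∧ (d' : ZMod M) = d ∧ Nat.Coprime d' c' := by
  haveI : NeZero M := ⟨hM⟩
  have c0 : c.val + M ≠ 0 := by omega
  haveI : NeZero (c.val + M) := ⟨c0⟩
  have ec : ((c.val + M : ℕ) : ZMod M) = c := by simp
  have h1 : Nat.Coprime d.val (Nat.gcd M (c.val + M)) := by
    rw [← ZMod.isUnit_iff_coprime]
    have k := congrArg (ZMod.castHom (Nat.gcd_dvd_left M (c.val + M))
      (ZMod (Nat.gcd M (c.val + M)))) h
    have kc : ZMod.castHom (Nat.gcd_dvd_left M (c.val + M)) (ZMod (Nat.gcd M (c.val + M))) c = 0 := by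
      refine (congrArg _ ec.symm).trans ?_
      rw [map_natCast, ZMod.natCast_eq_zero_iff]
      exact Nat.gcd_dvd_right _ _
    have kd : ZMod.castHom (Nat.gcd_dvd_left M (c.val + M)) (ZMod (Nat.gcd M (c.val + M))) d =
        (d.val : ZMod (Nat.gcd M (c.val + M))) := by
      refine (congrArg _ (ZMod.natCast_zmod_val d).symm).trans ?_
      rw [map_natCast]
    rw [map_sub, map_mul, map_mul, map_one, kc, kd, mul_zero, sub_zero, mul_comm] at k
    exact IsUnit.of_mul_eq_one _ k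
  obtain ⟨u, hu⟩ := ZMod.unitsMap_surjective (Nat.gcd_dvd_right M (c.val + M))
    (ZMod.unitOfCoprime _ h1)
  have h2 : d.val ≡ (u : ZMod (c.val + M)).val [MOD Nat.gcd M (c.val + M)] := by
    rw [← ZMod.natCast_eq_natCast_iff, ← ZMod.coe_unitOfCoprime _ h1, ← hu, ZMod.unitsMap_val,
      ZMod.natCast_val]
  obtain ⟨k, k1, k2⟩ := Nat.chineseRemainder' h2
  refine ⟨c.val + M, k, ec, ?_, ?_⟩
  · rw [(ZMod.natCast_eq_natCast_iff _ _ _).2 k1, ZMod.natCast_zmod_val]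
  · rw [← ZMod.isUnit_iff_coprime, (ZMod.natCast_eq_natCast_iff _ _ _).2 k2,
      ZMod.natCast_zmod_val]
    exact u.isUnit

/-- `SL₂(ℤ) → SL₂(ℤ/M)` is onto -/
theorem rd_surj {M : ℕ} (hM : M ≠ 0) (g : GM M) (hg : Matrix.GeneralLinearGroup.det g = 1) :
    ∃ γ : SL(2, ℤ), rd M γ = g := by
  have h : (g : Matrix (Fin 2) (Fin 2) (ZMod M)) 0 0 * (g : Matrix (Fin 2) (Fin 2) (ZMod M)) 1 1 -
      (g : Matrix (Fin 2) (Fin 2) (ZMod M)) 0 1 * (g : Matrix (Fin 2) (Fin 2) (ZMod M)) 1 0 = 1 := by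
    rw [← Matrix.det_fin_two]
    exact congrArg Units.val hg
  obtain ⟨c, d, hc, hd, hcd⟩ := lift_row hM h
  obtain ⟨a, b, hab⟩ := Nat.isCoprime_iff_coprime.2 hcd
  have k : (a : ZMod M) * d + b * c = 1 := by exact_mod_cast congrArg (Int.cast : ℤ → ZMod M) hab
  obtain ⟨x, hx⟩ := ZMod.intCast_surjective
    (((g : Matrix (Fin 2) (Fin 2) (ZMod M)) 0 0 - (a : ZMod M)) * (b : ZMod M) +
      ((g : Matrix (Fin 2) (Fin 2) (ZMod M)) 0 1 + (b : ZMod M)) * (a : ZMod M))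
  refine ⟨⟨!![a + x * c, -b + x * d; c, d], by
    rw [Matrix.det_fin_two_of]
    linear_combination hab⟩, Units.ext ?_⟩
  rw [← hc, ← hd] at h
  ext i j
  fin_cases i <;> fin_cases j
  · show ((a + x * c : ℤ) : ZMod M) = (g : Matrix (Fin 2) (Fin 2) (ZMod M)) 0 0
    push_cast
    rw [hx]
    linear_combination ((g : Matrix (Fin 2) (Fin 2) (ZMod M)) 0 0) * k - (a : ZMod M) * h
  · show ((-b + x * d : ℤ) : ZMod M) = (g : Matrix (Fin 2) (Fin 2) (ZMod M)) 0 1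
    push_cast
    rw [hx]
    linear_combination ((g : Matrix (Fin 2) (Fin 2) (ZMod M)) 0 1) * k + (b : ZMod M) * h
  · exact (Int.cast_natCast c).trans hc
  · exact (Int.cast_natCast d).trans hd

theorem rd_one {M : ℕ} {γ : SL(2, ℤ)} (h : γ ∈ Gamma M) : rd M γ = 1 := by
  rw [Gamma_mem'] at h
  rw [rd, MonoidHom.comp_apply, h, map_one]

end IrrV

open IrrV Tr in
theorem irr (O : Type) [CommRing O] [Co O] (h1 : VS1 O) : IRR O := by
  intro M k ϖ hM h0 v hv g hg g' hd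
  have M0 : 0 < M := hM.pos
  obtain ⟨n, hn⟩ := dvd_two_pow h0
  obtain ⟨k', -, w, ⟨⟨F, f1, f2⟩, -⟩, rfl⟩ := ((h1 M (n + 2) ϖ hM (by omega)
    (hn.trans (pow_dvd_pow 2 (by omega)))).2 k v).1 hv
  obtain ⟨γ, hγ⟩ := rd_surj M0.ne' (g * g'⁻¹) (by rw [map_mul, map_inv, hd, mul_inv_cancel])
  have j0 : (Co.j ϖ : ℂ) ≠ 0 := fun e => h0 (Co.inj (O := O) (by rw [e, map_zero]))
  have e1 : F g ∣[(k' : ℤ)] γ = F g' := by
    rw [← f1.eqv γ g', hγ, inv_mul_cancel_right]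
  have cf : ∀ (x : GM M) (m : ℕ), ((red M ϖ).toLinearMap w x).coeff m =
      Ideal.Quotient.mk _ ((w x).coeff m) := fun x m =>
    PowerSeries.coeff_map ((Ideal.Quotient.mkₐ O (Ideal.span {algebraMap O (AA O) ϖ}) :
      AA O →ₐ[O] RR ϖ) : AA O →+* RR ϖ) m (w x)
  have hs : ∀ (x : GM M) (τ : ℍ), HasSum (fun m : ℕ =>
      ((Co.j ϖ : ℂ)⁻¹ • (w x).map (av O)).coeff m * qParam M τ ^ m)
      (((Co.j ϖ : ℂ)⁻¹ • F x) τ) := fun x τ =>
    ((f2 x τ).mul_left (Co.j ϖ : ℂ)⁻¹).congr_fun fun m => by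
      rw [PowerSeries.coeff_smul, smul_eq_mul, mul_assoc]
  have bd : Bdd (k' : ℤ) ((Co.j ϖ : ℂ)⁻¹ • F g) := by
    have h := (Bdd.const (Co.j ϖ : ℂ)⁻¹).mul (f1.bdd g)
    rw [zero_add] at h
    exact h
  have mf : IsMF (Gamma M) k' ((Co.j ϖ : ℂ)⁻¹ • F g) := ⟨bd.1, fun δ hδ => by
    have := f1.eqv δ g
    rw [rd_one hδ, one_mul] at this
    rw [ModularForm.SL_smul_slash, this], bd.2⟩
  have iM : (M : ℂ)⁻¹ ∈ (Co.A O : ValuationSubring ℂ) := by
    have := inv_mem (odd_unit (O := O) hM)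
    rwa [map_natCast] at this
  ext m
  have key := Irr.irr_hs (Co.A O) Co.arch M0 iM mf γ (hs g)
    (by rw [ModularForm.SL_smul_slash, e1]; exact hs g') (fun i => by
      have z := cf g i
      rw [hg, map_zero, eq_comm, Ideal.Quotient.eq_zero_iff_mem, Ideal.mem_span_singleton'] at z
      obtain ⟨y, hy⟩ := z
      rw [PowerSeries.coeff_smul, PowerSeries.coeff_map, ← hy, map_mul, av_alg, smul_eq_mul,
        mul_comm (av O y), inv_mul_cancel_left₀ j0]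
      exact av_mem y) m
  rw [cf, map_zero, Ideal.Quotient.eq_zero_iff_mem, Ideal.mem_span_singleton']
  refine ⟨amk _ key, av_inj ?_⟩
  rw [map_mul, av_amk, av_alg, PowerSeries.coeff_smul, PowerSeries.coeff_map, smul_eq_mul,
    mul_comm, mul_inv_cancel_left₀ j0]

end Vale.Agent.P022D.V
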