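import Vale.Agent.P022D.V.TrV

/-!
# P022D, block V: invariants are norms, eigenvectors lift
-/

set_option autoImplicit false
set_option linter.all false

open Matrix
open scoped MatrixGroups

noncomputable section

namespace Vale.Agent.P022D.V

namespace Tr

variable {O : Type} [CommRing O] {M : ℕ} {R : Type} [CommRing R] [Algebra O R]

theorem rt_rt (g h : GM M) (w : FT M R) : rt O R g (rt O R h w) = rt O R (g * h) w := by
  rw [map_mul, AlgHom.mul_apply]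

/-- eigenvectors are twisted norms -/
theorem norm_of [NeZero M] (X : Submodule O (FT M R)) (hX : ∀ h, ∀ v ∈ X, rt O R h v ∈ X)
    (μ : Module.End O (FT M R)) (h1 : ∀ v ∈ X, μ v ∈ X)
    (h2 : ∀ v ∈ X, ∑ g : GM M, rt O R g (μ (rt O R g⁻¹ v)) = v) (H : Subgroup (GM M))
    (s : Finset (GM M)) (hs : ∀ h, h ∈ s ↔ h ∈ H) (χ : GM M → O) (v : FT M R) (hv : v ∈ X)
    (he : v ∈ Eg O R H χ) : ∃ v' ∈ X, v = ∑ h ∈ s, χ h⁻¹ • rt O R h v' := by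
  classical
  refine ⟨∑ q : GM M ⧸ H, rt O R q.out⁻¹ (μ (rt O R q.out v)),
    X.sum_mem fun q _ => hX _ _ (h1 _ (hX _ _ hv)), ?_⟩
  rw [Finset.sum_subtype s (p := fun h => h ∈ H) hs]
  refine (h2 v hv).symm.trans ?_
  rw [← Equiv.sum_comp (Equiv.inv (GM M)), ← (coset_bij H).sum_comp, Fintype.sum_prod_type,
    Finset.sum_comm, ← Equiv.sum_comp (Equiv.inv H)]
  refine Finset.sum_congr rfl fun p _ => ?_
  rw [map_sum, Finset.smul_sum]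
  refine Finset.sum_congr rfl fun q _ => ?_
  simp only [Equiv.inv_apply, Subgroup.coe_inv, _root_.mul_inv_rev, inv_inv]
  rw [← rt_rt q.out, he _ (H.inv_mem p.2), map_smul, map_smul, map_smul, ← rt_rt]

/-- twisted norms are eigenvectors -/
theorem norm_eg (H : Subgroup (GM M)) (s : Finset (GM M)) (hs : ∀ h, h ∈ s ↔ h ∈ H)
    (χ : GM M → O) (hχ : ∀ h ∈ H, ∀ h' ∈ H, χ (h * h') = χ h * χ h') (w : FT M R) :
    ∑ h ∈ s, χ h⁻¹ • rt O R h w ∈ Eg O R H χ := by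
  intro g hg
  rw [map_sum, Finset.smul_sum]
  refine Finset.sum_bij' (fun h _ => g * h) (fun h _ => g⁻¹ * h)
    (fun h hh => (hs _).2 (H.mul_mem hg ((hs _).1 hh)))
    (fun h hh => (hs _).2 (H.mul_mem (H.inv_mem hg) ((hs _).1 hh))) (fun h _ => by simp)
    (fun h _ => by simp) fun h hh => ?_
  rw [map_smul, rt_rt, smul_smul, mul_comm, ← hχ _ (H.inv_mem (H.mul_mem hg ((hs _).1 hh))) _ hg,
    _root_.mul_inv_rev, inv_mul_cancel_right]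

theorem dep_rt (g : GM M) (w : FT M R) : dep O R M (rt O R g w) = rt O R g (dep O R M w) := rfl

theorem dep_mem (w : FT M R) : dep O R M w ∈ Od O M R := fun g n hn => by
  simp [dep, hn]

theorem dep_eq {w : FT M R} (h : w ∈ Od O M R) : dep O R M w = w := by
  ext g n
  by_cases hn : Even n
  · rw [dep_mem w g n hn, h g n hn]
  · simp [dep, hn]

theorem Od_rt (g : GM M) {w : FT M R} (h : w ∈ Od O M R) : rt O R g w ∈ Od O M R :=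
  fun _ n hn => h _ n hn

end Tr

open Tr

variable (O : Type) [CommRing O] [Co O]

theorem nrm (hS : SER O) : NRM O := by
  intro M _ i ϖ hM h3 h0
  obtain ⟨μ, m1, m2⟩ := tr2 O M (i + 1) ϖ hM h3 h0
  have a1 : ∀ v ∈ X2 M i ϖ, (dep O (RR ϖ) M * μ) v ∈ X2 M i ϖ := fun v hv =>
    ⟨(hS M (i + 1) ϖ hM h0).2.1 _ (m1 v hv.1), dep_mem _⟩
  have a2 : ∀ v ∈ X2 M i ϖ, ∑ g : GM M, rt O _ g ((dep O (RR ϖ) M * μ) (rt O _ g⁻¹ v)) = v := by
    intro v hv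
    simp only [Module.End.mul_apply, ← dep_rt]
    rw [← map_sum, m2, dep_eq hv.2]
  exact ⟨⟨_, a1, a2⟩, fun H s hs χ _ _ v hv =>
    norm_of (X2 M i ϖ) (fun h v hv => ⟨V2_rt h hv.1, Od_rt h hv.2⟩) _ a1 a2 H s hs χ v hv.1 hv.2⟩

variable {O}

theorem Tr.up_two {M : ℕ} {ϖ : O} (hM : Odd M) {t : ℕ} (ht : ϖ ∣ 2 ^ (t + 2 + 2)) (k : ℕ) :
    k + 2 ^ (t + 2) ≡ k [MOD 2 ^ (t + 2)] ∧ 2 ≤ k + 2 ^ (t + 2) ∧
      Fil M k ϖ ≤ Fil M (k + 2 ^ (t + 2)) ϖ ∧ Fil2 M k ϖ ≤ Fil2 M (k + 2 ^ (t + 2)) ϖ := by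
  have e : k + 2 ^ (t + 2) ≡ k [MOD 2 ^ (t + 2)] := Nat.add_modulus_modEq_iff.2 (Nat.ModEq.refl k)
  refine ⟨e, ?_, (vs1 O M (t + 2) ϖ hM (by omega) ht).1 _ _ (Nat.le_add_right _ _) e.symm⟩
  have := Nat.one_le_two_pow (n := t)
  rw [pow_add]
  omega

variable (O)

theorem lift : LIFT O := by
  intro M k₀ s ϖ hM h3 h0 H χ c1 hχ
  classical
  haveI : NeZero M := ⟨hM.pos.ne'⟩
  obtain ⟨t, ht, hst⟩ := exists_s h0 s
  replace ht := dvd_succ ht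
  have down : ∀ {k}, k ≡ k₀ [MOD 2 ^ (t + 2)] → k ≡ k₀ [MOD 2 ^ s] := fun h =>
    h.of_dvd (pow_dvd_pow 2 (by omega))
  obtain ⟨S, hS⟩ : ∃ S : Finset (GM M), ∀ h, h ∈ S ↔ h ∈ H :=
    ⟨Finset.univ.filter (· ∈ H), by simp⟩
  have rs : ∀ w : FT M (AA O), red M ϖ (∑ h ∈ S, χ h⁻¹ • rt O _ h w) =
      ∑ h ∈ S, χ h⁻¹ • rt O _ h (red M ϖ w) := fun w => by
    simp only [map_sum, map_smul, red_rt]
  have A : ∀ v ∈ V2 M k₀ ϖ ⊓ Eg O _ H χ, ∃ k, k ≡ k₀ [MOD 2 ^ (t + 2)] ∧ 2 ≤ k ∧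
      ∃ w ∈ L2 O M k ⊓ Eg O _ H χ, red M ϖ w = v := by
    intro v hv
    obtain ⟨μ, m1, m2⟩ := tr2 O M k₀ ϖ hM h3 h0
    obtain ⟨v', h1, rfl⟩ := norm_of (V2 M k₀ ϖ) (fun h v hv => V2_rt h hv) μ m1 (fun v _ => m2 v)
      H S hS χ v (Submodule.mem_inf.1 hv).1 (Submodule.mem_inf.1 hv).2
    obtain ⟨k, hk, h2⟩ := (mem_V2 hM ht).1 h1
    obtain ⟨a1, a2, -, a3⟩ := up_two hM ht k
    obtain ⟨w, hw, rfl⟩ := a3 h2
    exact ⟨_, a1.trans hk, a2, _, ⟨Submodule.sum_mem _ fun h _ => Submodule.smul_mem _ _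
      (L2_rt hw h), norm_eg H S hS χ hχ w⟩, rs w⟩
  refine ⟨fun v hv => ?_, fun hn v hv => ?_⟩
  · obtain ⟨k, h1, h2⟩ := A v hv
    exact ⟨k, down h1, h2⟩
  by_cases hm : ng M ∈ H
  · obtain ⟨k, h1, h2, w, ⟨h4, h5⟩, h6⟩ := A v ⟨(VV_le_V2 hM h0 k₀).1 hv.1, hv.2⟩
    refine ⟨k, down h1, h2, w, ⟨L_sat hM.pos (n := 2) two_ne_zero ?_, h5⟩, h6⟩
    have e := (mem_L2'.1 h4).1
    rwa [← ep_eq, ep_cong h1, ep_eq, h5 _ hm, show χ (ng M) = (-1) ^ k₀ from hn hm,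
      Algebra.smul_def, map_pow, map_neg, map_one, ← mul_assoc, ← mul_pow, neg_mul_neg, one_mul,
      one_pow, one_mul, ← two_mul] at e
  · obtain ⟨u, u1, -, u2⟩ := tr_one' hM h0 H (by
      rintro g hg (rfl | rfl)
      · rfl
      · exact absurd hg hm)
    obtain ⟨k, hk, h2⟩ := (mem_VV hM ht).1 (VV_mul hM h0 u1 hv.1)
    obtain ⟨a1, a2, a3, -⟩ := up_two hM ht k
    obtain ⟨w, hw, e⟩ := a3 h2
    rw [zero_add] at hk
    refine ⟨_, down (a1.trans hk), a2, _, ⟨Submodule.sum_mem _ fun h _ => Submodule.smul_mem _ _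
      (L_rt hw h), norm_eg H S hS χ hχ w⟩, ?_⟩
    rw [rs, show red M ϖ w = u * v from e, Finset.sum_subtype S (p := fun h => h ∈ H) hS]
    refine (Finset.sum_congr rfl fun h _ => ?_).trans
      (show ∑ h : H, rt O _ (h : GM M) u * v = v by rw [← Finset.sum_mul, u2, one_mul])
    rw [map_mul, hv.2 _ h.2, mul_smul_comm, smul_smul, ← hχ _ (H.inv_mem h.2) _ h.2,
      inv_mul_cancel, c1, one_smul]

end Vale.Agent.P022D.V
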