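import Vale.Agent.P022D.V.Spec2

/-!
# P022D, block V: the coefficients at `g = 1` of an invariant vector are rational
-/

set_option linter.all false

noncomputable section

namespace Vale.Agent.P022D.V

open Vale.Agent.P027M.M

namespace Rat

theorem prim {N : ℕ} (hN : N ≠ 0) : IsPrimitiveRoot (ze N 1) N := by
  have h := Complex.isPrimitiveRoot_exp N hN
  have e : ze N 1 = Complex.exp (2 * Real.pi * Complex.I / N) := by
    rw [ze, Int.cast_one, mul_one]
  rw [e]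
  exact h

theorem pow_ze {N Q : ℕ} (hN : N ≠ 0) (hQ : Q ≠ 0) : ze (N * Q) 1 ^ Q = ze N 1 := by
  rw [ze, ze, ← Complex.exp_nat_mul]
  have h1 : (N : ℂ) ≠ 0 := Nat.cast_ne_zero.2 hN
  have h2 : (Q : ℂ) ≠ 0 := Nat.cast_ne_zero.2 hQ
  congr 1
  push_cast
  field_simp

variable {O : Type} [CommRing O] [Co O]

theorem tors {M k : ℕ} {v : FT M (RD O)} (hv : v ∈ VD O M k) : ∃ e : ℕ, (2 : O) ^ e • v = 0 := by
  refine Submodule.iSup_induction (motive := fun v => ∃ e : ℕ, (2 : O) ^ e • v = 0) _ hv ?_ ?_ ?_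
  · rintro e _ ⟨x, -, rfl⟩
    refine ⟨e, ?_⟩
    have h : (2 : O) ^ e • x = 0 := by
      funext g
      ext n
      rw [Pi.smul_apply, PowerSeries.coeff_smul, Pi.zero_apply, map_zero]
      obtain ⟨y, hy⟩ := Ideal.Quotient.mk_surjective ((x g).coeff n)
      rw [← hy, Algebra.smul_def]
      change Ideal.Quotient.mk _ (algebraMap O (AA O) ((2 : O) ^ e)) * _ = 0
      rw [Ideal.Quotient.eq_zero_iff_mem.2 (Ideal.mem_span_singleton_self _), zero_mul]
    rw [← map_smul, h, map_zero]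
  · exact ⟨0, smul_zero _⟩
  · rintro x y ⟨a, ha⟩ ⟨b, hb⟩
    refine ⟨a + b, ?_⟩
    rw [smul_add, pow_add, mul_comm, mul_smul, ha, mul_comm, mul_smul, hb, smul_zero, smul_zero,
      add_zero]

theorem eD_sub {x y : ℂ} (h : eD O x = eD O y) : x - y ∈ (Co.A O : ValuationSubring ℂ) := by
  rw [← eD_eq_zero]
  have e := eD_add (O := O) (x - y) y
  rw [sub_add_cancel, h] at e
  exact (add_eq_right.1 e.symm)

end Rat

variable (O : Type) [CommRing O] [Co O]

theorem rat (hU : UNR O) (hR : ROOT O) (hD : DIV O) (hV : VS1 O) : RAT O := by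
  intro M N Q k z hM hN hNQ hc hz v hv hinv n
  have hM0 : M ≠ 0 := by
    rintro rfl
    exact absurd hM (by decide)
  have hN0 : N ≠ 0 := by omega
  have hQ0 : Q ≠ 0 := by
    rintro rfl
    exact hM0 (by rw [hNQ, mul_zero])
  have hM3 : 3 ≤ M := hN.trans (by rw [hNQ]; exact Nat.le_mul_of_pos_right _ (Nat.pos_of_ne_zero hQ0))
  obtain ⟨-, -, -, -, -, -, hσ, -, -, h2⟩ := hR M hM
  obtain ⟨e, he⟩ := Rat.tors hv.1.1
  have hϖ : (2 : O) ^ e ≠ 0 := by
    intro h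
    have := congrArg (Co.j : O →+* ℂ) h
    rw [map_pow, map_ofNat, map_zero] at this
    exact pow_ne_zero e (two_ne_zero) this
  have hj : (Co.j : O →+* ℂ) ((2 : O) ^ e) = 2 ^ e := by rw [map_pow, map_ofNat]
  obtain ⟨x, hx, rfl⟩ := (((hD M hM hM3).2.1 k _ hϖ).2 v).1 ⟨hv.1, he⟩
  obtain ⟨k', -, w, hw, rfl⟩ := ((hV M (e + 2) ((2 : O) ^ e) hM (by omega)
    (pow_dvd_pow _ (by omega))).2 k x).1 hx.1
  have hG : Gal w := (mem_L.1 hw).2
  have co : ∀ g, (ml O M (dv ((2 : O) ^ e)) ((red M ((2 : O) ^ e)).toLinearMap w) g).coeff n =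
      eD O (av O ((w g).coeff n) / 2 ^ e) := by
    intro g
    rw [ml_coeff, ← hj, ← dv_mk]
    rfl
  haveI : Fact (1 < M) := ⟨by omega⟩
  obtain ⟨a, y, hy⟩ := (hU M hM ((w 1).coeff n) (by
    intro σ h1 h2
    have := hG σ h1 1 (by rw [Units.val_one, ZMod.val_one, pow_one, h2]) 1 n
    rwa [dg_one, mul_one] at this)).2 ((2 : O) ^ e) (by
    intro σ h1
    obtain ⟨m, hm⟩ := hσ σ h1
    have hcop : Nat.Coprime (2 ^ m) M :=
      Nat.Coprime.pow_left m ((Nat.coprime_two_left).2 hM)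
    let a : (ZMod M)ˣ := ZMod.unitOfCoprime (2 ^ m) hcop
    have ha : (a : ZMod M) = ((2 ^ m : ℕ) : ZMod M) := ZMod.coe_unitOfCoprime _ _
    have g1 := hG σ h1 a (by
      rw [ha, ZMod.val_natCast, ← pow_eq_pow_mod _ (Rat.prim hM0).pow_eq_one, hm]) 1 n
    have c1 : Cg M N a 1 := by
      have e2 : ze M 1 ^ Q = ze N 1 := by rw [hNQ]; exact Rat.pow_ze hN0 hQ0
      have e3 : σ (ze N 1) = ze N 1 := by rw [← hz]; exact h1 z
      have e1 : ze N 1 ^ 2 ^ m = ze N 1 := by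
        calc ze N 1 ^ 2 ^ m = (ze M 1 ^ Q) ^ 2 ^ m := by rw [e2]
          _ = σ (ze M 1 ^ Q) := by rw [map_pow, hm, ← pow_mul, ← pow_mul, mul_comm]
          _ = ze N 1 := by rw [e2, e3]
      obtain ⟨r, hr⟩ : ∃ r, 2 ^ m = r + 1 := Nat.exists_eq_succ_of_ne_zero (by positivity)
      have e4 : ze N 1 ^ r = 1 := by
        rw [hr, pow_succ] at e1
        exact (mul_eq_right₀ (Complex.exp_ne_zero _)).1 e1
      obtain ⟨t, ht⟩ := (Rat.prim hN0).dvd_of_pow_eq_one r e4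
      refine ⟨t, ?_⟩
      rw [ha, hr, ht]
      push_cast
      ring
    have c2 : Cg M Q a (2 ^ m) := ⟨0, by rw [ha]; simp⟩
    have i1 := congrArg (fun u : FT M (RD O) => (u 1).coeff n) (hinv a m c1 c2)
    simp only [rt_apply] at i1
    rw [co, co, one_mul] at i1
    have i2 := Co.stab σ h1 _ (Rat.eD_sub i1)
    refine ⟨-amk _ i2, ?_⟩
    rw [mul_one] at g1
    have t2 : σ 2 = 2 := map_ofNat σ 2
    rw [map_neg, av_amk, hj, map_sub, map_div₀, map_div₀, g1, map_pow, t2]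
    field_simp
    ring)
  refine ⟨a, e, ?_⟩
  rw [co, hy, map_add, map_mul, av_alg, av_alg, hj, add_div, eD_add,
    mul_div_cancel_left₀ _ (pow_ne_zero e two_ne_zero), eD_eq_zero.2 (av_mem y), add_zero]

end Vale.Agent.P022D.V
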