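import Vale.Agent.P022D.V.TrR

/-!
# P022D, block V: an element of trace one for `GL₂(ℤ/M) / ±1`
-/

set_option autoImplicit false
set_option linter.all false

open UpperHalfPlane hiding I
open Matrix Filter Topology Function.Periodic
open scoped MatrixGroups Manifold ModularForm

noncomputable section

namespace Vale.Agent.P022D.V.Tr

open Vale.Agent.P022 Vale.Agent.P022.H218.L3 Vale.Agent.P027M.M

variable {O : Type} [CommRing O] [Co O] {M : ℕ}

/-- the element `-1` -/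
def ng (M : ℕ) : GM M := dg (-1) (-1)

theorem ng_sq : ng M * ng M = 1 := by
  rw [ng, dg_mul, neg_mul_neg, one_mul, dg_one]

theorem ng_comm (g : GM M) : ng M * g = g * ng M := dg_center _ g

theorem rd_neg : rd M (-1) = ng M := by
  apply Units.ext
  ext i j
  rw [rd_apply, ng, dg_coe]
  fin_cases i <;> fin_cases j <;> simp

theorem rt_ng (hM : 0 < M) {k : ℕ} {w : FT M (AA O)} (h : w ∈ L O M k) :
    rt O (AA O) (ng M) w = (-1) ^ k * w := by
  obtain ⟨⟨F, h1, h2⟩, -⟩ := h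
  funext g
  have e1 : F (g * ng M) = (fun _ => (-1 : ℂ) ^ k) * F g := by
    rw [← h1.eqv (-1) g, rd_neg, ng_comm]
    funext τ
    have e : (-1 : SL(2, ℤ)) • τ = τ := by rw [ModularGroup.SL_neg_smul, one_smul]
    rw [Pi.mul_apply, ModularForm.SL_slash_apply, ModularGroup.denom_apply, e]
    simp only [Matrix.SpecialLinearGroup.coe_neg, Matrix.SpecialLinearGroup.coe_one, neg_apply,
      ne_eq, one_ne_zero, not_false_eq_true, one_apply_ne, neg_zero, Int.cast_zero, zero_mul,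
      one_apply_eq, Int.cast_neg, Int.cast_one, zero_add, _root_.zpow_neg, zpow_natCast]
    rw [mul_left_comm, mul_inv_cancel₀ (pow_ne_zero _ (by norm_num)), mul_one]
  have e2 := hs_mul (hs_const ((-1 : ℂ) ^ k)) (h2 g)
  rw [← e1] at e2
  apply PowerSeries.map_injective (av O) av_inj
  rw [rt_apply, hs_unique hM (h2 _) e2]
  simp

/-- the subgroup `±1` -/
def ZZ (M : ℕ) : Subgroup (GM M) where
  carrier := {g | g = 1 ∨ g = ng M}
  one_mem' := Or.inl rfl
  mul_mem' := by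
    rintro a b (rfl | rfl) (rfl | rfl) <;> simp [ng_sq]
  inv_mem' := by
    rintro a (rfl | rfl)
    · simp
    · exact Or.inr (inv_eq_of_mul_eq_one_right ng_sq)

instance : (ZZ M).Normal := ⟨by
  rintro a (rfl | rfl) g
  · exact Or.inl (by simp)
  · exact Or.inr (by rw [← ng_comm, mul_inv_cancel_right])⟩

theorem fr_of (hM : Odd M) {g : GM M} (h1 : g ∉ ZZ M) {n : ℕ} (h2 : g ^ 2 ^ n ∈ ZZ M) : Fr g := by
  intro hd x
  obtain ⟨k, hk⟩ : ∃ k : GM M, k = (x * g * x⁻¹)⁻¹ := ⟨_, rfl⟩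
  have k1 : k ∉ ZZ M := fun e => h1 (by
    have := (inferInstance : (ZZ M).Normal).conj_mem _ ((ZZ M).inv_mem e) x⁻¹
    rwa [hk, inv_inv, inv_inv, ← mul_assoc, ← mul_assoc, inv_mul_cancel, one_mul,
      inv_mul_cancel_right] at this)
  have k2 : k ^ 2 ^ n ∈ ZZ M := by
    rw [hk, inv_pow, conj_pow]
    exact (ZZ M).inv_mem ((inferInstance : (ZZ M).Normal).conj_mem _ h2 x)
  have k3 : (k : Matrix (Fin 2) (Fin 2) (ZMod M)).det = 1 := by
    rw [← Matrix.GeneralLinearGroup.val_det_apply, hk, map_inv, map_mul, map_mul, hd, map_inv]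
    simp
  have key : ∀ ε : (ZMod M)ˣ, dg ε ε ∈ ZZ M → ε * ε = 1 →
      vg ![0, 1] (x * g * x⁻¹) ≠ ![0, (ε : ZMod M)] := by
    intro ε hε h3 e
    rw [vg, ← hk] at e
    have a0 : (k : Matrix (Fin 2) (Fin 2) (ZMod M)) 1 0 = 0 := by
      simpa [Matrix.vecMul, dotProduct] using congrFun e 0
    have a1 : (k : Matrix (Fin 2) (Fin 2) (ZMod M)) 1 1 = ε := by
      simpa [Matrix.vecMul, dotProduct] using congrFun e 1
    have h4 : (ε : ZMod M) * ε = 1 := by rw [← Units.val_mul, h3, Units.val_one]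
    have a2 : (k : Matrix (Fin 2) (Fin 2) (ZMod M)) 0 0 = ε := by
      rw [Matrix.det_fin_two, a0, a1, mul_zero, sub_zero] at k3
      linear_combination (ε : ZMod M) * k3 - (k : Matrix (Fin 2) (Fin 2) (ZMod M)) 0 0 * h4
    obtain ⟨b, hb⟩ : ∃ b, b = (k : Matrix (Fin 2) (Fin 2) (ZMod M)) 0 1 := ⟨_, rfl⟩
    have a3 : (k : Matrix (Fin 2) (Fin 2) (ZMod M)) = !![(ε : ZMod M), b; 0, ε] := by
      rw [Matrix.eta_fin_two (k : Matrix (Fin 2) (Fin 2) (ZMod M)), a0, a1, a2, hb]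
    have a4 : ∀ m : ℕ, (k : Matrix (Fin 2) (Fin 2) (ZMod M)) ^ m =
        !![(ε : ZMod M) ^ m, (m : ZMod M) * ε ^ (m + 1) * b; 0, ε ^ m] := by
      intro m
      induction m with
      | zero => simp [Matrix.one_fin_two]
      | succ m ih =>
        rw [pow_succ, ih, a3, Matrix.mul_fin_two]
        ext i j
        fin_cases i <;> fin_cases j
        · simp [pow_succ]
        · simp only [Fin.zero_eta, Fin.mk_one, of_apply, cons_val', cons_val_one, cons_val_zero,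
            cons_val_fin_one]
          push_cast
          linear_combination (-(ε : ZMod M) ^ m * b) * h4
        · simp
        · simp [pow_succ]
    have a5 : ((k ^ 2 ^ n : GM M) : Matrix (Fin 2) (Fin 2) (ZMod M)) 0 1 = 0 := by
      rcases k2 with e | e <;> rw [e]
      · simp
      · simp [ng, dg_coe]
    rw [Units.val_pow_eq_pow_val, a4] at a5
    have a6 : ((2 ^ n : ℕ) : ZMod M) * (ε : ZMod M) ^ (2 ^ n + 1) * b = 0 := a5
    have a7 : IsUnit (((2 ^ n : ℕ) : ZMod M) * (ε : ZMod M) ^ (2 ^ n + 1)) :=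
      ((ZMod.isUnit_iff_coprime _ _).2 (hM.coprime_two_left.pow_left n)).mul (ε.isUnit.pow _)
    rw [a7.mul_right_eq_zero] at a6
    refine k1 ((Units.ext ?_ : k = dg ε ε) ▸ hε)
    rw [a3, a6, dg_coe]
  refine ⟨key 1 (Or.inl dg_one) (one_mul _), ?_⟩
  simpa using key (-1) (Or.inr rfl) (by simp)

variable [NeZero M]

theorem ng_R0 {x : FT M (AA O)} (hx : x ∈ R0 O M) : rt O (AA O) (ng M) x = x := by
  obtain ⟨a, h⟩ := hx
  have := rt_ng (NeZero.pos M) h
  rw [map_mul, map_pow, rt_E, pow_mul, show (-1 : FT M (AA O)) ^ 4 = 1 by ring, one_pow,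
    one_mul] at this
  exact (E_unit.pow a).mul_right_cancel this

instance : MulSemiringAction (GM M ⧸ ZZ M) (R0 O M) :=
  MulSemiringAction.compHom _
    (QuotientGroup.lift (ZZ M) (MulSemiringAction.toRingAut (GM M) (R0 O M)) (by
      rintro g (rfl | rfl)
      · exact map_one _
      · exact RingEquiv.ext fun x => Subtype.ext (ng_R0 x.2)))

theorem mk_smul (g : GM M) (x : R0 O M) : (QuotientGroup.mk g : GM M ⧸ ZZ M) • x = g • x := rfl

theorem out_smul (q : GM M ⧸ ZZ M) (x : R0 O M) : q • x = q.out • x := by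
  rw [← mk_smul, QuotientGroup.out_eq']

theorem odd_unit' {n : ℕ} (hn : Odd n) : IsUnit (n : O) :=
  unit_of (by rw [map_natCast]; exact odd_unit hn)

/-- trace one for the whole group modulo a power of two -/
theorem all_R0 (hM : Odd M) [Fintype (GM M ⧸ ZZ M)] (n : ℕ) :
    ∃ w r : R0 O M, ∑ q : GM M ⧸ ZZ M, q • w = 1 + 2 ^ n * r := by
  classical
  haveI : Fact (Nat.Prime 2) := ⟨Nat.prime_two⟩
  obtain ⟨P⟩ : Nonempty (Sylow 2 (GM M ⧸ ZZ M)) := inferInstance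
  obtain ⟨w, r, h⟩ := core (O := O) hM (P : Subgroup (GM M ⧸ ZZ M)) fun h hh => by
    obtain ⟨k, hk⟩ := P.isPGroup' h
    refine ⟨(h : GM M ⧸ ZZ M).out, fr_of hM (n := k) (fun e => hh (Subtype.ext ?_)) ?_,
      fun x => out_smul _ x⟩
    · rw [← QuotientGroup.out_eq' (h : GM M ⧸ ZZ M)]
      exact (QuotientGroup.eq_one_iff _).2 e
    · rw [← QuotientGroup.eq_one_iff, QuotientGroup.mk_pow, QuotientGroup.out_eq']
      exact congrArg Subtype.val hk
  obtain ⟨c, hc⟩ := (odd_unit' (O := O) (Nat.odd_iff.2 (Nat.two_dvd_ne_zero.1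
    P.not_dvd_index))).exists_left_inv
  have ha : ∀ g : GM M ⧸ ZZ M, g • (algebraMap O (R0 O M) c) = algebraMap O _ c := fun g => by
    rw [out_smul]
    exact Subtype.ext ((rt O (AA O) _).commutes c)
  have h2 : ∀ g : GM M ⧸ ZZ M, g • (2 : R0 O M) = 2 := fun g =>
    map_ofNat (MulSemiringAction.toRingHom _ (R0 O M) g) 2
  have e : trH (GM M ⧸ ZZ M) w = ∑ q : (GM M ⧸ ZZ M) ⧸ (P : Subgroup (GM M ⧸ ZZ M)),
      (1 + 2 * q.out • r) := by
    rw [trH, ← (coset_bij (P : Subgroup (GM M ⧸ ZZ M))).sum_comp, Fintype.sum_prod_type]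
    refine Finset.sum_congr rfl fun q _ => ?_
    simp only [mul_smul, ← Finset.smul_sum]
    rw [show (∑ p : (P : Subgroup (GM M ⧸ ZZ M)), (p : GM M ⧸ ZZ M) • w) = trH _ w from rfl, h,
      smul_add, smul_one, smul_mul', h2]
  rw [Finset.sum_add_distrib, ← Finset.mul_sum, Finset.sum_const, Finset.card_univ,
    ← Nat.card_eq_fintype_card, ← Subgroup.index, nsmul_one] at e
  obtain ⟨s, hs⟩ : ∃ s, trH (GM M ⧸ ZZ M) (algebraMap O _ c * w) = 1 + 2 * s := by
    refine ⟨algebraMap O _ c * ∑ q : (GM M ⧸ ZZ M) ⧸ (P : Subgroup (GM M ⧸ ZZ M)), q.out • r, ?_⟩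
    rw [trH_mul ha, e, mul_add, ← map_natCast (algebraMap O (R0 O M)), ← map_mul, hc, map_one,
      mul_left_comm]
  obtain ⟨w', r', h'⟩ := trace_mod_pow dvd_rfl hs n
  exact ⟨w', 2 * r', by rw [← mul_assoc, ← pow_succ, ← h', trH]⟩

theorem E_pow (t : ℕ) : (2 : FT M (AA O)) ^ t ∣ ET O M ^ 2 ^ t - 1 := by
  induction t with
  | zero => simp
  | succ t ih =>
    rw [pow_succ 2 t, pow_succ, pow_mul, show ∀ y : FT M (AA O), y ^ 2 - 1 = (y - 1) * (y + 1) from
      fun y => by ring]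
    refine mul_dvd_mul ih ?_
    obtain ⟨c, hc⟩ := sub_dvd_pow_sub_pow (ET O M) 1 (2 ^ t)
    rw [one_pow, ET, add_sub_cancel_left] at hc
    exact ⟨120 * sT O M * c + 1, by rw [ET]; linear_combination hc⟩

theorem red_two {ϖ : O} {n : ℕ} (h : ϖ ∣ 2 ^ n) : red M ϖ (2 ^ n) = 0 := by
  obtain ⟨c, hc⟩ := h
  have : (2 : FT M (AA O)) ^ n = algebraMap O _ (ϖ * c) := by rw [← hc, map_pow, map_ofNat]
  rw [this, AlgHom.commutes, map_mul]
  refine mul_eq_zero_of_left ?_ _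
  funext g
  rw [Pi.algebraMap_apply, PowerSeries.algebraMap_apply, Pi.zero_apply,
    show algebraMap O (RR ϖ) ϖ = 0 from Ideal.Quotient.eq_zero_iff_mem.2
      (Ideal.mem_span_singleton_self _), map_zero]

/-- the reductions of the ring have 2-adic weight zero -/
theorem red_R0 {ϖ : O} (h0 : ϖ ≠ 0) {x : FT M (AA O)} (hx : x ∈ R0 O M) :
    red M ϖ x ∈ VV M 0 ϖ := by
  obtain ⟨a, h⟩ := hx
  obtain ⟨n, hn⟩ := dvd_two_pow h0
  refine (Submodule.mem_iInf _).2 fun s => ?_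
  obtain ⟨d, hd⟩ := Nat.exists_eq_add_of_le (Nat.one_le_two_pow (n := n + s))
  have h1 := L_up h (d * a)
  rw [show a + d * a = 2 ^ (n + s) * a by rw [hd]; ring] at h1
  obtain ⟨c, hc⟩ := (pow_dvd_pow 2 (Nat.le_add_right n s)).trans (E_pow (O := O) (M := M) (n + s))
  have h2 : red M ϖ (ET O M ^ 2 ^ (n + s)) = 1 := by
    rw [eq_add_of_sub_eq hc, map_add, map_mul, red_two hn, zero_mul, zero_add, map_one]
  refine Submodule.mem_iSup_of_mem ⟨4 * (2 ^ (n + s) * a), ?_⟩ ⟨_, h1, ?_⟩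
  · exact (Nat.modEq_zero_iff_dvd).2 ⟨4 * 2 ^ n * a, by ring⟩
  · rw [AlgHom.toLinearMap_apply, map_mul, pow_mul, map_pow, h2, one_pow, mul_one]

theorem red_rt (ϖ : O) (g : GM M) (x : FT M (AA O)) :
    red M ϖ (rt O (AA O) g x) = rt O (RR ϖ) g (red M ϖ x) := rfl

/-- **trace one** for every subgroup of `GL₂(ℤ/M) / ±1` -/
theorem tr_one (hM : Odd M) {ϖ : O} (h0 : ϖ ≠ 0) (K : Subgroup (GM M ⧸ ZZ M)) [Fintype K] :
    ∃ w ∈ VV M 0 ϖ, rt O (RR ϖ) (ng M) w = w ∧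
      ∑ q : K, rt O (RR ϖ) (q : GM M ⧸ ZZ M).out w = 1 := by
  classical
  obtain ⟨n, hn⟩ := dvd_two_pow h0
  obtain ⟨w, r, h⟩ := all_R0 (O := O) hM n
  obtain ⟨w', hw⟩ := trH_down K w
  refine ⟨red M ϖ w', red_R0 h0 w'.2, by rw [← red_rt, ng_R0 w'.2], ?_⟩
  have e : ∑ q : K, (q : GM M ⧸ ZZ M) • w' = 1 + 2 ^ n * r := hw.trans h
  have e2 := congrArg (fun x : R0 O M => red M ϖ ((R0 O M).val x)) e
  simp only [map_sum, map_add, map_mul, map_one, map_pow, map_ofNat (R0 O M).val, out_smul] at e2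
  rw [← map_pow, red_two hn, zero_mul, add_zero] at e2
  exact e2

/-- **trace one** for every subgroup of `GL₂(ℤ/M)` which does not contain `-1` -/
theorem tr_one' (hM : Odd M) {ϖ : O} (h0 : ϖ ≠ 0) (K : Subgroup (GM M)) [Fintype K]
    (hK : ∀ g ∈ K, g ∈ ZZ M → g = 1) : ∃ w ∈ VV M 0 ϖ, rt O (RR ϖ) (ng M) w = w ∧
      ∑ g : K, rt O (RR ϖ) (g : GM M) w = 1 := by
  classical
  obtain ⟨w, h1, h2, h3⟩ := tr_one hM h0 (K.map (QuotientGroup.mk' (ZZ M)))
  refine ⟨w, h1, h2, ?_⟩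
  rw [← h3]
  refine Fintype.sum_bijective (fun g : K => (⟨QuotientGroup.mk g, g, g.2, rfl⟩ :
    K.map (QuotientGroup.mk' (ZZ M)))) ⟨fun a b e => ?_, ?_⟩ _ _ fun g => ?_
  · have e' : (QuotientGroup.mk (a : GM M) : GM M ⧸ ZZ M) = QuotientGroup.mk (b : GM M) :=
      congrArg Subtype.val e
    exact Subtype.ext (inv_mul_eq_one.1 (hK _ (K.mul_mem (K.inv_mem a.2) b.2)
      (QuotientGroup.eq.1 e')))
  · rintro ⟨_, g, hg, rfl⟩
    exact ⟨⟨g, hg⟩, rfl⟩
  · obtain ⟨⟨z, hz⟩, e⟩ := QuotientGroup.mk_out_eq_mul (ZZ M) (g : GM M)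
    change _ = rt O (RR ϖ) (QuotientGroup.mk (g : GM M) : GM M ⧸ ZZ M).out w
    rw [e, map_mul, AlgHom.mul_apply]
    rcases hz with rfl | rfl
    · simp
    · rw [h2]

end Vale.Agent.P022D.V.Tr
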