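import Vale.Agent.P022D.V.Spec2
import Vale.Agent.P022D.V.TrOne
import Vale.Agent.P022D.Pur.Coef

/-!
# P022D, block V: roots of unity of odd order
-/

set_option linter.all false

noncomputable section

namespace Vale.Agent.P022D.V

open Vale.Agent.P027M.M Vale.Agent.P022D.Pur IntermediateField

theorem frob_pow {k : Type} [Field k] [CharP k 2] (φ : k →+* k) {x : k} {M : ℕ} (hM : M ≠ 0)
    (hx : x ^ M = 1) : ∃ i : ℕ, φ x = x ^ 2 ^ i := by
  letI : Algebra (ZMod 2) k := ZMod.algebra k 2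
  have hi : IsIntegral (ZMod 2) x := IsIntegral.of_pow (Nat.pos_of_ne_zero hM)
    (by rw [hx]; exact isIntegral_one)
  haveI : FiniteDimensional (ZMod 2) (ZMod 2)⟮x⟯ := adjoin.finiteDimensional hi
  haveI : Finite (ZMod 2)⟮x⟯ := Module.finite_of_finite (ZMod 2)
  let ψ : k →ₐ[ZMod 2] k := ⟨φ, fun a => RingHom.congr_fun
    (RingHom.ext_zmod (φ.comp (algebraMap (ZMod 2) k)) (algebraMap (ZMod 2) k)) a⟩
  obtain ⟨i, h⟩ := FiniteField.exists_forall_apply_eq_pow (ZMod 2) 2 (ZMod 2)⟮x⟯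
    (ψ.restrictNormal' (ZMod 2)⟮x⟯)
  refine ⟨i, ?_⟩
  have h1 := congrArg (algebraMap (ZMod 2)⟮x⟯ k) (h (AdjoinSimple.gen (ZMod 2) x))
  rw [map_pow, Nat.card_zmod] at h1
  exact (ψ.restrictNormal_commutes (ZMod 2)⟮x⟯ (AdjoinSimple.gen (ZMod 2) x)).symm.trans h1

theorem PZ.map {M : ℕ} {R S : Type} [CommRing R] [CommRing S] {z : R} (h : PZ M z) (f : R →+* S) :
    PZ M (f z) :=
  ⟨by rw [← map_pow, h.pow, map_one], fun a ha => by
    simpa only [map_sub, map_pow, map_one] using (h.unit a ha).map f⟩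

theorem root (O : Type) [CommRing O] [Co O] : ROOT O := by
  intro M hM
  haveI : NeZero M := ⟨fun h => by simp [h] at hM⟩
  have e : zA O M = Tr.zA O M := dif_pos Tr.ze_memA
  have h1 : av O (zA O M) = ze M 1 := by rw [e]; rfl
  have h2 : PZ M (zA O M) := by
    rw [e]
    exact ⟨(Tr.adm hM).1, fun a ha => (IsUnit.neg_iff _).1 (by
      rw [neg_sub]; exact (Tr.adm hM).2 a ha)⟩
  have h3 : ¬ IsUnit (2 : O) := fun h => Tr.two_nonunit (O := O) (by
    simpa only [map_ofNat] using h.map (algebraMap O (AA O)))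
  refine ⟨h1, h2, Tr.odd_unit hM, Tr.odd_unit' hM, fun ϖ => h2.map _, h2.map _, fun σ hσ => ?_,
    fun ϖ h => Tr.dvd_two_pow h, h3, fun h => ?_⟩
  · haveI : IsLocalHom (sA hσ) := ⟨fun a ha => by
      rw [← sA_symm hσ a]; exact ha.map _⟩
    haveI : CharP (IsLocalRing.ResidueField (AA O)) 2 := by
      refine (CharP.charP_iff_prime_eq_zero Nat.prime_two).2 ?_
      rw [← map_natCast (IsLocalRing.residue (AA O)), IsLocalRing.residue_eq_zero_iff]
      exact Tr.two_nonunit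
    obtain ⟨i, hi⟩ := frob_pow (IsLocalRing.ResidueField.map (sA hσ)) (NeZero.ne M)
      (h2.map (IsLocalRing.residue (AA O))).pow
    refine ⟨i, ?_⟩
    rw [IsLocalRing.ResidueField.map_residue, ← map_pow, ← sub_eq_zero, ← map_sub,
      IsLocalRing.residue_eq_zero_iff] at hi
    have hp : IsPrimitiveRoot (zA O M) M :=
      IsPrimitiveRoot.of_map_of_injective (f := av O) (h1 ▸ ze_prim (NeZero.pos M)) av_inj
    obtain ⟨n, hn⟩ := Nat.exists_eq_succ_of_ne_zero (NeZero.ne M)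
    obtain ⟨c, -, hc⟩ := hp.eq_pow_of_pow_eq_one (ξ := sA hσ (zA O M) * (zA O M ^ 2 ^ i) ^ n) (by
      rw [mul_pow, (h2.map _).pow, ← pow_mul, ← pow_mul, mul_comm, ← mul_assoc, mul_comm _ M,
        pow_mul, h2.pow, one_pow, one_mul])
    have k : sA hσ (zA O M) - zA O M ^ 2 ^ i = zA O M ^ 2 ^ i * (zA O M ^ c - 1) := by
      have : zA O M ^ 2 ^ i * (zA O M ^ 2 ^ i) ^ n = 1 := by
        rw [← pow_succ', ← pow_mul, mul_comm, pow_mul, ← Nat.succ_eq_add_one, ← hn, h2.pow,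
          one_pow]
      rw [hc]
      linear_combination (-sA hσ (zA O M)) * this
    have k2 : M ∣ c := by
      by_contra hd
      rw [k] at hi
      exact hi (((hp.isUnit (NeZero.ne M)).pow _).mul (h2.unit c hd))
    rw [(hp.pow_eq_one_iff_dvd c).2 k2, sub_self, mul_zero, sub_eq_zero] at k
    rw [← h1, ← av_sA hσ, k, map_pow]
  · have := congrArg (Co.j (O := O)) h
    rw [map_ofNat, map_zero] at this
    exact two_ne_zero this

end Vale.Agent.P022D.V
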