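import Vale.Agent.P022D.V.TrL
import Vale.Agent.P022.H218.L3.Deg

/-!
# P022D, block V: the tuples given by `E₄`, `Δ`, the division values of `℘` and the roots of unity
-/

set_option autoImplicit false
set_option linter.all false

open UpperHalfPlane hiding I
open Matrix Filter Topology Function.Periodic
open scoped MatrixGroups Manifold ModularForm

noncomputable section

namespace Vale.Agent.P022D.V.Tr

open Vale.Agent.P022 Vale.Agent.P022.H218.L3 Vale.Agent.P022.H236.L3 Vale.Agent.P022.H542.L3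
  Vale.Agent.P027M.M Vale.Agent.P022.H790.A

variable {O : Type} [CommRing O] [Co O] {M : ℕ}

theorem inv_mem {x : AA O} (h : IsUnit x) : (av O x)⁻¹ ∈ (Co.A O : ValuationSubring ℂ) := by
  obtain ⟨y, hy⟩ := h.exists_right_inv
  have := congrArg (av O) hy
  rw [map_mul, map_one] at this
  rw [inv_eq_of_mul_eq_one_right this]
  exact av_mem y

theorem two_nonunit : ¬ IsUnit (2 : AA O) := fun h => Co.two (O := O) (by
  simpa [map_ofNat] using inv_mem h)

theorem odd_unit {n : ℕ} (hn : Odd n) : IsUnit (n : AA O) := by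
  obtain ⟨k, rfl⟩ := hn
  refine (IsLocalRing.isUnit_or_isUnit_of_add_one (a := ((2 * k + 1 : ℕ) : AA O))
    (b := -(2 * k)) (by push_cast; ring)).resolve_right fun h => two_nonunit (O := O) ?_
  exact isUnit_of_mul_isUnit_left ((IsUnit.neg_iff _).1 h)

/-- an element of `O` which is a unit of `A` is a unit -/
theorem unit_of {a : O} (h : IsUnit (algebraMap O (AA O) a)) : IsUnit a := by
  have h0 : (Co.j a : ℂ) ≠ 0 := by simpa [av_alg] using (h.map (av O)).ne_zero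
  obtain ⟨b, hb⟩ := Co.fix (O := O) _ (inv_mem h) fun σ hσ => by rw [av_alg, map_inv₀, hσ]
  refine IsUnit.of_mul_eq_one b (Co.inj (O := O) ?_)
  rw [map_mul, hb, av_alg, map_one, mul_inv_cancel₀ h0]

theorem ze_memA [NeZero M] : ze M 1 ∈ (Co.A O : ValuationSubring ℂ) := by
  have h := (ze_prim (NeZero.pos M)).pow_eq_one
  rcases (Co.A O : ValuationSubring ℂ).mem_or_inv_mem (ze M 1) with k | k
  · exact k
  · obtain ⟨n, hn⟩ := Nat.exists_eq_succ_of_ne_zero (NeZero.ne M)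
    have h0 : ze M 1 ≠ 0 := Complex.exp_ne_zero _
    have e : ze M 1 = (ze M 1)⁻¹ ^ n := by
      rw [inv_pow]
      refine eq_inv_of_mul_eq_one_left ?_
      rw [← pow_succ', ← h]
      congr 1
      exact hn.symm
    rw [e]
    exact pow_mem k n

/-- the root of unity in `A` -/
def zA (O : Type) [CommRing O] [Co O] (M : ℕ) [NeZero M] : AA O := amk (ze M 1) ze_memA

variable [NeZero M]

theorem adm (hM : Odd M) : A.Adm M (zA O M) :=
  A.adm_of_unit (IsPrimitiveRoot.of_map_of_injective (f := av O) (ze_prim (NeZero.pos M)) av_inj)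
    (odd_unit hM)

/-- integer representatives -/
def lf (u : Fin 2 → ZMod M) : Fin 2 → ℤ := fun i => ((u i).val : ℤ)

/-- reduction -/
def cs (M : ℕ) (a : Fin 2 → ℤ) : Fin 2 → ZMod M := fun i => (a i : ZMod M)

theorem cs_lf (u : Fin 2 → ZMod M) : cs M (lf u) = u := by
  funext i
  simp [cs, lf]

omit [NeZero M] in
theorem nz_iff (a : Fin 2 → ℤ) : NZ M a ↔ cs M a ≠ 0 := by
  simp only [NZ, Ne, funext_iff, cs, Pi.zero_apply, ZMod.intCast_zmod_eq_zero_iff_dvd]

omit [NeZero M] in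
theorem cs_mul (a : Fin 2 → ℤ) (γ : SL(2, ℤ)) :
    cs M (a ᵥ* (γ : M2)) = cs M a ᵥ* (rd M γ : Matrix (Fin 2) (Fin 2) (ZMod M)) := by
  funext i
  simp [cs, Matrix.vecMul, dotProduct, rd_apply]

theorem nz_lf {u : Fin 2 → ZMod M} (h : u ≠ 0) : NZ M (lf u) := by rwa [nz_iff, cs_lf]

theorem xv_cs {a b : Fin 2 → ℤ} (h : cs M a = cs M b) : xv M a = xv M b := by
  refine xv_congr (NeZero.pos M) ?_
  rw [nz_iff, not_not]
  funext i
  simpa [cs, sub_eq_zero] using congrFun h i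

/-- the pair -/
def pr (u : Fin 2 → ZMod M) : ZMod M × ZMod M := (u 0, u 1)

theorem red_lf (u : Fin 2 → ZMod M) : P027M.M.red M (lf u) = pr u := by
  simp [P027M.M.red, lf, pr]

omit [NeZero M] in
theorem pr_inj {u v : Fin 2 → ZMod M} (h : pr u = pr v) : u = v := by
  funext i
  fin_cases i
  · exact congrArg Prod.fst h
  · exact congrArg Prod.snd h

omit [NeZero M] in
theorem pr_ne {u : Fin 2 → ZMod M} (h : u ≠ 0) : pr u ≠ 0 := fun e => h (pr_inj e)

/-- the part of the Tate coordinate which does not depend on the point -/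
def Z0 (M : ℕ) : PowerSeries ℤ :=
  PowerSeries.mk fun k => ∑ j ∈ k.divisors, if (M : ℤ) ∣ ((k / j : ℕ) : ℤ) then 2 * (j : ℤ) else 0

omit [NeZero M] in
theorem Z0_map : (Z0 M).map (Int.castRingHom ℂ) = PowerSeries.mk (Xc M 0) := by
  ext k
  rw [PowerSeries.coeff_map, Z0, PowerSeries.coeff_mk, PowerSeries.coeff_mk]
  by_cases hk : k = 0
  · subst hk
    simp [Xc_zero]
  · rw [Xc, if_neg hk, map_sum]
    refine Finset.sum_congr rfl fun j _ => ?_
    simp only [Pi.zero_apply, sub_zero, add_zero, zero_mul, neg_zero]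
    split_ifs
    · simp [ze, two_mul]
    · simp

/-- the Tate coordinate over `A` -/
def Xa (O : Type) [CommRing O] [Co O] (u : Fin 2 → ZMod M) : PowerSeries (AA O) :=
  A.Xr (zA O M) (pr u) - (Z0 M).map (Int.castRingHom _)

theorem Xa_map (hM : Odd M) {u : Fin 2 → ZMod M} (hu : u ≠ 0) :
    (Xa O u).map (av O) = Xt M (lf u) := by
  rw [Xa, map_sub, map_int, Z0_map, A.map_Xr (adm hM) _ (pr_ne hu), ← red_lf]
  erw [← mk_Xc (NeZero.pos M)]
  ext k
  simp [Xt]

/-- the vector seen from `g` -/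
def vg (v : Fin 2 → ZMod M) (g : GM M) : Fin 2 → ZMod M :=
  v ᵥ* ((g⁻¹ : GM M) : Matrix (Fin 2) (Fin 2) (ZMod M))

omit [NeZero M] in
theorem vg_mul (v : Fin 2 → ZMod M) (g h : GM M) : vg v (g * h) = vg (vg v h) g := by
  rw [vg, vg, vg, Matrix.vecMul_vecMul, _root_.mul_inv_rev, Units.val_mul]

omit [NeZero M] in
theorem vg_one (v : Fin 2 → ZMod M) : vg v 1 = v := by simp [vg]

omit [NeZero M] in
theorem vg_inj (g : GM M) : Function.Injective fun v => vg v g := by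
  intro v w h
  have := congrArg (fun u => vg u g⁻¹) h
  simpa only [← vg_mul, inv_mul_cancel, vg_one] using this

omit [NeZero M] in
theorem vg_neg (v : Fin 2 → ZMod M) (g : GM M) : vg (-v) g = -vg v g := Matrix.neg_vecMul _ _

omit [NeZero M] in
theorem vg_ne {v : Fin 2 → ZMod M} (h : v ≠ 0) (g : GM M) : vg v g ≠ 0 := fun e =>
  h (vg_inj g (e.trans (Matrix.zero_vecMul _).symm))

/-- the tuple of Tate coordinates -/
def Xw (O : Type) [CommRing O] [Co O] (v : Fin 2 → ZMod M) : FT M (AA O) := fun g => Xa O (vg v g)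

theorem rt_Xw (v : Fin 2 → ZMod M) (h : GM M) : rt O (AA O) h (Xw O v) = Xw O (vg v h) := by
  funext g
  rw [rt_apply, Xw, Xw, vg_mul]

omit [NeZero M] in
theorem xv_slash (a : Fin 2 → ℤ) (γ : SL(2, ℤ)) : xv M a ∣[(2 : ℤ)] γ = xv M (a ᵥ* (γ : M2)) := by
  funext τ
  have hd : ((γ 1 0 : ℂ) * τ + γ 1 1) ≠ 0 := by
    have := denom_ne_zero (γ : GL (Fin 2) ℝ) τ
    rwa [ModularGroup.denom_apply] at this
  rw [ModularForm.SL_slash_apply, ModularGroup.denom_apply, xv_smul, _root_.zpow_neg, zpow_ofNat]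
  field_simp

theorem hs_Y {a : Fin 2 → ℤ} (ha : NZ M a) : HS M (1 + 12 * Xt M a) ((12 : ℂ) • xv M a) := by
  intro τ
  have h := (H236.Ev.one (z := qParam M τ)).add
    (H236.Ev.smul (F := Xt M a) (xv_hasSum (NeZero.pos M) ha τ) 12)
  rw [PowerSeries.smul_eq_C_mul, map_ofNat,
    show 1 + 12 * (xv M a τ - 1 / 12) = ((12 : ℂ) • xv M a) τ by simp; ring] at h
  exact h

theorem gal_Xw (hM : Odd M) {v : Fin 2 → ZMod M} (hv : v ≠ 0) : Gal (Xw O v) := by
  refine gal_iff.2 fun σ hσ a ha g => ?_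
  rw [Xw, Xw, Xa, Xa, map_sub, map_sub, map_int, map_int, vg_mul,
    A.map_Xr (adm hM) _ (pr_ne (vg_ne (vg_ne hv g) _)), A.map_Xr (adm hM) _ (pr_ne (vg_ne hv g))]
  congr 1
  change A.Xr (σ (ze M 1)) _ = A.Xr (ze M 1) _
  rw [ha, A.Xr_pow (ze_prim (NeZero.pos M)).pow_eq_one]
  congr 1
  generalize vg v g = u
  have e : ((dg 1 a)⁻¹ : GM M) = dg 1 a⁻¹ := by
    rw [inv_eq_iff_mul_eq_one, dg_mul, mul_one, mul_inv_cancel, dg_one]
  rw [vg, e, dg_coe]
  simp [pr, Matrix.vecMul, dotProduct, mul_comm (u 1), ← mul_assoc]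

theorem Y_mem (hM : Odd M) {v : Fin 2 → ZMod M} (hv : v ≠ 0) : 1 + 12 * Xw O v ∈ L O M 2 := by
  refine ⟨⟨fun g => (12 : ℂ) • xv M (lf (vg v g)), ⟨fun g => ⟨?_, fun γ => ?_⟩, fun γ g => ?_⟩,
    fun g => ?_⟩, gal_iff.2 fun σ hσ a ha g => ?_⟩
  · exact hol_of_hasSum (NeZero.pos M) (hs_Y (nz_lf (vg_ne hv g)))
  · rw [ModularForm.SL_smul_slash, Nat.cast_ofNat, xv_slash]
    exact hs_bdd (NeZero.pos M) (hs_Y ((nz_lf (vg_ne hv g)).vecMul γ))
  · rw [ModularForm.SL_smul_slash, Nat.cast_ofNat, xv_slash]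
    congr 1
    refine xv_cs ?_
    rw [cs_mul, cs_lf, cs_lf, vg_mul, vg, Matrix.vecMul_vecMul, Units.inv_mul, Matrix.vecMul_one]
  · simp only [Pi.add_apply, Pi.mul_apply, Pi.one_apply, Pi.ofNat_apply, map_add, map_mul, map_one,
      map_ofNat]
    rw [Xw, Xa_map hM (vg_ne hv g)]
    exact hs_Y (nz_lf (vg_ne hv g))
  · simp only [Pi.add_apply, Pi.mul_apply, Pi.one_apply, Pi.ofNat_apply, map_add, map_mul, map_one,
      map_ofNat]
    rw [gal_iff.1 (gal_Xw hM hv) σ hσ a ha g]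

theorem W_mem (hM : Odd M) {v w : Fin 2 → ZMod M} (hv : v ≠ 0) (hw : w ≠ 0) :
    Xw O v - Xw O w ∈ L O M 2 := by
  refine L_sat (NeZero.pos M) (n := 12) (by norm_num) ?_
  have := (L O M 2).sub_mem (Y_mem hM hv) (Y_mem hM hw)
  rwa [add_sub_add_left_eq_sub, ← mul_sub] at this

theorem S_mem (hM : Odd M) {v w : Fin 2 → ZMod M} (hv : v ≠ 0) (hw : w ≠ 0) :
    1 + 6 * (Xw O v + Xw O w) ∈ L O M 2 := by
  refine L_sat (NeZero.pos M) (n := 2) (by norm_num) ?_
  have := (L O M 2).add_mem (Y_mem hM hv) (Y_mem hM hw)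
  rwa [show 1 + 12 * Xw O v + (1 + 12 * Xw O w) =
    ((2 : ℕ) : FT M (AA O)) * (1 + 6 * (Xw O v + Xw O w)) by push_cast; ring] at this

theorem W_nv (hM : Odd M) {v w : Fin 2 → ZMod M} (hv : v ≠ 0) (hw : w ≠ 0) (h1 : v ≠ w)
    (h2 : v ≠ -w) : NV (Xw O v - Xw O w) := by
  intro g
  have a1 := nz_lf (vg_ne hv g)
  have a2 := nz_lf (vg_ne hw g)
  refine ⟨Wf M (lf (vg v g)) (lf (vg w g)), fun τ => ?_, Wf_ne (NeZero.pos M) a1 a2 ?_ ?_⟩
  · rw [Pi.sub_apply, map_sub, Xw, Xw, Xa_map hM (vg_ne hv g), Xa_map hM (vg_ne hw g)]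
    simpa [Xt] using Wf_hasSum (NeZero.pos M) a1 a2 τ
  · rw [NZ_iff, red_sub, red_lf, red_lf, sub_ne_zero]
    exact fun e => h1 (vg_inj g (pr_inj e))
  · rw [NZ_iff, red_add, red_lf, red_lf, Ne, add_eq_zero_iff_eq_neg]
    exact fun e => h2 (vg_inj g ((pr_inj (v := -vg w g) e).trans (vg_neg w g).symm))

theorem W_unit (hM : Odd M) {u u' : Fin 2 → ZMod M} (hu : u ≠ 0) (hu' : u' ≠ 0) (h1 : u ≠ u')
    (h2 : u ≠ -u') : ∃ U : PowerSeries (AA O), IsUnit U ∧
      Xa O u - Xa O u' = PowerSeries.X ^ A.eo (pr u) (pr u') * U := by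
  rw [Xa, Xa, sub_sub_sub_cancel_right]
  exact A.exists_unit (adm hM) (pr_ne hu) (pr_ne hu') (fun e => h1 (pr_inj e))
    fun e => h2 (pr_inj (v := -u') e)

/-- `∑ σ₃(n) q ^ n` -/
def sT (O : Type) [CommRing O] [Co O] (M : ℕ) : FT M (AA O) :=
  ct M ((sg 3).map (Int.castRingHom _))

/-- `E₄` -/
def ET (O : Type) [CommRing O] [Co O] (M : ℕ) : FT M (AA O) := 1 + 240 * sT O M

/-- `Δ` -/
def DT (O : Type) [CommRing O] [Co O] (M : ℕ) : FT M (AA O) := ct M (DZ.map (Int.castRingHom _))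

theorem ET_eq : ET O M = ct M (E4Z.map (Int.castRingHom _)) := by
  funext g
  ext n
  have e : ∀ (R : Type) [CommRing R], (240 : PowerSeries R) = PowerSeries.C (240 : R) :=
    fun R _ => (map_ofNat _ _).symm
  simp only [ET, sT, ct, Vo, E4Z, Pi.add_apply, Pi.mul_apply, Pi.one_apply, Pi.ofNat_apply, map_add,
    e, PowerSeries.coeff_C_mul, PowerSeries.coeff_mk, PowerSeries.coeff_map, PowerSeries.coeff_one]
  split_ifs with h1 h2 h3 h4 h5
  · simp
  · subst h1; simp at h3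
  · subst h1; simp at h2
  · obtain ⟨c, rfl⟩ := h4
    rw [Nat.mul_div_cancel_left _ (NeZero.pos M)] at h5
    simp [h5] at h1
  · simp
  · simp

theorem E_mem : ET O M ∈ L O M 4 := by
  rw [ET_eq]
  exact L_ct (NeZero.pos M) isMF_E4 _ qExp_E4

theorem D_mem : DT O M ∈ L O M 12 := L_ct (NeZero.pos M) isMF_disc _ qExp_disc

theorem D_nv : NV (DT O M) := fun g => ⟨ModularForm.discriminant, by
  rw [DT, ct, map_Vo, map_int]
  have := hs_top isMF_disc
  erw [qExp_disc] at this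
  exact hs_up (NeZero.pos M) this, ModularForm.discriminant_ne_zero⟩

theorem E_unit : IsUnit (ET O M) := by
  rw [Pi.isUnit_iff]
  intro g
  rw [PowerSeries.isUnit_iff_constantCoeff, ← PowerSeries.coeff_zero_eq_constantCoeff_apply]
  simp [ET, sT, ct, Vo, sg]

theorem D_eq : ∃ U : PowerSeries (AA O), IsUnit U ∧ ∀ g, DT O M g = PowerSeries.X ^ M * U := by
  have h0 : DZ.coeff 0 = 0 := by
    have := CuspFormClass.qExpansion_coeff_zero CuspForm.discriminant one_pos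
      one_mem_strictPeriods_SL
    rw [qExp_disc, toC, PowerSeries.coeff_map] at this
    exact Int.cast_eq_zero.1 this
  have h1 : DZ.coeff 1 = 1 := by
    have := ModularForm.discriminant_qExpansion_coeff_one
    erw [qExp_disc] at this
    rw [toC, PowerSeries.coeff_map] at this
    exact Int.cast_eq_one.1 this
  obtain ⟨U, hU⟩ : PowerSeries.X ^ M ∣ Vo M (DZ.map (Int.castRingHom (AA O))) := by
    rw [PowerSeries.X_pow_dvd_iff]
    intro m hm
    rw [Vo, PowerSeries.coeff_mk]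
    split_ifs
    · rw [Nat.div_eq_of_lt hm, PowerSeries.coeff_map, h0, map_zero]
    · rfl
  refine ⟨U, ?_, fun _ => hU⟩
  have := congrArg (PowerSeries.coeff (0 + M)) hU
  rw [PowerSeries.coeff_X_pow_mul, zero_add, Vo, PowerSeries.coeff_mk, if_pos dvd_rfl,
    Nat.div_self (NeZero.pos M), PowerSeries.coeff_map, h1, map_one] at this
  rw [PowerSeries.isUnit_iff_constantCoeff, ← PowerSeries.coeff_zero_eq_constantCoeff_apply, ← this]
  exact isUnit_one

/-- the weight four tuple which reduces to the Tate coordinate -/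
def Gw (O : Type) [CommRing O] [Co O] (v : Fin 2 → ZMod M) : FT M (AA O) :=
  Xw O v + 6 * Xw O v ^ 2 - 10 * sT O M

theorem G_mem (hM : Odd M) {v : Fin 2 → ZMod M} (hv : v ≠ 0) : Gw O v ∈ L O M 4 := by
  refine L_sat (NeZero.pos M) (n := 24) (by norm_num) ?_
  have := (L O M 4).sub_mem (L_mul (Y_mem hM hv) (Y_mem hM hv)) E_mem
  rwa [show (1 + 12 * Xw O v) * (1 + 12 * Xw O v) - ET O M =
    ((24 : ℕ) : FT M (AA O)) * Gw O v by rw [ET, Gw]; push_cast; ring] at this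

/-- the tuple of roots of unity -/
def zT (O : Type) [CommRing O] [Co O] (M : ℕ) [NeZero M] : FT M (AA O) := fun g =>
  PowerSeries.C (A.ch (zA O M) (((Matrix.GeneralLinearGroup.det g)⁻¹ : (ZMod M)ˣ) : ZMod M))

omit [NeZero M] in
theorem det_rd (γ : SL(2, ℤ)) : Matrix.GeneralLinearGroup.det (rd M γ) = 1 := by
  simp [rd]

omit [NeZero M] in
theorem det_dg (a d : (ZMod M)ˣ) : Matrix.GeneralLinearGroup.det (dg a d) = a * d := by
  apply Units.ext
  simp [dg_coe]

theorem z_mem : zT O M ∈ L O M 0 := by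
  refine L_const _ (fun γ g => by rw [map_mul, det_rd, one_mul])
    (gal_iff.2 fun σ hσ a ha g => ?_)
  rw [PowerSeries.map_C, PowerSeries.map_C]
  refine congrArg PowerSeries.C ?_
  rw [A.map_ch, A.map_ch]
  change A.ch (σ (ze M 1)) _ = A.ch (ze M 1) _
  rw [ha, A.ch_pow (ze_prim (NeZero.pos M)).pow_eq_one, map_mul, det_dg, one_mul,
    ZMod.natCast_zmod_val, ← Units.val_mul, mul_inv, mul_inv_cancel_left]

end Vale.Agent.P022D.V.Tr
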