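import Vale.Agent.P022D.V.Spec2
import Vale.Agent.P022D.V.TrOne
import Vale.Agent.P022D.Pur.Bj

/-!
# P022D, block V: the depletion at `2` and the Hecke operators on the reductions
-/

set_option linter.all false

noncomputable section

namespace Vale.Agent.P022D.V

open Vale.Agent.P022D.V.Tr Vale.Agent.P022D.Pur

namespace Ser

section formal

variable {M : ℕ} {S R R' : Type} [CommRing S] [CommRing R] [Algebra S R] [CommRing R']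
  [Algebra S R']

theorem mp_ml (φ : R →ₐ[S] R') (w : FT M R) : mp S M φ w = ml S M φ.toLinearMap w := by
  ext g n
  rw [ml_coeff]
  exact PowerSeries.coeff_map _ _ _

theorem mU (φ : R →ₗ[S] R') (p : ℕ) (u : (ZMod M)ˣ) (w : FT M R) :
    ml S M φ (Uf S R p u w) = Uf S R' p u (ml S M φ w) := by
  ext g n
  simp [ml, Uf, Uo]

theorem mV (φ : R →ₗ[S] R') (p : ℕ) (u : (ZMod M)ˣ) (w : FT M R) :
    ml S M φ (Vf S R p u w) = Vf S R' p u (ml S M φ w) := by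
  ext g n
  simp only [ml, Vf, Vo, LinearMap.coe_mk, AddHom.coe_mk, PowerSeries.coeff_mk]
  split_ifs <;> simp

theorem mR (φ : R →ₗ[S] R') (h : GM M) (w : FT M R) :
    ml S M φ (rt S R h w) = rt S R' h (ml S M φ w) := rfl

theorem mD (φ : R →ₗ[S] R') (w : FT M R) : ml S M φ (dep S R M w) = dep S R' M (ml S M φ w) := by
  ext g n
  simp only [ml, dep, LinearMap.coe_mk, AddHom.coe_mk, PowerSeries.coeff_mk]
  split_ifs <;> simp

theorem mE (φ : R →ₗ[S] R') (k : ℕ) (w : FT M R) :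
    ml S M φ (ep S R M k w) = ep S R' M k (ml S M φ w) := by
  simp only [ep, LinearMap.smul_apply, AlgHom.toLinearMap_apply, map_zsmul, mR]

theorem mP (φ : R →ₗ[S] R') (i p : ℕ) (w : FT M R) :
    ml S M φ (pw S R M i p w) = pw S R' M i p (ml S M φ w) := by
  simp only [pw, LinearMap.add_apply, LinearMap.smul_apply, LinearMap.sub_apply,
    Module.End.one_apply, map_add, map_nsmul, map_sub, mE]

theorem Tf_eq (i p : ℕ) (u : (ZMod M)ˣ) (w : FT M R) :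
    Tf S R i p u w = Uf S R p u w + (p ^ i : ℕ) • Vf S R p u w := rfl

theorem T2_eq (i p : ℕ) (u : (ZMod M)ˣ) (w : FT M R) :
    T2 S R i p u w = Uf S R p u w + (p ^ i : ℕ) • Vf S R p u (pw S R M i p w) := rfl

theorem Sf_eq (i p : ℕ) (u : (ZMod M)ˣ) (w : FT M R) :
    Sf S R i p u w = (p ^ i : ℕ) • rt S R (dg u u) w := rfl

theorem S2_eq (i p : ℕ) (u : (ZMod M)ˣ) (w : FT M R) :
    S2 S R i p u w = (p ^ i : ℕ) • rt S R (dg u u) (pw S R M i p w) := rfl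

theorem pw_eq (i p : ℕ) (w : FT M R) :
    pw S R M i p w = w + ((p - 1) / 2 : ℕ) • (w - ep S R M (i + 1) w) := rfl

theorem ep_eq (k : ℕ) (w : FT M R) :
    ep S R M k w = ((-1 : ℤ) ^ k) • rt S R (dg (-1 : (ZMod M)ˣ) (-1)) w := rfl

theorem mT (φ : R →ₗ[S] R') (i p : ℕ) (u : (ZMod M)ˣ) (w : FT M R) :
    ml S M φ (Tf S R i p u w) = Tf S R' i p u (ml S M φ w) := by
  rw [Tf_eq, Tf_eq, map_add, map_nsmul, mU, mV]

theorem mT2 (φ : R →ₗ[S] R') (i p : ℕ) (u : (ZMod M)ˣ) (w : FT M R) :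
    ml S M φ (T2 S R i p u w) = T2 S R' i p u (ml S M φ w) := by
  rw [T2_eq, T2_eq, map_add, map_nsmul, mU, mV, mP]

theorem ep_dep (k : ℕ) (w : FT M R) : ep S R M k (dep S R M w) = dep S R M (ep S R M k w) := by
  rw [ep_eq, ep_eq, map_zsmul]
  rfl

theorem ep_succ (k : ℕ) (w : FT M R) : ep S R M (k + 1) w = -ep S R M k w := by
  rw [ep_eq, ep_eq, pow_succ, mul_neg, mul_one, neg_smul]

theorem pw_fix {i : ℕ} (p : ℕ) {w : FT M R} (h : ep S R M (i + 1) w = w) : pw S R M i p w = w := by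
  rw [pw_eq, h, sub_self, smul_zero, add_zero]

theorem pw_neg {i p : ℕ} (hp : Odd p) {w : FT M R} (h : ep S R M (i + 2) w = w) :
    pw S R M i p w = p • w := by
  obtain ⟨c, rfl⟩ := hp
  have e : (2 * c + 1 - 1) / 2 = c := by omega
  rw [ep_succ, neg_eq_iff_eq_neg] at h
  rw [pw_eq, h, e, sub_neg_eq_add, add_smul, one_smul, mul_comm, mul_smul, two_smul, add_comm]

theorem pw_add (i t p : ℕ) : pw S R M (i + 2 * t) p = pw S R M i p := by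
  rw [pw, pw, add_right_comm, ep_add]

theorem T2_plus (i p : ℕ) (u : (ZMod M)ˣ) (w : FT M R) :
    (1 + ep S R M (i + 1)) (T2 S R i p u w) = Tf S R i p u ((1 + ep S R M (i + 1)) w) := by
  have h := Bt_plus (S := S) i p u 1 1 w
  simp only [Bt, Bo, map_one, one_mul] at h
  exact h

theorem T2_minus (i : ℕ) {p : ℕ} (hp : Odd p) (u : (ZMod M)ˣ) (w : FT M R) :
    (1 - ep S R M (i + 1)) (T2 S R i p u w) = Tf S R (i + 1) p u ((1 - ep S R M (i + 1)) w) := by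
  have h := Bt_minus (S := S) i hp u 1 1 w
  simp only [Bt, Bo, map_one, one_mul] at h
  exact h

theorem dep_eq (u : (ZMod M)ˣ) (w : FT M R) :
    dep S R M w = w - Vf S R 2 u (Uf S R 2 u (rt S R (dg u u)⁻¹ w)) := by
  ext g n
  have e : dg 1 u * (dg u 1 * g) * (dg u u)⁻¹ = g := by
    rw [← mul_assoc, dg_mul, one_mul, mul_one, dg_center, mul_inv_cancel_right]
  change PowerSeries.coeff n (PowerSeries.mk fun n => if Even n then 0 else (w g).coeff n) =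
    PowerSeries.coeff n (w g - Vo 2 (Uo 2 (w (dg 1 u * (dg u 1 * g) * (dg u u)⁻¹))))
  rw [e, map_sub, Vo, Uo, PowerSeries.coeff_mk, PowerSeries.coeff_mk, PowerSeries.coeff_mk]
  by_cases h : Even n
  · rw [if_pos h, if_pos h.two_dvd, Nat.mul_div_cancel' h.two_dvd, sub_self]
  · rw [if_neg h, if_neg fun d => h (even_iff_two_dvd.2 d), sub_zero]

theorem oR (h : GM M) {w : FT M R} (hw : w ∈ Od S M R) : rt S R h w ∈ Od S M R :=
  fun g n hn => hw _ n hn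

theorem oU (p : ℕ) (u : (ZMod M)ˣ) {w : FT M R} (hw : w ∈ Od S M R) : Uf S R p u w ∈ Od S M R :=
  fun g n hn => by
    change PowerSeries.coeff n (Uo p _) = 0
    rw [Uo, PowerSeries.coeff_mk]
    exact hw _ _ (hn.mul_left p)

theorem oV {p : ℕ} (hp : Odd p) (u : (ZMod M)ˣ) {w : FT M R} (hw : w ∈ Od S M R) :
    Vf S R p u w ∈ Od S M R := fun g n hn => by
  change PowerSeries.coeff n (Vo p _) = 0
  rw [Vo, PowerSeries.coeff_mk]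
  split_ifs with h
  · obtain ⟨c, rfl⟩ := h
    rw [Nat.mul_div_cancel_left _ hp.pos]
    exact hw _ _ ((Nat.even_mul.1 hn).resolve_left (Nat.not_even_iff_odd.2 hp))
  · rfl

theorem pw_mem {N : Submodule S (FT M R)} (h : ∀ g, ∀ v ∈ N, rt S R g v ∈ N) (i p : ℕ)
    {v : FT M R} (hv : v ∈ N) : pw S R M i p v ∈ N := by
  rw [pw_eq, ep_eq]
  exact add_mem hv (nsmul_mem (sub_mem hv (zsmul_mem (h _ _ hv) _)) _)

theorem S2_mem {N : Submodule S (FT M R)} (h : ∀ g, ∀ v ∈ N, rt S R g v ∈ N) (i p : ℕ)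
    (u : (ZMod M)ˣ) {v : FT M R} (hv : v ∈ N) : S2 S R i p u v ∈ N :=
  nsmul_mem (h _ _ (pw_mem h i p hv)) _

theorem oT (i : ℕ) {p : ℕ} (hp : Odd p) (u : (ZMod M)ˣ) {w : FT M R} (hw : w ∈ Od S M R) :
    Tf S R i p u w ∈ Od S M R := add_mem (oU p u hw) (nsmul_mem (oV hp u hw) _)

theorem oT2 (i : ℕ) {p : ℕ} (hp : Odd p) (u : (ZMod M)ˣ) {w : FT M R} (hw : w ∈ Od S M R) :
    T2 S R i p u w ∈ Od S M R :=
  add_mem (oU p u hw) (nsmul_mem (oV hp u (pw_mem (fun g _ => oR g) i p hw)) _)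

end formal

variable {O : Type} [CommRing O] [Co O] {M : ℕ}

/-- the reduction of the coefficients -/
def qk (ϖ : O) : AA O →ₗ[O] RR ϖ :=
  (Ideal.Quotient.mkₐ O (Ideal.span {algebraMap O (AA O) ϖ})).toLinearMap

theorem red_ml (ϖ : O) (w : FT M (AA O)) : red M ϖ w = ml O M (qk ϖ) w := mp_ml _ w

theorem mul_ne {a b : O} (ha : a ≠ 0) (hb : b ≠ 0) : a * b ≠ 0 := fun e => by
  have := congrArg (Co.j : O →+* ℂ) e
  rw [map_mul, map_zero, mul_eq_zero] at this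
  exact this.elim (fun h => ha (Co.inj (O := O) (h.trans (map_zero _).symm)))
    fun h => hb (Co.inj (O := O) (h.trans (map_zero _).symm))

theorem pow_ne (n : ℕ) : (2 : O) ^ n ≠ 0 := by
  induction n with
  | zero => exact fun e => two_ne (O := O) (by rw [← mul_one (2 : O), ← pow_zero (2 : O), e, mul_zero])
  | succ n ih =>
    rw [pow_succ]
    exact mul_ne ih two_ne

theorem ex_s {ϖ : O} (h : ϖ ≠ 0) : ∃ s, 2 ≤ s ∧ ϖ ∣ 2 ^ s := by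
  obtain ⟨n, hn⟩ := dvd_two_pow h
  exact ⟨n + 2, by omega, hn.trans (pow_dvd_pow _ (by omega))⟩

theorem kill [NeZero M] {ϖ : O} {s : ℕ} (h : ϖ ∣ 2 ^ s) (x : FT M (RR ϖ)) : (2 ^ s : ℕ) • x = 0 := by
  have := red_two (M := M) h
  rw [map_pow, map_ofNat] at this
  rw [nsmul_eq_mul, Nat.cast_pow, Nat.cast_ofNat, this, zero_mul]

theorem kill' [NeZero M] {ϖ : O} {s p : ℕ} (h : ϖ ∣ 2 ^ s) (hp : Odd p) (i t : ℕ)
    (x : FT M (RR ϖ)) : (p ^ (i + 2 ^ s * t) : ℕ) • x = (p ^ i : ℕ) • x := by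
  have h1 : p ^ Nat.totient (2 ^ (s + 1)) ≡ 1 [MOD 2 ^ (s + 1)] :=
    Nat.ModEq.pow_totient (Nat.Coprime.pow_right _ (Nat.coprime_two_right.2 hp))
  rw [Nat.totient_prime_pow_succ Nat.prime_two] at h1
  have h2 := (h1.pow t).of_dvd (pow_dvd_pow 2 (Nat.le_succ s))
  rw [one_pow, ← pow_mul, show 2 ^ s * (2 - 1) * t = 2 ^ s * t by norm_num] at h2
  obtain ⟨c, hc⟩ := (Nat.modEq_iff_exists_eq_add (Nat.one_le_pow _ _ hp.pos)).1 h2.symm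
  rw [pow_add, hc, mul_smul, add_smul, one_smul, mul_smul, kill h, add_zero]

theorem big (k s n : ℕ) : ∃ i, n ≤ i ∧ k ≤ i + 1 ∧ k ≡ i + 1 [MOD 2 ^ s] := by
  have h : 1 ≤ 2 ^ s := Nat.one_le_two_pow
  have h2 : n + 1 ≤ 2 ^ s * (n + 1) := Nat.le_mul_of_pos_left _ h
  refine ⟨k + 2 ^ s * (n + 1) - 1, by omega, by omega, ?_⟩
  rw [Nat.sub_add_cancel (by omega)]
  exact (Nat.modEq_iff_exists_eq_add (by omega)).2 ⟨n + 1, rfl⟩

theorem d2 {ϖ : O} {s : ℕ} (h : ϖ ∣ 2 ^ s) (a : ℕ) : ϖ ∣ 2 ^ (s + a) :=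
  h.trans (pow_dvd_pow _ (by omega))

theorem lift1 (h1 : VS1 O) (hM : Odd M) {ϖ : O} {s k : ℕ} (hs : 2 ≤ s) (h : ϖ ∣ 2 ^ s)
    {v : FT M (RR ϖ)} (hv : v ∈ VV M k ϖ) (n : ℕ) :
    ∃ i, n ≤ i ∧ i + 1 ≡ k [MOD 2 ^ s] ∧ ∃ w ∈ L O M (i + 1), ml O M (qk ϖ) w = v := by
  obtain ⟨a, b⟩ := h1 M s ϖ hM hs (d2 h 2)
  obtain ⟨k', e, hk⟩ := (b k v).1 hv
  obtain ⟨i, i1, i2, i3⟩ := big k' s n
  obtain ⟨w, hw, rfl⟩ := (a _ _ i2 i3).1 hk
  exact ⟨i, i1, i3.symm.trans e, w, hw, (red_ml ϖ w).symm⟩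

theorem drop1 (h1 : VS1 O) (hM : Odd M) {ϖ : O} {s k k' : ℕ} (hs : 2 ≤ s) (h : ϖ ∣ 2 ^ s)
    (e : k' ≡ k [MOD 2 ^ s]) {w : FT M (AA O)} (hw : w ∈ L O M k') :
    ml O M (qk ϖ) w ∈ VV M k ϖ :=
  ((h1 M s ϖ hM hs (d2 h 2)).2 k _).2 ⟨k', e, w, hw, red_ml ϖ w⟩

/-- `V₂ w` is congruent to a form of larger weight -/
theorem serre [NeZero M] {u : (ZMod M)ˣ}
    (hT : ∀ i, ∀ w ∈ L O M (i + 1), Tf O (AA O) i 2 u w ∈ L O M (i + 1)) (i s : ℕ)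
    {w : FT M (AA O)} (hw : w ∈ L O M (i + 1)) :
    ∃ y, Vf O _ 2 u w + (2 ^ s : ℕ) • y ∈ L O M (i + 4 * 2 ^ (i + s) + 1) := by
  obtain ⟨e, he⟩ := E_pow (O := O) (M := M) (i + s)
  have hE := L_pow (E_mem (O := O) (M := M)) (2 ^ (i + s))
  obtain ⟨c, hc⟩ : ∃ c, 4 * 2 ^ (i + s) = s + c :=
    Nat.exists_eq_add_of_le (by have := Nat.lt_two_pow_self (n := i + s); omega)
  generalize ET O M ^ 2 ^ (i + s) = E at he hE
  have a1 := L_mul hE (hT i w hw)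
  have a2 := hT (i + 4 * 2 ^ (i + s)) (E * w) (by
    have := L_mul hE hw
    rwa [show 4 * 2 ^ (i + s) + (i + 1) = i + 4 * 2 ^ (i + s) + 1 by ring] at this)
  rw [show 4 * 2 ^ (i + s) + (i + 1) = i + 4 * 2 ^ (i + s) + 1 by ring] at a1
  have a3 := sub_mem a1 a2
  refine ⟨e * Uf O _ 2 u w + 2 ^ i * e * Vf O _ 2 u w - Uf O _ 2 u (e * w) -
    2 ^ c * Vf O _ 2 u (E * w), L_sat (NeZero.pos M) (n := 2 ^ i) (by positivity) ?_⟩
  refine (congrArg (· ∈ L O M (i + 4 * 2 ^ (i + s) + 1)) ?_).mp a3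
  have b1 : Uf O _ 2 u (E * w) = Uf O _ 2 u w + (2 ^ (i + s) : ℕ) • Uf O _ 2 u (e * w) := by
    rw [← map_nsmul, ← map_add, nsmul_eq_mul, Nat.cast_pow, Nat.cast_ofNat, eq_add_of_sub_eq he]
    congr 1
    ring
  rw [Tf_eq, Tf_eq, b1, hc]
  generalize Vf O _ 2 u (E * w) = z
  rw [eq_add_of_sub_eq he]
  simp only [nsmul_eq_mul, Nat.cast_pow, Nat.cast_ofNat, Nat.cast_mul, pow_add]
  ring

theorem depV (hK : HK O) (h1 : VS1 O) (h3 : VS3 O) (hM : Odd M) {ϖ : O} (h0 : ϖ ≠ 0) (k : ℕ)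
    {v : FT M (RR ϖ)} (hv : v ∈ VV M k ϖ) : dep O _ M v ∈ VV M k ϖ := by
  haveI : NeZero M := ⟨hM.pos.ne'⟩
  obtain ⟨s, hs, h⟩ := ex_s h0
  let u : (ZMod M)ˣ := ZMod.unitOfCoprime 2 (Nat.coprime_two_left.2 hM)
  have hT := fun i => hK M i 2 u hM Nat.prime_two (ZMod.coe_unitOfCoprime _ _)
  have aU : ∀ x ∈ VV M k ϖ, Uf O _ 2 u x ∈ VV M k ϖ := fun x hx => by
    obtain ⟨i, i1, i2, w, hw, rfl⟩ := lift1 h1 hM hs h hx s
    have := drop1 h1 hM hs h i2 (hT i w hw)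
    rwa [mT, Tf_eq, kill (h.trans (pow_dvd_pow _ i1)), add_zero] at this
  have aV : ∀ x ∈ VV M k ϖ, Vf O _ 2 u x ∈ VV M k ϖ := fun x hx => by
    obtain ⟨i, -, i2, w, hw, rfl⟩ := lift1 h1 hM hs h hx 0
    obtain ⟨y, hy⟩ := serre hT i s hw
    have := drop1 h1 hM hs h (((Nat.modEq_iff_exists_eq_add (by omega)).2
      ⟨4 * 2 ^ i, by ring⟩).symm.trans i2) hy
    rwa [map_add, map_nsmul, kill h, add_zero, mV] at this
  rw [dep_eq u]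
  exact sub_mem hv (aV _ (aU _ ((h3 M ϖ hM h0).2.2.2.1 k _ v hv)))

theorem stab {k : ℕ} {T : Module.End O (FT M (RD O))}
    (h : ∀ n, ∀ x ∈ VV M k ((2 : O) ^ n), ∃ y ∈ VV M k ((2 : O) ^ n),
      ml O M (dv ((2 : O) ^ n)) y = T (ml O M (dv ((2 : O) ^ n)) x))
    {v : FT M (RD O)} (hv : v ∈ VD O M k) : T v ∈ VD O M k := by
  refine (iSup_le fun n => ?_ : VD O M k ≤ (VD O M k).comap T) hv
  rintro _ ⟨x, hx, rfl⟩
  exact Submodule.mem_iSup_of_mem n (h n x hx)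

theorem epD (h3 : VS3 O) (hM : Odd M) {k : ℕ} {v : FT M (RD O)} (hv : v ∈ VD O M k) :
    ep O _ M k v = v := by
  refine (iSup_le fun n => ?_ : VD O M k ≤ LinearMap.eqLocus (ep O _ M k) LinearMap.id) hv
  rintro _ ⟨x, hx, rfl⟩
  exact (mE _ k x).symm.trans (congrArg _ ((h3 M _ hM (pow_ne n)).2.2.2.2.2.1 k x hx))

end Ser

open Ser

variable (O : Type) [CommRing O] [Co O]

theorem ser (hK : HK O) (h1 : VS1 O) (h2 : VS2 O) (h3 : VS3 O) : SER O := by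
  intro M k ϖ hM h0
  refine ⟨fun v hv => depV hK h1 h3 hM h0 k hv, fun v hv => ?_, fun v hv =>
    stab (fun n x hx => ⟨_, depV hK h1 h3 hM (pow_ne n) k hx, mD _ x⟩) hv⟩
  obtain ⟨s, hs, h⟩ := ex_s h0
  have b := (h2 M s ϖ hM hs (d2 h 1)).2 k
  obtain ⟨v', rfl, c1, c2⟩ := (b v).1 hv
  have n2 := mul_ne h0 two_ne
  refine (b _).2 ⟨dep O _ M v', ?_, ?_, ?_⟩
  · rw [rho, mp_ml, mp_ml, mD]
  · rw [ep_dep, ← map_add]
    exact depV hK h1 h3 hM n2 _ c1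
  · rw [ep_dep, ← map_sub]
    exact depV hK h1 h3 hM n2 _ c2

theorem hkv (hK : HK O) (h1 : VS1 O) (h2 : VS2 O) (h3 : VS3 O) (_hS : SER O) : HKV O := by
  intro M i p u hM hp p2 hu
  haveI : NeZero M := ⟨hM.pos.ne'⟩
  have ho : Odd p := hp.odd_of_ne_two p2
  have hT := fun i => hK M i p u hM hp hu
  have a1 : ∀ i (ϖ : O), ϖ ≠ 0 → ∀ v ∈ VV M (i + 1) ϖ, Tf O _ i p u v ∈ VV M (i + 1) ϖ := by
    intro i ϖ h0 v hv
    obtain ⟨s, hs, h⟩ := ex_s h0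
    obtain ⟨j, j1, j2, w, hw, rfl⟩ := lift1 h1 hM hs h hv i
    obtain ⟨t, rfl⟩ := (Nat.modEq_iff_exists_eq_add j1).1 (Nat.ModEq.add_right_cancel' 1 j2).symm
    have := drop1 h1 hM hs h j2 (hT _ w hw)
    rwa [mT, Tf_eq, kill' h ho] at this
  have a2 : ∀ ϖ : O, ϖ ≠ 0 → ∀ v ∈ V2 M (i + 1) ϖ,
      T2 O _ i p u v ∈ V2 M (i + 1) ϖ ∧ S2 O _ i p u v ∈ V2 M (i + 1) ϖ := by
    intro ϖ h0 v hv
    refine ⟨?_, S2_mem ((h3 M ϖ hM h0).2.2.2.2.1 _) i p u hv⟩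
    obtain ⟨s, hs, h⟩ := ex_s h0
    have b := (h2 M s ϖ hM hs (d2 h 1)).1 (i + 1)
    obtain ⟨k', e, hk⟩ := (b v).1 hv
    obtain ⟨j, j1, j2, j3⟩ := big k' s i
    obtain ⟨w, hw, rfl⟩ := ((h1 M s ϖ hM hs (d2 h 2)).1 _ _ j2 j3).2 hk
    have j4 := j3.symm.trans e
    obtain ⟨t, rfl⟩ := (Nat.modEq_iff_exists_eq_add j1).1 (Nat.ModEq.add_right_cancel' 1 j4).symm
    refine (b _).2 ⟨_, j4, T2 O _ (i + 2 ^ s * t) p u w, mem_L2.2 ⟨?_, ?_⟩, ?_⟩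
    · rw [T2_plus]
      exact hT _ _ hw.1
    · rw [T2_minus _ ho]
      exact hT _ _ hw.2
    · obtain ⟨r, rfl⟩ := Nat.exists_eq_add_of_le' (le_trans one_le_two hs)
      rw [AlgHom.toLinearMap_apply, AlgHom.toLinearMap_apply, red_ml, red_ml, mT2, T2_eq, T2_eq,
        kill' h ho, show 2 ^ (r + 1) * t = 2 * (2 ^ r * t) by ring, pw_add]
  have a3 : ∀ i, ∀ v ∈ XD1 O M (i + 1),
      Tf O _ i p u v ∈ XD1 O M (i + 1) ∧ Sf O _ i p u v ∈ XD1 O M (i + 1) := fun i v hv =>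
    ⟨⟨stab (fun n x hx => ⟨_, a1 i _ (pow_ne n) x hx, mT _ i p u x⟩) hv.1, oT i ho u hv.2⟩,
      nsmul_mem (S := XD1 O M (i + 1)) (⟨stab (T := (rt O _ (dg u u)).toLinearMap)
        (fun n x hx => ⟨_, (h3 M _ hM (pow_ne n)).2.2.2.1 _ (dg u u) x hx, rfl⟩) hv.1,
        oR _ hv.2⟩ : rt O _ (dg u u) v ∈ XD1 O M (i + 1)) _⟩
  have a4 : ∀ v ∈ XD1 O M (i + 1),
      T2 O _ i p u v = Tf O _ i p u v ∧ S2 O _ i p u v = Sf O _ i p u v := fun v hv => by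
    rw [T2_eq, S2_eq, pw_fix p (epD h3 hM hv.1)]
    exact ⟨rfl, rfl⟩
  have a5 : ∀ v ∈ XD1 O M (i + 2),
      T2 O _ i p u v = Tf O _ (i + 1) p u v ∧ S2 O _ i p u v = Sf O _ (i + 1) p u v :=
    fun v hv => by
      rw [T2_eq, S2_eq, pw_neg ho (epD h3 hM hv.1), map_nsmul, map_nsmul, ← mul_smul, ← mul_smul,
        ← pow_succ]
      exact ⟨rfl, rfl⟩
  refine ⟨fun ϖ h0 => ⟨a1 i ϖ h0, a2 ϖ h0, fun v hv => ⟨⟨(a2 ϖ h0 v hv.1).1, oT2 i ho u hv.2⟩,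
    (a2 ϖ h0 v hv.1).2, S2_mem (fun g _ => oR g) i p u hv.2⟩⟩,
    fun v hv => ⟨(a3 i v hv).1, (a3 i v hv).2, a4 v hv⟩, fun v hv => ?_⟩
  obtain ⟨a, ha, b, hb, rfl⟩ := Submodule.mem_sup.1 hv
  rw [map_add, map_add, (a4 a ha).1, (a4 a ha).2, (a5 b hb).1, (a5 b hb).2]
  exact ⟨Submodule.add_mem_sup (a3 i a ha).1 (a3 (i + 1) b hb).1,
    Submodule.add_mem_sup (a3 i a ha).2 (a3 (i + 1) b hb).2⟩

end Vale.Agent.P022D.V
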