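import Vale.Agent.P022D.V.Spec
import Vale.Agent.P022D.Pur.Bj
import Vale.Agent.P022D.Pur.Coef
import Vale.Agent.P022.H218.L3.Deg

/-!
# P022D, block V: Sturm's bound modulo the maximal ideal, finiteness
-/

set_option linter.all false

noncomputable section

namespace Vale.Agent.P022D.Pur

open Vale.Agent.P022D.V Vale.Agent.P022D.V.Tr Vale.Agent.P022.H790.A IsLocalRing

variable {O : Type} [CommRing O] [Co O] {M : ℕ} {π : O}

theorem dom (O : Type) [CommRing O] [Co O] : IsDomain O :=
  Function.Injective.isDomain (Co.j : O →+* ℂ) Co.inj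

theorem nu_alg (hπ : Unif π) : ¬ IsUnit (algebraMap O (AA O) π) := fun h => hπ.nu (unit_of h)

theorem noeth (hπ : Unif π) : IsNoetherianRing O := by
  have := dom O
  have hirr : Irreducible π := ⟨hπ.nu, fun a b h => by
    by_contra hc
    push Not at hc
    obtain ⟨c, rfl⟩ := hπ.dvd a hc.1
    rw [mul_assoc] at h
    exact hc.2 (IsUnit.of_mul_eq_one_right c
      (mul_left_cancel₀ hπ.ne (h.symm.trans (mul_one π).symm)))⟩
  have key : ∀ (N : ℕ) (x : O), x ∣ π ^ N → ∃ n : ℕ, Associated (π ^ n) x := by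
    intro N
    induction N with
    | zero => exact fun x hx => ⟨0, by
        rw [pow_zero] at hx ⊢
        exact (associated_one_iff_isUnit.2 (isUnit_of_dvd_one hx)).symm⟩
    | succ N ih =>
      intro x hx
      by_cases hu : IsUnit x
      · exact ⟨0, by rw [pow_zero]; exact (associated_one_iff_isUnit.2 hu).symm⟩
      obtain ⟨y, rfl⟩ := hπ.dvd x hu
      rw [pow_succ', mul_dvd_mul_iff_left hπ.ne] at hx
      obtain ⟨n, hn⟩ := ih y hx
      exact ⟨n + 1, by rw [pow_succ']; exact hn.mul_left π⟩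
  have : IsDiscreteValuationRing O :=
    IsDiscreteValuationRing.ofHasUnitMulPowIrreducibleFactorization ⟨π, hirr, fun {x} hx => by
      obtain ⟨n, hn⟩ := dvd_two_pow hx
      obtain ⟨m, hm⟩ := two_dvd_pow (nu_alg hπ)
      exact key (m * n) x (hn.trans (by rw [pow_mul]; exact pow_dvd_pow_of_dvd hm n))⟩
  infer_instance

theorem two_RR (hπ : Unif π) : (2 : RR π) = 0 := by
  have h : π ∣ 2 := hπ.dvd 2 fun h => two_nonunit (O := O) (by
    simpa [map_ofNat] using h.map (algebraMap O (AA O)))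
  rw [← map_ofNat (Ideal.Quotient.mk (Ideal.span {algebraMap O (AA O) π})) 2,
    Ideal.Quotient.eq_zero_iff_mem, Ideal.mem_span_singleton, ← map_ofNat (algebraMap O (AA O)) 2]
  exact map_dvd _ h

theorem two_res : (2 : ResidueField (AA O)) = 0 := by
  rw [← map_ofNat (residue (AA O)) 2, residue_eq_zero_iff]
  exact two_nonunit

theorem red_coeff (ϖ : O) (w : FT M (AA O)) (g : GM M) (n : ℕ) :
    (red M ϖ w g).coeff n = Ideal.Quotient.mk _ ((w g).coeff n) := rfl

theorem res_of_red (hπ : Unif π) {x : AA O}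
    (h : Ideal.Quotient.mk (Ideal.span {algebraMap O (AA O) π}) x = 0) : residue (AA O) x = 0 := by
  rw [Ideal.Quotient.eq_zero_iff_mem, Ideal.mem_span_singleton] at h
  rw [residue_eq_zero_iff]
  exact fun hx => nu_alg hπ (isUnit_of_dvd_unit h hx)

variable [NeZero M]

theorem red_of_res (hM : Odd M) (hπ : Unif π) {w : FT M (AA O)} (hw : Gal w)
    (h : ∀ g, (w g).map (residue (AA O)) = 0) : red M π w = 0 := by
  funext g
  ext n
  rw [red_coeff, Pi.zero_apply, map_zero, Ideal.Quotient.eq_zero_iff_mem, Ideal.mem_span_singleton]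
  refine gal_dvd hM hπ.dvd hw g n ?_
  have := congrArg (PowerSeries.coeff n) (h g)
  rw [PowerSeries.coeff_map, map_zero, residue_eq_zero_iff] at this
  exact this

omit [NeZero M] in
theorem gal_L2 {k : ℕ} {w : FT M (AA O)} (hw : w ∈ L2 O M k) : Gal w := by
  intro σ hσ a ha g n
  have h1 := hw.1.2 σ hσ a ha g n
  have h2 := hw.2.2 σ hσ a ha g n
  simp only [LinearMap.add_apply, LinearMap.sub_apply, Module.End.one_apply, Pi.add_apply,
    Pi.sub_apply, map_add, map_sub] at h1 h2
  linear_combination (h1 + h2) / 2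

theorem E6_mem : kt M (cx (AA O) M E6Z) ∈ L O M 6 := by
  rw [kt_cx]
  exact L_ct (NeZero.pos M) (P022.H218.L3.isMF_top ModularForm.E₆) _ qExp_E6

theorem ep_apply {S R : Type} [CommRing S] [CommRing R] [Algebra S R] (k : ℕ) (w : FT M R)
    (g : GM M) : ep S R M k w g = (-1) ^ k * w (g * dg (-1) (-1)) := by
  rw [ep, LinearMap.smul_apply, Pi.smul_apply, zsmul_eq_mul]
  push_cast
  rfl

/-- Sturm's bound on two weights -/
theorem sturm_two {k N : ℕ} {w : FT M (AA O)} (hw : w ∈ L2 O M k) (hk : (k + 3) * M < 12 * N)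
    (hd : ∀ g, PowerSeries.X ^ N ∣ (w g).map (residue (AA O))) (g : GM M) :
    (w g).map (residue (AA O)) = 0 := by
  have hM := NeZero.pos M
  have h2 : (2 : PowerSeries (ResidueField (AA O))) = 0 := by
    rw [← map_ofNat (PowerSeries.C (R := ResidueField (AA O))) 2, two_res, map_zero]
  have hb : ∀ g, PowerSeries.X ^ N ∣ (ep O (AA O) M k w g).map (residue (AA O)) := fun g => by
    rw [ep_apply, map_mul]
    exact (hd _).mul_left _
  have ha := sturm_tuple' hM (residue (AA O)) hw.1 (N := N) (by nlinarith) (fun g => by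
    rw [LinearMap.add_apply, Module.End.one_apply, Pi.add_apply, map_add]
    exact dvd_add (hd g) (hb g)) g
  rw [LinearMap.add_apply, Module.End.one_apply, Pi.add_apply, map_add] at ha
  have hw1 : w + ep O (AA O) M k w ∈ L O M k := hw.1
  have hw2 : w - ep O (AA O) M k w ∈ L O M (k + 1) := hw.2
  generalize ep O (AA O) M k w = b at hb ha hw1 hw2
  have hn : w * b - 2 * (63 * kt M (cx (AA O) M (sg 5)) * (w + b) ^ 2 +
      30 * kt M (cx (AA O) M (sg 3)) * (w - b) ^ 2) ∈ L O M (2 * k + 6) := by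
    refine L_sat hM (n := 4) (by norm_num) ?_
    have a1 := L_mul (L_pow hw1 2) (E6_mem (O := O) (M := M))
    have a2 := L_mul (L_pow hw2 2) (E4_mem (O := O) (M := M))
    rw [show k * 2 + 6 = 2 * k + 6 by ring] at a1
    rw [show (k + 1) * 2 + 4 = 2 * k + 6 by ring] at a2
    refine (congrArg (· ∈ L O M (2 * k + 6)) ?_).mp (sub_mem a1 a2)
    simp only [E4Z, E6Z, map_add, map_sub, map_mul, map_one, map_ofNat, Nat.cast_ofNat]
    ring
  have hv : ∀ g, ((w * b - 2 * (63 * kt M (cx (AA O) M (sg 5)) * (w + b) ^ 2 +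
      30 * kt M (cx (AA O) M (sg 3)) * (w - b) ^ 2) : FT M (AA O)) g).map (residue (AA O)) =
      (w g).map (residue (AA O)) * (b g).map (residue (AA O)) := fun g => by
    rw [Pi.sub_apply, Pi.mul_apply, Pi.mul_apply, map_sub, map_mul, map_mul, Pi.ofNat_apply,
      map_ofNat, h2, zero_mul, sub_zero]
  have h3 := sturm_tuple' hM (residue (AA O)) hn (N := N + N) (by nlinarith) (fun g => by
    rw [hv, pow_add]
    exact mul_dvd_mul (hd g) (hb g)) g
  rw [hv] at h3
  refine pow_eq_zero_iff (two_ne_zero) |>.1 ?_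
  linear_combination (w g).map (residue (AA O)) * ha - h3

/-- a submodule of rational tuples which is determined by finitely many coefficients -/
theorem fg_of (hM : Odd M) (hπ : Unif π) (Y : Submodule O (FT M (AA O))) (hY : ∀ w ∈ Y, Gal w)
    (N : ℕ) (hN : ∀ w ∈ Y, (∀ g, PowerSeries.X ^ N ∣ (w g).map (residue (AA O))) →
      ∀ g, (w g).map (residue (AA O)) = 0) : (Y.map (red M π).toLinearMap).FG := by
  classical
  have := noeth hπ
  let Rz : Submodule O (RR π) := Submodule.span O (Set.range fun i : Fin M =>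
    Ideal.Quotient.mk (Ideal.span {algebraMap O (AA O) π}) (Tr.zA O M ^ (i : ℕ)))
  have : Module.Finite O Rz := Module.Finite.span_of_finite O (Set.finite_range _)
  have hc : ∀ v ∈ Y.map (red M π).toLinearMap, ∀ g n, (v g).coeff n ∈ Rz := by
    rintro _ ⟨w, hw, rfl⟩ g n
    obtain ⟨c, h1, -⟩ := gal_coef hM (hY w hw) g n
    rw [AlgHom.toLinearMap_apply, red_coeff, h1, map_sum]
    refine Submodule.sum_mem _ fun i hi => ?_
    rw [← Algebra.smul_def]
    exact Rz.smul_mem (c i) (Submodule.subset_span ⟨⟨i, Finset.mem_range.1 hi⟩, rfl⟩)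
  let φ : Y.map (red M π).toLinearMap →ₗ[O] (GM M × Fin N → Rz) :=
    { toFun := fun v x => ⟨(v.1 x.1).coeff x.2, hc v.1 v.2 _ _⟩
      map_add' := fun v v' => by ext x; simp
      map_smul' := fun c v => by ext x; simp }
  have hφ : Function.Injective φ := by
    rw [← LinearMap.ker_eq_bot, LinearMap.ker_eq_bot']
    rintro ⟨_, w, hw, rfl⟩ h
    refine Subtype.ext (red_of_res hM hπ (hY w hw) (hN w hw fun g => ?_))
    rw [PowerSeries.X_pow_dvd_iff]
    intro n hn
    rw [PowerSeries.coeff_map]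
    exact res_of_red hπ (congrArg Subtype.val (congrFun h (g, ⟨n, hn⟩)))
  exact (Submodule.fg_top _).1 (Module.Finite.of_injective φ hφ).1

theorem fg_Fil2 (hM : Odd M) (hπ : Unif π) (k : ℕ) : (Fil2 M k π).FG :=
  fg_of hM hπ _ (fun _ hw => gal_L2 hw) ((k + 3) * M + 1) fun _ hw h g =>
    sturm_two hw (by omega) h g

end Vale.Agent.P022D.Pur

namespace Vale.Agent.P022D.V

open Vale.Agent.P022D.Pur IsLocalRing

theorem sturm (O : Type) [CommRing O] [Co O] : STURM O := by
  intro M k π hM hπ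
  have : NeZero M := ⟨hM.pos.ne'⟩
  refine ⟨?_, fg_of hM hπ _ (fun _ hw => hw.2) (k * M + 1) fun _ hw h g =>
    sturm_tuple' hM.pos _ hw (by omega) h g, fg_Fil2 hM hπ k⟩
  rintro _ ⟨w, hw, rfl⟩ h
  refine red_of_res hM hπ hw.2 (sturm_tuple' hM.pos _ hw (N := k * M / 12 + 1) (by omega)
    fun g => ?_)
  rw [PowerSeries.X_pow_dvd_iff]
  intro n hn
  rw [PowerSeries.coeff_map]
  exact res_of_red hπ (h g n (by omega))

end Vale.Agent.P022D.V
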