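import Vale.Agent.P022D.V.Spec2

/-!
# P022D, block V: the words `T_n` and the exponents of the expansions
-/

set_option linter.all false

open Matrix
open scoped MatrixGroups

noncomputable section

namespace Vale.Agent.P022D.V

namespace Tn

variable {M : ℕ}

theorem un_mul (x y : ZMod M) : un x * un y = un (x + y) := by
  apply Units.ext
  rw [Units.val_mul, un_coe, un_coe, un_coe]
  ext i j; fin_cases i <;> fin_cases j <;> simp [Matrix.mul_apply, Fin.sum_univ_two, add_comm]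

theorem un_zero : un (0 : ZMod M) = 1 := by
  apply Units.ext
  rw [un_coe]
  ext i j; fin_cases i <;> fin_cases j <;> simp

theorem dg_un (a d : (ZMod M)ˣ) :
    dg a d * un 1 = un ((a : ZMod M) * ((d⁻¹ : (ZMod M)ˣ) : ZMod M)) * dg a d := by
  apply Units.ext
  rw [Units.val_mul, Units.val_mul, un_coe, un_coe, dg_coe]
  ext i j; fin_cases i <;> fin_cases j <;> simp [Matrix.mul_apply, Fin.sum_univ_two]

theorem g_un (g : GM M) (y y' : ZMod M)
    (h1 : y * (g : Matrix (Fin 2) (Fin 2) (ZMod M)) 1 0 = 0)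
    (h2 : y' * (g : Matrix (Fin 2) (Fin 2) (ZMod M)) 1 0 = 0)
    (h3 : y' * (g : Matrix (Fin 2) (Fin 2) (ZMod M)) 1 1 =
      y * (g : Matrix (Fin 2) (Fin 2) (ZMod M)) 0 0) : g * un y = un y' * g := by
  apply Units.ext
  rw [Units.val_mul, Units.val_mul, un_coe, un_coe]
  ext i j
  fin_cases i <;> fin_cases j <;> simp [Matrix.mul_apply, Fin.sum_univ_two]
  · exact h2
  · linear_combination -h3
  · linear_combination h1

section words

variable (S R : Type) [CommRing S] [CommRing R] [Algebra S R]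

/-- the words for the powers of a prime -/
def tw (i p : ℕ) (u : (ZMod M)ˣ) : ℕ → Module.End S (FT M R)
  | 0 => 1
  | 1 => Tf S R i p u
  | r + 2 => tw i p u (r + 1) * Tf S R i p u - tw i p u r * Sf S R i p u

theorem tw_mem (i p : ℕ) (u : (ZMod M)ˣ) (A : Subalgebra S (Module.End S (FT M R)))
    (hT : Tf S R i p u ∈ A) (hS : Sf S R i p u ∈ A) : ∀ r, tw S R i p u r ∈ A
  | 0 => A.one_mem
  | 1 => hT
  | r + 2 => A.sub_mem (A.mul_mem (tw_mem i p u A hT hS (r + 1)) hT)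
      (A.mul_mem (tw_mem i p u A hT hS r) hS)

theorem Tf_coeff (i p : ℕ) (u : (ZMod M)ˣ) (w : FT M R) (g : GM M) (n : ℕ) :
    (Tf S R i p u w g).coeff n = (w (dg 1 u * g)).coeff (p * n) +
      (p ^ i : ℕ) • (if p ∣ n then (w (dg u 1 * g)).coeff (n / p) else 0) := by
  have e : Tf S R i p u w g = Uo p (w (dg 1 u * g)) + (p ^ i : ℕ) • Vo p (w (dg u 1 * g)) := rfl
  rw [e, map_add, map_nsmul, Uo, Vo, PowerSeries.coeff_mk, PowerSeries.coeff_mk]

theorem Sf_coeff (i p : ℕ) (u : (ZMod M)ˣ) (w : FT M R) (g : GM M) (n : ℕ) :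
    (Sf S R i p u w g).coeff n = (p ^ i : ℕ) • (w (g * dg u u)).coeff n := by
  have e : Sf S R i p u w g = (p ^ i : ℕ) • w (g * dg u u) := rfl
  rw [e, map_nsmul]

theorem tw_coeff (i p : ℕ) (hp : 0 < p) (u : (ZMod M)ˣ) (m : ℕ) (hm : ¬ p ∣ m) :
    ∀ (r : ℕ) (w : FT M R) (g : GM M),
      (tw S R i p u r w g).coeff m = (w (dg 1 (u ^ r) * g)).coeff (p ^ r * m)
  | 0, w, g => by
    rw [pow_zero, pow_zero, dg_one, one_mul, one_mul]
    rfl
  | 1, w, g => by
    rw [pow_one, pow_one]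
    show (Tf S R i p u w g).coeff m = _
    rw [Tf_coeff, if_neg hm, smul_zero, add_zero]
  | r + 2, w, g => by
    have e : tw S R i p u (r + 2) w g =
        tw S R i p u (r + 1) (Tf S R i p u w) g - tw S R i p u r (Sf S R i p u w) g := rfl
    have e1 : dg 1 u * (dg 1 (u ^ (r + 1)) * g) = dg 1 (u ^ (r + 2)) * g := by
      rw [← mul_assoc, dg_mul, one_mul, ← pow_succ']
    have e2 : dg u 1 * (dg 1 (u ^ (r + 1)) * g) = dg 1 (u ^ r) * g * dg u u := by
      rw [← dg_center, ← mul_assoc, ← mul_assoc, dg_mul, dg_mul, one_mul, pow_succ']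
    have e3 : p * (p ^ (r + 1) * m) = p ^ (r + 2) * m := by ring
    have e4 : p ^ (r + 1) * m = p * (p ^ r * m) := by ring
    have e5 : p ^ (r + 1) * m / p = p ^ r * m := by
      rw [e4, Nat.mul_div_cancel_left _ hp]
    rw [e, map_sub, tw_coeff i p hp u m hm (r + 1), tw_coeff i p hp u m hm r, Tf_coeff, Sf_coeff,
      if_pos ⟨_, e4⟩, e1, e2, e3, e5, add_sub_cancel_right]

/-- the generators -/
def Gn (M i n : ℕ) : Set (Module.End S (FT M R)) :=
  {t | ∃ (p : ℕ) (u : (ZMod M)ˣ), p.Prime ∧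
      p ≠ 2 ∧ p ∣ n ∧ (u : ZMod M) = p ∧ (t = Tf S R i p u ∨ t = Sf S R i p u)}

theorem Gn_mono (i : ℕ) {n n' : ℕ} (h : n ∣ n') : Gn S R M i n ⊆ Gn S R M i n' := by
  rintro t ⟨p, u, h1, h2, h3, h4, h5⟩
  exact ⟨p, u, h1, h2, h3.trans h, h4, h5⟩

theorem ex_unit {n a : ℕ} (u : (ZMod M)ˣ) (hu : (u : ZMod M) = n) (h : a ∣ n) :
    ∃ v : (ZMod M)ˣ, (v : ZMod M) = a := by
  obtain ⟨b, rfl⟩ := h
  have h1 : IsUnit ((a : ZMod M) * (b : ZMod M)) := by
    rw [← Nat.cast_mul, ← hu]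
    exact u.isUnit
  exact isUnit_of_mul_isUnit_left h1

theorem words (i n : ℕ) : ∀ u : (ZMod M)ˣ, Odd n → (u : ZMod M) = n →
    ∃ t ∈ Algebra.adjoin S (Gn S R M i n), ∀ (w : FT M R) (g : GM M) (m : ℕ), Nat.Coprime m n →
      (t w g).coeff m = (w (dg 1 u * g)).coeff (n * m) := by
  induction n using Nat.recOnPosPrimePosCoprime with
  | prime_pow p r hp hr =>
    intro u ho hu
    have hd : p ∣ p ^ r := dvd_pow_self p hr.ne'
    have h2 : p ≠ 2 := by
      rintro rfl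
      exact (Nat.not_even_iff_odd.2 ho) (even_iff_two_dvd.2 hd)
    obtain ⟨v, hv⟩ := ex_unit u hu hd
    have e : u = v ^ r := by
      apply Units.ext
      rw [hu, Units.val_pow_eq_pow_val, hv, Nat.cast_pow]
    have mT : Tf S R i p v ∈ Gn S R M i (p ^ r) := ⟨p, v, hp, h2, hd, hv, Or.inl rfl⟩
    have mS : Sf S R i p v ∈ Gn S R M i (p ^ r) := ⟨p, v, hp, h2, hd, hv, Or.inr rfl⟩
    refine ⟨tw S R i p v r, tw_mem S R i p v _ (Algebra.subset_adjoin mT)
      (Algebra.subset_adjoin mS) r, fun w g m hm => ?_⟩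
    rw [e]
    refine tw_coeff S R i p hp.pos v m (fun h => ?_) r w g
    exact hp.one_lt.ne' (Nat.eq_one_of_dvd_coprimes hm h hd)
  | zero => intro u ho; exact absurd ho (by decide)
  | one =>
    intro u _ hu
    have e : u = 1 := by
      apply Units.ext
      rw [hu, Nat.cast_one, Units.val_one]
    refine ⟨1, Subalgebra.one_mem _, fun w g m _ => ?_⟩
    rw [e, dg_one, one_mul, one_mul]
    rfl
  | coprime a b _ _ hab iha ihb =>
    intro u ho hu
    obtain ⟨va, ha⟩ := ex_unit u hu (dvd_mul_right a b)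
    obtain ⟨vb, hb⟩ := ex_unit u hu (dvd_mul_left b a)
    obtain ⟨ta, ma, ca⟩ := iha va (Nat.Odd.of_mul_left ho) ha
    obtain ⟨tb, mb, cb⟩ := ihb vb (Nat.Odd.of_mul_right ho) hb
    have e : u = vb * va := by
      apply Units.ext
      rw [hu, Units.val_mul, ha, hb, Nat.cast_mul, mul_comm]
    refine ⟨ta * tb, Subalgebra.mul_mem _
      (Algebra.adjoin_mono (Gn_mono S R i (dvd_mul_right a b)) ma)
      (Algebra.adjoin_mono (Gn_mono S R i (dvd_mul_left b a)) mb), fun w g m hm => ?_⟩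
    have c1 : Nat.Coprime m a := Nat.Coprime.coprime_mul_right_right hm
    have c2 : Nat.Coprime m b := Nat.Coprime.coprime_mul_left_right hm
    have c3 : Nat.Coprime (a * m) b := Nat.Coprime.mul_left hab c2
    have e3 : b * (a * m) = a * b * m := by ring
    show (ta (tb w) g).coeff m = _
    rw [ca _ _ _ c1, cb _ _ _ c3, e3, ← mul_assoc (dg 1 vb), dg_mul, one_mul, ← e]

end words

section exps

variable {R : Type} [CommRing R] {z : R}

theorem tc_pow {w : FT M R} (hw : TC z w) (x : ℕ) (g : GM M) (n : ℕ) :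
    z ^ (x * n) * (w (un (x : ZMod M) * g)).coeff n = (w g).coeff n := by
  induction x with
  | zero => rw [Nat.cast_zero, un_zero, one_mul, zero_mul, pow_zero, one_mul]
  | succ x ih =>
    have e : un ((x + 1 : ℕ) : ZMod M) * g = un 1 * (un (x : ZMod M) * g) := by
      rw [← mul_assoc, un_mul, Nat.cast_succ, add_comm]
    rw [e, Nat.succ_mul, pow_add, mul_assoc, hw, ih]

theorem two_exp_le (hz : PZ M z) {A B : ℕ} (hle : A ≤ B) (hne : (A : ZMod M) ≠ B) {c c' : R}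
    (h1 : z ^ A * c' = c) (h2 : z ^ B * c' = c) : c = 0 := by
  obtain ⟨k, rfl⟩ := Nat.exists_eq_add_of_le hle
  have hk : ¬ M ∣ k := by
    intro h
    apply hne
    rw [Nat.cast_add, (ZMod.natCast_eq_zero_iff k M).2 h, add_zero]
  have h3 : (z ^ k - 1) * c = 0 := by
    rw [pow_add] at h2
    linear_combination h2 - z ^ k * h1
  exact (hz.unit k hk).mul_right_eq_zero.1 h3

theorem two_exp (hz : PZ M z) {A B : ℕ} (hne : (A : ZMod M) ≠ B) {c c' : R}
    (h1 : z ^ A * c' = c) (h2 : z ^ B * c' = c) : c = 0 := by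
  rcases le_total A B with h | h
  · exact two_exp_le hz h hne h1 h2
  · exact two_exp_le hz h hne.symm h2 h1

theorem wh_exp {S : Type} [CommRing S] [Algebra S R] (hz : PZ M z) {w : FT M R} (hw : TC z w)
    (Q : ℕ) (y : S) (hy : algebraMap S R y = z ^ Q) (hW : w ∈ Wh S R M y) (a d : (ZMod M)ˣ) (n : ℕ)
    (hne : (n : ZMod M) * a ≠ Q * d) : (w (dg a d)).coeff n = 0 := by
  have h0 : y ^ 1 • rt S R (un ((1 : ℕ) : ZMod M)) w = w := hW 1
  rw [pow_one, Nat.cast_one] at h0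
  have h1 : z ^ Q * (w (dg a d * un 1)).coeff n = (w (dg a d)).coeff n := by
    have h := congrArg (fun v : FT M R => (v (dg a d)).coeff n) h0
    simp only [Pi.smul_apply, PowerSeries.coeff_smul, rt_apply] at h
    rw [Algebra.smul_def, hy] at h
    exact h
  rw [dg_un] at h1
  have hd : ((d⁻¹ : (ZMod M)ˣ) : ZMod M) * d = 1 := Units.inv_mul d
  obtain ⟨k, hk⟩ := ZMod.intCast_surjective ((a : ZMod M) * ((d⁻¹ : (ZMod M)ˣ) : ZMod M))
  obtain ⟨x, rfl | rfl⟩ := Int.eq_nat_or_neg k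
  · rw [Int.cast_natCast] at hk
    rw [← hk] at h1
    refine two_exp hz (fun e => hne ?_) (tc_pow hw x (dg a d) n) h1
    rw [Nat.cast_mul, hk] at e
    linear_combination (d : ZMod M) * e - (n : ZMod M) * a * hd
  · rw [Int.cast_neg, Int.cast_natCast] at hk
    rw [← hk] at h1
    have h2 := tc_pow hw x (un (-(x : ZMod M)) * dg a d) n
    rw [← mul_assoc, un_mul, add_neg_cancel, un_zero, one_mul] at h2
    have h3 : z ^ (Q + x * n) * (w (dg a d)).coeff n = (w (dg a d)).coeff n := by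
      rw [pow_add, mul_assoc, h2, h1]
    have h4 : z ^ 0 * (w (dg a d)).coeff n = (w (dg a d)).coeff n := by rw [pow_zero, one_mul]
    refine two_exp hz (fun e => hne ?_) h3 h4
    rw [Nat.cast_add, Nat.cast_mul, Nat.cast_zero] at e
    linear_combination -(d : ZMod M) * e - (n : ZMod M) * d * hk - (n : ZMod M) * a * hd

theorem ex_t {M₀ q : ℕ} (h : Sp M M₀ q) (g : GM M)
    (hg : (M₀ : ZMod M) * (g : Matrix (Fin 2) (Fin 2) (ZMod M)) 1 0 = 0) :
    ∃ t : ℕ, ¬ q ∣ t ∧ ∀ x : ℕ, g * un ((M₀ : ZMod M) * (x : ZMod M)) =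
      un ((M₀ * t * x : ℕ) : ZMod M) * g := by
  have hM : M ≠ 0 := by
    rintro rfl
    exact absurd h.odd (by decide)
  haveI : NeZero M := ⟨hM⟩
  have hM0 : M₀ ≠ 0 := by
    rintro rfl
    exact hM (by rw [h.eq, zero_mul])
  obtain ⟨δ, hδ⟩ : ∃ δ : ZMod M, δ * (g : Matrix (Fin 2) (Fin 2) (ZMod M)).det = 1 :=
    ⟨((Matrix.GeneralLinearGroup.det g)⁻¹ : (ZMod M)ˣ), Units.inv_mul _⟩
  rw [Matrix.det_fin_two] at hδ
  obtain ⟨t, ht⟩ := ZMod.natCast_zmod_surjective
    ((g : Matrix (Fin 2) (Fin 2) (ZMod M)) 0 0 ^ 2 * δ)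
  have k1 : (M₀ : ZMod M) * (δ * ((g : Matrix (Fin 2) (Fin 2) (ZMod M)) 0 0 *
      (g : Matrix (Fin 2) (Fin 2) (ZMod M)) 1 1)) = M₀ := by
    linear_combination (M₀ : ZMod M) * hδ + δ * (g : Matrix (Fin 2) (Fin 2) (ZMod M)) 0 1 * hg
  refine ⟨t, ?_, fun x => g_un g _ _ ?_ ?_ ?_⟩
  · rintro ⟨k, rfl⟩
    have k2 : (M₀ : ZMod M) * (q : ZMod M) = 0 := by
      rw [← Nat.cast_mul, ← h.eq, ZMod.natCast_self]
    rw [Nat.cast_mul] at ht
    have k3 : (M₀ : ZMod M) = 0 := by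
      linear_combination -(1 + δ * ((g : Matrix (Fin 2) (Fin 2) (ZMod M)) 0 0 *
        (g : Matrix (Fin 2) (Fin 2) (ZMod M)) 1 1)) * k1 -
        (M₀ : ZMod M) * δ * (g : Matrix (Fin 2) (Fin 2) (ZMod M)) 1 1 ^ 2 * ht +
        (k : ZMod M) * δ * (g : Matrix (Fin 2) (Fin 2) (ZMod M)) 1 1 ^ 2 * k2
    have k4 : M₀ * q ∣ M₀ * 1 := by
      rw [← h.eq, mul_one]
      exact (ZMod.natCast_eq_zero_iff M₀ M).1 k3
    exact h.prime.one_lt.ne' (Nat.dvd_one.1 (Nat.dvd_of_mul_dvd_mul_left (Nat.pos_of_ne_zero hM0) k4))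
  · linear_combination (x : ZMod M) * hg
  · push_cast
    linear_combination (t : ZMod M) * x * hg
  · push_cast
    rw [ht]
    linear_combination (x : ZMod M) * (g : Matrix (Fin 2) (Fin 2) (ZMod M)) 0 0 * k1

theorem nu_coeff {S : Type} [CommRing S] [Algebra S R] (hz : PZ M z) {w : FT M R} (hw : TC z w)
    {M₀ q : ℕ} (h : Sp M M₀ q) (g : GM M)
    (hg : (M₀ : ZMod M) * (g : Matrix (Fin 2) (Fin 2) (ZMod M)) 1 0 = 0) (n : ℕ) :
    (Nu S R M M₀ q w g).coeff n = if q ∣ n then (q : R) * (w g).coeff n else 0 := by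
  obtain ⟨t, ht, hu⟩ := ex_t h g hg
  obtain ⟨k, hk⟩ : ∃ k, q = k + 1 := ⟨q - 1, (Nat.sub_add_cancel h.prime.pos).symm⟩
  have hM0 : M₀ ≠ 0 := by
    rintro rfl
    have := h.odd
    rw [h.eq, zero_mul] at this
    exact absurd this (by decide)
  have zM : ∀ a, z ^ (M₀ * q * a) = 1 := fun a => by rw [← h.eq, pow_mul, hz.pow, one_pow]
  have e1 : ∀ x : ℕ, (w (g * un ((M₀ : ZMod M) * (x : ZMod M)))).coeff n =
      (z ^ (M₀ * (t * n * k))) ^ x * (w g).coeff n := by
    intro x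
    have e : M₀ * (t * n * k) * x + M₀ * t * x * n = M₀ * q * (t * n * x) := by
      rw [hk]; ring
    rw [hu, ← tc_pow hw (M₀ * t * x) g n, ← pow_mul, ← mul_assoc, ← pow_add, e, zM, one_mul]
  have e2 : (Nu S R M M₀ q w g).coeff n =
      (∑ x ∈ Finset.range q, (z ^ (M₀ * (t * n * k))) ^ x) * (w g).coeff n := by
    rw [Nu, LinearMap.sum_apply, Finset.sum_apply, map_sum, Finset.sum_mul]
    exact Finset.sum_congr rfl fun x _ => e1 x
  rw [e2]
  split_ifs with hq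
  · obtain ⟨m, rfl⟩ := hq
    have e : M₀ * (t * (q * m) * k) = M₀ * q * (t * m * k) := by ring
    rw [e, zM]
    simp
  · have hnd : ¬ M ∣ M₀ * (t * n * k) := by
      intro hd
      rw [h.eq] at hd
      have hd' := Nat.dvd_of_mul_dvd_mul_left (Nat.pos_of_ne_zero hM0) hd
      rcases (Nat.Prime.dvd_mul h.prime).1 hd' with h1 | h1
      · rcases (Nat.Prime.dvd_mul h.prime).1 h1 with h2 | h2
        · exact ht h2
        · exact hq h2
      · have h2 := h.prime.two_le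
        have h3 := Nat.le_of_dvd (by omega) h1
        omega
    have e : (z ^ (M₀ * (t * n * k))) ^ q = 1 := by
      have e' : M₀ * (t * n * k) * q = M₀ * q * (t * n * k) := by ring
      rw [← pow_mul, e', zM]
    have e3 := geom_sum_mul (z ^ (M₀ * (t * n * k))) q
    rw [e, sub_self] at e3
    rw [(hz.unit _ hnd).mul_left_eq_zero.1 e3, zero_mul]

end exps

end Tn

theorem tn : TN := fun S R _ _ _ M =>
  ⟨fun i n u ho hu => Tn.words S R i n u ho hu, fun z hz w hw =>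
    ⟨Tn.tc_pow hw, fun h g n => by
      rw [rt_apply, rt_apply, mul_assoc]
      exact hw (g * h) n,
    fun _ _ h g hg n => Tn.nu_coeff hz hw h g hg n,
    fun _ Q y _ hy hW a d n hne => Tn.wh_exp hz hw Q y hy hW a d n hne⟩⟩

end Vale.Agent.P022D.V
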