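import Vale.Agent.P022D.V.Spec
import Vale.Agent.P022D.Pur.Coef

/-!
# P022D, block V: the coefficients lie in the unramified extension
-/

set_option linter.all false

noncomputable section

namespace Vale.Agent.P022D.V

open Vale.Agent.P022D.Pur

variable {O : Type} [CommRing O] [Co O]

theorem zA_eq_tr (M : ℕ) [NeZero M] : zA O M = Tr.zA O M := by
  rw [zA, dif_pos Tr.ze_memA]
  rfl

theorem unr (O : Type) [CommRing O] [Co O] : UNR O := by
  intro M hM z hz
  have : NeZero M := ⟨hM.pos.ne'⟩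
  obtain ⟨c, h1, h2, h3⟩ := coef' hM z hz
  refine ⟨⟨c, ?_, h2⟩, fun ϖ h => ?_⟩
  · simpa only [zA_eq_tr, Algebra.smul_def] using h1
  · obtain ⟨y, hy⟩ := Ideal.mem_span_singleton'.1
      (h3 (Ideal.span {algebraMap O (AA O) ϖ}) fun σ hσ => by
        obtain ⟨y, hy⟩ := h σ hσ
        refine Ideal.mem_span_singleton'.2 ⟨y, av_inj ?_⟩
        rw [map_mul, map_sub, av_sA, hy, av_alg]
        ring)
    exact ⟨c 0, -y, by linear_combination hy⟩

end Vale.Agent.P022D.V
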