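import Vale.Agent.P027M.M.A3
import Vale.Agent.P027M.M.A4

/-!
# P022D, block V: weight four forms which reduce to the Tate coordinate modulo two

`Gf N v = ((12 x_v) ^ 2 - E₄) / 24` has the expansion `X + 6 X ^ 2 - 10 s₃`.
-/

set_option autoImplicit false
set_option linter.all false

open UpperHalfPlane hiding I
open Matrix Filter Topology Function.Periodic
open scoped MatrixGroups Manifold ModularForm Real ArithmeticFunction.sigma

noncomputable section

namespace Vale.Agent.P022D.V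

open Vale.Agent.P022 Vale.Agent.P022.H218.L3 Vale.Agent.P022.H231.L3 Vale.Agent.P022.H236.L3
  Vale.Agent.P022.H542.L3 Vale.Agent.P027H Vale.Agent.P027M.M Vale.Agent.P027M.M.A3

open Complex (I)

theorem cs_zero : ((2 * π * I) ^ 2)⁻¹ * cs 0 = -1 / 12 := by
  have h1 : HasSum (fun n : ℕ => (1 : ℂ) / (n : ℂ) ^ 2) ((π : ℂ) ^ 2 / 6) := by
    have := Complex.hasSum_ofReal.2 hasSum_zeta_two
    simpa using this
  have h2 : HasSum (fun n : ℕ => (1 : ℂ) / ((n : ℂ) + 1) ^ 2) ((π : ℂ) ^ 2 / 6) := by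
    have := (hasSum_nat_add_iff' 1).2 h1
    simpa using this
  have h3 : HasSum (fun n : ℤ => (1 : ℂ) / (0 + (n : ℂ)) ^ 2) ((π : ℂ) ^ 2 / 6 + (π : ℂ) ^ 2 / 6) := by
    refine HasSum.of_nat_of_neg_add_one ?_ ?_
    · simpa using h1
    · refine h2.congr_fun fun n => ?_
      push_cast
      rw [zero_add, neg_sq]
  have hπ : (π : ℂ) ≠ 0 := by exact_mod_cast Real.pi_ne_zero
  rw [cs, h3.tsum_eq, mul_pow, Complex.I_sq]
  field_simp
  ring

theorem Xc_zero (N : ℕ) : Xc N 0 0 = 0 := by simp [Xc, ze]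

theorem hasSum_X0 {N : ℕ} (hN : 0 < N) (τ : ℍ) :
    ∃ s, HasSum (fun k : ℕ => Xc N 0 k * qParam N τ ^ k) s ∧
      HasSum (fun m : ℤ => ((2 * π * I) ^ 2)⁻¹ * cs (0 - m * τ)) (s - 1 / 12) := by
  have hr : (0 : ℝ) < N := by exact_mod_cast hN
  have hC : (N : ℂ) ≠ 0 := by exact_mod_cast hN.ne'
  have hQ : ‖qParam N τ‖ < 1 := norm_qParam_lt_one hr τ.im_pos
  obtain ⟨s1, h1, h1'⟩ := hasSum_div
    (fun c j => if (N : ℤ) ∣ (c : ℤ) then (j : ℂ) * ze N 0 else 0)
    (fun c j => by split_ifs <;> simp [norm_ze]) hQ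
  refine ⟨s1 + s1, ?_, ?_⟩
  · refine (h1.add h1).congr_fun fun k => ?_
    by_cases hk : k = 0
    · subst hk
      simp [Xc_zero]
    · rw [← add_mul, ← Finset.sum_add_distrib, Xc, if_neg hk]
      simp
  · obtain ⟨H, hH⟩ : ∃ H : ℤ → ℂ, H = fun c => if (N : ℤ) ∣ c then
        ((2 * π * I) ^ 2)⁻¹ * cs ((c * (τ : ℂ) + (0 : ℤ)) / N) else 0 := ⟨_, rfl⟩
    have hp : HasSum (fun n : ℕ => H (n + 1)) s1 := by
      refine h1'.congr_fun fun c => ?_
      rw [hH]
      simp only [Nat.cast_add, Nat.cast_one]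
      split_ifs with hc
      · have := cs_div hN τ 0 c
        push_cast at this ⊢
        simpa only [zero_mul] using this
      · simp
    have he : ∀ c, H (-c) = H c := by
      intro c
      rw [hH]
      simp only [dvd_neg]
      split_ifs with hc
      · rw [← cs_neg]
        congr 2
        push_cast
        ring
      · rfl
    have hm : HasSum (fun n : ℕ => H (-(n + 1))) s1 := hp.congr_fun fun c => he _
    have h0 : H 0 = -1 / 12 := by
      rw [hH, ← cs_zero]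
      simp
    have h4 := hp.of_add_one_of_neg_add_one hm
    rw [h0] at h4
    have hinj : Function.Injective fun m : ℤ => -(N * m : ℤ) := by
      intro m n h
      have h5 : (N : ℤ) * m = N * n := by simpa using h
      exact mul_left_cancel₀ (by exact_mod_cast hN.ne') h5
    have h6 := (hinj.hasSum_iff (f := H) (a := s1 + -1 / 12 + s1) (by
      intro c hc
      rw [hH]
      refine if_neg ?_
      rintro ⟨m, hm⟩
      exact hc ⟨-m, by simp [hm]⟩)).2 h4
    rw [show s1 + s1 - 1 / 12 = s1 + -1 / 12 + s1 by ring]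
    refine h6.congr_fun fun m => ?_
    rw [Function.comp_apply, hH]
    simp only
    rw [if_pos ⟨-m, by ring⟩]
    congr 2
    push_cast
    field_simp
    ring

/-- the Tate coordinate as a series in `e(τ / N)` -/
def Xt (N : ℕ) (v : Fin 2 → ℤ) : PowerSeries ℂ := PowerSeries.mk fun k => Xc N v k - Xc N 0 k

theorem xv_hasSum {N : ℕ} (hN : 0 < N) {v : Fin 2 → ℤ} (hv : NZ N v) (τ : ℍ) :
    HasSum (fun k : ℕ => (Xt N v).coeff k * qParam N τ ^ k) (xv N v τ - 1 / 12) := by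
  obtain ⟨s, h1, h2⟩ := hasSum_X hN hv τ
  obtain ⟨s', h1', h2'⟩ := hasSum_X0 hN τ
  have h3 := (hasSum_wp τ (zt N v τ) 0).mul_left ((2 * π * I) ^ 2)⁻¹
  have h0 : wp (lat τ) 0 = 0 := by simp [wp]
  simp only [mul_sub, h0, mul_zero, sub_zero] at h3
  have h4 := h3.unique (h2.sub h2')
  have h5 := h1.sub h1'
  rw [show xv N v τ - 1 / 12 = s - s' by rw [xv, h4]; ring]
  simpa only [Xt, PowerSeries.coeff_mk, sub_mul] using h5

/-- `∑ σ₃(n) q ^ n` in the parameter `e(τ / N)` -/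
def s3 (N : ℕ) : PowerSeries ℂ := PowerSeries.mk fun k => if N ∣ k then (σ 3 (k / N) : ℂ) else 0

theorem E4_hasSum {N : ℕ} (hN : 0 < N) (τ : ℍ) :
    HasSum (fun k : ℕ => (s3 N).coeff k * qParam N τ ^ k) ((ModularForm.E₄ τ - 1) / 240) := by
  have hC : (N : ℂ) ≠ 0 := by exact_mod_cast hN.ne'
  have h1 := ModularForm.hasSum_qExpansion (ModularForm.E₄) one_pos
    one_mem_strictPeriods_SL τ
  have h2 := (h1.sub (hasSum_ite_eq 0 (1 : ℂ))).div_const 240
  have e : qParam 1 τ = qParam N τ ^ N := by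
    rw [qParam, qParam, ← Complex.exp_nat_mul]
    congr 1
    push_cast
    field_simp
  have hinj : Function.Injective fun m : ℕ => N * m := fun a b h => Nat.eq_of_mul_eq_mul_left hN h
  refine (hinj.hasSum_iff ?_).1 (h2.congr_fun fun m => ?_)
  · intro k hk
    rw [s3, PowerSeries.coeff_mk, if_neg, zero_mul]
    rintro ⟨m, rfl⟩
    exact hk ⟨m, rfl⟩
  · rw [Function.comp_apply, s3, PowerSeries.coeff_mk, if_pos ⟨m, rfl⟩, Nat.mul_div_cancel_left _ hN,
      EisensteinSeries.E_qExpansion_coeff _ (by decide), e, ← pow_mul]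
    by_cases hm : m = 0
    · subst hm
      simp
    · rw [if_neg hm, if_neg hm, show bernoulli 4 = -1 / 30 by
        rw [bernoulli_eq_bernoulli'_of_ne_one (by decide), bernoulli'_four]]
      push_cast
      ring

theorem hasSum_mul {A B : PowerSeries ℂ} {Q a b : ℂ} (hA : HasSum (fun k => A.coeff k * Q ^ k) a)
    (hB : HasSum (fun k => B.coeff k * Q ^ k) b) :
    HasSum (fun k => (A * B).coeff k * Q ^ k) (a * b) := by
  have h1 := hA.summable.norm
  have h2 := hB.summable.norm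
  have h3 := (summable_norm_sum_mul_antidiagonal_of_summable_norm h1 h2).of_norm.hasSum
  rw [← tsum_mul_tsum_eq_tsum_sum_antidiagonal_of_summable_norm h1 h2, hA.tsum_eq, hB.tsum_eq] at h3
  refine h3.congr_fun fun k => ?_
  rw [PowerSeries.coeff_mul, Finset.sum_mul]
  refine Finset.sum_congr rfl fun p hp => ?_
  rw [← Finset.HasAntidiagonal.mem_antidiagonal.1 hp, pow_add]
  ring

/-- the weight four form -/
def Gf (N : ℕ) (v : Fin 2 → ℤ) : ℍ → ℂ := fun τ => ((12 * xv N v τ) ^ 2 - ModularForm.E₄ τ) / 24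

/-- its expansion -/
def Gs (N : ℕ) (v : Fin 2 → ℤ) : PowerSeries ℂ := Xt N v + 2 * (3 * Xt N v ^ 2 - 5 * s3 N)

theorem Gf_hasSum {N : ℕ} (hN : 0 < N) {v : Fin 2 → ℤ} (hv : NZ N v) (τ : ℍ) :
    HasSum (fun k : ℕ => (Gs N v).coeff k * qParam N τ ^ k) (Gf N v τ) := by
  have h1 := xv_hasSum hN hv τ
  have h2 := (h1.add ((hasSum_mul h1 h1).mul_left 6)).sub ((E4_hasSum hN τ).mul_left 10)
  have e : Gs N v = Xt N v + (6 : ℂ) • (Xt N v * Xt N v) - (10 : ℂ) • s3 N := by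
    rw [Gs, PowerSeries.smul_eq_C_mul, PowerSeries.smul_eq_C_mul, map_ofNat, map_ofNat]
    ring
  rw [show Gf N v τ = xv N v τ - 1 / 12 + 6 * ((xv N v τ - 1 / 12) * (xv N v τ - 1 / 12)) -
    10 * ((ModularForm.E₄ τ - 1) / 240) by rw [Gf]; ring]
  refine h2.congr_fun fun k => ?_
  rw [e]
  simp only [map_sub, map_add, PowerSeries.coeff_smul, smul_eq_mul]
  ring

theorem Gf_slash (N : ℕ) (v : Fin 2 → ℤ) (γ : SL(2, ℤ)) :
    Gf N v ∣[(4 : ℤ)] γ = Gf N (v ᵥ* (γ : M2)) := by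
  funext τ
  have hd : ((γ 1 0 : ℂ) * τ + γ 1 1) ≠ 0 := by
    have := denom_ne_zero (γ : GL (Fin 2) ℝ) τ
    rwa [ModularGroup.denom_apply] at this
  have hE := congrFun (ModularForm.E₄.slash_action_eq' γ ⟨γ, rfl⟩) τ
  change ((ModularForm.E₄ : ℍ → ℂ) ∣[((4 : ℕ) : ℤ)] γ) τ = ModularForm.E₄ τ at hE
  rw [ModularForm.SL_slash_apply, ModularGroup.denom_apply, _root_.zpow_neg, zpow_natCast] at hE
  rw [ModularForm.SL_slash_apply, ModularGroup.denom_apply, Gf, Gf, xv_smul, ← hE,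
    _root_.zpow_neg, zpow_ofNat]
  field_simp

theorem Gf_congr {N : ℕ} (hN : 0 < N) {v w : Fin 2 → ℤ} (h : ¬ NZ N (v - w)) :
    Gf N v = Gf N w := by
  funext τ
  rw [Gf, Gf, xv_congr hN h]

theorem Gf_congr' {N : ℕ} (hN : 0 < N) {v w : Fin 2 → ℤ} (h : ¬ NZ N (v + w)) :
    Gf N v = Gf N w := by
  funext τ
  rw [Gf, Gf, xv_congr' hN h]

theorem Gf_hol {N : ℕ} (hN : 0 < N) {v : Fin 2 → ℤ} (hv : NZ N v) : Gf N v ∈ Hol :=
  hol_of_hasSum hN (Gf_hasSum hN hv)

theorem Gf_bdd {N : ℕ} (hN : 0 < N) {v : Fin 2 → ℤ} (hv : NZ N v) : Bdd 4 (Gf N v) := by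
  have hr : (0 : ℝ) < N := by exact_mod_cast hN
  refine ⟨Gf_hol hN hv, fun γ => ?_⟩
  rw [Gf_slash]
  exact isBoundedAtImInfty_of_hasSum_qExpansion hr (Gf_hasSum hN (hv.vecMul γ))

/-- the difference of two of these series -/
theorem Gs_sub (N : ℕ) (v w : Fin 2 → ℤ) : Gs N v - Gs N w =
    (PowerSeries.mk (Xc N v) - PowerSeries.mk (Xc N w)) * (1 + 2 * (3 * (Xt N v + Xt N w))) := by
  have : PowerSeries.mk (Xc N v) - PowerSeries.mk (Xc N w) = Xt N v - Xt N w := by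
    ext k
    simp [Xt]
  rw [this, Gs, Gs]
  ring

/-- the integral model of the series -/
theorem Gs_int {N : ℕ} (hN : 0 < N) (S : Subring ℂ) (hζ : ze N 1 ∈ S) (hi : (N : ℂ)⁻¹ ∈ S) :
    ∃ G : (Fin 2 → ℤ) → PowerSeries S, (∀ v, NZ N v → (G v).map S.subtype = Gs N v) ∧
      ∀ v w, NZ N v → NZ N w → NZ N (v - w) → NZ N (v + w) → ∃ (e : ℕ) (U T : PowerSeries S),
        IsUnit U ∧ G v - G w = PowerSeries.X ^ e * U * (1 + 2 * T) := by
  have : NeZero N := ⟨hN.ne'⟩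
  have adm : P027M.M.A.Adm N (⟨ze N 1, hζ⟩ : S) :=
    P027M.M.A.adm_subring (ze_prim hN) (by exact_mod_cast hN.ne') _ hζ hi
  have h0 : ∀ k, Xc N 0 k ∈ S := by
    intro k
    by_cases hk : k = 0
    · rw [hk, Xc_zero]
      exact S.zero_mem
    · rw [Xc, if_neg hk]
      refine S.sum_mem fun j _ => S.add_mem ?_ ?_ <;> split_ifs
      · simpa [ze] using natCast_mem S j
      · exact S.zero_mem
      · simpa [ze] using natCast_mem S j
      · exact S.zero_mem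
  let Z : PowerSeries S := PowerSeries.mk fun k => ⟨Xc N 0 k, h0 k⟩
  let s : PowerSeries S := PowerSeries.mk fun k => if N ∣ k then (σ 3 (k / N) : S) else 0
  let X : (Fin 2 → ℤ) → PowerSeries S := fun v => P027M.M.A.Xr (⟨ze N 1, hζ⟩ : S) (red N v) - Z
  have hs : s.map S.subtype = s3 N := by
    ext k
    simp only [s, s3, PowerSeries.coeff_map, PowerSeries.coeff_mk]
    split_ifs <;> simp
  have hX : ∀ v, NZ N v → (X v).map S.subtype = Xt N v := by
    intro v hv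
    simp only [X]
    rw [map_sub, P027M.M.A.map_Xr adm _ ((NZ_iff v).1 hv)]
    have := mk_Xc hN v
    ext k
    have h2 := congrArg (PowerSeries.coeff k) this
    rw [PowerSeries.coeff_mk] at h2
    rw [map_sub, Xt, PowerSeries.coeff_mk, h2, PowerSeries.coeff_map, PowerSeries.coeff_mk]
    rfl
  refine ⟨fun v => X v + 2 * (3 * X v ^ 2 - 5 * s), fun v hv => ?_, fun v w hv hw h1 h2 => ?_⟩
  · simp only [map_add, map_mul, map_sub, map_pow, map_ofNat, hX v hv, hs, Gs]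
  · rw [NZ_iff, red_sub, sub_ne_zero] at h1
    rw [NZ_iff, red_add, Ne, add_eq_zero_iff_eq_neg] at h2
    obtain ⟨U, hU, e⟩ := P027M.M.A.exists_unit adm ((NZ_iff v).1 hv) ((NZ_iff w).1 hw) h1 h2
    refine ⟨P027M.M.A.eo (red N v) (red N w), U, 3 * (X v + X w), hU, ?_⟩
    rw [← e]
    simp only [X]
    ring

/-- a matrix which is not `±1` modulo `N` moves some vector -/
theorem exists_moved {N : ℕ} (A : M2) (h1 : ¬ ∀ i j, (N : ℤ) ∣ (A - 1) i j)
    (h2 : ¬ ∀ i j, (N : ℤ) ∣ (A + 1) i j) :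
    ∃ v : Fin 2 → ℤ, NZ N v ∧ NZ N (v ᵥ* A - v) ∧ NZ N (v ᵥ* A + v) := by
  have key : ∀ B : M2, (¬ ∀ i j, (N : ℤ) ∣ B i j) → ∃ v : Fin 2 → ℤ, NZ N (v ᵥ* B) := by
    intro B hB
    by_contra hc
    push Not at hc
    apply hB
    intro i j
    have := not_not.1 (hc (Pi.single i 1)) j
    rwa [Matrix.single_one_vecMul] at this
  have hadd : ∀ (B : M2) (v w : Fin 2 → ℤ), ¬ NZ N (v ᵥ* B) → NZ N (w ᵥ* B) →
      NZ N ((v + w) ᵥ* B) := by
    intro B v w hv hw h
    apply hw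
    intro i
    have e := h i
    rw [Matrix.add_vecMul, Pi.add_apply] at e
    exact (dvd_add_right (not_not.1 hv i)).1 e
  obtain ⟨v, hv, hw⟩ : ∃ v : Fin 2 → ℤ, NZ N (v ᵥ* (A - 1)) ∧ NZ N (v ᵥ* (A + 1)) := by
    obtain ⟨v, hv⟩ := key _ h1
    obtain ⟨w, hw⟩ := key _ h2
    by_cases a : NZ N (v ᵥ* (A + 1))
    · exact ⟨v, hv, a⟩
    by_cases b : NZ N (w ᵥ* (A - 1))
    · exact ⟨w, b, hw⟩
    exact ⟨v + w, by rw [add_comm]; exact hadd _ _ _ b hv, hadd _ _ _ a hw⟩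
  refine ⟨v, fun h => hv fun i => ?_, ?_, ?_⟩
  · simp only [Matrix.vecMul, dotProduct]
    exact Finset.dvd_sum fun j _ => (h j).mul_right _
  · rwa [Matrix.vecMul_sub, Matrix.vecMul_one] at hv
  · rwa [Matrix.vecMul_add, Matrix.vecMul_one] at hw

end Vale.Agent.P022D.V
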