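import Vale.Agent.P022D.V.Defs
import Vale.Agent.P022D.V.TrG
import Vale.Agent.P027M.M.B4
import Vale.Agent.P022.H790.A1

/-!
# P022D, block V: products, translates, level one forms and quotients in the lattices
-/

set_option autoImplicit false
set_option linter.all false

open UpperHalfPlane hiding I
open Matrix Filter Topology Function.Periodic
open scoped MatrixGroups Manifold ModularForm

noncomputable section

namespace Vale.Agent.P022D.V.Tr

open Vale.Agent.P022 Vale.Agent.P022.H218.L3 Vale.Agent.P022.H236.L3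

variable {O : Type} [CommRing O] [Co O] {M : ℕ}

theorem hs_exq {s : PowerSeries ℂ} {f : ℍ → ℂ} (h : HS M s f) : H236.Exq M 0 s f :=
  Eventually.of_forall fun τ => by simpa [H236.Ev] using h τ

theorem hs_unique (hM : 0 < M) {s t : PowerSeries ℂ} {f : ℍ → ℂ} (h : HS M s f) (h' : HS M t f) :
    s = t := (hs_exq h).unique hM.ne' (hs_exq h')

theorem hs_fun {s : PowerSeries ℂ} {f g : ℍ → ℂ} (h : HS M s f) (h' : HS M s g) : f = g :=
  funext fun τ => (h τ).unique (h' τ)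

theorem hs_mul {s t : PowerSeries ℂ} {f g : ℍ → ℂ} (h : HS M s f) (h' : HS M t g) :
    HS M (s * t) (f * g) := fun τ => hasSum_mul (h τ) (h' τ)

theorem hs_const (c : ℂ) : HS M (PowerSeries.C c) fun _ => c := by
  intro τ
  have := (H236.Ev.one (z := qParam M τ)).smul c
  rwa [mul_one, PowerSeries.smul_eq_C_mul, mul_one] at this

theorem hs_bdd (hM : 0 < M) {s : PowerSeries ℂ} {f : ℍ → ℂ} (h : HS M s f) :
    IsBoundedAtImInfty f := (P027M.M.B4.exq_tendsto hM.ne' (hs_exq h)).isBigO_one ℝ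

theorem hs_up (hM : 0 < M) {s : PowerSeries ℂ} {f : ℍ → ℂ} (h : HS 1 s f) : HS M (Vo M s) f := by
  intro τ
  have hC : (M : ℂ) ≠ 0 := by exact_mod_cast hM.ne'
  have e : qParam (1 : ℕ) τ = qParam M τ ^ M := by
    rw [qParam, qParam, ← Complex.exp_nat_mul]
    congr 1
    push_cast
    field_simp
  have hinj : Function.Injective fun m : ℕ => M * m := fun a b h => Nat.eq_of_mul_eq_mul_left hM h
  refine (hinj.hasSum_iff ?_).1 ((h τ).congr_fun fun m => ?_)
  · intro k hk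
    rw [Vo, PowerSeries.coeff_mk, if_neg, zero_mul]
    rintro ⟨m, rfl⟩
    exact hk ⟨m, rfl⟩
  · rw [Function.comp_apply, Vo, PowerSeries.coeff_mk, if_pos ⟨m, rfl⟩,
      Nat.mul_div_cancel_left _ hM, e, ← pow_mul]

theorem rd_T (M : ℕ) : rd M (ModularGroup.T ^ (M : ℤ)) = 1 := by
  apply Units.ext
  ext i j
  rw [rd_apply, ModularGroup.coe_T_zpow]
  fin_cases i <;> fin_cases j <;> simp

/-- a function which is invariant under `T ^ M`, holomorphic and bounded has an expansion -/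
theorem hs_qExp (hM : 0 < M) {k : ℤ} {f : ℍ → ℂ} (h1 : f ∈ Hol) (h2 : IsBoundedAtImInfty f)
    (h3 : f ∣[k] (ModularGroup.T ^ (M : ℤ)) = f) : HS M (qExpansion (M : ℝ) f) f := by
  have hr : (0 : ℝ) < M := by exact_mod_cast hM
  have hp : Function.Periodic (f ∘ ofComplex) (M : ℝ) := by
    intro z
    by_cases hz : 0 < z.im
    · have hz' : 0 < (z + (M : ℝ)).im := by simpa using hz
      have := congrFun h3 ⟨z, hz⟩
      rw [ModularForm.SL_slash_apply, ModularGroup.denom_apply, ModularGroup.coe_T_zpow,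
        UpperHalfPlane.modular_T_zpow_smul] at this
      simp only [Function.comp_apply, ofComplex_apply_of_im_pos hz, ofComplex_apply_of_im_pos hz']
      rw [← this]
      simp only [of_apply, cons_val', cons_val_zero, cons_val_one, cons_val_fin_one, Int.cast_zero,
        zero_mul, Int.cast_one, zero_add, _root_.one_zpow, mul_one]
      congr 1
      ext
      simp [add_comm]
    · have hz' : ¬ 0 < (z + (M : ℝ)).im := by simpa using hz
      simp only [Function.comp_apply]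
      rw [ofComplex_apply_eq_of_im_nonpos (not_lt.1 hz') (not_lt.1 hz)]
  intro τ
  simpa using UpperHalfPlane.hasSum_qExpansion hr hp h1 h2 τ

theorem gal_iff {w : FT M (AA O)} : Gal w ↔ ∀ σ : ℂ ≃+* ℂ, (∀ a : O, σ (Co.j a) = Co.j a) →
    ∀ a : (ZMod M)ˣ, σ (P027M.M.ze M 1) = P027M.M.ze M 1 ^ (a : ZMod M).val → ∀ g,
      (w (dg 1 a * g)).map ((σ : ℂ →+* ℂ).comp (av O)) = (w g).map (av O) := by
  refine forall_congr' fun σ => forall_congr' fun _ => forall_congr' fun a =>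
    forall_congr' fun _ => forall_congr' fun g => ?_
  rw [PowerSeries.ext_iff]
  rfl

theorem L_mul {k l : ℕ} {w w' : FT M (AA O)} (h : w ∈ L O M k) (h' : w' ∈ L O M l) :
    w * w' ∈ L O M (k + l) := by
  obtain ⟨⟨F, h1, h2⟩, h3⟩ := h
  obtain ⟨⟨F', h1', h2'⟩, h3'⟩ := h'
  refine ⟨⟨F * F', ⟨fun g => ?_, fun γ g => ?_⟩, fun g => ?_⟩, gal_iff.2 fun σ hσ a ha g => ?_⟩
  · rw [Nat.cast_add]
    exact (h1.bdd g).mul (h1'.bdd g)
  · rw [Nat.cast_add, Pi.mul_apply, Pi.mul_apply, ModularForm.mul_slash_SL2, h1.eqv, h1'.eqv]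
  · rw [Pi.mul_apply, map_mul]
    exact hs_mul (h2 g) (h2' g)
  · rw [Pi.mul_apply, Pi.mul_apply, map_mul, map_mul, gal_iff.1 h3 σ hσ a ha,
      gal_iff.1 h3' σ hσ a ha]

theorem L_rt {k : ℕ} {w : FT M (AA O)} (h : w ∈ L O M k) (x : GM M) :
    rt O (AA O) x w ∈ L O M k := by
  obtain ⟨⟨F, h1, h2⟩, h3⟩ := h
  refine ⟨⟨fun g => F (g * x), ⟨fun g => h1.bdd _, fun γ g => ?_⟩, fun g => h2 _⟩,
    fun σ hσ a ha g n => ?_⟩
  · rw [mul_assoc, h1.eqv]
  · rw [rt_apply, rt_apply, mul_assoc, h3 σ hσ a ha]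

/-- constant tuples -/
theorem L_const (c : GM M → AA O) (h1 : ∀ γ g, c (rd M γ * g) = c g)
    (h2 : Gal fun g => PowerSeries.C (c g)) : (fun g => PowerSeries.C (c g)) ∈ L O M 0 := by
  refine ⟨⟨fun g _ => av O (c g), ⟨fun g => Bdd.const _, fun γ g => ?_⟩, fun g => ?_⟩, h2⟩
  · rw [h1]
    exact ModularForm.is_invariant_const γ _
  · rw [PowerSeries.map_C]
    exact hs_const _

theorem alg_eq (a : O) :
    algebraMap O (FT M (AA O)) a = fun _ => PowerSeries.C (algebraMap O (AA O) a) := by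
  funext g
  simp [PowerSeries.algebraMap_apply]

theorem L_alg (a : O) : algebraMap O (FT M (AA O)) a ∈ L O M 0 := by
  rw [alg_eq]
  exact L_const (fun _ => algebraMap O (AA O) a) (fun _ _ => rfl) (gal_iff.2 fun σ hσ _ _ g => by
    rw [PowerSeries.map_C, PowerSeries.map_C, RingHom.comp_apply, av_alg]
    exact congrArg _ (hσ a))

theorem L_one : (1 : FT M (AA O)) ∈ L O M 0 := by simpa using L_alg (M := M) (1 : O)

theorem L_nat (n : ℕ) : (n : FT M (AA O)) ∈ L O M 0 := by simpa using L_alg (M := M) (n : O)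

theorem L_pow {k : ℕ} {w : FT M (AA O)} (h : w ∈ L O M k) (n : ℕ) : w ^ n ∈ L O M (k * n) := by
  induction n with
  | zero => simpa using L_one
  | succ n ih =>
    rw [pow_succ, Nat.mul_succ]
    exact L_mul ih h

theorem map_Vo {R S : Type} [CommRing R] [CommRing S] (φ : R →+* S) (p : ℕ) (s : PowerSeries R) :
    (Vo p s).map φ = Vo p (s.map φ) := by
  ext n
  simp only [Vo, PowerSeries.coeff_map, PowerSeries.coeff_mk]
  split_ifs <;> simp

theorem map_int {R S : Type} [CommRing R] [CommRing S] (φ : R →+* S) (s : PowerSeries ℤ) :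
    (s.map (Int.castRingHom R)).map φ = s.map (Int.castRingHom S) := by
  ext n
  simp

theorem hs_top {k : ℤ} {f : ℍ → ℂ} (hf : IsMF ⊤ k f) : HS 1 (qExpansion 1 f) f := by
  have h := hs_qExp (M := 1) one_pos hf.hol (by simpa using hf.bdd 1) (hf.slash _ trivial)
  rwa [Nat.cast_one] at h

/-- forms of level one with integer coefficients -/
theorem L_ct (hM : 0 < M) {k : ℕ} {f : ℍ → ℂ} (hf : IsMF ⊤ k f) (s : PowerSeries ℤ)
    (hs : qExpansion 1 f = s.map (Int.castRingHom ℂ)) :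
    ct M (s.map (Int.castRingHom (AA O))) ∈ L O M k := by
  refine ⟨⟨fun _ => f, ⟨fun _ => ⟨hf.hol, hf.bdd⟩, fun γ _ => hf.slash γ trivial⟩, fun g => ?_⟩,
    gal_iff.2 fun σ _ _ _ g => ?_⟩
  · rw [ct, map_Vo, map_int, ← hs]
    exact hs_up hM (hs_top hf)
  · rw [ct, ct, map_Vo, map_Vo, map_int, map_int]

/-- the functions of the tuple have no zeros -/
def NV (w : FT M (AA O)) : Prop :=
  ∀ g, ∃ f : ℍ → ℂ, HS M ((w g).map (av O)) f ∧ ∀ τ, f τ ≠ 0

/-- **division** -/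
theorem L_div (hM : 0 < M) {k l : ℕ} {w u : FT M (AA O)} (h : w * u ∈ L O M (k + l))
    (h' : w ∈ L O M l) (hw : NV w) : u ∈ L O M k := by
  obtain ⟨⟨F, h1, h2⟩, h3⟩ := h
  obtain ⟨⟨F', h1', h2'⟩, h3'⟩ := h'
  have n1 : ∀ g τ, F' g τ ≠ 0 := fun g => by
    obtain ⟨f, e1, e2⟩ := hw g
    rwa [hs_fun (h2' g) e1]
  have n2 : ∀ g, (w g).map (av O) ≠ 0 := by
    intro g e
    have := h2' g
    rw [e] at this
    exact n1 g UpperHalfPlane.I ((this _).unique (by simpa using hasSum_zero))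
  have e1 : ∀ (γ : SL(2, ℤ)) g, (F (rd M γ * g) / F' (rd M γ * g)) ∣[(k : ℤ)] γ = F g / F' g := by
    intro γ g
    have a1 := h1.eqv γ g
    have a2 : F (rd M γ * g) = F (rd M γ * g) / F' (rd M γ * g) * F' (rd M γ * g) := by
      funext τ
      exact (div_mul_cancel₀ _ (n1 _ τ)).symm
    rw [a2, Nat.cast_add, ModularForm.mul_slash_SL2, h1'.eqv] at a1
    funext τ
    rw [Pi.div_apply, ← a1, Pi.mul_apply, mul_div_cancel_right₀ _ (n1 _ τ)]
  have e2 : ∀ g, F g / F' g ∈ Hol := fun g =>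
    MDifferentiable.div (h1.bdd g).1 (h1'.bdd g).1 (n1 g)
  have e3 : ∀ g, H236.Exq M 0 ((u g).map (av O)) (F g / F' g) := by
    intro g
    have l0 : ls 0 ((w g).map (av O)) ≠ 0 := (hs_exq (h2' g)).exL.ne_zero (h1'.bdd g).1
      fun e => n1 g UpperHalfPlane.I (congrFun e _)
    have := (hs_exq (h2 g)).exL.div hM.ne' (hs_exq (h2' g)).exL l0
    rw [Pi.mul_apply, map_mul, ← add_zero (0 : ℤ), ← ls_mul, add_zero,
      mul_div_cancel_left₀ _ l0] at this
    exact this.exq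
  have e4 : ∀ g, IsBoundedAtImInfty (F g / F' g) := fun g =>
    (P027M.M.B4.exq_tendsto hM.ne' (e3 g)).isBigO_one ℝ
  refine ⟨⟨fun g => F g / F' g, ⟨fun g => ⟨e2 g, fun γ => ?_⟩, e1⟩, fun g => ?_⟩,
    gal_iff.2 fun σ hσ a ha g => ?_⟩
  · have := e1 γ ((rd M γ)⁻¹ * g)
    rw [mul_inv_cancel_left] at this
    rw [this]
    exact e4 _
  · have a1 := e1 (ModularGroup.T ^ (M : ℤ)) g
    rw [rd_T, one_mul] at a1
    have a2 := hs_qExp hM (e2 g) (e4 g) a1
    rwa [(hs_exq a2).unique hM.ne' (e3 g)] at a2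
  · have a1 := gal_iff.1 h3 σ hσ a ha g
    rw [Pi.mul_apply, Pi.mul_apply, map_mul, map_mul, gal_iff.1 h3' σ hσ a ha g] at a1
    exact mul_left_cancel₀ (n2 g) a1

/-- saturation -/
theorem L_sat (hM : 0 < M) {k n : ℕ} (hn : n ≠ 0) {u : FT M (AA O)}
    (h : (n : FT M (AA O)) * u ∈ L O M k) : u ∈ L O M k := by
  refine L_div hM (l := 0) h (L_nat n) fun g => ⟨fun _ => n, ?_, fun _ => Nat.cast_ne_zero.2 hn⟩
  have := hs_const (M := M) (n : ℂ)
  rwa [map_natCast, ← map_natCast (PowerSeries.map (av O))] at this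

end Vale.Agent.P022D.V.Tr
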