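import Vale.Agent.P022D.V.Spec2
import Vale.Agent.P022D.V.TrL
import Vale.Agent.P022.H231.L3.Hk

/-!
# P022D, block V: slashing by integral matrices
-/

set_option linter.all false

open UpperHalfPlane hiding I
open Matrix Function.Periodic
open scoped MatrixGroups ModularForm

noncomputable section

namespace Vale.Agent.P022D.V

open Vale.Agent.P022.H218.L3 Vale.Agent.P027M.M
open Vale.Agent.P022.H231.L3 (gl gl_coe gl_pos gl_congr slash_SL_gl slash_gl_SL SL_pos slash_mem'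
  det_map)

/-- slashing by an integral matrix of positive determinant -/
def sl (k : ℕ) (f : ℍ → ℂ) (A : M2) : ℍ → ℂ :=
  if h : 0 < A.det then f ∣[(k : ℤ)] gl A h else 0

theorem sl_eq (k : ℕ) (f : ℍ → ℂ) {A : M2} (h : 0 < A.det) :
    sl k f A = f ∣[(k : ℤ)] gl A h := dif_pos h

theorem sl_left (k : ℕ) (f : ℍ → ℂ) (γ : SL(2, ℤ)) {A : M2} (h : 0 < A.det) :
    sl k f ((γ : M2) * A) = sl k (f ∣[(k : ℤ)] γ) A := by
  have h' : 0 < ((γ : M2) * A).det := by rw [Matrix.det_mul]; exact mul_pos (SL_pos γ) h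
  rw [sl_eq k f h', sl_eq k _ h, slash_SL_gl k f γ h h']

theorem sl_right (k : ℕ) (f : ℍ → ℂ) (γ : SL(2, ℤ)) {A : M2} (h : 0 < A.det) :
    sl k f (A * (γ : M2)) = sl k f A ∣[(k : ℤ)] γ := by
  have h' : 0 < (A * (γ : M2)).det := by rw [Matrix.det_mul]; exact mul_pos h (SL_pos γ)
  rw [sl_eq k f h', sl_eq k _ h, slash_gl_SL k f γ h h']

/-- Hermite normal form -/
theorem hnf (A : M2) (h : 0 < A.det) : ∃ (γ : SL(2, ℤ)) (B : M2), B 1 0 = 0 ∧ A = (γ : M2) * B := by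
  have hg : 0 < Int.gcd (A 0 0) (A 1 0) := by
    rw [Int.gcd_pos_iff]
    by_contra h0
    push Not at h0
    rw [Matrix.det_fin_two, h0.1, h0.2] at h
    simp at h
  obtain ⟨g, a, c, hg0, hc, ha1, hc1⟩ := Int.exists_gcd_one' hg
  obtain ⟨u, v, huv⟩ := Int.isCoprime_iff_gcd_eq_one.2 hc
  refine ⟨⟨!![a, -v; c, u], by rw [Matrix.det_fin_two_of]; linear_combination huv⟩,
    !![g, u * A 0 1 + v * A 1 1; 0, a * A 1 1 - c * A 0 1], by simp, ?_⟩
  ext i j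
  fin_cases i <;> fin_cases j <;> simp [Matrix.mul_apply, Fin.sum_univ_two]
  · exact ha1
  · linear_combination (-A 0 1) * huv
  · exact hc1
  · linear_combination (-A 1 1) * huv

theorem sl_bdd {k : ℕ} {f : ℍ → ℂ} (hf : Bdd (k : ℤ) f) {A : M2} (h : 0 < A.det) :
    Bdd (k : ℤ) (sl k f A) := by
  refine ⟨by rw [sl_eq k f h]; exact slash_mem' hf.1 _ _, fun γ => ?_⟩
  have h' : 0 < (A * (γ : M2)).det := by rw [Matrix.det_mul]; exact mul_pos h (SL_pos γ)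
  obtain ⟨δ, B, hB, e⟩ := hnf _ h'
  have hB' : 0 < B.det := by
    rw [e, Matrix.det_mul, δ.det_coe, one_mul] at h'
    exact h'
  rw [← sl_right k f γ h, e, sl_left k f δ hB', sl_eq k _ hB']
  refine IsBoundedAtImInfty.slash k ?_ (hf.2 δ)
  simp [gl_coe, hB]

theorem sl_apply (k : ℕ) (f : ℍ → ℂ) {A : M2} (h : 0 < A.det) (τ : ℍ) :
    sl k f A τ = f (gl A h • τ) * (A.det : ℂ) ^ ((k : ℤ) - 1) *
      ((A 1 0 : ℂ) * τ + A 1 1) ^ (-(k : ℤ)) := by
  have hs : ∀ z, UpperHalfPlane.σ (gl A h) z = z := by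
    intro z
    simp only [UpperHalfPlane.σ, if_pos (gl_pos A h)]
    rfl
  have hd : (gl A h).det.val = (A.det : ℝ) := det_map A
  rw [sl_eq k f h, ModularForm.slash_apply, hs, hd, abs_of_pos (by exact_mod_cast h)]
  simp [denom, gl_coe]

theorem gl_smul {A : M2} (h : 0 < A.det) (τ : ℍ) :
    ((gl A h • τ : ℍ) : ℂ) = ((A 0 0 : ℂ) * τ + A 0 1) / ((A 1 0 : ℂ) * τ + A 1 1) := by
  rw [coe_smul_of_det_pos (gl_pos A h)]
  simp [num, denom, gl_coe]

theorem detV {q : ℕ} (hq : 0 < q) : 0 < (!![(q : ℤ), 0; 0, 1] : M2).det := by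
  rw [Matrix.det_fin_two_of]; simpa using hq

theorem detU {q : ℕ} (hq : 0 < q) (x : ℤ) : 0 < (!![1, x; 0, (q : ℤ)] : M2).det := by
  rw [Matrix.det_fin_two_of]; simpa using hq

theorem hasSum_Vo {q : ℕ} (hq : 0 < q) {s : PowerSeries ℂ} {Q a : ℂ}
    (h : HasSum (fun n : ℕ => s.coeff n * (Q ^ q) ^ n) a) :
    HasSum (fun n : ℕ => (Vo q s).coeff n * Q ^ n) a := by
  have hi : Function.Injective fun n : ℕ => q * n := fun a b h => Nat.eq_of_mul_eq_mul_left hq h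
  rw [← hi.hasSum_iff]
  · refine h.congr_fun fun n => ?_
    simp [Vo, Nat.mul_div_cancel_left _ hq, pow_mul]
  · intro n hn
    have : ¬ q ∣ n := fun ⟨m, hm⟩ => hn ⟨m, hm.symm⟩
    simp [Vo, this]

theorem hasSum_Uo {q : ℕ} (hq : 0 < q) {c : ℕ → ℂ} {Q a : ℂ} (hc : ∀ n, ¬ q ∣ n → c n = 0)
    (h : HasSum (fun n : ℕ => c n * Q ^ n) a) :
    HasSum (fun n : ℕ => c (q * n) * (Q ^ q) ^ n) a := by
  have hi : Function.Injective fun n : ℕ => q * n := fun a b h => Nat.eq_of_mul_eq_mul_left hq h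
  rw [← hi.hasSum_iff] at h
  · refine h.congr_fun fun n => ?_
    simp [pow_mul]
  · intro n hn
    have : ¬ q ∣ n := fun ⟨m, hm⟩ => hn ⟨m, hm.symm⟩
    simp [hc n this]

/-- the expansion of `q f ∣ diag (q, 1)` -/
theorem hs_V {M q : ℕ} (hq : 0 < q) (k : ℕ) {s : PowerSeries ℂ} {f : ℍ → ℂ} (h : HS M s f) :
    HS M ((q ^ k : ℕ) • Vo q s) ((q : ℂ) • sl k f !![(q : ℤ), 0; 0, 1]) := by
  intro τ
  have hq' : (q : ℂ) ≠ 0 := by exact_mod_cast hq.ne'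
  have h1 := h (gl _ (detV hq) • τ)
  have e : qParam M ((gl _ (detV hq) • τ : ℍ) : ℂ) = qParam M τ ^ q := by
    rw [gl_smul, qParam, qParam, ← Complex.exp_nat_mul]
    congr 1
    simp
    ring
  rw [e] at h1
  have h2 := (hasSum_Vo hq h1).mul_left ((q : ℂ) ^ k)
  have e2 : ((q : ℂ) • sl k f !![(q : ℤ), 0; 0, 1]) τ = (q : ℂ) ^ k * f (gl _ (detV hq) • τ) := by
    rw [Pi.smul_apply, sl_apply k f (detV hq), Matrix.det_fin_two_of]
    simp [zpow_sub₀ hq']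
    field_simp
  rw [e2]
  refine h2.congr_fun fun n => ?_
  rw [map_nsmul, nsmul_eq_mul, Nat.cast_pow, mul_assoc]

/-- the expansion of `q f ∣ [1, x; 0, q]` in the finer parameter -/
theorem hs_U {M q : ℕ} (hM : 0 < M) (hq : 0 < q) (k : ℕ) (x : ℤ) {s : PowerSeries ℂ} {f : ℍ → ℂ}
    (h : HS M s f) (τ : ℍ) :
    HasSum (fun n : ℕ => s.coeff n * (ze (M * q) x * qParam (M * q : ℕ) τ) ^ n)
      (((q : ℂ) • sl k f !![1, x; 0, (q : ℤ)]) τ) := by
  have hq' : (q : ℂ) ≠ 0 := by exact_mod_cast hq.ne'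
  have hM' : (M : ℂ) ≠ 0 := by exact_mod_cast hM.ne'
  have h1 := h (gl _ (detU hq x) • τ)
  have e : qParam M ((gl _ (detU hq x) • τ : ℍ) : ℂ) = ze (M * q) x * qParam (M * q : ℕ) τ := by
    rw [gl_smul, qParam, qParam, ze, ← Complex.exp_add]
    congr 1
    simp
    field_simp
    ring
  rw [e] at h1
  have e2 : ((q : ℂ) • sl k f !![1, x; 0, (q : ℤ)]) τ = f (gl _ (detU hq x) • τ) := by
    rw [Pi.smul_apply, sl_apply k f (detU hq x), Matrix.det_fin_two_of]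
    simp [zpow_sub₀ hq']
    field_simp
  rw [e2]
  exact h1

theorem ze_qp {M q : ℕ} (hM : 0 < M) (hq : 0 < q) (x : ℕ) (τ : ℍ) :
    (ze (M * q) x * qParam (M * q : ℕ) τ) ^ q = ze M 1 ^ x * qParam M τ := by
  have hq' : (q : ℂ) ≠ 0 := by exact_mod_cast hq.ne'
  have hM' : (M : ℂ) ≠ 0 := by exact_mod_cast hM.ne'
  rw [qParam, qParam, ze, ze, ← Complex.exp_add, ← Complex.exp_nat_mul, ← Complex.exp_nat_mul,
    ← Complex.exp_add]
  congr 1
  simp
  field_simp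

/-- the same if only exponents divisible by `q` occur -/
theorem hs_U' {M q : ℕ} (hM : 0 < M) (hq : 0 < q) (k x : ℕ) {s : PowerSeries ℂ} {f : ℍ → ℂ}
    (h : HS M s f) (hs : ∀ n, ¬ q ∣ n → s.coeff n = 0) :
    HS M (PowerSeries.mk fun n => ze M 1 ^ (x * n) * s.coeff (q * n))
      ((q : ℂ) • sl k f !![1, (x : ℤ); 0, (q : ℤ)]) := by
  intro τ
  have h1 := hasSum_Uo hq hs (hs_U hM hq k x h τ)
  rw [ze_qp hM hq] at h1
  refine h1.congr_fun fun n => ?_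
  rw [PowerSeries.coeff_mk, mul_pow, pow_mul]
  ring

/-- two matrices of determinant `q` with the same kernel modulo `q` -/
theorem left_sl {q : ℕ} (hq : q.Prime) {A B : M2} (hA : A.det = q) (hB : B.det = q) {x y : ℤ}
    (hxy : ¬ ((q : ℤ) ∣ x ∧ (q : ℤ) ∣ y)) (h1 : ∀ i, (q : ℤ) ∣ A i 0 * x + A i 1 * y)
    (h2 : ∀ i, (q : ℤ) ∣ B i 0 * x + B i 1 * y) : ∃ γ : SL(2, ℤ), B = (γ : M2) * A := by
  have hp : Prime (q : ℤ) := Nat.prime_iff_prime_int.1 hq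
  have key : ∀ i j, (q : ℤ) ∣ B i 0 * A j 1 - B i 1 * A j 0 := by
    intro i j
    by_contra hn
    apply hxy
    obtain ⟨a, ha⟩ := h1 j
    obtain ⟨b, hb⟩ := h2 i
    constructor
    · refine (hp.dvd_or_dvd (a := B i 0 * A j 1 - B i 1 * A j 0) ⟨b * A j 1 - a * B i 1, ?_⟩).resolve_left hn
      linear_combination A j 1 * hb - B i 1 * ha
    · refine (hp.dvd_or_dvd (a := B i 0 * A j 1 - B i 1 * A j 0) ⟨a * B i 0 - b * A j 0, ?_⟩).resolve_left hn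
      linear_combination B i 0 * ha - A j 0 * hb
  choose c hc using key
  have hq0 : (q : ℤ) ≠ 0 := hp.ne_zero
  rw [Matrix.det_fin_two] at hA hB
  refine ⟨⟨!![c 0 1, -c 0 0; c 1 1, -c 1 0], ?_⟩, ?_⟩
  · rw [Matrix.det_fin_two_of]
    apply mul_left_cancel₀ (mul_ne_zero hq0 hq0)
    have e : (B 0 0 * A 1 1 - B 0 1 * A 1 0) * (-(B 1 0 * A 0 1 - B 1 1 * A 0 0)) -
      (-(B 0 0 * A 0 1 - B 0 1 * A 0 0)) * (B 1 0 * A 1 1 - B 1 1 * A 1 0) =
      (A 0 0 * A 1 1 - A 0 1 * A 1 0) * (B 0 0 * B 1 1 - B 0 1 * B 1 0) := by ring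
    rw [hA, hB, hc, hc, hc, hc] at e
    linear_combination e
  · ext i j
    fin_cases i <;> fin_cases j <;> simp [Matrix.mul_apply, Fin.sum_univ_two] <;>
      apply mul_left_cancel₀ hq0
    · linear_combination (-B 0 0) * hA + A 0 0 * hc 0 1 - A 1 0 * hc 0 0
    · linear_combination (-B 0 1) * hA + A 0 1 * hc 0 1 - A 1 1 * hc 0 0
    · linear_combination (-B 1 0) * hA + A 0 0 * hc 1 1 - A 1 0 * hc 1 0
    · linear_combination (-B 1 1) * hA + A 0 1 * hc 1 1 - A 1 1 * hc 1 0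

end Vale.Agent.P022D.V
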