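import Vale.Agent.P022D.V.Spec
import Vale.Agent.P022D.V.TrR

/-!
# P022D, block V: integral matrices acting on tuples, expansions of translates
-/

set_option autoImplicit false
set_option linter.all false

open UpperHalfPlane hiding I
open Matrix Filter Topology Function.Periodic
open scoped MatrixGroups Manifold ModularForm

noncomputable section

namespace Vale.Agent.P022D.V.Hk

open Vale.Agent.P022 Vale.Agent.P022.H218.L3 Vale.Agent.P027M.M Vale.Agent.P022D.V.Tr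

variable {O : Type} [CommRing O] [Co O] {M : ℕ}

open Classical in
/-- an integral matrix as a real invertible matrix -/
def gR (α : M2) : GL (Fin 2) ℝ :=
  if h : (α.map (Int.cast : ℤ → ℝ)).det ≠ 0 then GeneralLinearGroup.mkOfDetNeZero _ h else 1

theorem det_map (α : M2) (R : Type) [CommRing R] :
    (α.map (Int.cast : ℤ → R)).det = (α.det : R) := by
  simp [Matrix.det_fin_two]

theorem map_mul' (α β : M2) (R : Type) [CommRing R] : (α * β).map (Int.cast : ℤ → R) =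
    α.map (Int.cast : ℤ → R) * β.map (Int.cast : ℤ → R) :=
  Matrix.map_mul (f := Int.castRingHom R)

theorem gR_coe {α : M2} (h : α.det ≠ 0) :
    (gR α : Matrix (Fin 2) (Fin 2) ℝ) = α.map (Int.cast : ℤ → ℝ) := by
  rw [gR, dif_pos (by rw [det_map]; exact_mod_cast h)]
  rfl

theorem gR_mul {α β : M2} (h : α.det ≠ 0) (h' : β.det ≠ 0) : gR (α * β) = gR α * gR β := by
  apply Units.ext
  rw [Units.val_mul, gR_coe h, gR_coe h', gR_coe (by rw [Matrix.det_mul]; exact mul_ne_zero h h'),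
    map_mul']

theorem gR_SL (γ : SL(2, ℤ)) : gR (γ : M2) = (γ : GL (Fin 2) ℝ) := by
  apply Units.ext
  rw [gR_coe (by simp)]
  ext i j
  simp

theorem gR_det {α : M2} (h : α.det ≠ 0) : (gR α).det.val = (α.det : ℝ) := by
  rw [GeneralLinearGroup.val_det_apply, gR_coe h, det_map]

theorem sl_left {k : ℤ} (f : ℍ → ℂ) (γ : SL(2, ℤ)) {α : M2} (h : α.det ≠ 0) :
    f ∣[k] gR ((γ : M2) * α) = (f ∣[k] γ) ∣[k] gR α := by
  rw [gR_mul (by simp) h, gR_SL, SlashAction.slash_mul]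
  rfl

theorem sl_right {k : ℤ} (f : ℍ → ℂ) (γ : SL(2, ℤ)) {α : M2} (h : α.det ≠ 0) :
    (f ∣[k] gR α) ∣[k] γ = f ∣[k] gR (α * (γ : M2)) := by
  rw [gR_mul h (by simp), gR_SL, SlashAction.slash_mul]
  rfl

theorem sl_hol {f : ℍ → ℂ} (hf : f ∈ Hol) (k : ℤ) (α : M2) : f ∣[k] gR α ∈ Hol :=
  MDifferentiable.slash hf k _

/-- upper triangular matrices -/
theorem sl_tri (k : ℤ) (f : ℍ → ℂ) {a d : ℕ} (ha : a ≠ 0) (hd : d ≠ 0) (b : ℤ) (τ : ℍ) :
    ∃ τ' : ℍ, (τ' : ℂ) = (a * τ + b) / d ∧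
      (f ∣[k] gR !![(a : ℤ), b; 0, (d : ℤ)]) τ = (a : ℂ) ^ (k - 1) * (d : ℂ)⁻¹ * f τ' := by
  have e : (!![(a : ℤ), b; 0, (d : ℤ)] : M2).det = a * d := by simp [Matrix.det_fin_two]
  have h0 : (!![(a : ℤ), b; 0, (d : ℤ)] : M2).det ≠ 0 := by
    rw [e]; exact_mod_cast mul_ne_zero ha hd
  have h1 := gR_det h0
  rw [e] at h1
  have hp : 0 < (gR !![(a : ℤ), b; 0, (d : ℤ)]).det.val := by
    rw [h1]; exact_mod_cast Nat.pos_of_ne_zero (mul_ne_zero ha hd)
  have h2 : denom (gR !![(a : ℤ), b; 0, (d : ℤ)]) τ = d := by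
    rw [denom, gR_coe h0]; simp
  have hd' : (d : ℂ) ≠ 0 := by exact_mod_cast hd
  refine ⟨gR !![(a : ℤ), b; 0, (d : ℤ)] • τ, ?_, ?_⟩
  · rw [coe_smul_of_det_pos hp, h2, num, gR_coe h0]; simp
  · rw [ModularForm.slash_apply, σ, if_pos hp, h2, abs_of_pos hp, h1]
    push_cast
    rw [mul_zpow, zpow_sub_one₀ hd', _root_.zpow_neg]
    have : (d : ℂ) ^ k ≠ 0 := zpow_ne_zero _ hd'
    simp only [ContinuousAlgEquiv.refl_apply]
    field_simp

theorem hs_sub {p : ℕ} (hp : p ≠ 0) {a : ℕ → ℂ} {E v : ℂ} (h : HasSum (fun n => a n * E ^ n) v)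
    (ha : ∀ n, ¬ p ∣ n → a n = 0) : HasSum (fun m => a (p * m) * (E ^ p) ^ m) v := by
  have hinj : Function.Injective fun m : ℕ => p * m :=
    fun a b h => Nat.eq_of_mul_eq_mul_left (Nat.pos_of_ne_zero hp) h
  refine ((hinj.hasSum_iff ?_).2 h).congr_fun fun m => ?_
  · intro n hn
    rw [ha n, zero_mul]
    rintro ⟨m, rfl⟩
    exact hn ⟨m, rfl⟩
  · rw [Function.comp_apply, ← pow_mul]

theorem hs_sup {p : ℕ} (hp : p ≠ 0) {s : PowerSeries ℂ} {E v : ℂ}
    (h : HasSum (fun n => s.coeff n * (E ^ p) ^ n) v) :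
    HasSum (fun n => (Vo p s).coeff n * E ^ n) v := by
  have hinj : Function.Injective fun m : ℕ => p * m :=
    fun a b h => Nat.eq_of_mul_eq_mul_left (Nat.pos_of_ne_zero hp) h
  refine (hinj.hasSum_iff ?_).1 (h.congr_fun fun m => ?_)
  · intro k hk
    rw [Vo, PowerSeries.coeff_mk, if_neg, zero_mul]
    rintro ⟨m, rfl⟩
    exact hk ⟨m, rfl⟩
  · rw [Function.comp_apply, Vo, PowerSeries.coeff_mk, if_pos ⟨m, rfl⟩,
      Nat.mul_div_cancel_left _ (Nat.pos_of_ne_zero hp), ← pow_mul]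

theorem hs_smul {s : PowerSeries ℂ} {f : ℍ → ℂ} (h : HS M s f) (c : ℂ) : HS M (c • s) (c • f) :=
  fun τ => ((h τ).mul_left c).congr_fun fun n => by
    rw [PowerSeries.coeff_smul, smul_eq_mul, mul_assoc]

theorem hs_add {s t : PowerSeries ℂ} {f g : ℍ → ℂ} (h : HS M s f) (h' : HS M t g) :
    HS M (s + t) (f + g) := fun τ => ((h τ).add (h' τ)).congr_fun fun n => by
  rw [map_add, add_mul]

/-- the expansion of `f(p τ)` -/
theorem hs_V (k : ℤ) {p : ℕ} (hp : p ≠ 0) {s : PowerSeries ℂ} {f : ℍ → ℂ} (h : HS M s f) :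
    HS M ((p : ℂ) ^ (k - 1) • Vo p s) (f ∣[k] gR !![(p : ℤ), 0; 0, 1]) := by
  intro τ
  obtain ⟨τ', h1, h2⟩ := sl_tri k f hp one_ne_zero 0 τ
  rw [Nat.cast_one] at h2
  have e : qParam M τ' = qParam M τ ^ p := by
    rw [qParam, qParam, ← Complex.exp_nat_mul, h1]
    congr 1
    push_cast
    ring
  have h3 := h τ'
  rw [e] at h3
  rw [h2, Nat.cast_one, inv_one, mul_one]
  exact ((hs_sup hp h3).mul_left _).congr_fun fun n => by
    rw [PowerSeries.coeff_smul, smul_eq_mul, mul_assoc]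

/-- the expansion of `f((τ + x) / p)` -/
theorem sum_U (k : ℤ) {p : ℕ} (hp : p ≠ 0) (hM : 0 < M) {s : PowerSeries ℂ} {f : ℍ → ℂ}
    (h : HS M s f) (x : ℕ) (τ : ℍ) :
    HasSum (fun n => (p : ℂ)⁻¹ * s.coeff n * ze (M * p) 1 ^ (x * n) * qParam (M * p : ℕ) τ ^ n)
      ((f ∣[k] gR !![1, (x : ℤ); 0, (p : ℤ)]) τ) := by
  obtain ⟨τ', h1, h2⟩ := sl_tri k f one_ne_zero hp x τ
  rw [Nat.cast_one] at h2
  have hp' : (p : ℂ) ≠ 0 := by exact_mod_cast hp
  have hM' : (M : ℂ) ≠ 0 := by exact_mod_cast hM.ne'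
  have e : qParam M τ' = ze (M * p) 1 ^ x * qParam (M * p : ℕ) τ := by
    rw [qParam, qParam, ze, ← Complex.exp_nat_mul, ← Complex.exp_add, h1]
    congr 1
    push_cast
    field_simp
    ring
  have h3 := h τ'
  rw [e] at h3
  rw [h2, Nat.cast_one, _root_.one_zpow, one_mul]
  exact (h3.mul_left _).congr_fun fun n => by rw [mul_pow, pow_mul]; ring

theorem q_pow {p : ℕ} (hp : p ≠ 0) (hM : 0 < M) (τ : ℂ) :
    qParam (M * p : ℕ) τ ^ p = qParam M τ := by
  have hp' : (p : ℂ) ≠ 0 := by exact_mod_cast hp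
  have hM' : (M : ℂ) ≠ 0 := by exact_mod_cast hM.ne'
  rw [qParam, qParam, ← Complex.exp_nat_mul]
  congr 1
  push_cast
  field_simp

theorem ze_pow {p : ℕ} (hp : p ≠ 0) (hM : 0 < M) : ze (M * p) 1 ^ p = ze M 1 := by
  have hp' : (p : ℂ) ≠ 0 := by exact_mod_cast hp
  have hM' : (M : ℂ) ≠ 0 := by exact_mod_cast hM.ne'
  rw [ze, ze, ← Complex.exp_nat_mul]
  congr 1
  push_cast
  field_simp

/-- an equivariant tuple of holomorphic functions with expansions is a tuple of forms -/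
theorem mk_tp (hM : 0 < M) {k : ℕ} {G : GM M → ℍ → ℂ} (h1 : ∀ g, G g ∈ Hol)
    (h2 : ∀ (γ : SL(2, ℤ)) (g : GM M), G (rd M γ * g) ∣[(k : ℤ)] γ = G g)
    (h3 : ∀ g, ∃ s, HS M s (G g)) : IsTp M k G := by
  refine ⟨fun g => ⟨h1 g, fun γ => ?_⟩, h2⟩
  have := h2 γ ((rd M γ)⁻¹ * g)
  rw [mul_inv_cancel_left] at this
  rw [this]
  obtain ⟨s, hs⟩ := h3 ((rd M γ)⁻¹ * g)
  exact hs_bdd hM hs

theorem un_mul (x y : ZMod M) : un x * un y = un (x + y) := by
  apply Units.ext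
  rw [Units.val_mul, un_coe, un_coe, un_coe]
  ext i j; fin_cases i <;> fin_cases j <;> simp [Matrix.mul_apply, Fin.sum_univ_two, add_comm]

theorem un_zero : un (0 : ZMod M) = 1 := by
  apply Units.ext
  rw [un_coe]
  ext i j; fin_cases i <;> fin_cases j <;> simp

theorem rd_T1 : rd M ModularGroup.T = un 1 := by
  apply Units.ext
  ext i j
  rw [rd_apply, ModularGroup.coe_T, un_coe]
  fin_cases i <;> fin_cases j <;> simp

/-- the translation law -/
theorem tc_one (hM : 0 < M) {k : ℕ} {w : FT M (AA O)} (h : w ∈ L O M k) (g : GM M) (n : ℕ) :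
    ze M 1 ^ n * av O ((w (un 1 * g)).coeff n) = av O ((w g).coeff n) := by
  obtain ⟨⟨F, h1, h2⟩, -⟩ := h
  have e := h1.eqv ModularGroup.T g
  rw [rd_T1, ModularForm.SL_slash, ← gR_SL] at e
  have e2 : ((ModularGroup.T : SL(2, ℤ)) : M2) = !![1, ((1 : ℕ) : ℤ); 0, ((1 : ℕ) : ℤ)] :=
    ModularGroup.coe_T
  have h3 : HS M (PowerSeries.mk fun n => ze M 1 ^ n * av O ((w (un 1 * g)).coeff n)) (F g) := by
    intro τ
    have := sum_U k one_ne_zero hM (h2 (un 1 * g)) 1 τ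
    rw [← e2, e, mul_one] at this
    exact this.congr_fun fun n => by simp [mul_comm]
  have h4 := congrArg (PowerSeries.coeff n) (hs_unique hM h3 (h2 g))
  rwa [PowerSeries.coeff_mk, PowerSeries.coeff_map] at h4

theorem tc_nat (hM : 0 < M) {k : ℕ} {w : FT M (AA O)} (h : w ∈ L O M k) (x : ℕ) (g : GM M)
    (n : ℕ) : ze M 1 ^ (x * n) * av O ((w (un x * g)).coeff n) = av O ((w g).coeff n) := by
  induction x with
  | zero => simp [un_zero]
  | succ x ih =>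
    rw [← ih, ← tc_one hM h (un (x : ZMod M) * g) n, ← mul_assoc (un 1), un_mul, Nat.cast_succ, add_comm 1,
      Nat.succ_mul, pow_add, mul_assoc]

/-- invariance under a translation gives gaps in the expansion -/
theorem gap (hM : 0 < M) {k : ℕ} {w : FT M (AA O)} (h : w ∈ L O M k) {x : ℕ} {g : GM M}
    (hx : w (un x * g) = w g) {n : ℕ} (hn : ¬ M ∣ x * n) : (w g).coeff n = 0 := by
  have h1 := tc_nat hM h x g n
  rw [hx] at h1
  apply av_inj
  rw [map_zero]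
  by_contra h0
  exact hn (((ze_prim hM).pow_eq_one_iff_dvd _).1 (mul_right_cancel₀ h0 (h1.trans (one_mul _).symm)))

theorem av_zA (hM : 0 < M) : av O (V.zA O M) = ze M 1 := by
  have : NeZero M := ⟨hM.ne'⟩
  rw [V.zA, dif_pos ze_memA, av_amk]

/-- **strong approximation** -/
theorem rd_surj [NeZero M] (g : GM M) (hg : GeneralLinearGroup.det g = 1) : ∃ γ, rd M γ = g := by
  have hd : (g : Matrix (Fin 2) (Fin 2) (ZMod M)).det = 1 := by
    rw [← GeneralLinearGroup.val_det_apply, hg, Units.val_one]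
  rw [Matrix.det_fin_two] at hd
  obtain ⟨c, hc0, hc⟩ : ∃ c : ℕ, c ≠ 0 ∧ (c : ZMod M) = g 1 0 :=
    ⟨(g 1 0).val + M, by have := NeZero.ne M; omega, by simp⟩
  have : NeZero c := ⟨hc0⟩
  have hu : IsUnit (ZMod.castHom (Nat.gcd_dvd_right c M) (ZMod (c.gcd M)) (g 1 1)) := by
    have h1 := congrArg (ZMod.castHom (Nat.gcd_dvd_right c M) (ZMod (c.gcd M))) hd
    rw [← hc, map_sub, map_mul, map_mul, map_natCast, map_one,
      (ZMod.natCast_eq_zero_iff _ _).2 (Nat.gcd_dvd_left c M), mul_zero, sub_zero] at h1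
    exact IsUnit.of_mul_eq_one_right _ h1
  obtain ⟨u, hu'⟩ := ZMod.unitsMap_surjective (Nat.gcd_dvd_left c M) hu.unit
  have h2 : ((c.gcd M : ℕ) : ℤ) ∣ ((u : ZMod c).val : ℤ) - ((g 1 1).val : ℤ) := by
    rw [← ZMod.intCast_zmod_eq_zero_iff_dvd]
    have h3 := congrArg Units.val hu'
    rw [ZMod.unitsMap_val, IsUnit.unit_spec, ZMod.castHom_apply] at h3
    push_cast
    rw [ZMod.natCast_val, ZMod.natCast_val, h3, sub_self]
  obtain ⟨s, hs⟩ := h2
  rw [Nat.gcd_eq_gcd_ab] at hs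
  obtain ⟨x, y, hxy⟩ := Nat.isCoprime_iff_coprime.2 (ZMod.val_coe_unit_coprime u)
  set d : ℤ := ((g 1 1).val : ℤ) + M * (Nat.gcdB c M * s) with hdd
  have hd' : (d : ZMod M) = g 1 1 := by simp [hdd]
  have h4 : x * d - (-(y + x * (Nat.gcdA c M * s))) * c = 1 := by
    rw [hdd]; linear_combination hxy - x * hs
  generalize -(y + x * (Nat.gcdA c M * s)) = b at h4
  have h5 : (x : ZMod M) * g 1 1 - b * g 1 0 = 1 := by
    have := congrArg (Int.cast : ℤ → ZMod M) h4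
    push_cast at this
    rwa [hd', hc] at this
  obtain ⟨t, ht⟩ := ZMod.intCast_surjective (g 0 1 * (x : ZMod M) - g 0 0 * (b : ZMod M))
  refine ⟨⟨!![x + t * c, b + t * d; c, d], by
    rw [Matrix.det_fin_two_of]; linear_combination h4⟩, Units.ext ?_⟩
  ext i j
  refine (rd_apply _ _ _ _).trans ?_
  fin_cases i <;> fin_cases j <;> simp [ht, hc, hd']
  · linear_combination (-(x : ZMod M)) * hd + g 0 0 * h5
  · linear_combination (-(b : ZMod M)) * hd + g 0 1 * h5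

theorem exists_rd [NeZero M] (g : GM M) :
    ∃ γ, g = rd M γ * dg 1 (GeneralLinearGroup.det g) := by
  obtain ⟨γ, h⟩ := rd_surj (g * (dg 1 (GeneralLinearGroup.det g))⁻¹) (by
    rw [map_mul, map_inv, det_dg, one_mul, mul_inv_cancel])
  exact ⟨γ, by rw [h, inv_mul_cancel_right]⟩

end Vale.Agent.P022D.V.Hk
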