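import Vale.Agent.P022D.V.Wf1
import Vale.Agent.P022D.V.Corr
import Vale.Agent.P022D.V.Hk0

/-!
# P022D, block V: `W` preserves the lattices
-/

set_option linter.all false

open UpperHalfPlane hiding I
open Matrix Function.Periodic
open scoped MatrixGroups ModularForm

noncomputable section

namespace Vale.Agent.P022D.V

open Vale.Agent.P022.H218.L3 Vale.Agent.P027M.M

variable {M M₀ q k : ℕ}

theorem cst_mul (α β : M2) : cst M (α * β) = cst M α * cst M β :=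
  Matrix.map_mul (f := Int.castRingHom (ZMod M))

theorem rd_val (γ : SL(2, ℤ)) : (rd M γ).val = cst M (γ : M2) := by
  ext i j; rfl

theorem rd_det (γ : SL(2, ℤ)) : (rd M γ).val.det = 1 := by
  rw [rd_val, cst, Hk.det_map, γ.det_coe, Int.cast_one]

theorem phi_eq (h : Sp M M₀ q) {F : GM M → ℍ → ℂ} (hF : IsTp M k F)
    (hU : ∀ u ∈ Uq M M₀, ∀ g, F (g * u) = F g) {α β : M2} (hα : α.det = q) (hβ : β.det = q)
    {g g1 g2 : GM M} (h1 : Rel M M₀ q α g g1) (h2 : Rel M M₀ q β g g2) :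
    sl k (F g2) β = sl k (F g1) α := by
  obtain ⟨x, hx⟩ := ZMod.intCast_surjective (g.val 0 0)
  obtain ⟨y, hy⟩ := ZMod.intCast_surjective (g.val 1 0)
  have key : ∀ {δ : M2} {g' : GM M}, Rel M M₀ q δ g g' → ∀ i, (q : ℤ) ∣ δ i 0 * x + δ i 1 * y := by
    intro δ g' e i
    rw [← h.int_dvd]
    have := e.c1 i
    rw [Matrix.mul_apply, Fin.sum_univ_two] at this
    push_cast
    rw [hx, hy]
    exact this
  have hxy : ¬ ((q : ℤ) ∣ x ∧ (q : ℤ) ∣ y) := by
    rintro ⟨a, b⟩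
    rw [← h.int_dvd, hx] at a
    rw [← h.int_dvd, hy] at b
    obtain ⟨t, ht⟩ := det_inv g
    exact h.ne (by linear_combination (-(M₀ : ZMod M)) * ht + (g.val 1 1 * t) * a -
      (g.val 0 1 * t) * b)
  obtain ⟨γ, rfl⟩ := left_sl h.prime hα hβ hxy (key h1) (key h2)
  have h3 : Rel M M₀ q ((γ : M2) * α) (1 * g) (rd M γ * g1) :=
    h1.left _ _ (by rw [Units.val_one, mul_one, cst_mul, rd_val])
      (by rw [rd_det, Units.val_one, Matrix.det_one])
  rw [one_mul] at h3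
  obtain ⟨u, hu, rfl⟩ := h3.uniq h h2
  rw [hU u hu, sl_left k _ γ (by rw [hα]; exact_mod_cast h.qpos), hF.eqv]

open Classical in
/-- the tuple `q W F` -/
def WT (M M₀ q k : ℕ) (F : GM M → ℍ → ℂ) (g : GM M) : ℍ → ℂ :=
  if Sm M M₀ g then (q : ℂ) • sl k (F (wA M M₀ q g)) !![(q : ℤ), 0; 0, 1]
  else (q : ℂ) • sl k (F (wB M M₀ q g).2) !![1, ((wB M M₀ q g).1 : ℤ); 0, (q : ℤ)]

theorem detA (q : ℕ) : (!![(q : ℤ), 0; 0, 1] : M2).det = q := by
  rw [Matrix.det_fin_two_of]; ring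

theorem detB (q : ℕ) (x : ℤ) : (!![1, x; 0, (q : ℤ)] : M2).det = q := by
  rw [Matrix.det_fin_two_of]; ring

theorem ex_rel (h : Sp M M₀ q) (g : GM M) : ∃ (α : M2) (g' : GM M), α.det = q ∧
    Rel M M₀ q α g g' := by
  by_cases hg : Sm M M₀ g
  · exact ⟨_, _, detA q, wA_rel h hg⟩
  · exact ⟨_, _, detB q _, (wB_rel h hg).2⟩

theorem WT_val (h : Sp M M₀ q) {F : GM M → ℍ → ℂ} (hF : IsTp M k F)
    (hU : ∀ u ∈ Uq M M₀, ∀ g, F (g * u) = F g) {α : M2} (hα : α.det = q) {g g' : GM M}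
    (h1 : Rel M M₀ q α g g') : WT M M₀ q k F g = (q : ℂ) • sl k (F g') α := by
  by_cases hg : Sm M M₀ g
  · rw [WT, if_pos hg, phi_eq h hF hU hα (detA q) h1 (wA_rel h hg)]
  · rw [WT, if_neg hg, phi_eq h hF hU hα (detB q _) h1 (wB_rel h hg).2]

theorem WT_tp (h : Sp M M₀ q) {F : GM M → ℍ → ℂ} (hF : IsTp M k F)
    (hU : ∀ u ∈ Uq M M₀, ∀ g, F (g * u) = F g) : IsTp M k (WT M M₀ q k F) := by
  refine ⟨fun g => ?_, fun γ g => ?_⟩
  · obtain ⟨α, g', hα, h1⟩ := ex_rel h g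
    rw [WT_val h hF hU hα h1]
    have := (Bdd.const (q : ℂ)).mul (sl_bdd (hF.bdd g') (A := α)
      (by rw [hα]; exact_mod_cast h.qpos))
    rwa [zero_add] at this
  · obtain ⟨α, g', hα, h1⟩ := ex_rel h (rd M γ * g)
    have h2 : Rel M M₀ q (α * (γ : M2)) g g' := by
      rw [rel_iff] at h1 ⊢
      rwa [Units.val_mul, Matrix.det_mul, rd_det, one_mul, rd_val, ← Matrix.mul_assoc,
        ← cst_mul] at h1
    rw [WT_val h hF hU hα h1, WT_val h hF hU (by rw [Matrix.det_mul, hα, γ.det_coe, mul_one]) h2,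
      ModularForm.SL_smul_slash, sl_right k _ γ (by rw [hα]; exact_mod_cast h.qpos)]

variable (O : Type) [CommRing O] [Co O]

theorem wl : WL O := by
  rintro M M₀ q k h w ⟨hw, hu⟩
  have hM := h.Mpos
  haveI : NeZero M := ⟨hM.ne'⟩
  have hz0 : av O (zA O M) = ze M 1 := Hk.av_zA hM
  have hzM : ze M 1 ^ M = 1 := by
    rw [ze, ← Complex.exp_nat_mul, Int.cast_one, mul_one,
      mul_div_cancel₀ _ (by exact_mod_cast hM.ne'), Complex.exp_two_pi_mul_I]
  have hz : zA O M ^ M = 1 := av_inj (by rw [map_pow, hz0, hzM, map_one])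
  have vA : ∀ {g g'}, Rel M M₀ q !![(q : ℤ), 0; 0, 1] g g' →
      W1 O _ M M₀ q (zA O M) k w g = (q ^ k : ℕ) • Vo q (w g') := by
    intro g g' h1
    rw [W1, LinearMap.add_apply, LinearMap.smul_apply, Pi.add_apply, Pi.smul_apply, Wa_val h hu h1,
      Wb_small _ _ (relA_big h h1).1, add_zero]
  have vB : ∀ {x : ℕ} {g g'}, (q : ZMod M) * x = 0 → Rel M M₀ q !![1, (x : ℤ); 0, (q : ℤ)] g g' →
      W1 O _ M M₀ q (zA O M) k w g =
        PowerSeries.mk fun n => zA O M ^ (x * n) * (w g').coeff (q * n) := by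
    intro x g g' hx h1
    rw [W1, LinearMap.add_apply, LinearMap.smul_apply, Pi.add_apply, Pi.smul_apply,
      Wb_val h hz hu hx h1, Wa_big _ (relB_small h h1).1, smul_zero, zero_add]
  obtain ⟨⟨F, hF, hE⟩, hG⟩ := id hw
  have hU : ∀ u ∈ Uq M M₀, ∀ g, F (g * u) = F g := fun u hu' g =>
    Tr.hs_fun (hE (g * u)) (by rw [iv_val hu hu']; exact hE g)
  refine ⟨⟨WT M M₀ q k F, WT_tp h hF hU, fun g => ?_⟩, fun σ hσ a ha g n => ?_⟩ <;>
    by_cases hg : Sm M M₀ g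
  · obtain ⟨g', h1⟩ := exA h hg
    rw [vA h1, WT_val h hF hU (detA q) h1, map_nsmul, Tr.map_Vo]
    exact hs_V h.qpos k (hE g')
  · obtain ⟨x, g', hx, h1⟩ := exB' h hg
    rw [vB hx h1, WT_val h hF hU (detB q _) h1]
    have h2 := hs_U' hM h.qpos k x (hE g') fun n hn => by
      obtain ⟨y, hy⟩ := norm_Uq (relB_small h h1).2 1
      rw [mul_one] at hy
      rw [PowerSeries.coeff_map, Hk.gap hM hw (x := M₀) (g := g')
        (by rw [hy]; exact iv_val hu ⟨y, rfl⟩ _) ?_, map_zero]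
      intro e
      rw [h.eq] at e
      exact hn (Nat.dvd_of_mul_dvd_mul_left h.M0pos e)
    have e : PowerSeries.map (av O) (PowerSeries.mk fun n => zA O M ^ (x * n) *
        (w g').coeff (q * n)) = PowerSeries.mk fun n => ze M 1 ^ (x * n) *
          (PowerSeries.map (av O) (w g')).coeff (q * n) := by
      ext n
      rw [PowerSeries.coeff_map, PowerSeries.coeff_mk, PowerSeries.coeff_mk, PowerSeries.coeff_map,
        map_mul, map_pow, hz0]
    rw [e]
    exact h2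
  · obtain ⟨g', h1⟩ := exA h hg
    rw [vA h1, vA (relA_dg h1 1 a), map_nsmul, map_nsmul, map_nsmul, map_nsmul, map_nsmul]
    congr 1
    simp only [Vo, PowerSeries.coeff_mk]
    split_ifs
    · exact hG σ hσ a ha _ _
    · rw [map_zero, map_zero]
  · obtain ⟨x, g', hx, h1⟩ := exB' h hg
    obtain ⟨x', hx'⟩ := ZMod.natCast_zmod_surjective ((x : ZMod M) * ((a⁻¹ : (ZMod M)ˣ) : ZMod M))
    have e : (x' : ZMod M) * a = (1 : (ZMod M)ˣ) * x := by
      rw [hx', mul_assoc, Units.inv_mul, Units.val_one, mul_one, one_mul]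
    rw [vB hx h1, vB (by rw [hx', ← mul_assoc, hx, zero_mul]) (relB_dg h1 1 a e),
      PowerSeries.coeff_mk, PowerSeries.coeff_mk, map_mul, map_mul, map_mul, hG σ hσ a ha, map_pow,
      map_pow, map_pow, hz0, ha, ← pow_mul,
      pow_cg hzM (x := (a : ZMod M).val * (x' * n)) (y := x * n)]
    push_cast
    rw [ZMod.natCast_zmod_val, ← mul_assoc, mul_comm (a : ZMod M), e, Units.val_one, one_mul]

end Vale.Agent.P022D.V
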