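import Vale.Agent.P022D.V.Emb
import Vale.Agent.P022D.V.Root
import Vale.Agent.P022D.V.Unr
import Vale.Agent.P022D.V.Sturm
import Vale.Agent.P022D.V.Nrm
import Vale.Agent.P022D.V.Hk1
import Vale.Agent.P022D.V.Ser
import Vale.Agent.P022D.V.Div
import Vale.Agent.P022D.V.IrrV
import Vale.Agent.P022D.V.Grp
import Vale.Agent.P022D.V.Tn
import Vale.Agent.P022D.V.Wf2
import Vale.Agent.P022D.V.Wl
import Vale.Agent.P022D.V.Ih
import Vale.Agent.P022D.V.Cyc
import Vale.Agent.P022D.V.Rat
import Vale.Agent.P022D.V.Gen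
import Vale.Agent.P022D.V.Form

/-!
# P022D, block V: closed statements
-/

set_option linter.all false

namespace Vale.Agent.P022D.V.All

theorem wf2 : WF2 := V.wf2 grp tn wf1

variable (O : Type) [CommRing O] [Co O]

theorem ser : SER O := V.ser O (hk O) (vs1 O) (vs2 O) (vs3 O)

theorem hkv : HKV O := V.hkv O (hk O) (vs1 O) (vs2 O) (vs3 O) (ser O)

theorem div : DIV O := V.div O (vs1 O) (vs2 O) (vs3 O) (flat O) (ser O) (par O)

theorem irr : IRR O := V.irr O (vs1 O)

theorem nrm : NRM O := V.nrm O (ser O)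

theorem wv : WV O := V.wv O (wl O) (lift O) (div O) wf1 (root O)

theorem ih0 : IH0 O := V.ih0 O (hk O) (sturm O)

theorem cyc : CYC O := V.cyc O (irr O) (div O) (wv O) (vs3 O) (root O) wf1 wf2 grp tn

theorem rat : RAT O := V.rat O (unr O) (root O) (div O) (vs1 O)

end Vale.Agent.P022D.V.All
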