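import Vale.Agent.P022D.V.Spec2

/-!
# P022D, block V: the relation which defines `W`
-/

set_option linter.all false

open Matrix
open scoped MatrixGroups

noncomputable section

namespace Vale.Agent.P022D.V

variable {M M₀ q : ℕ}

theorem Sp.Mpos (h : Sp M M₀ q) : 0 < M := h.odd.pos

theorem Sp.qpos (h : Sp M M₀ q) : 0 < q := h.prime.pos

theorem Sp.M0pos (h : Sp M M₀ q) : 0 < M₀ := Nat.pos_of_dvd_of_pos h.dvd h.Mpos

theorem Sp.div (h : Sp M M₀ q) : M / M₀ = q := by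
  rw [h.eq, Nat.mul_div_cancel_left _ h.M0pos]

theorem Sp.qodd (h : Sp M M₀ q) : Odd q := Odd.of_dvd_nat h.odd ⟨M₀, by rw [h.eq, mul_comm]⟩

theorem Sp.zero (h : Sp M M₀ q) : (M₀ : ZMod M) * (q : ZMod M) = 0 := by
  rw [← Nat.cast_mul, ← h.eq, ZMod.natCast_self]

theorem Sp.bez (h : Sp M M₀ q) : ∃ a b : ZMod M, (M₀ : ZMod M) * a + (q : ZMod M) * b = 1 := by
  obtain ⟨a, b, e⟩ := Nat.isCoprime_iff_coprime.2 h.cop
  refine ⟨a, b, ?_⟩
  have := congrArg (Int.cast : ℤ → ZMod M) e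
  push_cast at this
  linear_combination this

theorem Sp.ext (h : Sp M M₀ q) {x y : ZMod M} (h1 : (M₀ : ZMod M) * x = M₀ * y)
    (h2 : (q : ZMod M) * x = q * y) : x = y := by
  obtain ⟨a, b, e⟩ := h.bez
  linear_combination a * h1 + b * h2 - (x - y) * e

theorem Sp.int_dvd (h : Sp M M₀ q) (x : ℤ) : (M₀ : ZMod M) * (x : ZMod M) = 0 ↔ (q : ℤ) ∣ x := by
  have e : (M₀ : ZMod M) * (x : ZMod M) = (((M₀ : ℤ) * x : ℤ) : ZMod M) := by push_cast; rfl
  rw [e, ZMod.intCast_zmod_eq_zero_iff_dvd]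
  have : (M : ℤ) = M₀ * q := by exact_mod_cast h.eq
  rw [this]
  exact Int.mul_dvd_mul_iff_left (by exact_mod_cast h.M0pos.ne')

theorem Sp.ne (h : Sp M M₀ q) : (M₀ : ZMod M) ≠ 0 := by
  intro h0
  have := (h.int_dvd 1).1 (by rw [h0, zero_mul])
  exact h.prime.one_lt.ne' (by exact_mod_cast Int.eq_one_of_dvd_one (by positivity) this)

theorem Sp.inv (h : Sp M M₀ q) {x : ZMod M} (hx : (M₀ : ZMod M) * x ≠ 0) :
    ∃ y : ZMod M, (M₀ : ZMod M) * (x * y) = M₀ := by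
  obtain ⟨n, rfl⟩ := ZMod.intCast_surjective x
  rw [Ne, h.int_dvd] at hx
  have hp : Prime (q : ℤ) := Nat.prime_iff_prime_int.1 h.prime
  obtain ⟨a, b, e⟩ := (Irreducible.coprime_iff_not_dvd hp.irreducible).2 hx
  refine ⟨b, ?_⟩
  have := congrArg (Int.cast : ℤ → ZMod M) e
  push_cast at this
  linear_combination (M₀ : ZMod M) * this - (a : ZMod M) * h.zero

theorem Sp.dom (h : Sp M M₀ q) {x y : ZMod M} (hxy : (M₀ : ZMod M) * (x * y) = 0)
    (hx : (M₀ : ZMod M) * x ≠ 0) : (M₀ : ZMod M) * y = 0 := by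
  obtain ⟨t, ht⟩ := h.inv hx
  linear_combination t * hxy - y * ht

theorem Sp.cg0 (h : Sp M M₀ q) {x y : ZMod M} : Cg M M₀ x y ↔ (q : ZMod M) * x = q * y := by
  constructor
  · rintro ⟨t, rfl⟩
    linear_combination t * h.zero
  · intro e
    obtain ⟨a, b, e'⟩ := h.bez
    exact ⟨a * (x - y), by linear_combination b * e - (x - y) * e'⟩

theorem Sp.cgq (h : Sp M M₀ q) {x y : ZMod M} : Cg M q x y ↔ (M₀ : ZMod M) * x = M₀ * y := by
  constructor
  · rintro ⟨t, rfl⟩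
    linear_combination t * h.zero
  · intro e
    obtain ⟨a, b, e'⟩ := h.bez
    exact ⟨b * (x - y), by linear_combination a * e - (x - y) * e'⟩

theorem Sp.memK0 (h : Sp M M₀ q) {g : GM M} : g ∈ Kq M M₀ ↔ ∀ i j, (q : ZMod M) * g.val i j =
    q * (1 : Matrix (Fin 2) (Fin 2) (ZMod M)) i j :=
  forall_congr' fun i => forall_congr' fun j => h.cg0

theorem Sp.memKq (h : Sp M M₀ q) {g : GM M} : g ∈ Kq M q ↔ ∀ i j, (M₀ : ZMod M) * g.val i j =
    M₀ * (1 : Matrix (Fin 2) (Fin 2) (ZMod M)) i j :=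
  forall_congr' fun i => forall_congr' fun j => h.cgq

theorem Sp.unit (h : Sp M M₀ q) {d a b : ZMod M} (h1 : (M₀ : ZMod M) * (d * a) = M₀)
    (h2 : (q : ZMod M) * (d * b) = q) : IsUnit d := by
  obtain ⟨s, t, e⟩ := h.bez
  exact IsUnit.of_mul_eq_one (M₀ * s * a + q * t * b) (by linear_combination s * h1 + t * h2 + e)

theorem det_inv (g : GM M) : ∃ t : ZMod M, (g.val 0 0 * g.val 1 1 - g.val 0 1 * g.val 1 0) * t = 1 := by
  refine ⟨(g⁻¹).val.det, ?_⟩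
  rw [← Matrix.det_fin_two, ← Matrix.det_mul, Units.mul_inv, Matrix.det_one]

theorem gmul (g k : GM M) (i j : Fin 2) :
    (g * k).val i j = g.val i 0 * k.val 0 j + g.val i 1 * k.val 1 j := by
  rw [Units.val_mul, Matrix.mul_apply, Fin.sum_univ_two]

theorem gext {g k : GM M} (h00 : g.val 0 0 = k.val 0 0) (h01 : g.val 0 1 = k.val 0 1)
    (h10 : g.val 1 0 = k.val 1 0) (h11 : g.val 1 1 = k.val 1 1) : g = k := by
  apply Units.ext
  ext i j
  fin_cases i <;> fin_cases j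
  exacts [h00, h01, h10, h11]

/-- the reduction of an integral matrix -/
abbrev cst (M : ℕ) (α : Matrix (Fin 2) (Fin 2) ℤ) : Matrix (Fin 2) (Fin 2) (ZMod M) :=
  α.map (Int.cast : ℤ → ZMod M)

/-- the relation for a matrix `P = α g` and `D = det g` -/
structure Rl (M M₀ q : ℕ) (P : Matrix (Fin 2) (Fin 2) (ZMod M)) (D : ZMod M) (g' : GM M) :
    Prop where
  c0 : ∀ i j, (q : ZMod M) * g'.val i j = q * P i j
  c1 : ∀ i, (M₀ : ZMod M) * P i 0 = 0
  c2 : ∀ i, (M₀ : ZMod M) * g'.val i 0 = M₀ * P i 1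
  c3 : (M₀ : ZMod M) * g'.val.det = -(M₀ * D)

theorem rel_iff {α : Matrix (Fin 2) (Fin 2) ℤ} {g g' : GM M} :
    Rel M M₀ q α g g' ↔ Rl M M₀ q (cst M α * g.val) g.val.det g' :=
  ⟨fun h => ⟨fun i j => congrFun (congrFun h.c0 i) j, h.c1, h.c2, h.c3⟩,
    fun h => ⟨by ext i j; exact h.c0 i j, h.c1, h.c2, h.c3⟩⟩

theorem Rl.uniq (h : Sp M M₀ q) {P : Matrix (Fin 2) (Fin 2) (ZMod M)} {D : ZMod M} {g k : GM M}
    (h1 : Rl M M₀ q P D g) (h2 : Rl M M₀ q P D k) : ∃ u ∈ Uq M M₀, k = g * u := by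
  obtain ⟨t, ht⟩ := det_inv g
  obtain ⟨a, b, e⟩ := h.bez
  have d1 := h1.c3
  have d2 := h2.c3
  rw [Matrix.det_fin_two] at d1 d2
  have a0 : k.val 0 0 = g.val 0 0 := h.ext ((h2.c2 0).trans (h1.c2 0).symm)
    ((h2.c0 0 0).trans (h1.c0 0 0).symm)
  have a1 : k.val 1 0 = g.val 1 0 := h.ext ((h2.c2 1).trans (h1.c2 1).symm)
    ((h2.c0 1 0).trans (h1.c0 1 0).symm)
  have b0 := (h2.c0 0 1).trans (h1.c0 0 1).symm
  have b1 := (h2.c0 1 1).trans (h1.c0 1 1).symm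
  rw [a0, a1] at d2
  refine ⟨_, ⟨a * t * (g.val 1 1 * k.val 0 1 - g.val 0 1 * k.val 1 1), rfl⟩, gext ?_ ?_ ?_ ?_⟩ <;>
    simp only [gmul, un_coe, Matrix.of_apply, Matrix.cons_val', Matrix.cons_val_zero,
      Matrix.cons_val_one, Matrix.cons_val_fin_one]
  · rw [a0]; ring
  · refine h.ext ?_ ?_
    · linear_combination (-(M₀ : ZMod M) * (k.val 0 1 - g.val 0 1)) * ht +
        (t * g.val 0 1) * (d2 - d1) +
        (-(M₀ : ZMod M) * g.val 0 0 * t * (g.val 1 1 * k.val 0 1 - g.val 0 1 * k.val 1 1)) * e +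
        (g.val 0 0 * b * t * (g.val 1 1 * k.val 0 1 - g.val 0 1 * k.val 1 1)) * h.zero
    · linear_combination b0 -
        (g.val 0 0 * a * t * (g.val 1 1 * k.val 0 1 - g.val 0 1 * k.val 1 1)) * h.zero
  · rw [a1]; ring
  · refine h.ext ?_ ?_
    · linear_combination (-(M₀ : ZMod M) * (k.val 1 1 - g.val 1 1)) * ht +
        (t * g.val 1 1) * (d2 - d1) +
        (-(M₀ : ZMod M) * g.val 1 0 * t * (g.val 1 1 * k.val 0 1 - g.val 0 1 * k.val 1 1)) * e +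
        (g.val 1 0 * b * t * (g.val 1 1 * k.val 0 1 - g.val 0 1 * k.val 1 1)) * h.zero
    · linear_combination b1 -
        (g.val 1 0 * a * t * (g.val 1 1 * k.val 0 1 - g.val 0 1 * k.val 1 1)) * h.zero

theorem Rl.left {P : Matrix (Fin 2) (Fin 2) (ZMod M)} {D : ZMod M} {g : GM M}
    (h1 : Rl M M₀ q P D g) (k : GM M) : Rl M M₀ q (k.val * P) (k.val.det * D) (k * g) := by
  refine ⟨fun i j => ?_, fun i => ?_, fun i => ?_, ?_⟩
  · rw [gmul, Matrix.mul_apply, Fin.sum_univ_two]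
    linear_combination k.val i 0 * h1.c0 0 j + k.val i 1 * h1.c0 1 j
  · rw [Matrix.mul_apply, Fin.sum_univ_two]
    linear_combination k.val i 0 * h1.c1 0 + k.val i 1 * h1.c1 1
  · rw [gmul, Matrix.mul_apply, Fin.sum_univ_two]
    linear_combination k.val i 0 * h1.c2 0 + k.val i 1 * h1.c2 1
  · rw [Units.val_mul, Matrix.det_mul]
    linear_combination k.val.det * h1.c3

/-- the pairs `b`, `b'` with `b' = [0, 1; q, 0] b [0, 1; q, 0]⁻¹` up to unipotent elements -/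
structure Cj (M M₀ q : ℕ) (b b' : GM M) : Prop where
  c0 : ∀ i j, (q : ZMod M) * b'.val i j = q * b.val i j
  c1 : (M₀ : ZMod M) * b.val 1 0 = 0
  c1' : (M₀ : ZMod M) * b'.val 1 0 = 0
  c2 : (M₀ : ZMod M) * b'.val 0 0 = M₀ * b.val 1 1
  c3 : (M₀ : ZMod M) * b'.val 1 1 = M₀ * b.val 0 0

theorem Rl.right {P : Matrix (Fin 2) (Fin 2) (ZMod M)} {D : ZMod M} {g b b' : GM M}
    (h1 : Rl M M₀ q P D g) (h2 : Cj M M₀ q b b') :
    Rl M M₀ q (P * b.val) (D * b.val.det) (g * b') := by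
  refine ⟨fun i j => ?_, fun i => ?_, fun i => ?_, ?_⟩
  · rw [gmul, Matrix.mul_apply, Fin.sum_univ_two]
    linear_combination b'.val 0 j * h1.c0 i 0 + b'.val 1 j * h1.c0 i 1 + P i 0 * h2.c0 0 j +
      P i 1 * h2.c0 1 j
  · rw [Matrix.mul_apply, Fin.sum_univ_two]
    linear_combination b.val 0 0 * h1.c1 i + P i 1 * h2.c1
  · rw [gmul, Matrix.mul_apply, Fin.sum_univ_two]
    linear_combination b'.val 0 0 * h1.c2 i + g.val i 1 * h2.c1' + P i 1 * h2.c2 -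
      b.val 0 1 * h1.c1 i
  · rw [Units.val_mul, Matrix.det_mul, Matrix.det_fin_two b'.val, Matrix.det_fin_two b.val]
    linear_combination (b'.val 0 0 * b'.val 1 1 - b'.val 0 1 * b'.val 1 0) * h1.c3 -
      D * b'.val 1 1 * h2.c2 - D * b.val 1 1 * h2.c3 + D * b'.val 0 1 * h2.c1' -
      D * b.val 0 1 * h2.c1

theorem Rel.right {α : Matrix (Fin 2) (Fin 2) ℤ} {g g' b b' : GM M} (h1 : Rel M M₀ q α g g')
    (h2 : Cj M M₀ q b b') : Rel M M₀ q α (g * b) (g' * b') := by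
  rw [rel_iff] at h1 ⊢
  rw [Units.val_mul, ← Matrix.mul_assoc, Matrix.det_mul]
  exact h1.right h2

theorem Rel.left {α β : Matrix (Fin 2) (Fin 2) ℤ} {g g' : GM M} (h1 : Rel M M₀ q α g g')
    (k l : GM M) (e : cst M β * l.val = k.val * cst M α) (e' : l.val.det = k.val.det) :
    Rel M M₀ q β (l * g) (k * g') := by
  rw [rel_iff] at h1 ⊢
  rw [Units.val_mul, ← Matrix.mul_assoc, e, Matrix.mul_assoc, Matrix.det_mul, e']
  exact h1.left k

theorem Rel.uniq (h : Sp M M₀ q) {α : Matrix (Fin 2) (Fin 2) ℤ} {g g' k : GM M}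
    (h1 : Rel M M₀ q α g g') (h2 : Rel M M₀ q α g k) : ∃ u ∈ Uq M M₀, k = g' * u :=
  (rel_iff.1 h1).uniq h (rel_iff.1 h2)

/-- the small cell -/
abbrev Sm (M M₀ : ℕ) (g : GM M) : Prop := (M₀ : ZMod M) * g.val 1 0 = 0

theorem Cj.sm (h : Sp M M₀ q) {b b' : GM M} (h2 : Cj M M₀ q b b') (g : GM M) :
    Sm M M₀ (g * b) ↔ Sm M M₀ g := by
  obtain ⟨t, ht⟩ := det_inv b
  rw [Sm, Sm, gmul]
  constructor
  · intro e
    linear_combination (b.val 1 1 * t) * e - (M₀ : ZMod M) * g.val 1 0 * ht -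
      (g.val 1 1 * b.val 1 1 * t + g.val 1 0 * b.val 0 1 * t) * h2.c1
  · intro e
    linear_combination b.val 0 0 * e + g.val 1 1 * h2.c1

theorem cA (M q : ℕ) (g : GM M) : cst M !![(q : ℤ), 0; 0, 1] * g.val =
    !![(q : ZMod M) * g.val 0 0, (q : ZMod M) * g.val 0 1; g.val 1 0, g.val 1 1] := by
  ext i j
  fin_cases i <;> fin_cases j <;> simp [Matrix.mul_apply, Fin.sum_univ_two]

theorem cB' (M q x : ℕ) (g : GM M) : cst M !![1, (x : ℤ); 0, (q : ℤ)] * g.val =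
    !![g.val 0 0 + (x : ZMod M) * g.val 1 0, g.val 0 1 + (x : ZMod M) * g.val 1 1;
      (q : ZMod M) * g.val 1 0, (q : ZMod M) * g.val 1 1] := by
  ext i j
  fin_cases i <;> fin_cases j <;> simp [Matrix.mul_apply, Fin.sum_univ_two]

theorem relA {g g' : GM M} : Rel M M₀ q !![(q : ℤ), 0; 0, 1] g g' ↔ Rl M M₀ q
    !![(q : ZMod M) * g.val 0 0, (q : ZMod M) * g.val 0 1; g.val 1 0, g.val 1 1] g.val.det g' := by
  rw [rel_iff, cA]

theorem relB {x : ℕ} {g g' : GM M} : Rel M M₀ q !![1, (x : ℤ); 0, (q : ℤ)] g g' ↔ Rl M M₀ q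
    !![g.val 0 0 + (x : ZMod M) * g.val 1 0, g.val 0 1 + (x : ZMod M) * g.val 1 1;
      (q : ZMod M) * g.val 1 0, (q : ZMod M) * g.val 1 1] g.val.det g' := by
  rw [rel_iff, cB']

theorem Rl.mk' {P : Matrix (Fin 2) (Fin 2) (ZMod M)} {D : ZMod M} {g : GM M}
    (a1 : (q : ZMod M) * g.val 0 0 = q * P 0 0) (a2 : (q : ZMod M) * g.val 0 1 = q * P 0 1)
    (a3 : (q : ZMod M) * g.val 1 0 = q * P 1 0) (a4 : (q : ZMod M) * g.val 1 1 = q * P 1 1)
    (b1 : (M₀ : ZMod M) * P 0 0 = 0) (b2 : (M₀ : ZMod M) * P 1 0 = 0)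
    (c1 : (M₀ : ZMod M) * g.val 0 0 = M₀ * P 0 1) (c2 : (M₀ : ZMod M) * g.val 1 0 = M₀ * P 1 1)
    (d : (M₀ : ZMod M) * (g.val 0 0 * g.val 1 1 - g.val 0 1 * g.val 1 0) = -(M₀ * D)) :
    Rl M M₀ q P D g := by
  refine ⟨fun i j => ?_, fun i => ?_, fun i => ?_, by rw [Matrix.det_fin_two]; exact d⟩
  · fin_cases i <;> fin_cases j
    exacts [a1, a2, a3, a4]
  · fin_cases i
    exacts [b1, b2]
  · fin_cases i
    exacts [c1, c2]

/-- existence, given a second column -/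
theorem Rl.ex (h : Sp M M₀ q) {P : Matrix (Fin 2) (Fin 2) (ZMod M)} {D t : ZMod M} (y0 y1 : ZMod M)
    (ht : D * t = 1) (hP : P 0 0 * P 1 1 - P 0 1 * P 1 0 = q * D)
    (b1 : (M₀ : ZMod M) * P 0 0 = 0) (b2 : (M₀ : ZMod M) * P 1 0 = 0)
    (hy : (M₀ : ZMod M) * (P 0 1 * y1 - y0 * P 1 1) = -(M₀ * D)) : ∃ g, Rl M M₀ q P D g := by
  obtain ⟨a, b, e⟩ := h.bez
  have z := h.zero
  let A : Matrix (Fin 2) (Fin 2) (ZMod M) :=
    !![q * b * P 0 0 + M₀ * a * P 0 1, q * b * P 0 1 + M₀ * a * y0;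
      q * b * P 1 0 + M₀ * a * P 1 1, q * b * P 1 1 + M₀ * a * y1]
  have m1 : ∀ x y : ZMod M, (M₀ : ZMod M) * (q * b * x + M₀ * a * y) = M₀ * y := fun x y => by
    linear_combination (M₀ : ZMod M) * y * e + (b * x - b * y) * z
  have m2 : ∀ x y : ZMod M, (q : ZMod M) * (q * b * x + M₀ * a * y) = q * x := fun x y => by
    linear_combination (q : ZMod M) * x * e + (a * y - a * x) * z
  have d1 : (M₀ : ZMod M) * (A 0 0 * A 1 1 - A 0 1 * A 1 0) = -(M₀ * D) := by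
    have e1 := m1 (P 0 0) (P 0 1)
    have e2 := m1 (P 0 1) y0
    have e3 := m1 (P 1 0) (P 1 1)
    have e4 := m1 (P 1 1) y1
    change (M₀ : ZMod M) * A 0 0 = _ at e1
    change (M₀ : ZMod M) * A 0 1 = _ at e2
    change (M₀ : ZMod M) * A 1 0 = _ at e3
    change (M₀ : ZMod M) * A 1 1 = _ at e4
    linear_combination A 1 1 * e1 + P 0 1 * e4 - A 1 0 * e2 - y0 * e3 + hy
  have d2 : (q : ZMod M) * (A 0 0 * A 1 1 - A 0 1 * A 1 0) = q * (q * D) := by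
    have e1 := m2 (P 0 0) (P 0 1)
    have e2 := m2 (P 0 1) y0
    have e3 := m2 (P 1 0) (P 1 1)
    have e4 := m2 (P 1 1) y1
    change (q : ZMod M) * A 0 0 = _ at e1
    change (q : ZMod M) * A 0 1 = _ at e2
    change (q : ZMod M) * A 1 0 = _ at e3
    change (q : ZMod M) * A 1 1 = _ at e4
    linear_combination A 1 1 * e1 + P 0 0 * e4 - A 1 0 * e2 - P 0 1 * e3 + (q : ZMod M) * hP
  have hu : IsUnit A.det := by
    rw [Matrix.det_fin_two]
    refine h.unit (a := -t) (b := b * t) ?_ ?_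
    · linear_combination (-t) * d1 + (M₀ : ZMod M) * ht
    · linear_combination (b * t) * d2 + (q * q * b : ZMod M) * ht + (q : ZMod M) * e - a * z
  exact ⟨Matrix.GeneralLinearGroup.mk'' A hu, Rl.mk' (m2 _ _) (m2 _ _) (m2 _ _) (m2 _ _) b1 b2
    (m1 _ _) (m1 _ _) d1⟩

theorem exA (h : Sp M M₀ q) {g : GM M} (hg : Sm M M₀ g) :
    ∃ g', Rel M M₀ q !![(q : ℤ), 0; 0, 1] g g' := by
  obtain ⟨t, ht⟩ := det_inv g
  simp only [relA, Matrix.det_fin_two g.val]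
  refine Rl.ex h (g.val 0 0) 0 ht ?_ ?_ ?_ ?_ <;>
    simp only [Matrix.of_apply, Matrix.cons_val', Matrix.cons_val_zero,
      Matrix.cons_val_one, Matrix.cons_val_fin_one]
  · ring
  · linear_combination g.val 0 0 * h.zero
  · exact hg
  · linear_combination (-g.val 0 1) * hg

theorem exB (h : Sp M M₀ q) {g : GM M} (hg : ¬ Sm M M₀ g) :
    ∃ x : ℕ × GM M, M₀ ∣ x.1 ∧ Rel M M₀ q !![1, (x.1 : ℤ); 0, (q : ℤ)] g x.2 := by
  obtain ⟨t, ht⟩ := det_inv g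
  obtain ⟨y, hy⟩ := h.inv hg
  obtain ⟨a, b, e⟩ := h.bez
  haveI : NeZero M := ⟨h.Mpos.ne'⟩
  obtain ⟨n, hn⟩ := ZMod.natCast_zmod_surjective (-(a * y * g.val 0 0))
  have hx : (M₀ : ZMod M) * (g.val 0 0 + ((M₀ * n : ℕ) : ZMod M) * g.val 1 0) = 0 := by
    rw [Nat.cast_mul, hn]
    linear_combination (-(M₀ * a * g.val 0 0) : ZMod M) * hy - (M₀ * g.val 0 0 : ZMod M) * e +
      b * g.val 0 0 * h.zero
  have : ∃ g', Rel M M₀ q !![1, ((M₀ * n : ℕ) : ℤ); 0, (q : ℤ)] g g' := by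
    simp only [relB, Matrix.det_fin_two g.val]
    refine Rl.ex h 0 (g.val 1 0) ht ?_ ?_ ?_ ?_ <;>
      simp only [Matrix.of_apply, Matrix.cons_val', Matrix.cons_val_zero,
        Matrix.cons_val_one, Matrix.cons_val_fin_one]
    · ring
    · exact hx
    · linear_combination g.val 1 0 * h.zero
    · linear_combination g.val 1 1 * hx
  obtain ⟨g', hg'⟩ := this
  exact ⟨(M₀ * n, g'), dvd_mul_right _ _, hg'⟩

/-- after the small cell comes the big cell -/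
theorem relA_big (h : Sp M M₀ q) {g g' : GM M} (h1 : Rel M M₀ q !![(q : ℤ), 0; 0, 1] g g') :
    Sm M M₀ g ∧ ¬ Sm M M₀ g' := by
  rw [relA] at h1
  have a := h1.c1 1
  have b := h1.c2 1
  simp only [Matrix.of_apply, Matrix.cons_val', Matrix.cons_val_zero,
    Matrix.cons_val_one, Matrix.cons_val_fin_one] at a b
  refine ⟨a, fun c => h.ne ?_⟩
  obtain ⟨t, ht⟩ := det_inv g
  linear_combination (-(M₀ : ZMod M)) * ht + (g.val 0 0 * t) * c - (g.val 0 0 * t) * b -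
    (g.val 0 1 * t) * a

theorem relB_small (h : Sp M M₀ q) {x : ℕ} {g g' : GM M}
    (h1 : Rel M M₀ q !![1, (x : ℤ); 0, (q : ℤ)] g g') : ¬ Sm M M₀ g ∧ Sm M M₀ g' := by
  rw [relB] at h1
  have a := h1.c1 0
  have b := h1.c2 1
  simp only [Matrix.of_apply, Matrix.cons_val', Matrix.cons_val_zero,
    Matrix.cons_val_one, Matrix.cons_val_fin_one] at a b
  refine ⟨fun c => h.ne ?_, by linear_combination b + g.val 1 1 * h.zero⟩
  obtain ⟨t, ht⟩ := det_inv g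
  linear_combination (-(M₀ : ZMod M)) * ht + (g.val 1 1 * t) * a -
    ((x : ZMod M) * g.val 1 1 * t + g.val 0 1 * t) * c

section values

variable {S R : Type} [CommRing S] [CommRing R] [Algebra S R]

theorem iv_val {H : Set (GM M)} {w : FT M R} (hw : w ∈ Iv S R H) {u : GM M} (hu : u ∈ H)
    (g : GM M) : w (g * u) = w g := by
  have := congrFun (hw u hu) g
  rwa [one_smul] at this

theorem mem_iv {H : Set (GM M)} {w : FT M R} (h : ∀ u ∈ H, ∀ g, w (g * u) = w g) :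
    w ∈ Iv S R H := fun u hu => by
  rw [one_smul]
  exact funext (h u hu)

theorem Wa_big (w : FT M R) {g : GM M} (hg : ¬ Sm M M₀ g) : Wa S R M M₀ q w g = 0 := if_neg hg

theorem Wb_small (z : R) (w : FT M R) {g : GM M} (hg : Sm M M₀ g) : Wb S R M M₀ q z w g = 0 :=
  if_pos hg

theorem wA_rel (h : Sp M M₀ q) {g : GM M} (hg : Sm M M₀ g) :
    Rel M M₀ q !![(q : ℤ), 0; 0, 1] g (wA M M₀ q g) := by
  have e := exA h hg
  rw [wA, dif_pos e]
  exact e.choose_spec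

theorem wB_rel (h : Sp M M₀ q) {g : GM M} (hg : ¬ Sm M M₀ g) : M₀ ∣ (wB M M₀ q g).1 ∧
    Rel M M₀ q !![1, ((wB M M₀ q g).1 : ℤ); 0, (q : ℤ)] g (wB M M₀ q g).2 := by
  have e := exB h hg
  rw [wB, dif_pos e]
  exact e.choose_spec

theorem Wa_val (h : Sp M M₀ q) {w : FT M R} (hw : w ∈ Iv S R (Uq M M₀)) {g g' : GM M}
    (h1 : Rel M M₀ q !![(q : ℤ), 0; 0, 1] g g') : Wa S R M M₀ q w g = Vo q (w g') := by
  have hg := (relA_big h h1).1
  obtain ⟨u, hu, e⟩ := (wA_rel h hg).uniq h h1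
  rw [e, iv_val hw hu]
  exact if_pos hg

theorem pow_cg {z : R} (hz : z ^ M = 1) {x y : ℕ} (e : (x : ZMod M) = y) : z ^ x = z ^ y := by
  rw [pow_eq_pow_mod x hz, pow_eq_pow_mod y hz, (ZMod.natCast_eq_natCast_iff' x y M).1 e]

theorem Wb_val (h : Sp M M₀ q) {z : R} (hz : z ^ M = 1) {w : FT M R} (hw : w ∈ Iv S R (Uq M M₀))
    {x : ℕ} (hx : (q : ZMod M) * x = 0) {g g' : GM M}
    (h1 : Rel M M₀ q !![1, (x : ℤ); 0, (q : ℤ)] g g') :
    Wb S R M M₀ q z w g = PowerSeries.mk fun n => z ^ (x * n) * (w g').coeff (q * n) := by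
  have hg := (relB_small h h1).1
  obtain ⟨⟨m, hm⟩, h2⟩ := wB_rel h hg
  have e0 : (((wB M M₀ q g).1 : ℕ) : ZMod M) = x := by
    have a := (relB.1 h1).c1 0
    have b := (relB.1 h2).c1 0
    simp only [Matrix.of_apply, Matrix.cons_val', Matrix.cons_val_zero,
      Matrix.cons_val_one, Matrix.cons_val_fin_one] at a b
    refine h.ext ?_ ?_
    · have := h.dom (x := g.val 1 0) (y := (((wB M M₀ q g).1 : ℕ) : ZMod M) - x)
        (by linear_combination b - a) hg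
      linear_combination this
    · rw [hx, hm, Nat.cast_mul]
      linear_combination (m : ZMod M) * h.zero
  rw [relB, e0, ← relB] at h2
  obtain ⟨u, hu, e⟩ := h2.uniq h h1
  have e1 : ∀ n, z ^ (x * n) = z ^ ((wB M M₀ q g).1 * n) := fun n => by
    rw [pow_mul, pow_mul, pow_cg hz e0]
  rw [e, iv_val hw hu]
  simp only [e1]
  exact if_neg hg

end values

end Vale.Agent.P022D.V
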