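import Vale.Agent.P022D.V.Corr
import Vale.Agent.P022D.V.Hk1
import Vale.Agent.P022D.V.Form
import Vale.Agent.P022D.V.TrV
import Vale.Agent.P022D.V.Rel
import Vale.Agent.P022.H783.QE

/-!
# P022D, block V: the dictionary between tuples and classical forms
-/

set_option linter.all false

open UpperHalfPlane hiding I
open Matrix Function.Periodic CongruenceSubgroup
open scoped MatrixGroups ModularForm

noncomputable section

namespace Vale.Agent.P022D.V.Cl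

open Vale.Agent.P022 Vale.Agent.P022.H218.L3 Vale.Agent.P027M.M

variable {O : Type} [CommRing O] [Co O] {M N N₂ N' k : ℕ}

/-- `f (τ) = s (N τ)` -/
def Rp (M N : ℕ) (f : ℍ → ℂ) (s : PowerSeries (AA O)) : Prop := HS M (Vo N (s.map (av O))) f

/-- `diag (N, 1)` -/
abbrev DD (N : ℕ) : Matrix (Fin 2) (Fin 2) ℤ := !![(N : ℤ), 0; 0, 1]

theorem Vo_add {R : Type} [CommRing R] (p : ℕ) (s t : PowerSeries R) :
    Vo p (s + t) = Vo p s + Vo p t := by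
  ext n
  simp only [Vo_coeff, map_add]
  split_ifs <;> simp

theorem Vo_smul (p : ℕ) (c : ℂ) (s : PowerSeries ℂ) : Vo p (c • s) = c • Vo p s := by
  ext n
  simp only [Vo_coeff, PowerSeries.coeff_smul]
  split_ifs <;> simp

theorem Vo_zero {R : Type} [CommRing R] (p : ℕ) : Vo p (0 : PowerSeries R) = 0 := by
  ext n
  simp [Vo_coeff]

theorem map_Uo {R S : Type} [CommRing R] [CommRing S] (φ : R →+* S) (p : ℕ) (s : PowerSeries R) :
    (Uo p s).map φ = Uo p (s.map φ) := by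
  ext n
  simp only [Uo_coeff, PowerSeries.coeff_map]

theorem Rp.add {f g : ℍ → ℂ} {s t : PowerSeries (AA O)} (h : Rp M N f s) (h' : Rp M N g t) :
    Rp M N (f + g) (s + t) := by
  rw [Rp, map_add, Vo_add]
  exact Hk.hs_add h h'

theorem Rp.zero : Rp M N 0 (0 : PowerSeries (AA O)) := by
  rw [Rp, map_zero, Vo_zero]
  intro τ
  simpa using hasSum_zero

theorem Rp.sum {ι : Type} (T : Finset ι) {f : ι → ℍ → ℂ} {s : ι → PowerSeries (AA O)}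
    (h : ∀ i ∈ T, Rp M N (f i) (s i)) : Rp M N (∑ i ∈ T, f i) (∑ i ∈ T, s i) := by
  classical
  induction T using Finset.induction_on with
  | empty => simpa using Rp.zero
  | insert a T ha ih =>
    rw [Finset.sum_insert ha, Finset.sum_insert ha]
    exact (h a (Finset.mem_insert_self _ _)).add (ih fun i hi => h i (Finset.mem_insert_of_mem hi))

theorem Rp.zsmul {f : ℍ → ℂ} {s : PowerSeries (AA O)} (h : Rp M N f s) (c : ℤ) :
    Rp M N ((c : ℂ) • f) (c • s) := by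
  rw [Rp, map_zsmul, ← Int.cast_smul_eq_zsmul ℂ, Vo_smul]
  exact Hk.hs_smul h _

theorem Rp.nsmul {f : ℍ → ℂ} {s : PowerSeries (AA O)} (h : Rp M N f s) (c : ℕ) :
    Rp M N ((c : ℂ) • f) (c • s) := by
  rw [Rp, map_nsmul, ← Nat.cast_smul_eq_nsmul ℂ, Vo_smul]
  exact Hk.hs_smul h _

theorem Rp.fun_eq {f g : ℍ → ℂ} {s : PowerSeries (AA O)} (h : Rp M N f s) (h' : Rp M N g s) :
    f = g := Tr.hs_fun h h'

theorem Rp.eq_zero (hM : 0 < M) (hN : 0 < N) {s : PowerSeries (AA O)} (h : Rp M N 0 s) :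
    s = 0 := by
  have h1 := Vo_inj hN (Tr.hs_unique hM h (Rp.zero (O := O)))
  ext n
  apply av_inj
  have := congrArg (PowerSeries.coeff n) h1
  rwa [PowerSeries.coeff_map, PowerSeries.coeff_map] at this

/-- `f (N τ)` -/
def fF (N k : ℕ) (f : ℍ → ℂ) : ℍ → ℂ := ((N : ℂ) ^ k)⁻¹ • (N : ℂ) • sl k f (DD N)

theorem hs_fF (hN : 0 < N) {s : PowerSeries ℂ} {f : ℍ → ℂ} (h : HS M s f) :
    HS M (Vo N s) (fF N k f) := by
  have h1 := Hk.hs_smul (hs_V hN k h) ((N : ℂ) ^ k)⁻¹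
  have : (N : ℂ) ^ k ≠ 0 := pow_ne_zero _ (by exact_mod_cast hN.ne')
  rwa [← Nat.cast_smul_eq_nsmul ℂ, smul_smul, Nat.cast_pow, inv_mul_cancel₀ this, one_smul] at h1

/-- slashing by `δ = D⁻¹ γ D` -/
theorem key0 (hN : 0 < N) {w : FT M (AA O)} (hw : w ∈ L O M k) {δ γ : SL(2, ℤ)}
    (e : DD N * (δ : Matrix (Fin 2) (Fin 2) ℤ) = (γ : Matrix (Fin 2) (Fin 2) ℤ) * DD N)
    {f : ℍ → ℂ} {g g' : GM M} (hg : g = rd M γ * g') (h : Rp M N f (w g)) :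
    Rp M N (f ∣[(k : ℤ)] δ) (w g') := by
  obtain ⟨⟨F, h1, h2⟩, -⟩ := hw
  rw [Tr.hs_fun h (hs_fF (k := k) hN (h2 g)), fF, ModularForm.SL_smul_slash,
    ModularForm.SL_smul_slash, ← sl_right k _ δ (detV hN), e, sl_left k _ γ (detV hN), hg, h1.eqv]
  exact hs_fF hN (h2 g')

theorem ex_cj {δ : SL(2, ℤ)} {c : ℤ} (hc : δ 1 0 = N * c) : ∃ γ : SL(2, ℤ),
    DD N * (δ : Matrix (Fin 2) (Fin 2) ℤ) = (γ : Matrix (Fin 2) (Fin 2) ℤ) * DD N ∧
    γ 0 0 = δ 0 0 ∧ γ 0 1 = N * δ 0 1 ∧ γ 1 0 = c ∧ γ 1 1 = δ 1 1 := by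
  have hd := δ.det_coe
  rw [Matrix.det_fin_two] at hd
  refine ⟨⟨!![δ 0 0, N * δ 0 1; c, δ 1 1], ?_⟩, ?_, rfl, rfl, rfl, rfl⟩
  · rw [Matrix.det_fin_two_of]
    rw [hc] at hd
    linear_combination hd
  · ext i j
    fin_cases i <;> fin_cases j <;> simp [Matrix.mul_apply, Fin.sum_univ_two, hc, mul_comm]

/-- the levels -/
structure Lv (M N N₂ N' : ℕ) : Prop where
  odd : Odd M
  eq : M = N * N₂
  lev : N' = N ^ 2 * N₂

theorem Lv.Npos (h : Lv M N N₂ N') : 0 < N :=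
  Nat.pos_of_dvd_of_pos ⟨N₂, h.eq⟩ h.odd.pos

theorem Lv.dvd (h : Lv M N N₂ N') : M ∣ N' := ⟨N, by rw [h.lev, h.eq]; ring⟩

/-- the action of `Γ₀(N')` -/
theorem key (hl : Lv M N N₂ N') {w : FT M (AA O)} (hw : w ∈ L O M k)
    (hU : w ∈ Iv O (AA O) (Uq M N)) {δ : SL(2, ℤ)} (hδ : (N' : ℤ) ∣ δ 1 0) {u : (ZMod M)ˣ}
    (hu : (u : ZMod M) = ((δ 1 1 : ℤ) : ZMod M)) {f : ℍ → ℂ} {a e : (ZMod M)ˣ}
    (h : Rp M N f (w (dg a e))) : Rp M N (f ∣[(k : ℤ)] δ) (w (dg (a * u) (e * u⁻¹))) := by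
  obtain ⟨c, hc⟩ := hδ
  obtain ⟨γ, e0, e1, e2, e3, e4⟩ := ex_cj (N := N) (δ := δ) (c := M * c) (by
    rw [hc, hl.lev, hl.eq]; push_cast; ring)
  have hd := γ.det_coe
  rw [Matrix.det_fin_two] at hd
  have hd' := congrArg (Int.cast : ℤ → ZMod M) hd
  have z : ((γ 1 0 : ℤ) : ZMod M) = 0 := by rw [e3]; simp
  rw [← e4] at hu
  push_cast at hd'
  rw [z, ← hu, mul_zero, sub_zero] at hd'
  have i1 := u.mul_inv
  have i2 := a.mul_inv
  rw [← iv_val hU ⟨-(δ 0 1 : ℤ) * (e * (u⁻¹ : (ZMod M)ˣ) * (a⁻¹ : (ZMod M)ˣ)), rfl⟩]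
  refine key0 hl.Npos hw e0 (gext ?_ ?_ ?_ ?_) h <;>
    simp only [gmul, rd_apply, dg_coe, un_coe, z, ← hu, e2, Matrix.of_apply, Matrix.cons_val',
      Matrix.cons_val_zero, Matrix.cons_val_one, Matrix.cons_val_fin_one, Units.val_mul] <;>
    push_cast
  · linear_combination (-(a : ZMod M)) * hd'
  · linear_combination ((N : ZMod M) * (δ 0 1 : ℤ) * e * (u⁻¹ : (ZMod M)ˣ)) * i2 +
      ((a : ZMod M) * (a⁻¹ : (ZMod M)ˣ) * N * (δ 0 1 : ℤ) * e * (u⁻¹ : (ZMod M)ˣ)) * hd'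
  · ring
  · linear_combination (-(e : ZMod M)) * i1

/-- the classical form -/
theorem ex_form [NeZero N'] (hl : Lv M N N₂ N') {w : FT M (AA O)} (hw : w ∈ L O M k)
    (hU : w ∈ Iv O (AA O) (Uq M N)) (a e : (ZMod M)ˣ) :
    ∃ f : MF N' k, Rp M N f (w (dg a e)) := by
  obtain ⟨⟨F, h1, h2⟩, -⟩ := id hw
  have hr : Rp M N (fF N k (F (dg a e))) (w (dg a e)) := hs_fF hl.Npos (h2 _)
  have hb : Bdd (k : ℤ) (fF N k (F (dg a e))) := by
    have := (Bdd.const ((N : ℂ) ^ k)⁻¹).mul ((Bdd.const (N : ℂ)).mul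
      (sl_bdd (h1.bdd (dg a e)) (detV hl.Npos)))
    rwa [zero_add, zero_add] at this
  refine ⟨{ toFun := fF N k (F (dg a e))
            slash_action_eq' := ?_
            holo' := hb.1
            bdd_at_cusps' := fun {c} hc => ?_ }, hr⟩
  · rintro _ ⟨β, hβ, rfl⟩
    obtain ⟨-, b2, b3⟩ := (Gamma1_mem N' β).1 hβ
    have h3 := key hl hw hU ((ZMod.intCast_zmod_eq_zero_iff_dvd _ _).1 b3) (u := 1) (by
      have := congrArg (ZMod.castHom hl.dvd (ZMod M)) b2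
      rw [map_intCast, map_one] at this
      rw [this, Units.val_one]) hr
    rw [inv_one, mul_one, mul_one] at h3
    exact h3.fun_eq hr
  · rw [Subgroup.IsArithmetic.isCusp_iff_isCusp_SL2Z] at hc
    rw [OnePoint.isBoundedAt_iff_forall_SL2Z hc]
    exact fun γ _ => hb.2 γ

theorem hs1 [NeZero N'] (f : MF N' k) : HS 1 (qExpansion 1 f) f := fun τ => by
  simpa using H783.hasSum_form f τ

theorem rp_dia [NeZero N'] (hl : Lv M N N₂ N') {w : FT M (AA O)} (hw : w ∈ L O M k)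
    (hU : w ∈ Iv O (AA O) (Uq M N)) (ℓ : PA N') {u : (ZMod M)ˣ} (hu : (u : ZMod M) = ℓ.1)
    {f : MF N' k} {a e : (ZMod M)ˣ} (h : Rp M N f (w (dg a e))) :
    Rp M N (H783.dia k ℓ f) (w (dg (a * u) (e * u⁻¹))) := by
  rw [H783.dia_coe]
  exact key hl hw hU (δ := gd N' ℓ.1 ℓ.coprime) (dvd_refl (N' : ℤ))
    (hu.trans (Int.cast_natCast ℓ.1).symm) h

theorem rp_T [NeZero N'] (hl : Lv M N N₂ N') (i : ℕ) (ℓ : PA N') {f : MF N' (i + 1)}
    {s s' : PowerSeries (AA O)} (h : Rp M N f s) (h' : Rp M N (H783.dia (i + 1) ℓ f) s') :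
    Rp M N (H783.Tl (i + 1) ℓ f) (Uo ℓ.1 s + (ℓ.1 ^ i : ℕ) • Vo ℓ.1 s') := by
  have hM := hl.odd.pos
  have c1 : Nat.Coprime ℓ.1 M := ℓ.coprime.coprime_dvd_right hl.dvd
  have c2 : Nat.Coprime ℓ.1 N := c1.coprime_dvd_right ⟨N₂, hl.eq⟩
  have e1 := Tr.hs_unique hM h (Tr.hs_up hM (hs1 f))
  have e2 := Tr.hs_unique hM h' (Tr.hs_up hM (hs1 (H783.dia (i + 1) ℓ f)))
  have h3 : HS 1 (Uo ℓ.1 (qExpansion 1 f) + ((ℓ.1 : ℂ) ^ i) •
      Vo ℓ.1 (qExpansion 1 (H783.dia (i + 1) ℓ f))) (H783.Tl (i + 1) ℓ f) := fun τ => by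
    have := H783.hasSum_Tl (i + 1) ℓ (H783.hasSum_form f) (H783.hasSum_form _) τ
    rw [Nat.cast_one]
    refine this.congr_fun fun n => ?_
    rw [map_add, Uo_coeff, PowerSeries.coeff_smul, Vo_coeff]
    split_ifs <;> simp
  have h4 := Tr.hs_up hM h3
  rw [Vo_add, Vo_smul, ← Uo_Vo_comm c1, Vo_Vo, mul_comm M, ← Vo_Vo, ← e1, ← e2, Uo_Vo_comm c2,
    Vo_Vo, mul_comm ℓ.1, ← Vo_Vo] at h4
  rwa [Rp, map_add, map_nsmul, map_Uo, Tr.map_Vo, Vo_add, ← Nat.cast_smul_eq_nsmul ℂ, Vo_smul,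
    Nat.cast_pow]

/-- diagonal elements normalise the unipotent subgroup -/
theorem un_dg (x : ZMod M) (a d : (ZMod M)ˣ) :
    un x * dg a d = dg a d * un (x * ((d : ZMod M) * ((a⁻¹ : (ZMod M)ˣ) : ZMod M))) := by
  have i2 := a.mul_inv
  refine gext ?_ ?_ ?_ ?_ <;>
    simp only [gmul, dg_coe, un_coe, Matrix.of_apply, Matrix.cons_val',
      Matrix.cons_val_zero, Matrix.cons_val_one, Matrix.cons_val_fin_one]
  · ring
  · linear_combination (-(x * d)) * i2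
  · ring
  · ring

section formal

variable {S R : Type} [CommRing S] [CommRing R] [Algebra S R]

theorem U_dg {w : FT M R} (hU : w ∈ Iv S R (Uq M N)) (a d : (ZMod M)ˣ) :
    rt S R (dg a d) w ∈ Iv S R (Uq M N) := by
  refine mem_Iv.2 ?_
  rintro _ ⟨x, rfl⟩
  rw [rt_rt, un_dg, ← rt_rt, mul_assoc, mem_Iv.1 hU _ ⟨_, rfl⟩]

end formal

theorem pw_L (hM : 0 < M) {i : ℕ} {w : FT M (AA O)} (hw : w ∈ L O M (i + 1)) (p : ℕ) :
    pw O (AA O) M i p w = w := by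
  rw [pw_apply, Tr.ep_L hM hw, sub_self, smul_zero, add_zero]

theorem wd_T {R : Type} [CommRing R] [Algebra O R] (i : ℕ) (u b : PA N' → (ZMod M)ˣ) (ℓ : PA N')
    (w : FT M R) : wd O R i u b (FreeAlgebra.ι ℤ (Sum.inl ℓ)) w =
      T2 O R i ℓ.1 (u ℓ) (rt O R (dg 1 (b ℓ)⁻¹) w) := by
  rw [wd, FreeAlgebra.lift_ι_apply]
  rfl

theorem wd_S {R : Type} [CommRing R] [Algebra O R] (i : ℕ) (u b : PA N' → (ZMod M)ˣ) (ℓ : PA N')
    (w : FT M R) : wd O R i u b (FreeAlgebra.ι ℤ (Sum.inr ℓ)) w =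
      S2 O R i ℓ.1 (u ℓ) (rt O R (dg 1 ((b ℓ)⁻¹ * (b ℓ)⁻¹)) w) := by
  rw [wd, FreeAlgebra.lift_ι_apply]
  rfl

theorem wd_int {R : Type} [CommRing R] [Algebra O R] (i : ℕ) (u b : PA N' → (ZMod M)ˣ) (c : ℤ)
    (w : FT M R) : wd O R i u b (algebraMap ℤ _ c) w = c • w := by
  rw [AlgHom.commutes, eq_intCast, Module.End.intCast_apply]

/-- **the dictionary** -/
theorem dict [NeZero N'] (hl : Lv M N N₂ N') (i : ℕ) {u : PA N' → (ZMod M)ˣ}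
    (hu : ∀ ℓ, (u ℓ : ZMod M) = ℓ.1) (Q : G.Wd N') : ∀ w ∈ L O M (i + 1),
    w ∈ Iv O (AA O) (Uq M N) → wd O (AA O) i u u Q w ∈ L O M (i + 1) ∧
      wd O (AA O) i u u Q w ∈ Iv O (AA O) (Uq M N) ∧ ∀ (a e : (ZMod M)ˣ) (f : MF N' (i + 1)),
        Rp M N f (w (dg a e)) → Rp M N (G.sg N' i Q f) (wd O (AA O) i u u Q w (dg a e)) := by
  have hM := hl.odd.pos
  induction Q using FreeAlgebra.induction with
  | grade0 c =>
    intro w hw hU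
    rw [wd_int]
    refine ⟨zsmul_mem hw c, zsmul_mem hU c, fun a e f h => ?_⟩
    rw [AlgHom.commutes, eq_intCast, Module.End.intCast_apply, ← Int.cast_smul_eq_zsmul ℂ]
    exact h.zsmul c
  | grade1 s =>
    intro w hw hU
    rcases s with ℓ | ℓ
    · have h1 := Tr.L_rt hw (dg 1 (u ℓ)⁻¹)
      rw [wd_T, T2_apply, pw_L hM h1, ← Tf_apply]
      refine ⟨hk O M i ℓ.1 (u ℓ) hl.odd ℓ.2.1 (hu ℓ) _ h1,
        Eg_map _ (fun h => rt_Tf h i ℓ.1 (u ℓ)) (U_dg hU _ _), fun a e f h => ?_⟩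
      rw [G.sg, FreeAlgebra.lift_ι_apply]
      have h2 := rp_T hl i ℓ h (rp_dia hl hw hU ℓ (hu ℓ) h)
      rw [Tf_apply, Pi.add_apply, Pi.smul_apply, Uf_apply, Vf_apply, rt_apply, rt_apply, dg_mul,
        dg_mul, dg_mul, dg_mul, one_mul, mul_one, mul_one, one_mul, mul_comm (u ℓ) e,
        mul_inv_cancel_right, mul_comm (u ℓ) a]
      exact h2
    · have h1 := Tr.L_rt hw (dg 1 ((u ℓ)⁻¹ * (u ℓ)⁻¹))
      rw [wd_S, S2_apply, pw_L hM h1, Sf_apply]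
      refine ⟨nsmul_mem (Tr.L_rt h1 _) _, nsmul_mem (U_dg (U_dg hU _ _) _ _) _, fun a e f h => ?_⟩
      rw [G.sg, FreeAlgebra.lift_ι_apply]
      have h2 := (rp_dia hl hw hU ℓ (hu ℓ) h).nsmul (ℓ.1 ^ i)
      rw [Pi.smul_apply, rt_apply, rt_apply, dg_mul, dg_mul, mul_one, ← mul_assoc,
        mul_inv_cancel_right]
      rw [Nat.cast_pow] at h2
      exact h2
  | mul P Q hP hQ =>
    intro w hw hU
    obtain ⟨h1, h2, h3⟩ := hQ w hw hU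
    obtain ⟨h4, h5, h6⟩ := hP _ h1 h2
    rw [map_mul, map_mul]
    exact ⟨h4, h5, fun a e f h => h6 a e _ (h3 a e f h)⟩
  | add P Q hP hQ =>
    intro w hw hU
    obtain ⟨h1, h2, h3⟩ := hQ w hw hU
    obtain ⟨h4, h5, h6⟩ := hP w hw hU
    rw [map_add, map_add]
    exact ⟨add_mem h4 h1, add_mem h5 h2, fun a e f h => (h6 a e f h).add (h3 a e f h)⟩

/-- a tuple which vanishes at the diagonal elements vanishes -/
theorem eq_zero (hM : 0 < M) {w : FT M (AA O)} (hw : w ∈ L O M k)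
    (h : ∀ e : (ZMod M)ˣ, w (dg 1 e) = 0) : w = 0 := by
  haveI : NeZero M := ⟨hM.ne'⟩
  funext g
  obtain ⟨γ, hγ⟩ := Hk.exists_rd g
  refine Rp.eq_zero (N := 1) hM one_pos ?_
  have h1 : Rp M 1 0 (w (dg 1 (GeneralLinearGroup.det g))) := by rw [h]; exact Rp.zero
  have h2 := key0 (δ := γ⁻¹) (γ := γ⁻¹) (g' := g) one_pos hw (by
    have : DD 1 = 1 := by ext i j; fin_cases i <;> fin_cases j <;> simp
    rw [this, one_mul, mul_one]) (by rw [map_inv, eq_inv_mul_iff_mul_eq, ← hγ]) h1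
  rwa [SlashAction.zero_slash] at h2

/-- a word which kills the forms of the tuple kills the tuple -/
theorem kill [NeZero N'] (hl : Lv M N N₂ N') (i : ℕ) {u : PA N' → (ZMod M)ˣ}
    (hu : ∀ ℓ, (u ℓ : ZMod M) = ℓ.1) (Q : G.Wd N') {w : FT M (AA O)} (hw : w ∈ L O M (i + 1))
    (hU : w ∈ Iv O (AA O) (Uq M N)) (h : ∀ (a e : (ZMod M)ˣ) (f : MF N' (i + 1)),
      Rp M N f (w (dg a e)) → G.sg N' i Q f = 0) : wd O (AA O) i u u Q w = 0 := by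
  obtain ⟨h1, -, h3⟩ := dict hl i hu Q w hw hU
  refine eq_zero hl.odd.pos h1 fun e => ?_
  obtain ⟨f, hf⟩ := ex_form hl hw hU 1 e
  have h4 := h3 1 e f hf
  rw [h 1 e f hf] at h4
  exact Rp.eq_zero hl.odd.pos hl.Npos h4

theorem dg_mem {B : ℕ} {a d : (ZMod M)ˣ} (ha : Cg M B a 1) (hd : Cg M B d 1) :
    dg a d ∈ Bq M B := by
  refine ⟨fun i j => ?_, rfl⟩
  fin_cases i <;> fin_cases j
  · exact ha
  · exact ⟨0, by simp [dg_coe]⟩
  · exact ⟨0, by simp [dg_coe]⟩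
  · exact hd

theorem Cg.inv {B : ℕ} {a : (ZMod M)ˣ} (ha : Cg M B a 1) : Cg M B (a⁻¹ : (ZMod M)ˣ) 1 := by
  obtain ⟨t, ht⟩ := ha
  have := a.mul_inv
  exact ⟨-t * (a⁻¹ : (ZMod M)ˣ), by linear_combination this - ((a⁻¹ : (ZMod M)ˣ) : ZMod M) * ht⟩

/-- the invariance of the classical form -/
theorem inv_form (hl : Lv M N N₂ N') {B : ℕ} {w : FT M (AA O)} (hw : w ∈ L O M k)
    (hU : w ∈ Iv O (AA O) (Uq M N)) (hB : w ∈ Iv O (AA O) (Bq M B)) {B' : ℕ} (hB' : B ∣ B')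
    {a e : (ZMod M)ˣ} {f : ℍ → ℂ} (h : Rp M N f (w (dg a e))) (δ : SL(2, ℤ))
    (h1 : (N' : ℤ) ∣ δ 1 0) (h2 : (B' : ℤ) ∣ δ 1 1 - 1) : f ∣[(k : ℤ)] δ = f := by
  have hd := δ.det_coe
  rw [Matrix.det_fin_two] at hd
  have hd' := congrArg (Int.cast : ℤ → ZMod M) hd
  have z : ((δ 1 0 : ℤ) : ZMod M) = 0 := (ZMod.intCast_zmod_eq_zero_iff_dvd _ _).2
    ((Int.natCast_dvd_natCast.2 hl.dvd).trans h1)
  push_cast at hd'
  rw [z, mul_zero, sub_zero, mul_comm] at hd'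
  obtain ⟨u, hu⟩ := IsUnit.of_mul_eq_one _ hd'
  obtain ⟨t, ht⟩ := (Int.natCast_dvd_natCast.2 hB').trans h2
  have c : Cg M B u 1 := ⟨t, by
    rw [hu, show δ 1 1 = 1 + B * t by linear_combination ht]; push_cast; rfl⟩
  have h3 := key hl hw hU h1 hu h
  rw [← dg_mul, iv_val hB (dg_mem c (Cg.inv c))] at h3
  exact h3.fun_eq h

/-- **every tuple is classical after a twist** -/
theorem clg [NeZero N'] (hl : Lv M N N₂ N') (B i : ℕ) {u : PA N' → (ZMod M)ˣ}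
    (hu : ∀ ℓ, (u ℓ : ZMod M) = ℓ.1) (Q : G.Wd N') (hQ : G.Kil N' N' B {i} Q) {w : FT M (AA O)}
    (hw : w ∈ L O M (i + 1)) (hU : w ∈ Iv O (AA O) (Uq M N)) (hB : w ∈ Iv O (AA O) (Bq M B)) :
    wd O (AA O) i u u Q w = 0 :=
  kill hl i hu Q hw hU fun a e f h => hQ i (Finset.mem_singleton_self i) f
    (inv_form hl hw hU hB dvd_rfl h)

/-- the same without a condition on the diagonal -/
theorem clg0 [NeZero N'] (hl : Lv M N N₂ N') (i : ℕ) {u : PA N' → (ZMod M)ˣ}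
    (hu : ∀ ℓ, (u ℓ : ZMod M) = ℓ.1) (Q : G.Wd N') (hQ : G.sg N' i Q = 0) {w : FT M (AA O)}
    (hw : w ∈ L O M (i + 1)) (hU : w ∈ Iv O (AA O) (Uq M N)) : wd O (AA O) i u u Q w = 0 :=
  kill hl i hu Q hw hU fun a e f h => by rw [hQ, LinearMap.zero_apply]

end Vale.Agent.P022D.V.Cl
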