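import Vale.Agent.P022D.V.Nrm
import Vale.Agent.P022D.V.Wf2
import Vale.Agent.P022D.V.Div

/-!
# P022D, block V: the dictionary with classical forms for the divisible carrier
-/

set_option autoImplicit false
set_option linter.all false

open Matrix
open scoped MatrixGroups

noncomputable section

namespace Vale.Agent.P022D.V

open Vale.Agent.P022 (PA)

namespace Cd

section formal

variable {O : Type} [CommRing O] {M : ℕ} {R R' : Type} [CommRing R] [Algebra O R]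
  [CommRing R'] [Algebra O R']

/-- a map which commutes with the formal operators -/
structure Nt (φ : FT M R →ₗ[O] FT M R') : Prop where
  u : ∀ p u w, φ (Uf O R p u w) = Uf O R' p u (φ w)
  v : ∀ p u w, φ (Vf O R p u w) = Vf O R' p u (φ w)
  r : ∀ g w, φ (rt O R g w) = rt O R' g (φ w)

theorem Nt.T2 {φ : FT M R →ₗ[O] FT M R'} (h : Nt φ) {i j p : ℕ}
    (hp : ∀ w, φ ((p ^ j : ℕ) • pw O R M j p w) = (p ^ i : ℕ) • pw O R' M i p (φ w))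
    (u : (ZMod M)ˣ) (w : FT M R) : φ (T2 O R j p u w) = T2 O R' i p u (φ w) := by
  simp only [V.T2, LinearMap.add_apply, LinearMap.smul_apply, Module.End.mul_apply]
  rw [map_add, h.u, ← map_nsmul (Vf O R p u), h.v, hp, map_nsmul]

theorem Nt.S2 {φ : FT M R →ₗ[O] FT M R'} (h : Nt φ) {i j p : ℕ}
    (hp : ∀ w, φ ((p ^ j : ℕ) • pw O R M j p w) = (p ^ i : ℕ) • pw O R' M i p (φ w))
    (u : (ZMod M)ˣ) (w : FT M R) : φ (S2 O R j p u w) = S2 O R' i p u (φ w) := by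
  simp only [V.S2, Sf, LinearMap.smul_apply, Module.End.mul_apply, AlgHom.toLinearMap_apply]
  rw [← map_nsmul (rt O R (dg u u)), h.r, hp, map_nsmul]

theorem Nt.wd [Co O] {φ : FT M R →ₗ[O] FT M R'} (h : Nt φ) {i j N' : ℕ}
    (u b : PA N' → (ZMod M)ˣ) (hp : ∀ (ℓ : PA N') w, φ ((ℓ.1 ^ j : ℕ) • pw O R M j ℓ.1 w) =
      (ℓ.1 ^ i : ℕ) • pw O R' M i ℓ.1 (φ w)) (Q : G.Wd N') :
    ∀ w, φ (wd O R j u b Q w) = wd O R' i u b Q (φ w) := by
  induction Q using FreeAlgebra.induction with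
  | grade0 r =>
    intro w
    simp only [AlgHom.commutes, Module.algebraMap_end_apply, map_zsmul]
  | grade1 x =>
    intro w
    rcases x with ℓ | ℓ
    · simp only [V.wd, FreeAlgebra.lift_ι_apply, Sum.elim_inl, Module.End.mul_apply,
        AlgHom.toLinearMap_apply]
      rw [h.T2 (hp ℓ), h.r]
    · simp only [V.wd, FreeAlgebra.lift_ι_apply, Sum.elim_inr, Module.End.mul_apply,
        AlgHom.toLinearMap_apply]
      rw [h.S2 (hp ℓ), h.r]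
  | mul a b ha hb => intro w; simp only [map_mul, Module.End.mul_apply, ha, hb]
  | add a b ha hb => intro w; simp only [map_add, LinearMap.add_apply, ha, hb]

theorem rt_Uf (g : GM M) (p : ℕ) (u : (ZMod M)ˣ) (w : FT M R) :
    rt O R g (Uf O R p u w) = Uf O R p u (rt O R g w) :=
  funext fun x => congrArg (fun y => Uo p (w y)) (mul_assoc _ _ _).symm

theorem rt_Vf (g : GM M) (p : ℕ) (u : (ZMod M)ˣ) (w : FT M R) :
    rt O R g (Vf O R p u w) = Vf O R p u (rt O R g w) :=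
  funext fun x => congrArg (fun y => Vo p (w y)) (mul_assoc _ _ _).symm

theorem nt_ep (k : ℕ) : Nt (ep O R M k) := by
  refine ⟨fun p u w => ?_, fun p u w => ?_, fun g w => ?_⟩ <;>
    simp only [ep, LinearMap.smul_apply, AlgHom.toLinearMap_apply, map_zsmul, rt_Uf, rt_Vf]
  rw [Tr.rt_rt, dg_center, Tr.rt_rt]

theorem nt_add (k : ℕ) : Nt (1 + ep O R M k) := by
  refine ⟨fun p u w => ?_, fun p u w => ?_, fun g w => ?_⟩ <;>
    simp only [LinearMap.add_apply, Module.End.one_apply, map_add, (nt_ep k).u, (nt_ep k).v,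
      (nt_ep k).r]

theorem nt_sub (k : ℕ) : Nt (1 - ep O R M k) := by
  refine ⟨fun p u w => ?_, fun p u w => ?_, fun g w => ?_⟩ <;>
    simp only [LinearMap.sub_apply, Module.End.one_apply, map_sub, (nt_ep k).u, (nt_ep k).v,
      (nt_ep k).r]

theorem nt_ml (φ : R →ₗ[O] R') : Nt (ml O M φ) := by
  refine ⟨fun p u w => ?_, fun p u w => ?_, fun g w => rfl⟩
  · ext g n
    simp [ml_coeff, Uf, Uo]
  · ext g n
    simp only [ml_coeff, Vf, Vo, LinearMap.coe_mk, AddHom.coe_mk, PowerSeries.coeff_mk]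
    split_ifs
    · rfl
    · exact map_zero φ

theorem ep_ep (k : ℕ) (w : FT M R) : ep O R M k (ep O R M k w) = w := by
  rw [Tr.ep_eq, Tr.ep_eq, map_mul, map_pow, map_neg, map_one, Tr.ng_ng, ← mul_assoc, ← mul_pow,
    neg_mul_neg, one_mul, one_pow, one_mul]

theorem pw_apply (i p : ℕ) (w : FT M R) :
    pw O R M i p w = w + ((p - 1) / 2 : ℕ) • (w - ep O R M (i + 1) w) := rfl

theorem pw_add (j p : ℕ) (w : FT M R) : (1 + ep O R M (j + 1)) ((p ^ j : ℕ) • pw O R M j p w) =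
    (p ^ j : ℕ) • pw O R M j p ((1 + ep O R M (j + 1)) w) := by
  simp only [pw_apply, LinearMap.add_apply, Module.End.one_apply, map_add, map_sub, map_nsmul,
    ep_ep]
  module

theorem pw_sub (j : ℕ) {p : ℕ} (hp : Odd p) (w : FT M R) :
    (1 - ep O R M (j + 1)) ((p ^ j : ℕ) • pw O R M j p w) =
    (p ^ (j + 1) : ℕ) • pw O R M (j + 1) p ((1 - ep O R M (j + 1)) w) := by
  obtain ⟨c, rfl⟩ := hp
  rw [pw_apply, pw_apply, Dv.ep_succ (j + 1), show (2 * c + 1 - 1) / 2 = c by omega]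
  simp only [LinearMap.sub_apply, Module.End.one_apply, map_add, map_sub, map_nsmul, ep_ep]
  module

theorem pow_cg {p i j s : ℕ} (hp : Odd p) (h : j ≡ i [MOD 2 ^ s]) : p ^ j ≡ p ^ i [MOD 2 ^ s] := by
  have h1 : p ^ 2 ^ s ≡ 1 [MOD 2 ^ s] := by
    have h2 := Nat.ModEq.pow_totient (x := p) (n := 2 ^ (s + 1))
      (Nat.Coprime.pow_right _ (Nat.coprime_two_right.2 hp))
    rw [Nat.totient_prime_pow_succ Nat.prime_two, Nat.add_one_sub_one, mul_one] at h2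
    exact h2.of_dvd (pow_dvd_pow 2 s.le_succ)
  have h3 : ∀ k, p ^ k ≡ p ^ (k % 2 ^ s) [MOD 2 ^ s] := fun k => by
    conv_lhs => rw [← Nat.div_add_mod k (2 ^ s), pow_add, pow_mul]
    simpa using (h1.pow (k / 2 ^ s)).mul_right (p ^ (k % 2 ^ s))
  exact (h3 j).trans (by rw [show j % 2 ^ s = i % 2 ^ s from h]; exact (h3 i).symm)

theorem smul_cg {X : Type} [AddCommGroup X] [Module O X] {x : X} {n a b : ℕ}
    (hx : (2 : O) ^ n • x = 0) (h : a ≡ b [MOD 2 ^ n]) : a • x = b • x := by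
  have h3 : ∀ k : ℕ, k • x = (k % 2 ^ n) • x := fun k => by
    conv_lhs => rw [← Nat.div_add_mod' k (2 ^ n), add_smul, mul_smul,
      ← Nat.cast_smul_eq_nsmul O (2 ^ n)]
    push_cast
    rw [hx, smul_zero, zero_add]
  rw [h3 a, h3 b, show a % 2 ^ n = b % 2 ^ n from h]

/-- upper triangular, unipotent modulo `B` -/
def HB (M B : ℕ) [NeZero M] : Subgroup (GM M) where
  carrier := {g | (g : Matrix (Fin 2) (Fin 2) (ZMod M)) 1 0 = 0 ∧
    Cg M B ((g : Matrix (Fin 2) (Fin 2) (ZMod M)) 0 0) 1 ∧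
    Cg M B ((g : Matrix (Fin 2) (Fin 2) (ZMod M)) 1 1) 1}
  one_mem' := ⟨by simp, ⟨0, by simp⟩, ⟨0, by simp⟩⟩
  mul_mem' := by
    rintro a b ⟨a1, ⟨x, a2⟩, ⟨y, a3⟩⟩ ⟨b1, ⟨x', b2⟩, ⟨y', b3⟩⟩
    refine ⟨?_, ⟨x + x' + B * x * x', ?_⟩, ⟨y + y' + B * y * y', ?_⟩⟩ <;>
      simp only [Units.val_mul, Matrix.mul_apply, Fin.sum_univ_two, a1, a2, a3, b1, b2, b3] <;> ring
  inv_mem' := by
    rintro a ⟨a1, ⟨x, a2⟩, ⟨y, a3⟩⟩
    have e := fun i j => congrArg (fun g : GM M => (g : Matrix (Fin 2) (Fin 2) (ZMod M)) i j)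
      (inv_mul_cancel a)
    have e1 : ((a⁻¹ : GM M) : Matrix (Fin 2) (Fin 2) (ZMod M)) 1 0 = 0 := by
      rw [Matrix.coe_units_inv, Matrix.inv_def, Matrix.adjugate_fin_two]
      simp [a1]
    have e2 := e 0 0
    have e3 := e 1 1
    simp only [Units.val_mul, Matrix.mul_apply, Fin.sum_univ_two, a1, a2, a3, e1, Units.val_one,
      Matrix.one_apply_eq] at e2 e3
    exact ⟨e1, ⟨-(((a⁻¹ : GM M) : Matrix (Fin 2) (Fin 2) (ZMod M)) 0 0 * x), by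
      linear_combination e2⟩, ⟨-(((a⁻¹ : GM M) : Matrix (Fin 2) (Fin 2) (ZMod M)) 1 1 * y), by
      linear_combination e3⟩⟩

/-- the Whittaker character -/
def ch (z : O) (g : GM M) : O := z ^ (-(g : Matrix (Fin 2) (Fin 2) (ZMod M)) 0 1).val

theorem pw_val [NeZero M] {z : O} {B : ℕ} (hB : z ^ B = 1) (hM : z ^ M = 1) {a : ZMod M} {n : ℕ}
    (h : Cg M B (n : ZMod M) a) : z ^ n = z ^ a.val := by
  obtain ⟨t, h⟩ := h
  have e : n ≡ a.val + B * t.val [MOD M] := by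
    rw [← ZMod.natCast_eq_natCast_iff]
    push_cast
    rwa [ZMod.natCast_zmod_val, ZMod.natCast_zmod_val]
  rw [pow_eq_pow_mod n hM, e, ← pow_eq_pow_mod _ hM, pow_add, pow_mul, hB, one_pow, mul_one]

theorem ch_mul [NeZero M] {z : O} {B : ℕ} (hB : z ^ B = 1) (hM : z ^ M = 1) :
    ∀ g ∈ HB M B, ∀ h ∈ HB M B, ch z (g * h) = ch z g * ch z h := by
  rintro a ⟨a1, ⟨x, a2⟩, -⟩ b ⟨-, -, ⟨y, b3⟩⟩
  rw [ch, ch, ch, ← pow_add]
  refine (pw_val hB hM ⟨x * b 0 1 + y * a 0 1, ?_⟩).symm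
  simp only [Units.val_mul, Matrix.mul_apply, Fin.sum_univ_two, a2, b3, Nat.cast_add,
    ZMod.natCast_zmod_val]
  ring

theorem Eg_HB [NeZero M] {z : O} {B : ℕ} (hB : z ^ B = 1) (hM : z ^ M = 1) :
    Eg O R (HB M B) (ch z) = Wh O R M z ⊓ Iv O R (Bq M B) := by
  have e : ∀ (x : ℕ), z ^ x * z ^ (-(x : ZMod M)).val = 1 := fun x => by
    rw [← pow_add, pw_val hB hM (a := 0) ⟨0, by simp⟩, ZMod.val_zero, pow_zero]
  apply le_antisymm
  · intro w hw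
    refine ⟨fun x => ?_, fun g hg => ?_⟩
    · rw [hw _ ⟨by simp [un_coe], ⟨0, by simp [un_coe]⟩, ⟨0, by simp [un_coe]⟩⟩, smul_smul]
      exact (congrArg (· • w) (e x)).trans (one_smul _ _)
    · obtain ⟨t, ht⟩ := hg.1 0 1
      rw [hw g ⟨hg.2, by simpa [Cg] using hg.1 0 0, by simpa [Cg] using hg.1 1 1⟩, ch,
        ← pw_val hB hM (n := 0) ⟨t, by rw [ht]; simp⟩, pow_zero]
  · rintro w ⟨a, b⟩ g ⟨g1, g2, ⟨y, g3⟩⟩
    obtain ⟨x, hx⟩ : ∃ x : ℕ, (x : ZMod M) = g 0 1 := ⟨_, ZMod.natCast_zmod_val _⟩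
    have e1 : g = un (x : ZMod M) * (un (-(x : ZMod M)) * g) := by
      rw [← mul_assoc]
      refine (one_mul g).symm.trans (congrArg (· * g) (Units.ext ?_))
      ext i j
      fin_cases i <;> fin_cases j <;> simp [un_coe, Matrix.mul_apply]
    have e2 : un (-(x : ZMod M)) * g ∈ Bq M B := by
      refine ⟨fun i j => ?_, by simp [un_coe, Matrix.mul_apply, g1]⟩
      fin_cases i <;> fin_cases j
      · simpa [un_coe, Matrix.mul_apply, g1, Cg] using g2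
      · exact ⟨-(x * y), by simp [un_coe, Matrix.mul_apply, g3, ← hx]; ring⟩
      · exact ⟨0, by simp [un_coe, Matrix.mul_apply, g1]⟩
      · exact ⟨y, by simp [un_coe, Matrix.mul_apply, g3]⟩
    rw [ch, ← hx]
    conv_lhs => rw [e1, ← Tr.rt_rt, b _ e2, one_smul, ← one_smul O (rt O R _ w), ← e x, mul_comm,
      mul_smul, a x]

theorem Nt.eg {φ : FT M R →ₗ[O] FT M R'} (h : Nt φ) {H : Set (GM M)} {χ : GM M → O} {w : FT M R}
    (a : w ∈ Eg O R H χ) : φ w ∈ Eg O R' H χ := fun x hx => by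
  rw [← h.r, a x hx, map_smul]

end formal

variable {O : Type} [CommRing O] [Co O] {M N' : ℕ}

theorem pa_odd (ℓ : PA N') : Odd ℓ.1 :=
  ℓ.2.1.odd_of_ne_two fun e => ℓ.2.2 (by rw [e]; exact dvd_mul_right 2 N')

theorem nt_red (ϖ : O) : Nt (red M ϖ).toLinearMap := by
  have e : (red M ϖ).toLinearMap =
      ml O M (Ideal.Quotient.mkₐ O (Ideal.span {algebraMap O (AA O) ϖ})).toLinearMap := by
    ext1 w
    ext g n
    rw [ml_coeff]
    exact Tr.red_coeff ϖ w g n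
  exact e ▸ nt_ml _

theorem wd_red (u b : PA N' → (ZMod M)ˣ) {ϖ : O} {i j s : ℕ} (h : ϖ ∣ 2 ^ (s + 1))
    (hj : j ≡ i [MOD 2 ^ (s + 1)]) (Q : G.Wd N') (w : FT M (AA O)) :
    red M ϖ (wd O _ j u b Q w) = wd O _ i u b Q (red M ϖ w) := by
  refine (nt_red ϖ).wd u b (fun ℓ w => ?_) Q w
  obtain ⟨c, hc⟩ := h
  rw [map_nsmul, smul_cg (O := O) (n := s + 1)
    (by rw [hc, mul_comm, mul_smul, Dv.smul_self, smul_zero])
    (pow_cg (pa_odd ℓ) hj), pw_apply, pw_apply, Tr.ep_cong (hj.add_right 1)]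
  simp only [map_add, map_nsmul, map_sub, AlgHom.toLinearMap_apply, Tr.red_ep]

theorem wd_ml {R R' : Type} [CommRing R] [Algebra O R] [CommRing R'] [Algebra O R']
    (u b : PA N' → (ZMod M)ˣ) (φ : R →ₗ[O] R') (i : ℕ) (Q : G.Wd N') (w : FT M R) :
    ml O M φ (wd O _ i u b Q w) = wd O _ i u b Q (ml O M φ w) :=
  (nt_ml φ).wd u b (fun ℓ w => by
    simp only [pw_apply, map_add, map_nsmul, map_sub, Dv.ml_ep]) Q w

theorem wd_L2 (u b : PA N' → (ZMod M)ˣ) {j : ℕ} (Q : G.Wd N') {w : FT M (AA O)}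
    (h1 : wd O _ j u b Q ((1 + ep O (AA O) M (j + 1)) w) = 0)
    (h2 : wd O _ (j + 1) u b Q ((1 - ep O (AA O) M (j + 1)) w) = 0) : wd O _ j u b Q w = 0 := by
  rw [← (nt_add (j + 1)).wd u b (fun ℓ => pw_add j ℓ.1)] at h1
  rw [← (nt_sub (j + 1)).wd u b (fun ℓ => pw_sub j (pa_odd ℓ))] at h2
  apply Tr.two_cancel
  simp only [LinearMap.add_apply, LinearMap.sub_apply, Module.End.one_apply] at h1 h2
  linear_combination h1 + h2

/-- the word `Q` kills the eigenvectors of weight `j + 1` -/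
def K0 (H : Set (GM M)) (χ : GM M → O) (u b : PA N' → (ZMod M)ˣ) (j : ℕ) (Q : G.Wd N') : Prop :=
  ∀ w ∈ L O M (j + 1) ⊓ Eg O _ H χ, wd O (AA O) j u b Q w = 0

section

variable (hL : LIFT O) (hM : Odd M) (h3 : 3 ≤ M) (H : Subgroup (GM M)) (χ : GM M → O)
  (c1 : χ 1 = 1) (c2 : ∀ h ∈ H, ∀ h' ∈ H, χ (h * h') = χ h * χ h') (u b : PA N' → (ZMod M)ˣ)

include hL hM h3 c1 c2

theorem tr_V2 {ϖ : O} (h0 : ϖ ≠ 0) (i s : ℕ) {v : FT M (RR ϖ)}
    (hv : v ∈ V2 M (i + 1) ϖ ⊓ Eg O _ H χ) : ∃ j, 1 ≤ j ∧ j ≡ i [MOD 2 ^ s] ∧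
      ∀ Q, K0 H χ u b j Q → K0 H χ u b (j + 1) Q → wd O _ i u b Q v = 0 := by
  obtain ⟨t, ht, hs⟩ := Tr.exists_s h0 s
  obtain ⟨k, a, a2, w, ⟨⟨c, c'⟩, d⟩, rfl⟩ := (hL M (i + 1) (t + 2 + 1) ϖ hM h3 h0 H χ c1 c2).1 v hv
  obtain ⟨j, rfl⟩ : ∃ j, k = j + 1 := ⟨k - 1, by omega⟩
  replace a := Nat.ModEq.add_right_cancel' 1 a
  refine ⟨j, by omega, a.of_dvd (pow_dvd_pow 2 (by omega)), fun Q q1 q2 => ?_⟩
  rw [← wd_red u b ht a, wd_L2 u b Q (q1 _ ⟨c, (nt_add _).eg d⟩) (q2 _ ⟨c', (nt_sub _).eg d⟩),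
    map_zero]

theorem tr_VV {ϖ : O} (h0 : ϖ ≠ 0) (i s : ℕ)
    (c3 : dg (-1) (-1) ∈ H → χ (dg (-1) (-1)) = (-1) ^ (i + 1)) {v : FT M (RR ϖ)}
    (hv : v ∈ VV M (i + 1) ϖ ⊓ Eg O _ H χ) : ∃ j, 1 ≤ j ∧ j ≡ i [MOD 2 ^ s] ∧
      ∀ Q, K0 H χ u b j Q → wd O _ i u b Q v = 0 := by
  obtain ⟨t, ht, hs⟩ := Tr.exists_s h0 s
  obtain ⟨k, a, a2, w, c, rfl⟩ := (hL M (i + 1) (t + 2 + 1) ϖ hM h3 h0 H χ c1 c2).2 c3 v hv
  obtain ⟨j, rfl⟩ : ∃ j, k = j + 1 := ⟨k - 1, by omega⟩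
  replace a := Nat.ModEq.add_right_cancel' 1 a
  refine ⟨j, by omega, a.of_dvd (pow_dvd_pow 2 (by omega)), fun Q q1 => ?_⟩
  rw [← wd_red u b ht a, q1 w c, map_zero]

theorem tr_XD (hV : DIV O) (i s : ℕ) {v : FT M (RD O)}
    (hv : v ∈ XD O M i ⊓ Eg O _ H χ) : ∃ j, 1 ≤ j ∧ j ≡ i [MOD 2 ^ s] ∧
      ∀ Q, K0 H χ u b j Q → K0 H χ u b (j + 1) Q → wd O _ i u b Q v = 0 := by
  obtain ⟨p1, -, p3, p4, -⟩ := hV M hM h3
  obtain ⟨n, a⟩ := (p4 i v hv.1).1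
  obtain ⟨x, c, rfl⟩ := ((p3 i _ (Dv.two_pow_ne n)).2 v).1 ⟨hv.1, a⟩
  obtain ⟨j, j1, j2, j3⟩ := tr_V2 hL hM h3 H χ c1 c2 u b (Dv.two_pow_ne n) i s (v := x)
    ⟨c.1, fun g hg => p1 _ (Dv.two_pow_ne n) (by rw [Dv.ml_rt, hv.2 g hg, map_smul])⟩
  exact ⟨j, j1, j2, fun Q q1 q2 => by rw [← wd_ml, j3 Q q1 q2, map_zero]⟩

theorem tr_XD1 (hV : DIV O) (i s : ℕ)
    (c3 : dg (-1) (-1) ∈ H → χ (dg (-1) (-1)) = (-1) ^ (i + 1)) {v : FT M (RD O)}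
    (hv : v ∈ XD1 O M (i + 1) ⊓ Eg O _ H χ) : ∃ j, 1 ≤ j ∧ j ≡ i [MOD 2 ^ s] ∧
      ∀ Q, K0 H χ u b j Q → wd O _ i u b Q v = 0 := by
  obtain ⟨p1, p2, -, p4, -⟩ := hV M hM h3
  obtain ⟨n, a⟩ := (p4 i v (Submodule.mem_sup_left hv.1)).1
  obtain ⟨x, c, rfl⟩ := ((p2 _ _ (Dv.two_pow_ne n)).2 v).1 ⟨hv.1, a⟩
  obtain ⟨j, j1, j2, j3⟩ := tr_VV hL hM h3 H χ c1 c2 u b (Dv.two_pow_ne n) i s c3 (v := x)
    ⟨c.1, fun g hg => p1 _ (Dv.two_pow_ne n) (by rw [Dv.ml_rt, hv.2 g hg, map_smul])⟩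
  exact ⟨j, j1, j2, fun Q q1 => by rw [← wd_ml, j3 Q q1, map_zero]⟩

end

end Cd

open Cd

variable (O : Type) [CommRing O] [Co O]

theorem clad (hC : CLA O) (hL : LIFT O) (hV : DIV O) : CLAD O := by
  intro M N₁ N₂ B N' _ u b z i hl h3 hz
  haveI : NeZero M := ⟨hl.odd.pos.ne'⟩
  have hN : N₁ ≠ 0 := fun e => NeZero.ne M (by rw [hl.eq, e, zero_mul])
  have z1 : z ^ N₁ = 1 := Co.inj (by
    have : (N₁ : ℂ) ≠ 0 := by exact_mod_cast hN
    rw [map_pow, hz, map_one, P027M.M.ze, ← Complex.exp_nat_mul, ← Complex.exp_two_pi_mul_I]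
    congr 1
    push_cast
    field_simp)
  have z2 : ∀ {n}, N₁ ∣ n → z ^ n = 1 := by
    rintro _ ⟨c, rfl⟩
    rw [pow_mul, z1, one_pow]
  have zB := z2 hl.dB
  have zM := z2 (hl.dB.trans hl.Bd)
  have c1 : ch z (1 : GM M) = 1 := by simp [ch]
  have k0 : ∀ {K : Finset ℕ} {j Q}, j ∈ K → G.Kil N' N' B K Q →
      K0 (HB M B : Set (GM M)) (ch z) u b j Q := by
    intro K j Q hj hQ w hw
    rw [Eg_HB zB zM, ← inf_assoc] at hw
    exact hC M N₁ N₂ B N' u b z j hl hz Q (fun i hi => hQ i (Finset.mem_singleton.1 hi ▸ hj)) w hw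
  refine ⟨fun v hv => ?_, fun hB v hv s => ?_⟩
  · rw [inf_assoc, ← Eg_HB zB zM] at hv
    obtain ⟨j, j1, -, j3⟩ := tr_XD hL hl.odd h3 _ _ c1 (ch_mul zB zM) u b hV i 0 hv
    exact ⟨{j, j + 1}, by simp [j1], fun Q hQ => j3 Q (k0 (by simp) hQ) (k0 (by simp) hQ)⟩
  · rw [inf_assoc, ← Eg_HB zB zM] at hv
    obtain ⟨j, j1, j2, j3⟩ := tr_XD1 hL hl.odd h3 _ _ c1 (ch_mul zB zM) u b hV i s (fun a => by
      rcases hB with hB | hB
      · haveI : Fact (2 < B) := ⟨hB⟩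
        have e := (Wq.cast_eq hl.Bd _ _).2 a.2.1
        rw [dg_coe] at e
        exact absurd (by simpa [-ZMod.castHom_apply] using e) (ZMod.neg_one_ne_one (n := B))
      · rw [hB.add_one.neg_one_pow]
        simp [ch, dg_coe]) hv
    exact ⟨j, j1, j2, fun Q hQ => j3 Q (k0 (by simp) hQ)⟩

end Vale.Agent.P022D.V
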