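import Vale.Agent.P022D.V.Defs3
import Vale.Agent.P022D.G.Defs

/-!
# P022D, block V: statements
-/

set_option linter.all false

open Matrix
open scoped MatrixGroups

noncomputable section

namespace Vale.Agent.P022D.V

open Vale.Agent.P022 Vale.Agent.P027M.M

/-- `π` generates the maximal ideal -/
structure Unif {O : Type} [CommRing O] (π : O) : Prop where
  ne : π ≠ 0
  nu : ¬ IsUnit π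
  dvd : ∀ a, ¬ IsUnit a → π ∣ a

/-- `z` is a primitive `M`-th root of unity in the strong sense -/
structure PZ (M : ℕ) {R : Type} [CommRing R] (z : R) : Prop where
  pow : z ^ M = 1
  unit : ∀ a : ℕ, ¬ M ∣ a → IsUnit (z ^ a - 1)

/-- `x ≡ y` modulo `N`, for classes modulo `M` -/
def Cg (M N : ℕ) (x y : ZMod M) : Prop := ∃ t : ZMod M, x = y + (N : ZMod M) * t

/-- coefficients exist -/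
def EMB : Prop := ∀ (E : Type) [NontriviallyNormedField E] [NormedAlgebra ℚ_[2] E]
  [FiniteDimensional ℚ_[2] E] (O : Subring E), (∀ x : E, x ∈ O ↔ ‖x‖ ≤ 1) → Nonempty (Co O)

variable (O : Type) [CommRing O] [Co O]

/-- roots of unity of odd order -/
def ROOT : Prop := ∀ M : ℕ, Odd M → av O (zA O M) = ze M 1 ∧ PZ M (zA O M) ∧
  IsUnit (M : AA O) ∧ IsUnit (M : O) ∧ (∀ ϖ : O, PZ M (zR M ϖ)) ∧ PZ M (zD O M) ∧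
  (∀ σ : ℂ ≃+* ℂ, (∀ a : O, σ (Co.j a) = Co.j a) → ∃ m : ℕ, σ (ze M 1) = ze M 1 ^ 2 ^ m) ∧
  (∀ ϖ : O, ϖ ≠ 0 → ∃ n : ℕ, ϖ ∣ 2 ^ n) ∧ ¬ IsUnit (2 : O) ∧ (2 : O) ≠ 0

/-- the coefficients lie in the unramified extension `O[ζ_M]` -/
def UNR : Prop := ∀ M : ℕ, Odd M → ∀ z : AA O,
  (∀ σ : ℂ ≃+* ℂ, (∀ a : O, σ (Co.j a) = Co.j a) → σ (ze M 1) = ze M 1 →
    σ (av O z) = av O z) →
  (∃ c : ℕ → O, z = ∑ i ∈ Finset.range M, c i • zA O M ^ i ∧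
    (¬ IsUnit z → ∀ i, ¬ IsUnit (c i))) ∧
  ∀ ϖ : O, (∀ σ : ℂ ≃+* ℂ, (∀ a : O, σ (Co.j a) = Co.j a) →
    ∃ y : AA O, σ (av O z) = av O z + Co.j ϖ * av O y) →
    ∃ (a : O) (y : AA O), z = algebraMap O _ a + algebraMap O _ ϖ * y

/-- Sturm's bound modulo the maximal ideal, finiteness -/
def STURM : Prop := ∀ (M k : ℕ) (π : O), Odd M → Unif π →
  (∀ v ∈ Fil M k π, (∀ g n, 12 * n ≤ k * M → (v g).coeff n = 0) → v = 0) ∧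
  (Fil M k π).FG ∧ (Fil2 M k π).FG

/-- the unions over the weights -/
def VS1 : Prop := ∀ (M s : ℕ) (ϖ : O), Odd M → 2 ≤ s → ϖ ∣ 2 ^ (s + 2) →
  (∀ k k', k ≤ k' → k ≡ k' [MOD 2 ^ s] → Fil M k ϖ ≤ Fil M k' ϖ ∧ Fil2 M k ϖ ≤ Fil2 M k' ϖ) ∧
  (∀ k₀ v, v ∈ VV M k₀ ϖ ↔ ∃ k, k ≡ k₀ [MOD 2 ^ s] ∧ v ∈ Fil M k ϖ)

/-- the same for two weights -/
def VS2 : Prop := ∀ (M s : ℕ) (ϖ : O), Odd M → 2 ≤ s → ϖ ∣ 2 ^ (s + 1) →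
  (∀ k₀ v, v ∈ V2 M k₀ ϖ ↔ ∃ k, k ≡ k₀ [MOD 2 ^ s] ∧ v ∈ Fil2 M k ϖ) ∧
  (∀ k₀ v, v ∈ V2 M k₀ ϖ ↔ ∃ v' : FT M (RR (ϖ * 2)), rho M ϖ 2 v' = v ∧
    v' + ep O _ M k₀ v' ∈ VV M k₀ (ϖ * 2) ∧ v' - ep O _ M k₀ v' ∈ VV M (k₀ + 1) (ϖ * 2))

/-- products, translations, the translation law -/
def VS3 : Prop := ∀ (M : ℕ) (ϖ : O), Odd M → ϖ ≠ 0 →
  (∀ k l, ∀ v ∈ VV M k ϖ, ∀ w ∈ VV M l ϖ, v * w ∈ VV M (k + l) ϖ) ∧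
  (∀ k, ∀ v ∈ VV M 0 ϖ, ∀ w ∈ V2 M k ϖ, v * w ∈ V2 M k ϖ) ∧ 1 ∈ VV M 0 ϖ ∧
  (∀ k h, ∀ v ∈ VV M k ϖ, rt O _ h v ∈ VV M k ϖ) ∧
  (∀ k h, ∀ v ∈ V2 M k ϖ, rt O _ h v ∈ V2 M k ϖ) ∧
  (∀ k, ∀ v ∈ VV M k ϖ, ep O _ M k v = v) ∧
  (∀ k, VV M k ϖ ≤ V2 M k ϖ ∧ VV M (k + 1) ϖ ≤ V2 M k ϖ) ∧
  (∀ k, ∀ w ∈ L O M k, TC (zA O M) w ∧ ep O _ M k w = w) ∧
  (∀ k, ∀ v ∈ V2 M k ϖ, TC (zR M ϖ) v) ∧ (∀ k, ∀ v ∈ VD O M k, TC (zD O M) v)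

/-- flatness -/
def FLAT : Prop := ∀ (M k : ℕ) (ϖ ϖ' : O), Odd M → ϖ ≠ 0 → ϖ' ≠ 0 →
  (VV M k (ϖ * ϖ')).map (rho M ϖ ϖ').toLinearMap = VV M k ϖ ∧
  (V2 M k (ϖ * ϖ')).map (rho M ϖ ϖ').toLinearMap = V2 M k ϖ ∧
  (∀ v ∈ VV M k (ϖ * ϖ'), rho M ϖ ϖ' v = 0 → ∃ v' ∈ VV M k (ϖ * ϖ'), v = ϖ • v') ∧
  (∀ v ∈ V2 M k (ϖ * ϖ'), rho M ϖ ϖ' v = 0 → ∃ v' ∈ V2 M k (ϖ * ϖ'), v = ϖ • v') ∧
  (∀ v : FT M (RR (ϖ * ϖ')), ϖ' • v = 0 ↔ rho M ϖ ϖ' v = 0)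

/-- modulo `2` the weight does not matter -/
def PAR : Prop := ∀ M : ℕ, Odd M → 3 ≤ M →
  (∃ a ∈ L O M 1, ∃ b : FT M (AA O), a = 1 + 2 * b) ∧
  ∀ (k : ℕ) (ϖ : O), ϖ ∣ 2 → VV M k ϖ = VV M 0 ϖ

/-- the Hecke operators preserve the lattices (`p = 2` allowed) -/
def HK : Prop := ∀ (M i p : ℕ) (u : (ZMod M)ˣ), Odd M → p.Prime → (u : ZMod M) = p →
  ∀ w ∈ L O M (i + 1), Tf O (AA O) i p u w ∈ L O M (i + 1)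

/-- the depletion at `2` preserves the spaces -/
def SER : Prop := ∀ (M k : ℕ) (ϖ : O), Odd M → ϖ ≠ 0 →
  (∀ v ∈ VV M k ϖ, dep O _ M v ∈ VV M k ϖ) ∧ (∀ v ∈ V2 M k ϖ, dep O _ M v ∈ V2 M k ϖ) ∧
  (∀ v ∈ VD O M k, dep O _ M v ∈ VD O M k)

/-- the Hecke operators on the reductions -/
def HKV : Prop := ∀ (M i p : ℕ) (u : (ZMod M)ˣ), Odd M → p.Prime → p ≠ 2 → (u : ZMod M) = p →
  (∀ ϖ : O, ϖ ≠ 0 → (∀ v ∈ VV M (i + 1) ϖ, Tf O _ i p u v ∈ VV M (i + 1) ϖ) ∧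
    (∀ v ∈ V2 M (i + 1) ϖ, T2 O _ i p u v ∈ V2 M (i + 1) ϖ ∧ S2 O _ i p u v ∈ V2 M (i + 1) ϖ) ∧
    (∀ v ∈ X2 M i ϖ, T2 O _ i p u v ∈ X2 M i ϖ ∧ S2 O _ i p u v ∈ X2 M i ϖ)) ∧
  (∀ v ∈ XD1 O M (i + 1), Tf O _ i p u v ∈ XD1 O M (i + 1) ∧ Sf O _ i p u v ∈ XD1 O M (i + 1) ∧
    T2 O _ i p u v = Tf O _ i p u v ∧ S2 O _ i p u v = Sf O _ i p u v) ∧
  (∀ v ∈ XD O M i, T2 O _ i p u v ∈ XD O M i ∧ S2 O _ i p u v ∈ XD O M i)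

/-- the divisible carrier -/
def DIV : Prop := ∀ (M : ℕ), Odd M → 3 ≤ M →
  (∀ ϖ : O, ϖ ≠ 0 → Function.Injective (ml O M (dv ϖ))) ∧
  (∀ (k : ℕ) (ϖ : O), ϖ ≠ 0 → (∀ v ∈ XD1 O M k, ∃ v' ∈ XD1 O M k, v = ϖ • v') ∧
    ∀ v, (v ∈ XD1 O M k ∧ ϖ • v = 0) ↔
      v ∈ (VV M k ϖ ⊓ Od O M (RR ϖ)).map (ml O M (dv ϖ))) ∧
  (∀ (i : ℕ) (ϖ : O), ϖ ≠ 0 → (∀ v ∈ XD O M i, ∃ v' ∈ XD O M i, v = ϖ • v') ∧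
    ∀ v, (v ∈ XD O M i ∧ ϖ • v = 0) ↔ v ∈ (X2 M i ϖ).map (ml O M (dv ϖ))) ∧
  (∀ i, ∀ v ∈ XD O M i, (∃ n : ℕ, (2 : O) ^ n • v = 0) ∧ (∀ h, rt O _ h v ∈ XD O M i) ∧
    (v ∈ XD1 O M (i + 1) ↔ ep O _ M (i + 1) v = v)) ∧
  (∀ k h, ∀ v ∈ XD1 O M k, rt O _ h v ∈ XD1 O M k)

/-- the expansion principle -/
def IRR : Prop := ∀ (M k : ℕ) (ϖ : O), Odd M → ϖ ≠ 0 → ∀ v ∈ VV M k ϖ, ∀ g, v g = 0 →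
  ∀ g' : GM M, Matrix.GeneralLinearGroup.det g' = Matrix.GeneralLinearGroup.det g → v g' = 0

/-- an element of trace one for `GL₂(ℤ/M) / ± 1` -/
def TR1 : Prop := ∀ (M : ℕ) [NeZero M] (ϖ : O), Odd M → 3 ≤ M → ϖ ≠ 0 →
  ∃ w ∈ VV M 0 ϖ, ∃ s : Finset (GM M), (∀ g, g ∈ s ↔ dg (-1) (-1) * g ∉ s) ∧
    ∑ g ∈ s, rt O _ g w = 1

/-- Higman's operator for the whole group `GL₂(ℤ/M)` on the two weight space -/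
def TR2 : Prop := ∀ (M : ℕ) [NeZero M] (k : ℕ) (ϖ : O), Odd M → 3 ≤ M → ϖ ≠ 0 →
  ∃ μ : Module.End O (FT M (RR ϖ)), (∀ v ∈ V2 M k ϖ, μ v ∈ V2 M k ϖ) ∧
    ∀ v, ∑ g : GM M, rt O _ g (μ (rt O _ g⁻¹ v)) = v

/-- invariants are norms -/
def NRM : Prop := ∀ (M : ℕ) [NeZero M] (i : ℕ) (ϖ : O), Odd M → 3 ≤ M → ϖ ≠ 0 →
  (∃ μ : Module.End O (FT M (RR ϖ)), (∀ v ∈ X2 M i ϖ, μ v ∈ X2 M i ϖ) ∧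
    ∀ v ∈ X2 M i ϖ, ∑ g : GM M, rt O _ g (μ (rt O _ g⁻¹ v)) = v) ∧
  ∀ (H : Subgroup (GM M)) (s : Finset (GM M)), (∀ h, h ∈ s ↔ h ∈ H) →
    ∀ χ : GM M → O, χ 1 = 1 → (∀ h ∈ H, ∀ h' ∈ H, χ (h * h') = χ h * χ h') →
    ∀ v ∈ X2 M i ϖ ⊓ Eg O _ H χ, ∃ v' ∈ X2 M i ϖ, v = ∑ h ∈ s, χ h⁻¹ • rt O _ h v'

/-- eigenvectors lift to characteristic zero -/
def LIFT : Prop := ∀ (M k₀ s : ℕ) (ϖ : O), Odd M → 3 ≤ M → ϖ ≠ 0 →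
  ∀ (H : Subgroup (GM M)) (χ : GM M → O), χ 1 = 1 →
  (∀ h ∈ H, ∀ h' ∈ H, χ (h * h') = χ h * χ h') →
  (∀ v ∈ V2 M k₀ ϖ ⊓ Eg O _ H χ, ∃ k, k ≡ k₀ [MOD 2 ^ s] ∧ 2 ≤ k ∧
    ∃ w ∈ L2 O M k ⊓ Eg O _ H χ, red M ϖ w = v) ∧
  ((dg (-1) (-1) ∈ H → χ (dg (-1) (-1)) = (-1) ^ k₀) →
    ∀ v ∈ VV M k₀ ϖ ⊓ Eg O _ H χ, ∃ k, k ≡ k₀ [MOD 2 ^ s] ∧ 2 ≤ k ∧
      ∃ w ∈ L O M k ⊓ Eg O _ H χ, red M ϖ w = v)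

/-- change of level, lattices -/
def DESC : Prop := ∀ (M₀ M k : ℕ) (h : M₀ ∣ M), Odd M →
  (L O M₀ k).map (ifl O _ h) = L O M k ⊓ Iv O _ (Kq M M₀) ∧
  Kq M M₀ = ((pr h).ker : Set (GM M)) ∧ Function.Surjective (pr h)

/-- change of level, reductions -/
def DESCV : Prop := ∀ (M₀ M : ℕ) (h : M₀ ∣ M), Odd M → 3 ≤ M₀ →
  (∀ (k : ℕ) (ϖ : O), ϖ ≠ 0 → (VV M₀ k ϖ).map (ifl O _ h) = VV M k ϖ ⊓ Iv O _ (Kq M M₀) ∧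
    (V2 M₀ k ϖ).map (ifl O _ h) = V2 M k ϖ ⊓ Iv O _ (Kq M M₀) ∧
    (X2 M₀ k ϖ).map (ifl O _ h) = X2 M k ϖ ⊓ Iv O _ (Kq M M₀) ∧
    (Vb M₀ ϖ).map (ifl O _ h) = Vb M ϖ ⊓ Iv O _ (Kq M M₀)) ∧
  (∀ k, (XD1 O M₀ k).map (ifl O _ h) = XD1 O M k ⊓ Iv O _ (Kq M M₀) ∧
    (XD O M₀ k).map (ifl O _ h) = XD O M k ⊓ Iv O _ (Kq M M₀))

/-- `W` preserves the lattices -/
def WL : Prop := ∀ (M M₀ q k : ℕ), Sp M M₀ q → ∀ w ∈ L O M k ⊓ Iv O _ (Uq M M₀),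
  W1 O _ M M₀ q (zA O M) k w ∈ L O M k

/-- `W` on the reductions -/
def WV : Prop := ∀ (M M₀ q : ℕ), Sp M M₀ q → 3 ≤ M →
  (∀ (k : ℕ) (ϖ : O), ϖ ≠ 0 → ∀ v ∈ VV M k ϖ ⊓ Iv O _ (Uq M M₀),
    W1 O _ M M₀ q (zR M ϖ) k v ∈ VV M k ϖ) ∧
  (∀ (i : ℕ) (ϖ : O), ϖ ≠ 0 → ∀ v ∈ X2 M i ϖ ⊓ Iv O _ (Uq M M₀),
    W2 O _ M M₀ q (zR M ϖ) i v ∈ X2 M i ϖ) ∧
  (∀ k, ∀ v ∈ XD1 O M k ⊓ Iv O _ (Uq M M₀), W1 O _ M M₀ q (zD O M) k v ∈ XD1 O M k)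

/-- Ihara's lemma on expansions -/
def IH0 : Prop := ∀ (M p : ℕ) (u : (ZMod M)ˣ) (π : O), Odd M → 3 ≤ M → Unif π → p.Prime → p ≠ 2 →
  (u : ZMod M) = p → ∀ v ∈ Vb M π, Vf O _ p u v ∈ VV M 0 π → v = 0

/-- Ihara's lemma -/
def IH : Prop := ∀ (M M₀ q k : ℕ) (h : Sp M M₀ q) (π : O), 3 ≤ M₀ → Unif π →
  ∀ f ∈ Vb M₀ π, ∀ g ∈ Vb M₀ π,
    ifl O _ h.dvd f + W1 O _ M M₀ q (zR M π) k (ifl O _ h.dvd g) = 0 → f = 0 ∧ g = 0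

/-- the operators which are used for the cyclicity -/
def Ops (R : Type) [CommRing R] [Algebra O R] (M N i : ℕ) : Set (Module.End O (FT M R)) :=
  {t | (∃ (p : ℕ) (u : (ZMod M)ˣ), p.Prime ∧ p ≠ 2 ∧ (u : ZMod M) = p ∧
      (t = Tf O R i p u ∨ t = Sf O R i p u)) ∨
    ∃ a d : (ZMod M)ˣ, Cg M N a 1 ∧ Cg M N d 1 ∧ t = (rt O R (dg a d)).toLinearMap}

/-- **cyclicity** up to `∏ (d₁ - d₂)` -/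
def CYC : Prop := ∀ (M N i : ℕ) (l : List ℕ) (z : O), Odd M → 3 ≤ N → M = N * l.prod →
  l.Nodup → (∀ q ∈ l, q.Prime ∧ ¬ q ∣ N) → Co.j z = ze N 1 →
  ∀ v ∈ XD1 O M (i + 1) ⊓ Wh O _ M z,
  (∀ t ∈ Algebra.adjoin O (Ops O (RD O) M N i), (t v 1).coeff l.prod = 0) →
  ∀ b : ℕ → (ZMod M)ˣ, (∀ q ∈ l, Cg M (M / q) (b q) 1) →
  (l.map fun q => ((rt O (RD O) (dg (b q) 1)).toLinearMap -
    (rt O (RD O) (dg 1 (b q))).toLinearMap : Module.End O (FT M (RD O)))).prod v = 0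

/-- the first coefficient is rational -/
def RAT : Prop := ∀ (M N Q k : ℕ) (z : O), Odd M → 3 ≤ N → M = N * Q → Nat.Coprime N Q →
  Co.j z = ze N 1 → ∀ v ∈ XD1 O M k ⊓ Wh O _ M z,
  (∀ (a : (ZMod M)ˣ) (m : ℕ), Cg M N a 1 → Cg M Q a (2 ^ m) → rt O _ (dg 1 a) v = v) →
  ∀ n, ∃ (a : O) (e : ℕ), (v 1).coeff n = eD O (Co.j a / 2 ^ e)

/-- **bounded number of generators** -/
def GEN : Prop := ∀ r : ℕ, ∃ b : ℕ, ∀ (M N : ℕ) (l : List ℕ) (z π : O), Odd M → 3 ≤ N →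
  M = N * l.prod → l.Nodup → (∀ q ∈ l, q.Prime ∧ ¬ q ∣ N) → l.length = r → Co.j z = ze N 1 →
  Unif π → ∀ (lam : ℕ → O) (om : GM M → O) (X : Submodule O (FT M (RR π))),
  X ≤ Vb M π ⊓ Wh O _ M z ⊓ Iv O _ (Bq M N) ⊓ Eg O _ (Set.range fun a => dg a a) om →
  (∀ (p : ℕ) (u : (ZMod M)ˣ), p.Prime → p ≠ 2 → (u : ZMod M) = p → ∀ v ∈ X,
    Tf O _ 0 p u v = lam p • v) →
  ∃ s : Finset (FT M (RR π)), s.card ≤ b ∧ Submodule.span O (s : Set _) = X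

/-- the untwisted operators: the letters of level `N'` on tuples of level `M`; `u ℓ` is the class
of `ℓ`, `b ℓ` its part at the primes where the twist is removed -/
def wd (R : Type) [CommRing R] [Algebra O R] {M N' : ℕ} (i : ℕ) (u b : PA N' → (ZMod M)ˣ) :
    G.Wd N' →ₐ[ℤ] Module.End O (FT M R) :=
  FreeAlgebra.lift ℤ (Sum.elim
    (fun ℓ => T2 O R i ℓ.1 (u ℓ) * (rt O R (dg 1 (b ℓ)⁻¹)).toLinearMap)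
    (fun ℓ => S2 O R i ℓ.1 (u ℓ) * (rt O R (dg 1 ((b ℓ)⁻¹ * (b ℓ)⁻¹))).toLinearMap))

/-- levels: `M = N₁ N₂`, Whittaker at `N₁`, unipotent invariant at `N₂`, invariant under the Borel
subgroup outside `B`, classical level `N' = N₁² N₂` -/
structure Lev (M N₁ N₂ B N' : ℕ) (u b : PA N' → (ZMod M)ˣ) : Prop where
  odd : Odd M
  eq : M = N₁ * N₂
  cop : Nat.Coprime N₁ N₂
  lev : N' = N₁ ^ 2 * N₂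
  dB : N₁ ∣ B
  Bd : B ∣ M
  copB : Nat.Coprime B (M / B)
  hu : ∀ ℓ, (u ℓ : ZMod M) = (ℓ.1 : ZMod M)
  hb1 : ∀ ℓ, Cg M N₁ (b ℓ) 1
  hb2 : ∀ ℓ, Cg M N₂ (b ℓ) (ℓ.1 : ZMod M)

/-- **dictionary with classical forms**, characteristic zero -/
def CLA : Prop := ∀ (M N₁ N₂ B N' : ℕ) [NeZero N'] (u b : PA N' → (ZMod M)ˣ) (z : O) (i : ℕ),
  Lev M N₁ N₂ B N' u b → Co.j z = ze N₁ 1 → ∀ Q : G.Wd N', G.Kil N' N' B {i} Q →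
  ∀ w ∈ L O M (i + 1) ⊓ Wh O _ M z ⊓ Iv O _ (Bq M B), wd O (AA O) i u b Q w = 0

/-- the same for the divisible carrier: every finite set of vectors is killed by the words which
kill the classical forms of finitely many weights and by the words divisible by a power of two -/
def CLAD : Prop := ∀ (M N₁ N₂ B N' : ℕ) [NeZero N'] (u b : PA N' → (ZMod M)ˣ) (z : O) (i : ℕ),
  Lev M N₁ N₂ B N' u b → 3 ≤ M → Co.j z = ze N₁ 1 →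
  (∀ v ∈ XD O M i ⊓ Wh O _ M z ⊓ Iv O _ (Bq M B), ∃ K : Finset ℕ, (∀ j ∈ K, 1 ≤ j) ∧
    ∀ Q : G.Wd N', G.Kil N' N' B K Q → wd O (RD O) i u b Q v = 0) ∧
  (3 ≤ B ∨ Odd i → ∀ v ∈ XD1 O M (i + 1) ⊓ Wh O _ M z ⊓ Iv O _ (Bq M B), ∀ s, ∃ j, 1 ≤ j ∧ j ≡ i [MOD 2 ^ s] ∧
    ∀ Q : G.Wd N', G.Kil N' N' B {j} Q → wd O (RD O) i u b Q v = 0)

end Vale.Agent.P022D.V
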