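import Vale.Agent.P022D.V.Spec2

/-!
# P022D, block V: coefficients exist

An algebraic closure of a finite extension of the `2`-adic numbers is isomorphic to `ℂ`; the unit
ball of the spectral norm is the required valuation ring.
-/

set_option linter.all false

open Cardinal

noncomputable section

namespace Vale.Agent.P022D.V

namespace Emb

theorem card_padic : #ℚ_[2] ≤ 𝔠 := by
  have h1 : #ℚ_[2] ≤ #(CauSeq ℚ (padicNorm 2)) := Cardinal.mk_quotient_le
  have h2 : #(CauSeq ℚ (padicNorm 2)) ≤ #(ℕ → ℚ) := Cardinal.mk_subtype_le _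
  have h3 : #(ℕ → ℚ) = 𝔠 := by simp
  exact h1.trans (h2.trans h3.le)

theorem iso (E : Type) [NontriviallyNormedField E] [NormedAlgebra ℚ_[2] E]
    [FiniteDimensional ℚ_[2] E] : Nonempty (AlgebraicClosure E ≃+* ℂ) := by
  haveI : CompleteSpace E := FiniteDimensional.complete ℚ_[2] E
  haveI : CharZero E := charZero_of_injective_algebraMap (algebraMap ℚ_[2] E).injective
  have h1 : 𝔠 ≤ #E := continuum_le_cardinal_of_nontriviallyNormedField E
  have h2 : #E ≤ #(AlgebraicClosure E) :=
    Cardinal.mk_le_of_injective (algebraMap E (AlgebraicClosure E)).injective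
  have h3 : #E ≤ 𝔠 :=
    (Algebra.IsAlgebraic.cardinalMk_le_max ℚ_[2] E).trans
      (max_le card_padic Cardinal.aleph0_le_continuum)
  have h4 : #(AlgebraicClosure E) ≤ 𝔠 :=
    (Algebra.IsAlgebraic.cardinalMk_le_max E (AlgebraicClosure E)).trans
      (max_le h3 Cardinal.aleph0_le_continuum)
  have h5 : #(AlgebraicClosure E) = #ℂ := by
    rw [Cardinal.mk_complex]
    exact le_antisymm h4 (h1.trans h2)
  exact IsAlgClosed.ringEquiv_of_equiv_of_charZero
    (Cardinal.aleph0_lt_continuum.trans_le (h1.trans h2)) (Cardinal.eq.1 h5)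

/-- the unit ball of a multiplicative nonarchimedean size function -/
def ball (N : ℂ → ℝ) (h0 : ∀ x, 0 ≤ N x) (h1 : N 1 = 1) (hz : N 0 = 0)
    (hm : ∀ x y, N (x * y) = N x * N y) (ha : ∀ x y, N (x + y) ≤ max (N x) (N y))
    (hn : ∀ x, N (-x) = N x) : ValuationSubring ℂ where
  carrier := {z | N z ≤ 1}
  mul_mem' := by
    intro a b h k
    show N (a * b) ≤ 1
    rw [hm]
    exact mul_le_one₀ h (h0 b) k
  one_mem' := h1.le
  add_mem' := by
    intro a b h k
    exact (ha a b).trans (max_le h k)
  zero_mem' := by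
    show N 0 ≤ 1
    rw [hz]
    exact zero_le_one
  neg_mem' := by
    intro a h
    show N (-a) ≤ 1
    rw [hn]
    exact h
  mem_or_inv_mem' := by
    intro x
    by_cases hx : x = 0
    · left
      show N x ≤ 1
      rw [hx, hz]
      exact zero_le_one
    · have e : N x * N x⁻¹ = 1 := by rw [← hm, mul_inv_cancel₀ hx, h1]
      by_cases h : N x ≤ 1
      · exact Or.inl h
      · right
        show N x⁻¹ ≤ 1
        have h' := not_le.1 h
        have := h0 x⁻¹
        nlinarith

end Emb

theorem emb : EMB := by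
  intro E _ _ _ O hO
  haveI : CompleteSpace E := FiniteDimensional.complete ℚ_[2] E
  haveI : CharZero E := charZero_of_injective_algebraMap (algebraMap ℚ_[2] E).injective
  haveI : IsUltrametricDist E := IsUltrametricDist.of_normedAlgebra ℚ_[2]
  obtain ⟨ι⟩ := Emb.iso E
  let N : ℂ → ℝ := fun z => spectralNorm E (AlgebraicClosure E) (ι.symm z)
  have alg : ∀ x : AlgebraicClosure E, IsAlgebraic E x := fun x => Algebra.IsAlgebraic.isAlgebraic x
  have h0 : ∀ x, 0 ≤ N x := fun x => spectralNorm_nonneg _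
  have h1 : N 1 = 1 := by
    show spectralNorm E (AlgebraicClosure E) (ι.symm 1) = 1
    rw [map_one]
    exact spectralNorm_one
  have hz : N 0 = 0 := by
    show spectralNorm E (AlgebraicClosure E) (ι.symm 0) = 0
    rw [map_zero]
    exact spectralNorm_zero
  have hm : ∀ x y, N (x * y) = N x * N y := by
    intro x y
    show spectralNorm E (AlgebraicClosure E) (ι.symm (x * y)) = _
    rw [map_mul]
    exact spectralAlgNorm_mul (K := E) (ι.symm x) (ι.symm y)
  have ha : ∀ x y, N (x + y) ≤ max (N x) (N y) := by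
    intro x y
    show spectralNorm E (AlgebraicClosure E) (ι.symm (x + y)) ≤ _
    rw [map_add]
    exact isNonarchimedean_spectralNorm (K := E) (ι.symm x) (ι.symm y)
  have hn : ∀ x, N (-x) = N x := by
    intro x
    show spectralNorm E (AlgebraicClosure E) (ι.symm (-x)) = _
    rw [map_neg]
    exact spectralNorm_neg (alg _)
  have hpos : ∀ x, x ≠ 0 → 0 < N x := by
    intro x hx
    refine spectralNorm_zero_lt ?_ (alg _)
    intro h
    exact hx (by simpa using congrArg ι h)
  have hext : ∀ e : E, N (ι (algebraMap E (AlgebraicClosure E) e)) = ‖e‖ := by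
    intro e
    show spectralNorm E (AlgebraicClosure E) (ι.symm (ι _)) = _
    rw [RingEquiv.symm_apply_apply]
    exact spectralNorm_extends e
  have hpow : ∀ (x : ℂ) (n : ℕ), N (x ^ n) = N x ^ n := by
    intro x n
    induction n with
    | zero => rw [pow_zero, pow_zero, h1]
    | succ n ih => rw [pow_succ, pow_succ, hm, ih]
  have n2 : ‖(2 : E)‖ = (2 : ℝ)⁻¹ := by
    have e : (2 : E) = algebraMap ℚ_[2] E ((2 : ℕ) : ℚ_[2]) := by
      rw [map_natCast]
      norm_num
    rw [e, norm_algebraMap', Padic.norm_p]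
    norm_num
  have N2 : N 2 = (2 : ℝ)⁻¹ := by
    rw [← n2, ← hext 2, map_ofNat, map_ofNat]
  let j : O →+* ℂ := (ι.toRingHom.comp (algebraMap E (AlgebraicClosure E))).comp O.subtype
  have hj : ∀ a : O, j a = ι (algebraMap E (AlgebraicClosure E) (a : E)) := fun a => rfl
  let A : ValuationSubring ℂ := Emb.ball N h0 h1 hz hm ha hn
  have hA : ∀ z, z ∈ A ↔ N z ≤ 1 := fun z => Iff.rfl
  refine ⟨⟨j, A, ?_, ?_, ?_, ?_, ?_, ?_, ?_⟩⟩
  · intro a b h
    rw [hj, hj] at h
    exact Subtype.ext ((algebraMap E (AlgebraicClosure E)).injective (ι.injective h))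
  · intro a
    rw [hA, hj, hext]
    exact (hO a).1 a.2
  · intro z hzA h
    have k : ι.symm z ∈ Set.range (algebraMap E (AlgebraicClosure E)) := by
      rw [InfiniteGalois.mem_range_algebraMap_iff_fixed]
      intro f
      have := h (ι.symm.trans (f.toRingEquiv.trans ι)) (by
        intro a
        rw [hj]
        show ι (f (ι.symm (ι _))) = _
        rw [RingEquiv.symm_apply_apply, AlgEquiv.commutes])
      apply ι.injective
      rw [RingEquiv.apply_symm_apply]
      exact this
    obtain ⟨e, he⟩ := k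
    have e1 : ι (algebraMap E (AlgebraicClosure E) e) = z := by
      rw [he, RingEquiv.apply_symm_apply]
    have e2 : ‖e‖ ≤ 1 := by
      rw [← hext, e1]
      exact hzA
    exact ⟨⟨e, (hO e).2 e2⟩, e1⟩
  · intro σ hσ z hzA
    have hE : ∀ e : E, σ (ι (algebraMap E (AlgebraicClosure E) e)) =
        ι (algebraMap E (AlgebraicClosure E) e) := by
      intro e
      by_cases he : ‖e‖ ≤ 1
      · exact hσ ⟨e, (hO e).2 he⟩
      · have he' : ‖e⁻¹‖ ≤ 1 := by
          rw [norm_inv]
          exact inv_le_one_of_one_le₀ (not_le.1 he).le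
        have k : σ (ι (algebraMap E (AlgebraicClosure E) e⁻¹)) =
            ι (algebraMap E (AlgebraicClosure E) e⁻¹) := hσ ⟨e⁻¹, (hO _).2 he'⟩
        rw [map_inv₀, map_inv₀, map_inv₀] at k
        exact inv_injective k
    let f : AlgebraicClosure E ≃ₐ[E] AlgebraicClosure E :=
      { ι.trans (σ.trans ι.symm) with
        commutes' := by
          intro e
          show ι.symm (σ (ι _)) = _
          rw [hE, RingEquiv.symm_apply_apply] }
    have k : ι.symm (σ z) = f (ι.symm z) := by
      show _ = ι.symm (σ (ι (ι.symm z)))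
      rw [RingEquiv.apply_symm_apply]
    show spectralNorm E (AlgebraicClosure E) (ι.symm (σ z)) ≤ 1
    rw [k, ← spectralNorm_eq_of_equiv f]
    exact hzA
  · rw [hA, not_le]
    have e : N 2 * N 2⁻¹ = 1 := by rw [← hm, mul_inv_cancel₀ (by norm_num), h1]
    rw [N2] at e
    linarith
  · intro z
    obtain ⟨n, hn'⟩ := pow_unbounded_of_one_lt (N z) (show (1 : ℝ) < 2 by norm_num)
    refine ⟨n, ?_⟩
    rw [hA, hm, hpow, N2, inv_pow, inv_mul_le_iff₀ (by positivity), mul_one]
    exact hn'.le
  · intro a h haA hh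
    rw [hA, not_le] at haA
    obtain ⟨m, hm'⟩ := pow_unbounded_of_one_lt (N h)⁻¹ haA
    refine ⟨m, ?_⟩
    rw [hA, not_le, hm, hpow]
    have p := hpos h hh
    rw [inv_lt_iff_one_lt_mul₀' p] at hm'
    exact hm'

end Vale.Agent.P022D.V
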