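import Vale.Agent.P022D.V.Cla
import Vale.Agent.P022D.V.Tn
import Vale.Agent.P022D.V.Root

/-!
# P022D, block V, row CLA: Whittaker vectors are classical forms
-/

set_option linter.all false

open Matrix
open scoped MatrixGroups

noncomputable section

namespace Vale.Agent.P022D.V

open Vale.Agent.P022 Vale.Agent.P027M.M

namespace Cl

variable {O : Type} [CommRing O] [Co O] {M N N₂ N' B : ℕ} {R : Type} [CommRing R] [Algebra O R]

theorem B_dg {w : FT M R} (hB : w ∈ Iv O R (Bq M B)) (a d : (ZMod M)ˣ) :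
    rt O R (dg a d) w ∈ Iv O R (Bq M B) := by
  refine mem_Iv.2 fun h hh => ?_
  have i1 := a.inv_mul
  have i2 := d.inv_mul
  obtain ⟨x, hx⟩ := hh.1 0 0
  obtain ⟨y, hy⟩ := hh.1 0 1
  obtain ⟨t, ht⟩ := hh.1 1 1
  have h0 : (dg a⁻¹ d⁻¹ * (h * dg a d)).val 1 0 = 0 := by
    simp [gmul, dg_coe, hh.2]
  have hb : dg a⁻¹ d⁻¹ * (h * dg a d) ∈ Bq M B := by
    refine ⟨Fin.forall_fin_two.2 ⟨Fin.forall_fin_two.2 ⟨⟨x, ?_⟩,
      ⟨y * d * (a⁻¹ : (ZMod M)ˣ), ?_⟩⟩, Fin.forall_fin_two.2 ⟨⟨0, by simp [h0]⟩, ⟨t, ?_⟩⟩⟩, h0⟩ <;>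
      simp only [gmul, dg_coe, hx, hy, ht, Matrix.of_apply, Matrix.cons_val',
        Matrix.cons_val_zero, Matrix.cons_val_one, Matrix.cons_val_fin_one,
        Matrix.one_apply_ne (show (0 : Fin 2) ≠ 1 by decide)]
    · linear_combination ((1 : Matrix (Fin 2) (Fin 2) (ZMod M)) 0 0 + B * x) * i1
    · ring
    · linear_combination ((1 : Matrix (Fin 2) (Fin 2) (ZMod M)) 1 1 + B * t) * i2
  conv_rhs => rw [← mem_Iv.1 hB _ hb]
  rw [rt_rt, rt_rt, ← mul_assoc, dg_mul, mul_inv_cancel, mul_inv_cancel, dg_one, one_mul]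

theorem Wh_dg [NeZero M] {z : O} (hz : z ^ N = 1) {w : FT M R} (hw : w ∈ Wh O R M z)
    {c : (ZMod M)ˣ} (hc : Cg M N c 1) : rt O R (dg 1 c) w ∈ Wh O R M z := by
  intro x
  obtain ⟨t, ht⟩ := hc
  have h := hw (x + N * (t.val * x))
  rw [pow_add, pow_mul, hz, one_pow, mul_one] at h
  rw [rt_rt, un_dg, ← rt_rt, ← map_smul]
  refine congrArg _ (Eq.trans ?_ h)
  congr 4
  push_cast
  rw [ZMod.natCast_zmod_val, inv_one, Units.val_one, ht]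
  ring

theorem Wh_U [NeZero M] {z : O} (hz : z ^ N = 1) {w : FT M R} (hw : w ∈ Wh O R M z) :
    w ∈ Iv O R (Uq M N) := by
  refine mem_Iv.2 ?_
  rintro _ ⟨x, rfl⟩
  have h := hw (N * x.val)
  rwa [pow_mul, hz, one_pow, one_smul, Nat.cast_mul, ZMod.natCast_zmod_val] at h

theorem Cg.mul {a d : (ZMod M)ˣ} (ha : Cg M B a 1) (hd : Cg M B d 1) :
    Cg M B (a * d : (ZMod M)ˣ) 1 := by
  obtain ⟨x, hx⟩ := ha
  obtain ⟨y, hy⟩ := hd
  exact ⟨x + y + B * x * y, by rw [Units.val_mul, hx, hy]; ring⟩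

open Classical in
/-- the units which are `1` modulo `N` -/
def TT (M N : ℕ) [NeZero M] : Finset (ZMod M)ˣ := Finset.univ.filter fun d => Cg M N d 1

theorem mem_TT [NeZero M] {d : (ZMod M)ˣ} : d ∈ TT M N ↔ Cg M N d 1 := by simp [TT]

/-- the sum over the twists -/
def AT (O R : Type) [CommRing O] [CommRing R] [Algebra O R] (M N : ℕ) [NeZero M] (w : FT M R) :
    FT M R := ∑ d ∈ TT M N, rt O R (dg 1 d) w

theorem AT_dg [NeZero M] {c c' : (ZMod M)ˣ} (h : Cg M N (c * c'⁻¹ : (ZMod M)ˣ) 1) (w : FT M R) :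
    AT O R M N (rt O R (dg 1 c) w) = rt O R (dg 1 c') (AT O R M N w) := by
  rw [AT, AT, map_sum]
  refine Finset.sum_bij' (fun d _ => d * (c * c'⁻¹)) (fun d _ => d * (c * c'⁻¹)⁻¹)
    (fun d hd => mem_TT.2 (Cg.mul (mem_TT.1 hd) h))
    (fun d hd => mem_TT.2 (Cg.mul (mem_TT.1 hd) (Cg.inv h)))
    (fun d _ => mul_inv_cancel_right _ _) (fun d _ => inv_mul_cancel_right _ _) fun d _ => ?_
  rw [rt_rt, rt_rt, dg_mul, dg_mul, mul_comm c', mul_assoc, inv_mul_cancel_right]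

theorem AT_wd [NeZero M] (i : ℕ) {u b : PA N' → (ZMod M)ˣ}
    (h : ∀ ℓ, Cg M N ((b ℓ)⁻¹ * (u ℓ)⁻¹⁻¹ : (ZMod M)ˣ) 1) (Q : G.Wd N') :
    ∀ w : FT M R, AT O R M N (wd O R i u b Q w) = wd O R i u u Q (AT O R M N w) := by
  induction Q using FreeAlgebra.induction with
  | grade0 c =>
    intro w
    simp only [wd_int, AT, map_zsmul, Finset.smul_sum]
  | grade1 s =>
    intro w
    rcases s with ℓ | ℓ
    · rw [wd_T, wd_T, ← AT_dg (h ℓ)]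
      simp only [AT, map_sum, rt_T2]
    · rw [wd_S, wd_S, ← AT_dg (c := (b ℓ)⁻¹ * (b ℓ)⁻¹)
        (by rw [mul_inv, mul_mul_mul_comm]; exact Cg.mul (h ℓ) (h ℓ))]
      simp only [AT, map_sum, rt_S2]
  | mul P Q hP hQ =>
    intro w
    rw [map_mul, map_mul, Module.End.mul_apply, Module.End.mul_apply, hP, hQ]
  | add P Q hP hQ =>
    intro w
    rw [map_add, map_add, LinearMap.add_apply, LinearMap.add_apply, ← hP, ← hQ]
    simp only [AT, map_add, Finset.sum_add_distrib]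

theorem wd_mem [NeZero M] (hM : Odd M) (i : ℕ) {u b : PA N' → (ZMod M)ˣ}
    (hu : ∀ ℓ, (u ℓ : ZMod M) = ℓ.1) (hb : ∀ ℓ, Cg M N (b ℓ) 1) {z : O} (hz : z ^ N = 1)
    (Q : G.Wd N') : ∀ w ∈ L O M (i + 1) ⊓ Wh O _ M z,
      wd O (AA O) i u b Q w ∈ L O M (i + 1) ⊓ Wh O _ M z := by
  induction Q using FreeAlgebra.induction with
  | grade0 c =>
    intro w hw
    rw [wd_int]
    exact zsmul_mem hw c
  | grade1 s =>
    rintro w ⟨hw, hW⟩
    rcases s with ℓ | ℓ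
    · have h1 := Tr.L_rt hw (dg 1 (b ℓ)⁻¹)
      rw [wd_T]
      refine ⟨?_, Wh_map _ (fun h => rt_T2 h i ℓ.1 (u ℓ)) (Wh_dg hz hW (Cg.inv (hb ℓ)))⟩
      rw [T2_apply, pw_L hM.pos h1, ← Tf_apply]
      exact hk O M i ℓ.1 (u ℓ) hM ℓ.2.1 (hu ℓ) _ h1
    · have h1 := Tr.L_rt hw (dg 1 ((b ℓ)⁻¹ * (b ℓ)⁻¹))
      rw [wd_S]
      refine ⟨?_, Wh_map _ (fun h => rt_S2 h i ℓ.1 (u ℓ))
        (Wh_dg hz hW (Cg.mul (Cg.inv (hb ℓ)) (Cg.inv (hb ℓ))))⟩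
      rw [S2_apply, pw_L hM.pos h1, Sf_apply]
      exact nsmul_mem (Tr.L_rt h1 _) _
  | mul P Q hP hQ =>
    intro w hw
    rw [map_mul]
    exact hP _ (hQ w hw)
  | add P Q hP hQ =>
    intro w hw
    rw [map_add]
    exact add_mem (hP w hw) (hQ w hw)

theorem AT_inj [NeZero M] (hM : Odd M) (e : M = N * N₂) (hc : Nat.Coprime N N₂) {z : O}
    (hz : Co.j z = ze N 1) {k : ℕ} {w : FT M (AA O)} (hw : w ∈ L O M k) (hW : w ∈ Wh O _ M z)
    (h : AT O _ M N₂ w = 0) : w = 0 := by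
  have h1 : N ≠ 0 ∧ N₂ ≠ 0 := mul_ne_zero_iff.1 (e ▸ NeZero.ne M)
  have tc : TC (zA O M) w := fun g n => av_inj (by
    rw [map_mul, map_pow, Hk.av_zA hM.pos]; exact Hk.tc_one hM.pos hw g n)
  have sp := ((tn O (AA O) M).2 (zA O M) (root O M hM).2.1 w tc).2.2.2 N N₂ z e (av_inj (by
    rw [av_alg, map_pow, Hk.av_zA hM.pos, hz, e, Hk.ze_pow h1.2 (Nat.pos_of_ne_zero h1.1)])) hW 1
  refine eq_zero hM.pos hw fun a => ?_
  ext n
  by_contra hn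
  have h2 : (n : ZMod M) * (1 : (ZMod M)ˣ) = N₂ * a := by
    by_contra h3
    exact hn (sp a n h3)
  have h3 := congrArg (fun v : FT M (AA O) => (v (dg 1 a)).coeff n) h
  simp only [AT, Finset.sum_apply, map_sum, rt_apply, dg_mul, mul_one] at h3
  rw [Finset.sum_eq_single 1, mul_one] at h3
  · exact hn h3
  · intro d hd hd1
    refine sp _ n fun h4 => hd1 (Units.ext ?_)
    obtain ⟨t, ht⟩ := mem_TT.1 hd
    obtain ⟨x, y, hxy⟩ := Nat.isCoprime_iff_coprime.2 hc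
    have h5 := congrArg (Int.cast : ℤ → ZMod M) hxy
    have h6 : (N : ZMod M) * N₂ = 0 := by rw [← Nat.cast_mul, ← e, ZMod.natCast_self]
    have h7 := a.inv_mul
    push_cast at h4 h5 h2 ⊢
    linear_combination (1 - (d : ZMod M)) * h5 + (x * N : ZMod M) * ht + (x * t : ZMod M) * h6 +
      (y * (a⁻¹ : (ZMod M)ˣ) : ZMod M) * (h2 - h4) - (y * N₂ * (d - 1) : ZMod M) * h7
  · exact fun h4 => absurd (mem_TT.2 ⟨0, by simp⟩) h4

end Cl

open Cl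

/-- **CLA** -/
theorem cla (O : Type) [CommRing O] [Co O] : CLA O := by
  rintro M N₁ N₂ B N' _ u b z i hl hz Q hQ w ⟨⟨hw, hW⟩, hB⟩
  haveI : NeZero M := ⟨hl.odd.pos.ne'⟩
  have hN : N₁ ≠ 0 := fun e => NeZero.ne M (by rw [hl.eq, e, zero_mul])
  have z1 : z ^ N₁ = 1 := Co.inj (by
    have : (N₁ : ℂ) ≠ 0 := by exact_mod_cast hN
    rw [map_pow, hz, map_one, ze, ← Complex.exp_nat_mul, ← Complex.exp_two_pi_mul_I]
    congr 1
    push_cast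
    field_simp)
  obtain ⟨h1, h2⟩ := wd_mem hl.odd i hl.hu hl.hb1 z1 Q w ⟨hw, hW⟩
  refine AT_inj hl.odd hl.eq hl.cop hz h1 h2 ?_
  rw [AT_wd i (fun ℓ => ?_), AT, map_sum]
  · exact Finset.sum_eq_zero fun d _ => clg ⟨hl.odd, hl.eq, hl.lev⟩ B i hl.hu Q hQ (Tr.L_rt hw _)
      (U_dg (Wh_U z1 hW) _ _) (B_dg hB _ _)
  · obtain ⟨t, ht⟩ := hl.hb2 ℓ
    have h3 := (b ℓ).inv_mul
    refine ⟨-t * ((b ℓ)⁻¹ : (ZMod M)ˣ), ?_⟩
    rw [inv_inv, Units.val_mul, hl.hu]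
    linear_combination h3 - (((b ℓ)⁻¹ : (ZMod M)ˣ) : ZMod M) * ht

end Vale.Agent.P022D.V
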