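import Vale.Agent.P027M.M.Defs

/-!
# P022D, block V: tuples of modular forms, their integral expansions and reductions (definitions)
-/

set_option linter.all false

open UpperHalfPlane hiding I
open Matrix Function.Periodic
open scoped MatrixGroups ModularForm

noncomputable section

namespace Vale.Agent.P022D.V

open Vale.Agent.P022.H218.L3 Vale.Agent.P027M.M

/-- coefficients: `O` inside a valuation ring `A` of `ℂ` above `2` -/
class Co (O : Type) [CommRing O] where
  j : O →+* ℂ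
  A : ValuationSubring ℂ
  inj : Function.Injective j
  mem : ∀ a, j a ∈ A
  fix : ∀ z ∈ A, (∀ σ : ℂ ≃+* ℂ, (∀ a, σ (j a) = j a) → σ z = z) → ∃ a, j a = z
  stab : ∀ σ : ℂ ≃+* ℂ, (∀ a, σ (j a) = j a) → ∀ z ∈ A, σ z ∈ A
  two : (2 : ℂ)⁻¹ ∉ A
  rk : ∀ z : ℂ, ∃ n : ℕ, 2 ^ n * z ∈ A
  arch : ∀ a h : ℂ, a ∉ A → h ≠ 0 → ∃ m : ℕ, h * a ^ m ∉ A

/-- the valuation ring as a type -/
def AA (O : Type) [CommRing O] [Co O] : Type := (Co.A O : ValuationSubring ℂ)

variable {O : Type} [CommRing O] [Co O]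

instance : CommRing (AA O) := inferInstanceAs (CommRing (Co.A O : ValuationSubring ℂ))
instance : IsDomain (AA O) := inferInstanceAs (IsDomain (Co.A O : ValuationSubring ℂ))
instance : ValuationRing (AA O) := inferInstanceAs (ValuationRing (Co.A O : ValuationSubring ℂ))
instance : IsLocalRing (AA O) := inferInstanceAs (IsLocalRing (Co.A O : ValuationSubring ℂ))

/-- the inclusion in `ℂ` -/
def av (O : Type) [CommRing O] [Co O] : AA O →+* ℂ := (Co.A O : ValuationSubring ℂ).subtype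

theorem av_inj : Function.Injective (av O) := Subtype.val_injective

theorem av_mem (x : AA O) : av O x ∈ (Co.A O : ValuationSubring ℂ) :=
  (show (Co.A O : ValuationSubring ℂ) from x).2

/-- an element of `AA O` from a complex number -/
def amk (z : ℂ) (h : z ∈ (Co.A O : ValuationSubring ℂ)) : AA O :=
  (⟨z, h⟩ : (Co.A O : ValuationSubring ℂ))

theorem av_amk (z : ℂ) (h : z ∈ (Co.A O : ValuationSubring ℂ)) : av O (amk z h) = z := rfl

instance : Algebra O (AA O) :=
  RingHom.toAlgebra ((Co.j : O →+* ℂ).codRestrict (Co.A O : ValuationSubring ℂ) Co.mem)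

theorem av_alg (a : O) : av O (algebraMap O (AA O) a) = Co.j a := rfl

/-- `A / ϖ` -/
abbrev RR (ϖ : O) : Type := AA O ⧸ Ideal.span {algebraMap O (AA O) ϖ}

/-! ### groups -/

/-- `GL₂(ℤ/M)` -/
abbrev GM (M : ℕ) : Type := GL (Fin 2) (ZMod M)

/-- reduction modulo `M` -/
def rd (M : ℕ) : SL(2, ℤ) →* GM M :=
  Matrix.SpecialLinearGroup.toGL.comp (Matrix.SpecialLinearGroup.map (Int.castRingHom (ZMod M)))

theorem rd_apply (M : ℕ) (γ : SL(2, ℤ)) (i j : Fin 2) :
    (rd M γ : Matrix (Fin 2) (Fin 2) (ZMod M)) i j = ((γ i j : ℤ) : ZMod M) := rfl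

/-- the diagonal matrix -/
def dg {M : ℕ} (a d : (ZMod M)ˣ) : GM M :=
  ⟨!![(a : ZMod M), 0; 0, (d : ZMod M)], !![((a⁻¹ : (ZMod M)ˣ) : ZMod M), 0; 0, ((d⁻¹ : (ZMod M)ˣ) : ZMod M)],
    by ext i j; fin_cases i <;> fin_cases j <;> simp [Matrix.mul_apply, Fin.sum_univ_two],
    by ext i j; fin_cases i <;> fin_cases j <;> simp [Matrix.mul_apply, Fin.sum_univ_two]⟩

theorem dg_coe {M : ℕ} (a d : (ZMod M)ˣ) :
    (dg a d : Matrix (Fin 2) (Fin 2) (ZMod M)) = !![(a : ZMod M), 0; 0, (d : ZMod M)] := rfl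

theorem dg_mul {M : ℕ} (a d a' d' : (ZMod M)ˣ) : dg a d * dg a' d' = dg (a * a') (d * d') := by
  apply Units.ext
  rw [Units.val_mul, dg_coe, dg_coe, dg_coe]
  ext i j; fin_cases i <;> fin_cases j <;> simp [Matrix.mul_apply, Fin.sum_univ_two]

theorem dg_one {M : ℕ} : dg (1 : (ZMod M)ˣ) 1 = 1 := by
  apply Units.ext
  rw [dg_coe]
  ext i j; fin_cases i <;> fin_cases j <;> simp

theorem dg_comm {M : ℕ} (a d a' d' : (ZMod M)ˣ) : dg a d * dg a' d' = dg a' d' * dg a d := by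
  rw [dg_mul, dg_mul, mul_comm a, mul_comm d]

theorem dg_center {M : ℕ} (a : (ZMod M)ˣ) (g : GM M) : dg a a * g = g * dg a a := by
  apply Units.ext
  rw [Units.val_mul, Units.val_mul, dg_coe]
  ext i j; fin_cases i <;> fin_cases j <;> simp [Matrix.mul_apply, Fin.sum_univ_two, mul_comm]

/-- the unipotent matrix -/
def un {M : ℕ} (x : ZMod M) : GM M :=
  ⟨!![1, x; 0, 1], !![1, -x; 0, 1],
    by ext i j; fin_cases i <;> fin_cases j <;> simp [Matrix.mul_apply, Fin.sum_univ_two],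
    by ext i j; fin_cases i <;> fin_cases j <;> simp [Matrix.mul_apply, Fin.sum_univ_two]⟩

theorem un_coe {M : ℕ} (x : ZMod M) :
    (un x : Matrix (Fin 2) (Fin 2) (ZMod M)) = !![1, x; 0, 1] := rfl

/-! ### tuples of forms -/

/-- `s` is the expansion of `f` in `e(τ / M)` -/
def HS (M : ℕ) (s : PowerSeries ℂ) (f : ℍ → ℂ) : Prop :=
  ∀ τ : ℍ, HasSum (fun n : ℕ => s.coeff n * qParam M τ ^ n) (f τ)

/-- a tuple of forms of weight `k` and level `Γ(M)` -/
structure IsTp (M k : ℕ) (F : GM M → ℍ → ℂ) : Prop where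
  bdd : ∀ g, Bdd (k : ℤ) (F g)
  eqv : ∀ (γ : SL(2, ℤ)) (g : GM M), F (rd M γ * g) ∣[(k : ℤ)] γ = F g

/-- formal tuples -/
abbrev FT (M : ℕ) (R : Type) [CommRing R] : Type := GM M → PowerSeries R

/-- Galois equivariance -/
def Gal {M : ℕ} (w : FT M (AA O)) : Prop :=
  ∀ σ : ℂ ≃+* ℂ, (∀ a : O, σ (Co.j a) = Co.j a) → ∀ a : (ZMod M)ˣ,
    σ (ze M 1) = ze M 1 ^ (a : ZMod M).val →
      ∀ g n, σ (av O ((w (dg 1 a * g)).coeff n)) = av O ((w g).coeff n)

/-- `w` is the expansion of the tuple `F` -/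
def Ex {M : ℕ} (w : FT M (AA O)) (F : GM M → ℍ → ℂ) : Prop :=
  ∀ g, HS M ((w g).map (av O)) (F g)

/-- **the lattice of integral rational tuples of weight `k`** -/
def L (O : Type) [CommRing O] [Co O] (M k : ℕ) : Submodule O (FT M (AA O)) where
  carrier := {w | (∃ F, IsTp M k F ∧ Ex w F) ∧ Gal w}
  zero_mem' := ⟨⟨0, ⟨fun _ => ⟨Hol.zero_mem, fun γ => by
      rw [Pi.zero_apply, SlashAction.zero_slash]; exact Filter.const_boundedAtFilter _ _⟩,
      fun γ g => by simp⟩, fun g τ => by simpa using hasSum_zero⟩, fun σ _ a _ g n => by simp⟩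
  add_mem' := by
    rintro w w' ⟨⟨F, h1, h2⟩, h3⟩ ⟨⟨F', h1', h2'⟩, h3'⟩
    refine ⟨⟨F + F', ⟨fun g => (h1.bdd g).add (h1'.bdd g), fun γ g => ?_⟩, fun g τ => ?_⟩,
      fun σ hσ a ha g n => ?_⟩
    · rw [Pi.add_apply, Pi.add_apply, SlashAction.add_slash, h1.eqv, h1'.eqv]
    · simpa [add_mul] using (h2 g τ).add (h2' g τ)
    · simp only [Pi.add_apply, map_add]
      rw [h3 σ hσ a ha, h3' σ hσ a ha]
  smul_mem' := by
    rintro c w ⟨⟨F, h1, h2⟩, h3⟩
    have e : ∀ g n, av O (((c • w) g).coeff n) = Co.j c * av O ((w g).coeff n) := by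
      intro g n
      rw [Pi.smul_apply, PowerSeries.coeff_smul, Algebra.smul_def, map_mul, av_alg]
    refine ⟨⟨(Co.j c : ℂ) • F, ⟨fun g => ?_, fun γ g => ?_⟩, fun g τ => ?_⟩,
      fun σ hσ a ha g n => ?_⟩
    · have h := (Bdd.const (Co.j c : ℂ)).mul (h1.bdd g)
      rw [zero_add] at h
      exact h
    · rw [Pi.smul_apply, Pi.smul_apply, ModularForm.SL_smul_slash, h1.eqv]
    · have h := (h2 g τ).mul_left (Co.j c : ℂ)
      refine h.congr_fun fun n => ?_
      rw [PowerSeries.coeff_map, PowerSeries.coeff_map, e, mul_assoc]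
    · rw [e, e, map_mul, hσ, h3 σ hσ a ha]

theorem mem_L {M k : ℕ} {w : FT M (AA O)} :
    w ∈ L O M k ↔ (∃ F, IsTp M k F ∧ Ex w F) ∧ Gal w := Iff.rfl

/-! ### formal operators -/

section formal

variable {M : ℕ} (S : Type) [CommRing S] {R R' : Type} [CommRing R] [Algebra S R]
  [CommRing R'] [Algebra S R']

/-- change of coefficients -/
def mp (M : ℕ) (φ : R →ₐ[S] R') : FT M R →ₐ[S] FT M R' where
  toFun w g := (w g).map (φ : R →+* R')
  map_one' := by ext1 g; simp
  map_mul' w w' := by ext1 g; simp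
  map_zero' := by ext1 g; simp
  map_add' w w' := by ext1 g; simp
  commutes' c := by
    ext1 g
    simp [PowerSeries.algebraMap_apply]

/-- right translation -/
def rt (R : Type) [CommRing R] [Algebra S R] : GM M →* (FT M R →ₐ[S] FT M R) where
  toFun h :=
    { toFun := fun w g => w (g * h)
      map_one' := rfl
      map_mul' := fun _ _ => rfl
      map_zero' := rfl
      map_add' := fun _ _ => rfl
      commutes' := fun _ => rfl }
  map_one' := by ext1 w; ext1 g; simp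
  map_mul' h h' := by
    ext1 w; ext1 g
    exact congrArg w (mul_assoc g h h').symm

theorem rt_apply (h : GM M) (w : FT M R) (g : GM M) : rt S R h w g = w (g * h) := rfl

/-- `∑ a_(p n) q ^ n` -/
def Uo (p : ℕ) (s : PowerSeries R) : PowerSeries R := PowerSeries.mk fun n => s.coeff (p * n)

/-- `∑ a_n q ^ (p n)` -/
def Vo (p : ℕ) (s : PowerSeries R) : PowerSeries R :=
  PowerSeries.mk fun n => if p ∣ n then s.coeff (n / p) else 0

/-- `U_p` on tuples (`u` is the class of `p`) -/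
def Uf (R : Type) [CommRing R] [Algebra S R] (p : ℕ) (u : (ZMod M)ˣ) : Module.End S (FT M R) where
  toFun w g := Uo p (w (dg 1 u * g))
  map_add' w w' := by ext g n; simp [Uo]
  map_smul' c w := by ext g n; simp [Uo]

/-- `V_p ⟨p⟩` on tuples (`u` is the class of `p`) -/
def Vf (R : Type) [CommRing R] [Algebra S R] (p : ℕ) (u : (ZMod M)ˣ) : Module.End S (FT M R) where
  toFun w g := Vo p (w (dg u 1 * g))
  map_add' w w' := by
    ext g n
    simp only [Vo, Pi.add_apply, PowerSeries.coeff_mk, map_add]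
    split_ifs <;> simp
  map_smul' c w := by
    ext g n
    simp only [Vo, Pi.smul_apply, PowerSeries.coeff_mk, PowerSeries.coeff_smul, RingHom.id_apply]
    split_ifs <;> simp

/-- the Hecke operator `T_p` in weight `i + 1` -/
def Tf (R : Type) [CommRing R] [Algebra S R] (i p : ℕ) (u : (ZMod M)ˣ) : Module.End S (FT M R) :=
  Uf S R p u + (p ^ i : ℕ) • Vf S R p u

/-- the operator `p S_p` in weight `i + 1` -/
def Sf (R : Type) [CommRing R] [Algebra S R] (i p : ℕ) (u : (ZMod M)ˣ) : Module.End S (FT M R) :=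
  (p ^ i : ℕ) • (rt S R (dg u u)).toLinearMap

/-- a series in `q` as a constant tuple of level `M` -/
def ct (M : ℕ) (s : PowerSeries R) : FT M R := fun _ => Vo M s

/-- the tuples all of whose even coefficients vanish -/
def Od (M : ℕ) (R : Type) [CommRing R] [Algebra S R] : Submodule S (FT M R) where
  carrier := {w | ∀ g n, Even n → (w g).coeff n = 0}
  zero_mem' := fun g n _ => by simp
  add_mem' := fun {w w'} h h' g n hn => by simp [h g n hn, h' g n hn]
  smul_mem' := fun c w h g n hn => by simp [h g n hn]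

end formal

/-! ### reductions -/

/-- reduction modulo `ϖ` -/
def red (M : ℕ) (ϖ : O) : FT M (AA O) →ₐ[O] FT M (RR ϖ) :=
  mp O M (Ideal.Quotient.mkₐ O (Ideal.span {algebraMap O (AA O) ϖ}))

/-- the reductions of the tuples of weight `k` -/
def Fil (M k : ℕ) (ϖ : O) : Submodule O (FT M (RR ϖ)) := (L O M k).map (red M ϖ).toLinearMap

/-- the reductions of the tuples of weight congruent to `k₀` modulo `2 ^ s` -/
def Vs (M k₀ s : ℕ) (ϖ : O) : Submodule O (FT M (RR ϖ)) :=
  ⨆ k : {k : ℕ // k ≡ k₀ [MOD 2 ^ s]}, Fil M k.1 ϖ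

/-- **the forms of 2-adic weight `k₀` modulo `ϖ`** -/
def VV (M k₀ : ℕ) (ϖ : O) : Submodule O (FT M (RR ϖ)) := ⨅ s, Vs M k₀ s ϖ

/-- `∑ σ₃(n) q ^ n`, `E₄ = 1 + 240 s₃` -/
def e4 (R : Type) [CommRing R] : PowerSeries R :=
  1 + 240 * PowerSeries.mk fun n => ((ArithmeticFunction.sigma 3 n : ℕ) : R)

/-- `E₆` -/
def e6 (R : Type) [CommRing R] : PowerSeries R :=
  1 - 504 * PowerSeries.mk fun n => ((ArithmeticFunction.sigma 5 n : ℕ) : R)

end Vale.Agent.P022D.V
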