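import Vale.Agent.P022D.V.Defs
import Vale.Agent.P022.H790.A1

/-!
# P022D, block V: two weights, change of level, the operator `W` (definitions)
-/

set_option linter.all false

open UpperHalfPlane hiding I
open Matrix Function.Periodic
open scoped MatrixGroups ModularForm

noncomputable section

namespace Vale.Agent.P022D.V

open Vale.Agent.P022.H218.L3 Vale.Agent.P027M.M

section formal

variable {M : ℕ} (S : Type) [CommRing S]

/-- `Δ` -/
def dl (R : Type) [CommRing R] : PowerSeries R :=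
  PowerSeries.map (Int.castRingHom R) Vale.Agent.P022.H790.A.DZ

/-- the parity operator: the sign of the weight times the scalar matrix minus one: `1` in weight `k`, `-1` in weight `k + 1` -/
def ep (R : Type) [CommRing R] [Algebra S R] (M k : ℕ) : Module.End S (FT M R) :=
  ((-1 : ℤ) ^ k) • (rt S R (dg (-1 : (ZMod M)ˣ) (-1))).toLinearMap

/-- `1` in weight `i + 1`, `p` in weight `i + 2` (`p` odd) -/
def pw (R : Type) [CommRing R] [Algebra S R] (M i p : ℕ) : Module.End S (FT M R) :=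
  1 + ((p - 1) / 2 : ℕ) • (1 - ep S R M (i + 1))

/-- `T_p` on the weights `i + 1`, `i + 2` -/
def T2 (R : Type) [CommRing R] [Algebra S R] (i p : ℕ) (u : (ZMod M)ˣ) : Module.End S (FT M R) :=
  Uf S R p u + (p ^ i : ℕ) • (Vf S R p u * pw S R M i p)

/-- `p S_p` on the weights `i + 1`, `i + 2` -/
def S2 (R : Type) [CommRing R] [Algebra S R] (i p : ℕ) (u : (ZMod M)ˣ) : Module.End S (FT M R) :=
  Sf S R i p u * pw S R M i p

/-- the vectors on which `H` acts by `χ` -/
def Eg (R : Type) [CommRing R] [Algebra S R] (H : Set (GM M)) (χ : GM M → S) :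
    Submodule S (FT M R) where
  carrier := {w | ∀ h ∈ H, rt S R h w = χ h • w}
  zero_mem' := fun h _ => by simp
  add_mem' := fun {w w'} h1 h2 h hh => by rw [map_add, h1 h hh, h2 h hh, smul_add]
  smul_mem' := fun c w h1 h hh => by rw [map_smul, h1 h hh, smul_comm]

/-- the invariants of `H` -/
def Iv (R : Type) [CommRing R] [Algebra S R] (H : Set (GM M)) : Submodule S (FT M R) :=
  Eg S R H fun _ => 1

/-- Whittaker vectors: `un x` acts by `z ^ (-x)` (`z` = the root of unity `e(1 / N)`, `N ∣ M`);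
the expansion at `g = 1` has only exponents `n ≡ M / N` modulo `M` -/
def Wh (R : Type) [CommRing R] [Algebra S R] (M : ℕ) (z : S) : Submodule S (FT M R) where
  carrier := {w | ∀ x : ℕ, z ^ x • rt S R (un (x : ZMod M)) w = w}
  zero_mem' := fun x => by simp
  add_mem' := fun {w w'} h1 h2 x => by rw [map_add, smul_add, h1 x, h2 x]
  smul_mem' := fun c w h1 x => by rw [map_smul, smul_comm, h1 x]

/-- the depletion at `2` (`u` is the class of `2`): the even coefficients are replaced by `0` -/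
def dep (R : Type) [CommRing R] [Algebra S R] (M : ℕ) : Module.End S (FT M R) where
  toFun w g := PowerSeries.mk fun n => if Even n then 0 else (w g).coeff n
  map_add' w w' := by
    ext g n
    simp only [Pi.add_apply, PowerSeries.coeff_mk, map_add]
    split_ifs <;> simp
  map_smul' c w := by
    ext g n
    simp only [Pi.smul_apply, PowerSeries.coeff_mk, PowerSeries.coeff_smul, RingHom.id_apply]
    split_ifs <;> simp

/-! ### change of level -/

/-- reduction of the group -/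
def pr {M₀ M : ℕ} (h : M₀ ∣ M) : GM M →* GM M₀ :=
  Matrix.GeneralLinearGroup.map (ZMod.castHom h (ZMod M₀))

/-- a tuple of level `M₀` as a tuple of level `M` -/
def ifl (R : Type) [CommRing R] [Algebra S R] {M₀ M : ℕ} (h : M₀ ∣ M) : FT M₀ R →ₗ[S] FT M R where
  toFun w g := Vo (M / M₀) (w (pr h g))
  map_add' w w' := by
    ext g n
    simp only [Vo, Pi.add_apply, PowerSeries.coeff_mk, map_add]
    split_ifs <;> simp
  map_smul' c w := by
    ext g n
    simp only [Vo, Pi.smul_apply, PowerSeries.coeff_mk, PowerSeries.coeff_smul, RingHom.id_apply]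
    split_ifs <;> simp

/-- `M = M₀ q`, `q` a prime which does not divide `M₀`, `M` odd -/
structure Sp (M M₀ q : ℕ) : Prop where
  eq : M = M₀ * q
  cop : Nat.Coprime M₀ q
  prime : q.Prime
  odd : Odd M

theorem Sp.dvd {M M₀ q : ℕ} (h : Sp M M₀ q) : M₀ ∣ M := ⟨q, h.eq⟩

/-- the elements which are `1` modulo `M₀` -/
def Kq (M M₀ : ℕ) : Set (GM M) :=
  {g | ∀ i j, ∃ y : ZMod M, (g : Matrix (Fin 2) (Fin 2) (ZMod M)) i j =
    (1 : Matrix (Fin 2) (Fin 2) (ZMod M)) i j + (M₀ : ZMod M) * y}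

/-- the upper triangular elements which are `1` modulo `M₀` -/
def Bq (M M₀ : ℕ) : Set (GM M) :=
  {g | g ∈ Kq M M₀ ∧ (g : Matrix (Fin 2) (Fin 2) (ZMod M)) 1 0 = 0}

/-- the unipotent elements which are `1` modulo `M₀` -/
def Uq (M M₀ : ℕ) : Set (GM M) := Set.range fun x : ZMod M => un ((M₀ : ZMod M) * x)

/-- `s` is `1` modulo `M₀` and `[0, 1; 1, 0]` modulo `q` -/
def IsS (M M₀ : ℕ) (s : GM M) : Prop :=
  s ∈ Kq M M₀ ∧ (M₀ : ZMod M) • (s : Matrix (Fin 2) (Fin 2) (ZMod M)) =
    (M₀ : ZMod M) • !![0, 1; 1, 0]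

/-- the operator of the big cell: the trace from `Bq` to `Kq` is `1 + Ts` -/
def Ts (R : Type) [CommRing R] [Algebra S R] (M₀ q : ℕ) (s : GM M) : Module.End S (FT M R) :=
  ∑ x ∈ Finset.range q, (rt S R (un ((M₀ : ZMod M) * (x : ZMod M)) * s)).toLinearMap

/-- `g' = α g [0, 1; q, 0]⁻¹` up to unipotent elements at `q` -/
structure Rel (M M₀ q : ℕ) (α : Matrix (Fin 2) (Fin 2) ℤ) (g g' : GM M) : Prop where
  c0 : (q : ZMod M) • (g' : Matrix (Fin 2) (Fin 2) (ZMod M)) =
    (q : ZMod M) • (α.map (Int.cast : ℤ → ZMod M) * (g : Matrix (Fin 2) (Fin 2) (ZMod M)))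
  c1 : ∀ i, (M₀ : ZMod M) *
    (α.map (Int.cast : ℤ → ZMod M) * (g : Matrix (Fin 2) (Fin 2) (ZMod M))) i 0 = 0
  c2 : ∀ i, (M₀ : ZMod M) * (g' : Matrix (Fin 2) (Fin 2) (ZMod M)) i 0 = (M₀ : ZMod M) *
    (α.map (Int.cast : ℤ → ZMod M) * (g : Matrix (Fin 2) (Fin 2) (ZMod M))) i 1
  c3 : (M₀ : ZMod M) * (g' : Matrix (Fin 2) (Fin 2) (ZMod M)).det =
    -((M₀ : ZMod M) * (g : Matrix (Fin 2) (Fin 2) (ZMod M)).det)

open Classical in
/-- the data of `W` in the small cell -/
def wA (M M₀ q : ℕ) (g : GM M) : GM M :=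
  if h : ∃ g', Rel M M₀ q !![(q : ℤ), 0; 0, 1] g g' then h.choose else 1

open Classical in
/-- the data of `W` in the big cell -/
def wB (M M₀ q : ℕ) (g : GM M) : ℕ × GM M :=
  if h : ∃ x : ℕ × GM M, M₀ ∣ x.1 ∧ Rel M M₀ q !![1, (x.1 : ℤ); 0, (q : ℤ)] g x.2 then h.choose
  else (0, 1)

open Classical in
/-- the part of `q W_q` on the small cell, without the power of `q` -/
def Wa (R : Type) [CommRing R] [Algebra S R] (M M₀ q : ℕ) : Module.End S (FT M R) where
  toFun w g := if (M₀ : ZMod M) * (g : Matrix (Fin 2) (Fin 2) (ZMod M)) 1 0 = 0 then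
    Vo q (w (wA M M₀ q g)) else 0
  map_add' w w' := by
    ext g n
    simp only [Vo, Pi.add_apply]
    split_ifs <;> simp only [PowerSeries.coeff_mk, map_add, add_zero]
    split_ifs <;> simp
  map_smul' c w := by
    ext g n
    simp only [Vo, Pi.smul_apply, RingHom.id_apply]
    split_ifs <;> simp only [PowerSeries.coeff_mk, PowerSeries.coeff_smul, smul_zero]
    split_ifs <;> simp

open Classical in
/-- the part of `q W_q` on the big cell (`z` = the root of unity `e(1 / M)`) -/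
def Wb (R : Type) [CommRing R] [Algebra S R] (M M₀ q : ℕ) (z : R) : Module.End S (FT M R) where
  toFun w g := if (M₀ : ZMod M) * (g : Matrix (Fin 2) (Fin 2) (ZMod M)) 1 0 = 0 then 0 else
    PowerSeries.mk fun n => z ^ ((wB M M₀ q g).1 * n) * (w (wB M M₀ q g).2).coeff (q * n)
  map_add' w w' := by
    ext g n
    simp only [Pi.add_apply]
    split_ifs <;> simp [mul_add]
  map_smul' c w := by
    ext g n
    simp only [Pi.smul_apply, RingHom.id_apply]
    split_ifs <;> simp

/-- `q W_q` in weight `k` -/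
def W1 (R : Type) [CommRing R] [Algebra S R] (M M₀ q : ℕ) (z : R) (k : ℕ) :
    Module.End S (FT M R) := (q ^ k : ℕ) • Wa S R M M₀ q + Wb S R M M₀ q z

/-- `q W_q` on the weights `i + 1`, `i + 2` -/
def W2 (R : Type) [CommRing R] [Algebra S R] (M M₀ q : ℕ) (z : R) (i : ℕ) :
    Module.End S (FT M R) :=
  (q ^ (i + 1) : ℕ) • (Wa S R M M₀ q * pw S R M i q) + Wb S R M M₀ q z

/-- compatibility with the translation `τ ↦ τ + 1` -/
def TC {R : Type} [CommRing R] (z : R) (w : FT M R) : Prop :=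
  ∀ g n, z ^ n * (w (un 1 * g)).coeff n = (w g).coeff n

end formal

variable {O : Type} [CommRing O] [Co O]

open Classical in
/-- `e(1 / M)` in `A` -/
def zA (O : Type) [CommRing O] [Co O] (M : ℕ) : AA O :=
  if h : ze M 1 ∈ (Co.A O : ValuationSubring ℂ) then amk _ h else 1

/-- `e(1 / M)` modulo `ϖ` -/
def zR (M : ℕ) (ϖ : O) : RR ϖ := Ideal.Quotient.mk _ (zA O M)

/-- **the two weight lattice**: `w = f + g` integral, `f` of weight `k`, `g` of weight `k + 1`
(`2 f` and `2 g` are integral) -/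
def L2 (O : Type) [CommRing O] [Co O] (M k : ℕ) : Submodule O (FT M (AA O)) :=
  (L O M k).comap (1 + ep O (AA O) M k) ⊓ (L O M (k + 1)).comap (1 - ep O (AA O) M k)

/-- its reduction -/
def Fil2 (M k : ℕ) (ϖ : O) : Submodule O (FT M (RR ϖ)) :=
  (L2 O M k).map (red M ϖ).toLinearMap

/-- **the forms of 2-adic weights `k₀`, `k₀ + 1` modulo `ϖ`** -/
def V2 (M k₀ : ℕ) (ϖ : O) : Submodule O (FT M (RR ϖ)) :=
  ⨅ s, ⨆ k : {k : ℕ // k ≡ k₀ [MOD 2 ^ s]}, Fil2 M k.1 ϖ

/-- **the carrier**: two weights `i + 1`, `i + 2`, depleted at `2` -/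
def X2 (M i : ℕ) (ϖ : O) : Submodule O (FT M (RR ϖ)) := V2 M (i + 1) ϖ ⊓ Od O M (RR ϖ)

/-- all forms modulo the maximal ideal, depleted at `2` (`ϖ` the uniformiser) -/
def Vb (M : ℕ) (ϖ : O) : Submodule O (FT M (RR ϖ)) := VV M 0 ϖ ⊓ Od O M (RR ϖ)

/-- reduction from `ϖ ϖ'` to `ϖ` -/
def rho (M : ℕ) (ϖ ϖ' : O) : FT M (RR (ϖ * ϖ')) →ₐ[O] FT M (RR ϖ) :=
  mp O M (Ideal.Quotient.factorₐ O (by
    rw [Ideal.span_singleton_le_span_singleton, map_mul]
    exact dvd_mul_right _ _))

end Vale.Agent.P022D.V
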