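import Vale.Agent.P022D.V.Defs2

/-!
# P022D, block V: the divisible carrier (coefficients in `ℂ / A`)
-/

set_option linter.all false

noncomputable section

namespace Vale.Agent.P022D.V

section formal

variable {M : ℕ} (S : Type) [CommRing S] {R R' : Type} [CommRing R] [Algebra S R]
  [CommRing R'] [Algebra S R']

/-- a linear map applied to all coefficients -/
def ml (M : ℕ) (φ : R →ₗ[S] R') : FT M R →ₗ[S] FT M R' where
  toFun w g := PowerSeries.mk fun n => φ ((w g).coeff n)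
  map_add' w w' := by ext g n; simp
  map_smul' c w := by ext g n; simp

theorem ml_coeff (φ : R →ₗ[S] R') (w : FT M R) (g : GM M) (n : ℕ) :
    (ml S M φ w g).coeff n = φ ((w g).coeff n) := by simp [ml]

end formal

variable {O : Type} [CommRing O] [Co O]

/-- `A + ε ℂ` -/
def BB (O : Type) [CommRing O] [Co O] : Subring (DualNumber ℂ) :=
  (Co.A O : ValuationSubring ℂ).toSubring.comap
    (TrivSqZeroExt.fstHom ℂ ℂ ℂ : DualNumber ℂ →+* ℂ)

theorem mem_BB {x : DualNumber ℂ} : x ∈ BB O ↔ x.fst ∈ (Co.A O : ValuationSubring ℂ) := Iff.rfl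

/-- `ε A` -/
def JJ (O : Type) [CommRing O] [Co O] : Ideal (BB O) where
  carrier := {x | (x : DualNumber ℂ).fst = 0 ∧
    (x : DualNumber ℂ).snd ∈ (Co.A O : ValuationSubring ℂ)}
  zero_mem' := ⟨rfl, (Co.A O : ValuationSubring ℂ).zero_mem⟩
  add_mem' := by
    rintro x y ⟨h1, h2⟩ ⟨h3, h4⟩
    refine ⟨?_, ?_⟩
    · rw [Subring.coe_add, TrivSqZeroExt.fst_add, h1, h3, add_zero]
    · rw [Subring.coe_add, TrivSqZeroExt.snd_add]
      exact add_mem h2 h4
  smul_mem' := by
    rintro c x ⟨h1, h2⟩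
    refine ⟨?_, ?_⟩
    · rw [smul_eq_mul, Subring.coe_mul, TrivSqZeroExt.fst_mul, h1, mul_zero]
    · rw [smul_eq_mul, Subring.coe_mul, DualNumber.snd_mul, h1, mul_zero, add_zero]
      exact mul_mem c.2 h2

/-- the ring `A + ε (ℂ / A)` -/
def RD (O : Type) [CommRing O] [Co O] : Type := BB O ⧸ JJ O

instance : CommRing (RD O) := inferInstanceAs (CommRing (BB O ⧸ JJ O))

/-- the quotient map -/
def mkD : BB O →+* RD O := Ideal.Quotient.mk (JJ O)

/-- the constants -/
def cB : AA O →+* BB O :=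
  ((algebraMap ℂ (DualNumber ℂ)).comp (av O)).codRestrict (BB O) fun a => av_mem a

/-- the constants -/
def cD : AA O →+* RD O := mkD.comp cB

instance : Algebra O (RD O) := RingHom.toAlgebra (cD.comp (algebraMap O (AA O)))

theorem alg_RD (a : O) : algebraMap O (RD O) a = cD (algebraMap O (AA O) a) := rfl

/-- `ε x` -/
def eB (x : ℂ) : BB O := ⟨TrivSqZeroExt.inr x, (Co.A O : ValuationSubring ℂ).zero_mem⟩

/-- the class of `ε x` -/
def eD (O : Type) [CommRing O] [Co O] (x : ℂ) : RD O := mkD (eB x)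

theorem eD_add (x y : ℂ) : eD O (x + y) = eD O x + eD O y := by
  rw [eD, eD, eD, ← map_add]
  congr 1
  exact Subtype.ext (TrivSqZeroExt.inr_add ℂ x y)

theorem eD_mul (a : AA O) (x : ℂ) : cD a * eD O x = eD O (av O a * x) := by
  rw [eD, eD, cD, RingHom.comp_apply, ← map_mul]
  congr 1
  apply Subtype.ext
  exact TrivSqZeroExt.inl_mul_inr (av O a) x

theorem eD_eq_zero {x : ℂ} : eD O x = 0 ↔ x ∈ (Co.A O : ValuationSubring ℂ) := by
  rw [eD, mkD]
  exact Ideal.Quotient.eq_zero_iff_mem.trans ⟨fun h => h.2, fun h => ⟨rfl, h⟩⟩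

theorem eD_zero : eD O 0 = 0 := eD_eq_zero.2 (Co.A O : ValuationSubring ℂ).zero_mem

/-- `a ↦ ε a / ϖ` -/
def dv0 (ϖ : O) : AA O →ₗ[O] RD O where
  toFun a := eD O (av O a / Co.j ϖ)
  map_add' a b := by rw [map_add, add_div, eD_add]
  map_smul' c a := by
    rw [RingHom.id_apply, Algebra.smul_def, Algebra.smul_def, alg_RD, eD_mul, map_mul,
      mul_div_assoc]

/-- `a ↦ ε a / ϖ` on `A / ϖ` -/
def dv (ϖ : O) : RR ϖ →ₗ[O] RD O :=
  (Submodule.liftQ ((Ideal.span {algebraMap O (AA O) ϖ}).restrictScalars O) (dv0 ϖ) (by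
    intro a ha
    obtain ⟨b, rfl⟩ := Ideal.mem_span_singleton'.1 ha
    rw [LinearMap.mem_ker]
    change eD O (av O (b * algebraMap O (AA O) ϖ) / Co.j ϖ) = 0
    rw [eD_eq_zero, map_mul, av_alg]
    by_cases h : (Co.j ϖ : ℂ) = 0
    · rw [h, div_zero]
      exact (Co.A O : ValuationSubring ℂ).zero_mem
    · rw [mul_div_assoc, div_self h, mul_one]
      exact av_mem b)).comp
    (Submodule.Quotient.restrictScalarsEquiv O
      (Ideal.span {algebraMap O (AA O) ϖ} : Ideal (AA O))).symm.toLinearMap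

theorem dv_mk (ϖ : O) (a : AA O) :
    dv ϖ (Ideal.Quotient.mk _ a) = eD O (av O a / Co.j ϖ) := rfl

/-- `e(1 / M)` -/
def zD (O : Type) [CommRing O] [Co O] (M : ℕ) : RD O := cD (zA O M)

/-- the divisible module of the forms of 2-adic weight `k₀` -/
def VD (O : Type) [CommRing O] [Co O] (M k₀ : ℕ) : Submodule O (FT M (RD O)) :=
  ⨆ n : ℕ, (VV M k₀ ((2 : O) ^ n)).map (ml O M (dv ((2 : O) ^ n)))

/-- one weight, depleted at `2` -/
def XD1 (O : Type) [CommRing O] [Co O] (M k₀ : ℕ) : Submodule O (FT M (RD O)) :=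
  VD O M k₀ ⊓ Od O M (RD O)

/-- **the divisible carrier**: weights `i + 1` and `i + 2`, depleted at `2` -/
def XD (O : Type) [CommRing O] [Co O] (M i : ℕ) : Submodule O (FT M (RD O)) :=
  XD1 O M (i + 1) ⊔ XD1 O M (i + 2)

end Vale.Agent.P022D.V
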