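import Vale.Agent.P022D.V.GenB

/-!
# P022D, block V, row GEN: bounded number of generators
-/

set_option linter.all false

open Matrix
open scoped MatrixGroups

noncomputable section

namespace Vale.Agent.P022D.V.Gn

open Vale.Agent.P027M.M

variable {O : Type} [CommRing O] [Co O]

/-- the Galois equivariant tuples -/
def GS (O : Type) [CommRing O] [Co O] (M : ℕ) : Submodule O (FT M (AA O)) where
  carrier := {w | Gal w}
  zero_mem' := fun σ _ a _ g n => by simp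
  add_mem' := fun {w w'} h3 h3' σ hσ a ha g n => by
    simp only [Pi.add_apply, map_add]
    rw [h3 σ hσ a ha, h3' σ hσ a ha]
  smul_mem' := fun c w h3 σ hσ a ha g n => by
    have e : ∀ g n, av O (((c • w) g).coeff n) = Co.j c * av O ((w g).coeff n) := by
      intro g n
      rw [Pi.smul_apply, PowerSeries.coeff_smul, Algebra.smul_def, map_mul, av_alg]
    rw [e, e, map_mul, hσ, h3 σ hσ a ha]

variable {M N Q : ℕ} {z π : O} {lam : ℕ → O} {om : GM M → O} {S T : Set ℕ}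

theorem ex_gal {k : ℕ} {v : FT M (RR π)} (hv : v ∈ VV M k π) : ∃ w, Gal w ∧ red M π w = v := by
  have h : VV M k π ≤ (GS O M).map (red M π).toLinearMap :=
    (iInf_le _ 0).trans (iSup_le fun k => Submodule.map_mono fun w hw => hw.2)
  exact h hv

theorem ze_mul (hM : 0 < M) (eM : M = N * Q) : ze M 1 ^ Q = ze N 1 := by
  subst eM
  have hN : (N : ℂ) ≠ 0 := Nat.cast_ne_zero.2 (Nat.pos_of_mul_pos_right hM).ne'
  have hQ : (Q : ℂ) ≠ 0 := Nat.cast_ne_zero.2 (Nat.pos_of_mul_pos_left hM).ne'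
  rw [ze, ze, ← Complex.exp_nat_mul]
  congr 1
  push_cast
  field_simp

theorem red_co (w : FT M (AA O)) (g : GM M) (n : ℕ) :
    (red M π w g).coeff n = Ideal.Quotient.mk _ ((w g).coeff n) := rfl

theorem rat_co (hR : ROOT O) (hU : UNR O) (hM : Odd M) (h1 : 1 < M) (eM : M = N * Q)
    (hz : Co.j z = ze N 1) {k : ℕ} {v : FT M (RR π)} (hv : v ∈ VV M k π)
    (tor : ∀ a : (ZMod M)ˣ, Cg M N a 1 → rt O _ (dg 1 a) v = v) (e : (ZMod M)ˣ) (n : ℕ) :
    (v (dg 1 e)).coeff n ∈ Submodule.span O {(1 : RR π)} := by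
  haveI : Fact (1 < M) := ⟨h1⟩
  obtain ⟨w, hw, rfl⟩ := ex_gal hv
  obtain ⟨r1, r2, -, -, -, -, r7, -⟩ := hR M hM
  have hζ : ze M 1 ^ M = 1 := by rw [← r1, ← map_pow, r2.pow, map_one]
  obtain ⟨a, y, h⟩ := (hU M hM ((w (dg 1 e)).coeff n) fun σ hσ hζ => by
    have h := hw σ hσ 1 (by rw [hζ, Units.val_one, ZMod.val_one, pow_one]) (dg 1 e) n
    rwa [dg_one, one_mul] at h).2 π fun σ hσ => by
      obtain ⟨m, hm⟩ := r7 σ hσ
      have hc : Nat.Coprime (2 ^ m) M := Nat.Coprime.pow_left m (Nat.coprime_two_left.2 hM)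
      have ea : ((ZMod.unitOfCoprime _ hc : (ZMod M)ˣ) : ZMod M) = (2 ^ m : ℕ) :=
        ZMod.coe_unitOfCoprime _ _
      have h2 := hw σ hσ (ZMod.unitOfCoprime _ hc) (by
        rw [hm, ea, ZMod.val_natCast, ← pow_eq_pow_mod _ hζ]) (dg 1 e) n
      obtain ⟨t, ht⟩ : ∃ t, 2 ^ m = t + 1 := ⟨2 ^ m - 1, (Nat.sub_add_cancel Nat.one_le_two_pow).symm⟩
      have h3 : zA O M ^ (t * Q) = 1 := by
        apply av_inj
        have h := hσ z
        rw [hz, ← ze_mul hM.pos eM, map_pow, hm, ht, ← pow_mul, add_mul, one_mul, pow_add] at h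
        rw [map_pow, r1, map_one]
        exact mul_right_cancel₀ (pow_ne_zero Q (Complex.exp_ne_zero _)) (h.trans (one_mul _).symm)
      have h4 : M ∣ t * Q := by
        by_contra h
        have h' := r2.unit _ h
        rw [h3, sub_self] at h'
        exact not_isUnit_zero h'
      obtain ⟨t', ht'⟩ : N ∣ t := Nat.dvd_of_mul_dvd_mul_right
        (Nat.pos_of_mul_pos_left (eM ▸ hM.pos)) (eM ▸ h4)
      have h5 := congrFun (tor (ZMod.unitOfCoprime _ hc) ⟨t', by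
        rw [ea, ht, ht']; push_cast; ring⟩) (dg 1 e)
      rw [rt_apply, dg_comm] at h5
      have h6 := congrArg (PowerSeries.coeff n) h5
      rw [red_co, red_co, Ideal.Quotient.eq, Ideal.mem_span_singleton'] at h6
      obtain ⟨y, hy⟩ := h6
      rw [eq_sub_iff_add_eq] at hy
      rw [← hy, map_add, map_add, map_mul, map_mul, av_alg, hσ] at h2
      refine ⟨amk (-σ (av O y)) (neg_mem (Co.stab σ hσ _ (av_mem y))), ?_⟩
      rw [av_amk]
      linear_combination h2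
  rw [red_co, h, map_add, map_mul, Ideal.Quotient.eq_zero_iff_mem.2
    (Ideal.mem_span_singleton_self _), zero_mul, add_zero]
  exact Submodule.mem_span_singleton.2 ⟨a, (Algebra.algebraMap_eq_smul_one a).symm⟩

/-- one coefficient -/
def co (O : Type) [CommRing O] [Co O] (π : O) (g : GM M) (n : ℕ) : FT M (RR π) →ₗ[O] RR π where
  toFun v := (v g).coeff n
  map_add' v w := by simp
  map_smul' c v := by simp

theorem base (hR : ROOT O) (hU : UNR O) (hV : VS3 O) (hI : IRR O) (hT : TN) (hM : Odd M)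
    (h1 : 1 < M) (eM : M = N * Q) (cop : Nat.Coprime N Q) (hz : Co.j z = ze N 1) (hπ : Unif π)
    (hl : ∀ p : ℕ, p.Prime → p ∣ Q → p ∈ T ∧ Sp M (M / p) p) :
    Ng 1 (Yn M N Q z π lam om S T) := by
  haveI : NeZero M := ⟨hM.pos.ne'⟩
  have hc : Nat.Coprime (Q + N) M := by
    rw [eM]
    exact Nat.Coprime.mul_right (by simpa using cop.symm) (by simpa using cop)
  have e0 : ((ZMod.unitOfCoprime _ hc : (ZMod M)ˣ) : ZMod M) = (Q + N : ℕ) :=
    ZMod.coe_unitOfCoprime _ _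
  generalize ZMod.unitOfCoprime _ hc = u₀ at e0
  have hζ : PZ M (zR M π) := (hR M hM).2.2.2.2.1 π
  have ez : algebraMap O (RR π) z = zR M π ^ Q := by
    have h : algebraMap O (AA O) z = zA O M ^ Q :=
      av_inj (by rw [av_alg, map_pow, (hR M hM).1, hz, ze_mul hM.pos eM])
    rw [zR, ← map_pow, ← h]; rfl
  obtain ⟨-, -, -, -, -, -, v7, -, v9, -⟩ := hV M π hM hπ.ne
  refine Ng.inj (co O π (dg 1 u₀⁻¹) 1) (ng_one hπ (1 : RR π) (by
    rw [← Algebra.algebraMap_eq_smul_one]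
    exact Ideal.Quotient.eq_zero_iff_mem.2 (Ideal.mem_span_singleton_self _)))
    (fun v hv => rat_co hR hU hM h1 eM hz hv.vb.1 (fun a ha => hv.tor 1 a (cg_one N) ha) _ _)
    fun v hv h0 => ?_
  have hv : Cn M N Q z π lam om S T v := hv
  obtain ⟨t1, -, t3, -⟩ := (hT O (RR π) M).2 _ hζ v (v9 0 v ((v7 0).1 hv.vb.1))
  funext g
  refine hI M 0 π hM hπ.ne v hv.vb.1 (dg 1 (Matrix.GeneralLinearGroup.det g)) ?_ g
    (by rw [det_dg', one_mul])
  generalize Matrix.GeneralLinearGroup.det g = d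
  ext n
  rw [map_zero]
  rcases Nat.even_or_odd n with hn | hn
  · exact hv.vb.2 _ n hn
  by_cases hQ : Nat.Coprime n Q
  swap
  · obtain ⟨p, hp, p1, p2⟩ := Nat.Prime.not_coprime_iff_dvd.1 hQ
    obtain ⟨p3, p4⟩ := hl p hp p2
    have h := t3 _ p p4 (dg 1 d) (by simp [dg_coe]) n
    rw [hv.nu p p3, if_pos p1, Pi.zero_apply, map_zero] at h
    have hu : IsUnit (p : RR π) := by
      have h' := (hR p (Odd.of_dvd_nat hM (eM ▸ p2.mul_left N))).2.2.2.1.map
        (algebraMap O (RR π))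
      rwa [map_natCast] at h'
    exact hu.mul_right_eq_zero.1 h.symm
  have A := congrArg (PowerSeries.coeff n) (congrFun (hv.wh (d : ZMod M).val) (dg 1 d))
  rw [Pi.smul_apply, PowerSeries.coeff_smul, rt_apply, dg_un, ZMod.natCast_zmod_val, one_mul,
    Units.mul_inv_cancel_right, Algebra.smul_def, map_pow, ez, ← pow_mul] at A
  have B := t1 Q (dg 1 d) n
  obtain ⟨m, hm⟩ : ∃ m, M = m + 1 := ⟨M - 1, (Nat.sub_add_cancel hM.pos).symm⟩
  by_cases hk : M ∣ Q * (Q * (d : ZMod M).val + m * n)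
  swap
  · apply (hζ.unit _ hk).mul_right_eq_zero.1
    have h : zR M π ^ (Q * (m * n)) * zR M π ^ (Q * n) = 1 := by
      rw [← pow_add, show Q * (m * n) + Q * n = (m + 1) * (Q * n) by ring, ← hm, pow_mul,
        hζ.pow, one_pow]
    rw [mul_add, pow_add]
    linear_combination A - zR M π ^ (Q * (Q * (d : ZMod M).val)) * zR M π ^ (Q * (m * n)) * B +
      zR M π ^ (Q * (Q * (d : ZMod M).val)) *
        (v (un (Q : ZMod M) * dg 1 d)).coeff n * h
  obtain ⟨t, ht⟩ : N ∣ Q * (d : ZMod M).val + m * n := Nat.dvd_of_mul_dvd_mul_left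
    (Nat.pos_of_mul_pos_left (eM ▸ hM.pos)) (by rw [mul_comm Q N, ← eM]; exact hk)
  have hm' : (m : ZMod M) + 1 = 0 := by
    rw [← Nat.cast_succ, Nat.succ_eq_add_one, ← hm, ZMod.natCast_self]
  have ht' : (Q : ZMod M) * d = n + N * t := by
    have h := congrArg (Nat.cast : ℕ → ZMod M) ht
    push_cast at h
    rw [ZMod.natCast_zmod_val] at h
    linear_combination h - n * hm'
  have hu : IsUnit (n : ZMod M) := by
    obtain ⟨α, β, h⟩ : IsCoprime (N : ZMod M) (Q : ZMod M) := cop.cast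
    have h2 : IsCoprime (n : ZMod M) (N : ZMod M) :=
      ⟨β * (d⁻¹ : (ZMod M)ˣ), β * (d⁻¹ : (ZMod M)ˣ) * t + α, by
        linear_combination h - β * (d⁻¹ : (ZMod M)ˣ) * ht' + β * Q * d.mul_inv⟩
    have h3 := h2.mul_right (show IsCoprime (n : ZMod M) (Q : ZMod M) from hQ.cast)
    rwa [← Nat.cast_mul, ← eM, ZMod.natCast_self, isCoprime_zero_right] at h3
  obtain ⟨u, hu⟩ := hu
  obtain ⟨τ, hτ, e⟩ := (hT O (RR π) M).1 0 n u hn hu
  obtain ⟨c, hc⟩ : ∃ c : O, τ v = c • v := by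
    clear e
    induction hτ using Algebra.adjoin_induction with
    | mem x hx =>
      obtain ⟨p, u', p1, p2, -, p3, rfl | rfl⟩ := hx
      · exact ⟨_, hv.he p u' p1 p2 p3⟩
      · exact ⟨_, by rw [Sf, pow_zero, one_smul]; exact hv.ce u'⟩
    | algebraMap r => exact ⟨r, rfl⟩
    | add x y _ _ hx hy =>
      obtain ⟨a, ha⟩ := hx
      obtain ⟨b, hb⟩ := hy
      exact ⟨a + b, by rw [LinearMap.add_apply, ha, hb, add_smul]⟩
    | mul x y _ _ hx hy =>
      obtain ⟨a, ha⟩ := hx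
      obtain ⟨b, hb⟩ := hy
      exact ⟨b * a, by rw [Module.End.mul_apply, hb, map_smul, ha, mul_smul]⟩
  have e1 := e v (dg 1 (u⁻¹ * d)) 1 (Nat.coprime_one_left n)
  rw [dg_mul, one_mul, mul_inv_cancel_left, mul_one, hc] at e1
  have e2 := congrFun (hv.tor 1 (u₀ * (u⁻¹ * d)) (cg_one N)
    ⟨(u⁻¹ : (ZMod M)ˣ) * (t + d), by
      rw [Units.val_mul, Units.val_mul, e0, Nat.cast_add]
      linear_combination (u⁻¹ : (ZMod M)ˣ) * ht' - (u⁻¹ : (ZMod M)ˣ) * hu + u.inv_mul⟩)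
    (dg 1 u₀⁻¹)
  rw [rt_apply, dg_mul, one_mul, inv_mul_cancel_left] at e2
  rw [← e1, Pi.smul_apply, PowerSeries.coeff_smul, e2]
  exact (congrArg (c • ·) h0).trans (smul_zero c)

end Vale.Agent.P022D.V.Gn

namespace Vale.Agent.P022D.V

open Gn

/-- **bounded number of generators** -/
theorem gen (O : Type) [CommRing O] [Co O] (hR : ROOT O) (hU : UNR O) (hV : VS3 O)
    (hIr : IRR O) (hD : DESCV O) (hWV : WV O) (hI : IH O) (hG : GRP) (hT : TN) (h1 : WF1)
    (h2 : WF2) : GEN O := by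
  refine fun r => ⟨2 ^ r, fun M N l z π hM hN eM hl hp hr hz hπ lam om X hX hL => ?_⟩
  have e : ∀ q ∈ l, M / q = N * (l.erase q).prod := fun q hq => by
    rw [eM, ← List.prod_erase hq, mul_left_comm, Nat.mul_div_cancel_left _ (hp q hq).1.pos]
  have sp : ∀ q ∈ l, Sp M (M / q) q := fun q hq => by
    refine ⟨(Nat.div_mul_cancel (eM ▸ (List.dvd_prod hq).mul_left N)).symm, ?_, (hp q hq).1, hM⟩
    rw [e q hq, Nat.coprime_comm, (hp q hq).1.coprime_iff_not_dvd, (hp q hq).1.dvd_mul,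
      (hp q hq).1.prime.dvd_prod_iff]
    rintro (h | ⟨a, ha, h⟩)
    · exact (hp q hq).2 h
    · obtain ⟨a1, a2⟩ := hl.mem_erase_iff.1 ha
      exact a1 ((Nat.prime_dvd_prime_iff_eq (hp q hq).1 (hp a a2).1).1 h).symm
  have dv : ∀ q ∈ l, ∀ q' ∈ l, q ≠ q' → q ∣ M / q' := fun q hq q' hq' h => by
    rw [e q' hq']
    exact (List.dvd_prod (hl.mem_erase_iff.2 ⟨h, hq⟩)).mul_left N
  have dN : ∀ q ∈ l, N ∣ M / q := fun q hq => ⟨_, e q hq⟩
  have M1 : 1 < M := lt_of_lt_of_le (by omega) (Nat.le_of_dvd hM.pos ⟨_, eM⟩)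
  have cop : Nat.Coprime N l.prod := Nat.coprime_list_prod_right_iff.2 fun q hq =>
    ((hp q hq).1.coprime_iff_not_dvd.2 (hp q hq).2).symm
  have key : ∀ S : List ℕ, S.Nodup → (∀ q ∈ S, q ∈ l) →
      Ng (2 ^ S.length) (Yn M N l.prod z π lam om {q | q ∈ S} {q | q ∈ l ∧ q ∉ S}) := by
    intro S
    induction S with
    | nil =>
      refine fun _ _ => base hR hU hV hIr hT hM M1 eM cop hz hπ fun p p1 p2 => ?_
      obtain ⟨a, ha, h⟩ := p1.prime.dvd_prod_iff.1 p2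
      obtain rfl := (Nat.prime_dvd_prime_iff_eq p1 (hp a ha).1).1 h
      exact ⟨⟨ha, List.not_mem_nil⟩, sp p ha⟩
    | cons q S ih =>
      intro hS hSl
      obtain ⟨n1, n2⟩ := List.nodup_cons.1 hS
      have hq := hSl q List.mem_cons_self
      have hSl' : ∀ q ∈ S, q ∈ l := fun q' h => hSl q' (List.mem_cons_of_mem _ h)
      have h0 : 0 < M / q := Nat.pos_of_mul_pos_right ((sp q hq).eq ▸ hM.pos)
      rw [List.length_cons, pow_succ, mul_two]
      refine (step (z := z) (lam := lam) (om := om) (S := {q | q ∈ S})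
        (T := {q' | q' ∈ l ∧ q' ∉ q :: S}) hR hV hD hWV hI hG h1 h2 (sp q hq)
        (hN.trans (Nat.le_of_dvd h0 (dN q hq))) (dN q hq) (List.dvd_prod hq)
        (fun q' h => dv q hq q' (hSl' q' h) fun e => n1 (e ▸ h))
        (fun q' h => dv q hq q' h.1 fun e => h.2 (e ▸ List.mem_cons_self)) hπ
        ((ih n2 hSl').mono ?_)).mono ?_
      · rintro v ⟨hv, h⟩
        refine ⟨hv.vb, hv.wh, hv.ce, hv.he, hv.tor, hv.iv, fun q' h' => ?_⟩
        by_cases e : q' = q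
        · subst e; exact h
        · exact hv.nu q' ⟨h'.1, fun h'' => (List.mem_cons.1 h'').elim e h'.2⟩
      · intro v hv
        exact ⟨⟨hv.vb, hv.wh, hv.ce, hv.he, hv.tor,
          fun q' h => hv.iv q' (List.mem_cons_of_mem _ h), hv.nu⟩, hv.iv q List.mem_cons_self⟩
  rw [← hr]
  refine key l hl (fun _ h => h) X fun v hv => ?_
  obtain ⟨⟨⟨x1, x2⟩, x3⟩, x4⟩ := hX hv
  refine ⟨x1, fun x => ?_, fun a => x4 _ ⟨a, rfl⟩, fun p u p1 p2 p3 => hL p u p1 p2 p3 v hv,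
    fun a d ha hd => mem_Iv.1 x3 _ ⟨dg_mem ha hd, by simp [dg_coe]⟩, fun q hq => mem_Iv.2 ?_,
    fun q hq => (hq.2 hq.1).elim⟩
  · rw [← Nat.cast_mul]; exact x2 _
  · rintro _ ⟨x, rfl⟩
    exact mem_Iv.1 x3 _ ⟨un_mem' (dN q hq) x, by simp [un_coe]⟩

end Vale.Agent.P022D.V
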