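import Vale.Agent.P022D.V.Spec2

/-!
# P022D, block V, row GEN: counting generators, the norm of the unipotent group
-/

set_option linter.all false

open Matrix
open scoped MatrixGroups

noncomputable section

namespace Vale.Agent.P022D.V.Gn

section gen

variable {O V V' : Type} [CommRing O] [AddCommGroup V] [Module O V] [AddCommGroup V']
  [Module O V']

/-- every submodule of `Y` has at most `n` generators -/
def Ng (n : ℕ) (Y : Submodule O V) : Prop :=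
  ∀ X ≤ Y, ∃ s : Finset V, s.card ≤ n ∧ Submodule.span O (s : Set V) = X

theorem Ng.mono {n : ℕ} {Y Y' : Submodule O V} (h : Ng n Y') (hY : Y ≤ Y') : Ng n Y :=
  fun X hX => h X (hX.trans hY)

theorem Ng.add {a b : ℕ} {Y : Submodule O V} {Y' : Submodule O V'} (f : V →ₗ[O] V')
    (h' : Ng b Y') (hf : ∀ v ∈ Y, f v ∈ Y') (hk : Ng a (Y ⊓ LinearMap.ker f)) :
    Ng (a + b) Y := by
  classical
  intro X hX
  obtain ⟨s, hs, es⟩ := hk (X ⊓ LinearMap.ker f) (inf_le_inf_right _ hX)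
  obtain ⟨t, ht, et⟩ := h' (X.map f) (by rintro _ ⟨v, hv, rfl⟩; exact hf v (hX hv))
  have key : ∀ y ∈ t, ∃ x ∈ X, f x = y := fun y hy => by
    have h : y ∈ X.map f := et ▸ Submodule.subset_span hy
    exact h
  choose! g hg hfg using key
  refine ⟨s ∪ t.image g, (Finset.card_union_le _ _).trans
    (add_le_add hs (Finset.card_image_le.trans ht)), le_antisymm ?_ ?_⟩
  · rw [Submodule.span_le]
    intro x hx
    rcases Finset.mem_union.1 hx with h | h
    · have h1 : x ∈ X ⊓ LinearMap.ker f := es ▸ Submodule.subset_span h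
      exact h1.1
    · obtain ⟨y, hy, rfl⟩ := Finset.mem_image.1 h
      exact hg y hy
  · intro x hx
    have h1 : X.map f ≤ (Submodule.span O ((t.image g : Finset V) : Set V)).map f := by
      rw [← et, Submodule.span_le]
      intro y hy
      exact ⟨g y, Submodule.subset_span (Finset.mem_image_of_mem g hy), hfg y hy⟩
    obtain ⟨x', hx', e⟩ := h1 ⟨x, hx, rfl⟩
    have h2 : Submodule.span O ((t.image g : Finset V) : Set V) ≤ X := by
      rw [Submodule.span_le]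
      intro x hx
      obtain ⟨y, hy, rfl⟩ := Finset.mem_image.1 hx
      exact hg y hy
    have h3 : x - x' ∈ Submodule.span O (s : Set V) := by
      rw [es]
      exact ⟨X.sub_mem hx (h2 hx'), by
        change f (x - x') = 0
        rw [map_sub, e, sub_self]⟩
    rw [← sub_add_cancel x x', Finset.coe_union]
    exact Submodule.add_mem _ (Submodule.span_mono Set.subset_union_left h3)
      (Submodule.span_mono Set.subset_union_right hx')

theorem Ng.inj {b : ℕ} {Y : Submodule O V} {Y' : Submodule O V'} (f : V →ₗ[O] V')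
    (h' : Ng b Y') (hf : ∀ v ∈ Y, f v ∈ Y') (hk : ∀ v ∈ Y, f v = 0 → v = 0) : Ng b Y := by
  have h := Ng.add (a := 0) f h' hf fun X hX => ⟨∅, le_rfl, by
    rw [Finset.coe_empty, Submodule.span_empty]
    exact ((Submodule.eq_bot_iff X).2 fun x hx => hk x (hX hx).1 (hX hx).2).symm⟩
  rwa [zero_add] at h

theorem ng_one {π : O} (hπ : Unif π) (e : V) (he : π • e = 0) :
    Ng 1 (Submodule.span O {e}) := by
  intro X hX
  by_cases h : X = ⊥
  · exact ⟨∅, zero_le_one, by rw [Finset.coe_empty, Submodule.span_empty, h]⟩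
  obtain ⟨x, hx, h0⟩ := (Submodule.ne_bot_iff X).1 h
  obtain ⟨a, rfl⟩ := Submodule.mem_span_singleton.1 (hX hx)
  have ha : IsUnit a := by
    by_contra ha
    obtain ⟨b, rfl⟩ := hπ.dvd a ha
    exact h0 (by rw [mul_comm, mul_smul, he, smul_zero])
  refine ⟨{e}, le_rfl, le_antisymm ?_ (by rwa [Finset.coe_singleton])⟩
  rw [Finset.coe_singleton, Submodule.span_singleton_le_iff_mem]
  obtain ⟨u, rfl⟩ := ha
  have h1 := X.smul_mem (u⁻¹ : Oˣ) hx
  rwa [← mul_smul, Units.inv_mul, one_smul] at h1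

end gen

section grp

variable {M : ℕ}

theorem un_mul (x y : ZMod M) : un x * un y = un (x + y) := by
  apply Units.ext
  rw [Units.val_mul, un_coe, un_coe, un_coe]
  ext i j; fin_cases i <;> fin_cases j <;> simp [Matrix.mul_apply, Fin.sum_univ_two, add_comm]

theorem dg_un (a d : (ZMod M)ˣ) (x : ZMod M) :
    dg a d * un x = un (x * ((a * d⁻¹ : (ZMod M)ˣ) : ZMod M)) * dg a d := by
  apply Units.ext
  rw [Units.val_mul, Units.val_mul, un_coe, un_coe, dg_coe]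
  ext i j; fin_cases i <;> fin_cases j <;>
    simp [Matrix.mul_apply, Fin.sum_univ_two, mul_assoc, mul_comm (a : ZMod M)]

theorem det_dg' (a d : (ZMod M)ˣ) : Matrix.GeneralLinearGroup.det (dg a d) = a * d := by
  apply Units.ext
  rw [Matrix.GeneralLinearGroup.val_det_apply, dg_coe, Matrix.det_fin_two_of]
  simp

theorem un_mem {q : ℕ} (x : ZMod M) : un ((q : ZMod M) * x) ∈ Kq M q := by
  intro i j
  rw [un_coe]
  fin_cases i <;> fin_cases j
  · exact ⟨0, by simp⟩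
  · exact ⟨x, by simp⟩
  · exact ⟨0, by simp⟩
  · exact ⟨0, by simp⟩

theorem un_mem' {q n : ℕ} (h : q ∣ n) (x : ZMod M) : un ((n : ZMod M) * x) ∈ Kq M q := by
  obtain ⟨t, rfl⟩ := h
  rw [Nat.cast_mul, mul_assoc]
  exact un_mem _

theorem dg_mem {q : ℕ} {a d : (ZMod M)ˣ} (ha : Cg M q a 1) (hd : Cg M q d 1) :
    dg a d ∈ Kq M q := by
  obtain ⟨x, hx⟩ := ha
  obtain ⟨y, hy⟩ := hd
  intro i j
  rw [dg_coe]
  fin_cases i <;> fin_cases j
  · exact ⟨x, by simpa using hx⟩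
  · exact ⟨0, by simp⟩
  · exact ⟨0, by simp⟩
  · exact ⟨y, by simpa using hy⟩

theorem Cg.of_dvd {N N' : ℕ} (h : N ∣ N') {x y : ZMod M} (hx : Cg M N' x y) : Cg M N x y := by
  obtain ⟨t, rfl⟩ := h
  obtain ⟨u, rfl⟩ := hx
  exact ⟨t * u, by rw [Nat.cast_mul, mul_assoc]⟩

theorem cg_one (N : ℕ) : Cg M N ((1 : (ZMod M)ˣ) : ZMod M) 1 := ⟨0, by simp⟩

theorem split {M₀ q N : ℕ} (h : Sp M M₀ q) (hN : N ∣ M₀) (a : (ZMod M)ˣ) (ha : Cg M N a 1) :
    ∃ a₁ a₂ : (ZMod M)ˣ, a = a₂ * a₁ ∧ Cg M M₀ a₁ 1 ∧ Cg M q a₂ 1 ∧ Cg M N a₂ 1 := by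
  obtain ⟨x, y, hxy⟩ : IsCoprime (M₀ : ZMod M) (q : ZMod M) := h.cop.cast
  have h0 : (M₀ : ZMod M) * q = 0 := by rw [← Nat.cast_mul, ← h.eq, ZMod.natCast_self]
  have hi : (a : ZMod M) * (a⁻¹ : (ZMod M)ˣ) = 1 := a.mul_inv
  let a₁ : (ZMod M)ˣ := ⟨y * q + x * M₀ * a, y * q + x * M₀ * (a⁻¹ : (ZMod M)ˣ),
    by linear_combination (x * y * ((a : ZMod M) + (a⁻¹ : (ZMod M)ˣ) - 2)) * h0 +
      (x * M₀) ^ 2 * hi + (x * M₀ + y * q + 1) * hxy,
    by linear_combination (x * y * ((a : ZMod M) + (a⁻¹ : (ZMod M)ˣ) - 2)) * h0 +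
      (x * M₀) ^ 2 * hi + (x * M₀ + y * q + 1) * hxy⟩
  have e : ((a * a₁⁻¹ : (ZMod M)ˣ) : ZMod M) = a * (y * q + x * M₀ * (a⁻¹ : (ZMod M)ˣ)) := rfl
  obtain ⟨t, rfl⟩ := hN
  obtain ⟨u, hu⟩ := ha
  refine ⟨a₁, a * a₁⁻¹, by rw [inv_mul_cancel_right], ⟨x * (a - 1), ?_⟩, ⟨y * (a - 1), ?_⟩,
    ⟨u * y * q, ?_⟩⟩
  · change y * q + x * (N * t : ℕ) * a = _
    linear_combination hxy
  · rw [e]
    linear_combination hxy + x * (N * t : ℕ) * hi
  · rw [e]
    linear_combination hxy + x * (N * t : ℕ) * hi + y * q * hu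

end grp

section formal

variable {M : ℕ} {S R : Type} [CommRing S] [CommRing R] [Algebra S R]

theorem rt_rt (g h : GM M) (w : FT M R) : rt S R g (rt S R h w) = rt S R (g * h) w := by
  rw [map_mul]; rfl

theorem rt_T (h : GM M) (i p : ℕ) (u : (ZMod M)ˣ) (w : FT M R) :
    rt S R h (Tf S R i p u w) = Tf S R i p u (rt S R h w) := by
  funext g
  change Uo p (w (dg 1 u * (g * h))) + (p ^ i : ℕ) • Vo p (w (dg u 1 * (g * h))) =
    Uo p (w (dg 1 u * g * h)) + (p ^ i : ℕ) • Vo p (w (dg u 1 * g * h))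
  rw [mul_assoc, mul_assoc]

theorem mem_Iv {H : Set (GM M)} {w : FT M R} : w ∈ Iv S R H ↔ ∀ h ∈ H, rt S R h w = w :=
  ⟨fun h g hg => (h g hg).trans (one_smul _ _), fun h g hg => (h g hg).trans (one_smul _ _).symm⟩

theorem Nu_apply (M₀ q : ℕ) (w : FT M R) : Nu S R M M₀ q w =
    ∑ x ∈ Finset.range q, rt S R (un ((M₀ : ZMod M) * (x : ZMod M))) w := by
  rw [Nu, LinearMap.sum_apply]; rfl

open Classical in
theorem sum_Uq {M₀ q : ℕ} [NeZero M] (h : Sp M M₀ q) {A : Type} [AddCommMonoid A]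
    (F : ZMod M → A) : ∑ x ∈ Finset.range q, F ((M₀ : ZMod M) * (x : ZMod M)) =
      ∑ y ∈ Finset.univ.filter (fun y : ZMod M => ∃ t, y = M₀ * t), F y := by
  have h0 : M₀ ≠ 0 := fun e => NeZero.ne M (by rw [h.eq, e, zero_mul])
  refine Finset.sum_bij (fun x _ => (M₀ : ZMod M) * (x : ZMod M)) (fun x _ => ?_)
    (fun x hx y hy e => ?_) (fun y hy => ?_) fun _ _ => rfl
  · exact Finset.mem_filter.2 ⟨Finset.mem_univ _, _, rfl⟩
  · rw [← Nat.cast_mul, ← Nat.cast_mul, ZMod.natCast_eq_natCast_iff, h.eq] at e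
    exact Nat.ModEq.eq_of_lt_of_lt (Nat.ModEq.mul_left_cancel' h0 e) (Finset.mem_range.1 hx)
      (Finset.mem_range.1 hy)
  · obtain ⟨t, rfl⟩ := (Finset.mem_filter.1 hy).2
    refine ⟨t.val % q, Finset.mem_range.2 (Nat.mod_lt _ h.prime.pos), ?_⟩
    conv_rhs => rw [← ZMod.natCast_zmod_val t]
    rw [← Nat.cast_mul, ← Nat.cast_mul, ZMod.natCast_eq_natCast_iff]
    have h1 := Nat.ModEq.mul_left' (c := M₀) (Nat.mod_modEq t.val q)
    rwa [← h.eq] at h1

theorem rt_Nu_un {M₀ q : ℕ} [NeZero M] (h : Sp M M₀ q) (x : ZMod M) (w : FT M R) :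
    rt S R (un ((M₀ : ZMod M) * x)) (Nu S R M M₀ q w) = Nu S R M M₀ q w := by
  rw [Nu_apply, sum_Uq h fun y => rt S R (un y) w, map_sum]
  refine Finset.sum_bij' (fun y _ => M₀ * x + y) (fun y _ => y - M₀ * x) (fun y hy => ?_)
    (fun y hy => ?_) (fun _ _ => by ring) (fun _ _ => by ring) fun y _ => ?_
  · obtain ⟨t, rfl⟩ := (Finset.mem_filter.1 hy).2
    exact Finset.mem_filter.2 ⟨Finset.mem_univ _, x + t, by ring⟩
  · obtain ⟨t, rfl⟩ := (Finset.mem_filter.1 hy).2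
    exact Finset.mem_filter.2 ⟨Finset.mem_univ _, t - x, by ring⟩
  · rw [rt_rt, un_mul]

theorem rt_Nu_dg {M₀ q : ℕ} [NeZero M] (h : Sp M M₀ q) (a d : (ZMod M)ˣ) (w : FT M R) :
    rt S R (dg a d) (Nu S R M M₀ q w) = Nu S R M M₀ q (rt S R (dg a d) w) := by
  rw [Nu_apply, Nu_apply, sum_Uq h fun y => rt S R (un y) w,
    sum_Uq h fun y => rt S R (un y) (rt S R (dg a d) w), map_sum]
  refine Finset.sum_bij' (fun y _ => y * (a * d⁻¹ : (ZMod M)ˣ))
    (fun y _ => y * ((a * d⁻¹)⁻¹ : (ZMod M)ˣ)) (fun y hy => ?_)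
    (fun y hy => ?_) (fun _ _ => Units.mul_inv_cancel_right _ _)
    (fun _ _ => Units.inv_mul_cancel_right _ _) fun y _ => ?_
  · obtain ⟨t, rfl⟩ := (Finset.mem_filter.1 hy).2
    exact Finset.mem_filter.2 ⟨Finset.mem_univ _, _, mul_assoc _ _ _⟩
  · obtain ⟨t, rfl⟩ := (Finset.mem_filter.1 hy).2
    exact Finset.mem_filter.2 ⟨Finset.mem_univ _, _, mul_assoc _ _ _⟩
  · rw [rt_rt, rt_rt, dg_un]

theorem Nu_Nu {M₀ q : ℕ} [NeZero M] (h : Sp M M₀ q) (w : FT M R) :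
    Nu S R M M₀ q (Nu S R M M₀ q w) = (q : S) • Nu S R M M₀ q w := by
  rw [Nu_apply M₀ q (Nu S R M M₀ q w), Finset.sum_congr rfl fun x _ => rt_Nu_un h _ w,
    Finset.sum_const, Finset.card_range, Nat.cast_smul_eq_nsmul]

theorem rt_Od (h : GM M) {w : FT M R} (hw : w ∈ Od S M R) : rt S R h w ∈ Od S M R :=
  fun g n hn => hw (g * h) n hn

end formal

end Vale.Agent.P022D.V.Gn
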