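import Vale.Agent.P022D.V.GenA

/-!
# P022D, block V, row GEN: one prime
-/

set_option linter.all false

open Matrix
open scoped MatrixGroups

noncomputable section

namespace Vale.Agent.P022D.V.Gn

/-- the stabiliser of a tuple -/
def St (S : Type) [CommRing S] {M : ℕ} {R : Type} [CommRing R] [Algebra S R] (w : FT M R) :
    Subgroup (GM M) where
  carrier := {g | rt S R g w = w}
  mul_mem' := fun {a b} ha hb => by
    change rt S R (a * b) w = w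
    rw [← rt_rt, hb, ha]
  one_mem' := by
    change rt S R 1 w = w
    rw [map_one]; rfl
  inv_mem' := fun {a} ha => by
    change rt S R a⁻¹ w = w
    conv_lhs => rw [← (show rt S R a w = w from ha), rt_rt, inv_mul_cancel, map_one]
    rfl

variable {O : Type} [CommRing O] [Co O]

/-- the conditions: invariant under the unipotent group at the primes in `S`, killed by its norm
at the primes in `T` -/
structure Cn (M N Q : ℕ) (z π : O) (lam : ℕ → O) (om : GM M → O) (S T : Set ℕ)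
    (v : FT M (RR π)) : Prop where
  vb : v ∈ Vb M π
  wh : ∀ x : ℕ, z ^ (Q * x) • rt O _ (un ((Q : ZMod M) * (x : ZMod M))) v = v
  ce : ∀ a, rt O _ (dg a a) v = om (dg a a) • v
  he : ∀ (p : ℕ) (u : (ZMod M)ˣ), p.Prime → p ≠ 2 → (u : ZMod M) = p →
    Tf O _ 0 p u v = lam p • v
  tor : ∀ a d : (ZMod M)ˣ, Cg M N a 1 → Cg M N d 1 → rt O _ (dg a d) v = v
  iv : ∀ q ∈ S, v ∈ Iv O _ (Uq M (M / q))
  nu : ∀ q ∈ T, Nu O _ M (M / q) q v = 0

/-- the vectors which satisfy the conditions -/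
def Yn (M N Q : ℕ) (z π : O) (lam : ℕ → O) (om : GM M → O) (S T : Set ℕ) :
    Submodule O (FT M (RR π)) where
  carrier := {v | Cn M N Q z π lam om S T v}
  zero_mem' := ⟨zero_mem _, fun _ => by simp, fun _ => by simp, fun _ _ _ _ _ => by simp,
    fun _ _ _ _ => by simp, fun _ _ => zero_mem _, fun _ _ => by simp⟩
  add_mem' := fun {v w} h h' => ⟨add_mem h.vb h'.vb,
    fun x => by rw [map_add, smul_add, h.wh, h'.wh],
    fun a => by rw [map_add, smul_add, h.ce, h'.ce],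
    fun p u h1 h2 h3 => by rw [map_add, smul_add, h.he p u h1 h2 h3, h'.he p u h1 h2 h3],
    fun a d h1 h2 => by rw [map_add, h.tor a d h1 h2, h'.tor a d h1 h2],
    fun q hq => add_mem (h.iv q hq) (h'.iv q hq),
    fun q hq => by rw [map_add, h.nu q hq, h'.nu q hq, add_zero]⟩
  smul_mem' := fun c v h => ⟨Submodule.smul_mem _ c h.vb,
    fun x => by rw [map_smul, smul_comm, h.wh],
    fun a => by rw [map_smul, h.ce, smul_comm],
    fun p u h1 h2 h3 => by rw [map_smul, h.he p u h1 h2 h3, smul_comm],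
    fun a d h1 h2 => by rw [map_smul, h.tor a d h1 h2],
    fun q hq => Submodule.smul_mem _ c (h.iv q hq),
    fun q hq => by rw [map_smul, h.nu q hq, smul_zero]⟩

variable {M N Q M₀ q : ℕ} {z π : O} {lam : ℕ → O} {om : GM M → O} {S T : Set ℕ}

theorem keep (h : Sp M M₀ q) (hN : N ∣ M₀) (hQ : q ∣ Q) (hS : ∀ q' ∈ S, q ∣ M / q')
    (hT : ∀ q' ∈ T, q ∣ M / q') (f : Module.End O (FT M (RR π))) {v : FT M (RR π)}
    (hv : v ∈ Yn M N Q z π lam om S T) (ha : f v ∈ Vb M π)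
    (hb : ∀ g ∈ Kq M q, f (rt O _ g v) = rt O _ g (f v))
    (hc : ∀ a, f (rt O _ (dg a a) v) = rt O _ (dg a a) (f v))
    (hd : ∀ (p : ℕ) (u : (ZMod M)ˣ), (u : ZMod M) = p →
      f (Tf O _ 0 p u v) = Tf O _ 0 p u (f v))
    (he : ∀ a d : (ZMod M)ˣ, Cg M M₀ a 1 → Cg M M₀ d 1 → rt O _ (dg a d) (f v) = f v) :
    f v ∈ Yn M N Q z π lam om S T := by
  have hv : Cn M N Q z π lam om S T v := hv
  refine ⟨ha, fun x => ?_, fun a => ?_, fun p u h1 h2 h3 => ?_, fun a d h1 h2 => ?_,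
    fun q' hq' => mem_Iv.2 ?_, fun q' hq' => ?_⟩
  · rw [← hb _ (un_mem' hQ _), ← map_smul, hv.wh]
  · rw [← hc, hv.ce, map_smul]
  · rw [← hd p u h3, hv.he p u h1 h2 h3, map_smul]
  · obtain ⟨a₁, a₂, rfl, e1, e2, e3⟩ := split h hN a h1
    obtain ⟨d₁, d₂, rfl, e4, e5, e6⟩ := split h hN d h2
    rw [← dg_mul, ← rt_rt, he a₁ d₁ e1 e4, ← hb _ (dg_mem e2 e5), hv.tor _ _ e3 e6]
  · rintro _ ⟨x, rfl⟩
    rw [← hb _ (un_mem' (hS q' hq') _), mem_Iv.1 (hv.iv q' hq') _ ⟨x, rfl⟩]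
  · rw [Nu_apply, Finset.sum_congr rfl fun x _ => (hb _ (un_mem' (hT q' hq') _)).symm,
      ← map_sum, ← Nu_apply, hv.nu q' hq', map_zero]

theorem step (hR : ROOT O) (hV : VS3 O) (hD : DESCV O) (hWV : WV O) (hI : IH O) (hG : GRP)
    (h1 : WF1) (h2 : WF2) (h : Sp M M₀ q) (h3 : 3 ≤ M₀) (hN : N ∣ M₀) (hQ : q ∣ Q)
    (hS : ∀ q' ∈ S, q ∣ M / q') (hT : ∀ q' ∈ T, q ∣ M / q') (hπ : Unif π) {n : ℕ}
    (hn : Ng n (Yn M N Q z π lam om S T ⊓ LinearMap.ker (Nu O _ M M₀ q))) :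
    Ng (n + n) (Yn M N Q z π lam om S T ⊓ Iv O _ (Uq M M₀)) := by
  haveI : NeZero M := ⟨h.odd.pos.ne'⟩
  obtain ⟨⟨s, hs⟩, ⟨c, hc⟩, g3, g4, -, g6, -⟩ := hG M M₀ q h
  obtain ⟨ss, sd⟩ := g3 s hs
  have hz : PZ M (zR M π) := (hR M h.odd).2.2.2.2.1 π
  have hq : IsUnit (q : O) :=
    (hR q (Odd.of_dvd_nat h.odd ⟨M₀, by rw [h.eq, mul_comm]⟩)).2.2.2.1
  have hM3 : 3 ≤ M := h3.trans (Nat.le_of_dvd h.odd.pos h.dvd)
  obtain ⟨-, -, -, v4, -, -, v7, -, v9, -⟩ := hV M π h.odd hπ.ne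
  have rtV : ∀ g, ∀ v ∈ Vb M π, rt O _ g v ∈ Vb M π := fun g v hv =>
    ⟨v4 0 g v hv.1, rt_Od g hv.2⟩
  set W := W1 O (RR π) M M₀ q (zR M π) 0 with hW
  have eW : ∀ v, W v = Wa O _ M M₀ q v + Wb O _ M M₀ q (zR M π) v := fun v => by
    rw [hW, W1, pow_zero, one_smul]; rfl
  have kW : ∀ v ∈ Yn M N Q z π lam om S T ⊓ Iv O _ (Uq M M₀),
      W v ∈ Yn M N Q z π lam om S T ⊓ Iv O _ (Uq M M₀) := by
    rintro v ⟨hv, hu⟩
    obtain ⟨-, w2, w3, w4, w5, w6, -⟩ := h1 O (RR π) M M₀ q _ h hz.pow v hu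
    refine ⟨keep h hN hQ hS hT W hv ⟨(hWV M M₀ q h hM3).1 0 π hπ.ne v ⟨hv.vb.1, hu⟩, ?_⟩
      (fun g hg => ?_) (fun a => ?_) (fun p u hu => ?_) fun a d ha hd => ?_, ?_⟩
    · rw [eW]; exact add_mem (w6 hv.vb.2).1 (w6 hv.vb.2).2
    · rw [eW, eW, (w3 g hg).2.1, (w3 g hg).2.2, map_add]
    · obtain ⟨-, e1, e2⟩ := w4 a a ⟨0, by simp⟩
      rw [eW, eW, e1, e2, map_add]
    · obtain ⟨-, -, e1, e2, e3, e4⟩ := w5 p u hu
      simp only [Tf, pow_zero, one_smul, LinearMap.add_apply, map_add, eW, e1, e2, e3, e4]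
    · obtain ⟨x, hx⟩ := id ha
      obtain ⟨y, hy⟩ := id hd
      obtain ⟨-, e1, e2⟩ := w4 d a ⟨y - x, by rw [hx, hy]; ring⟩
      rw [eW, map_add, ← e1, ← e2, hv.tor d a (Cg.of_dvd hN hd) (Cg.of_dvd hN ha)]
    · rw [eW]; exact add_mem w2.1 w2.2
  have kS : ∀ v ∈ Yn M N Q z π lam om S T, rt O _ s v ∈ Yn M N Q z π lam om S T := by
    intro v hv
    refine keep h hN hQ hS hT (rt O _ s).toLinearMap hv (rtV s v hv.vb) (fun g hg => ?_)
      (fun a => ?_) (fun p u _ => rt_T (S := O) s 0 p u v) fun a d ha hd => ?_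
    · change rt O _ s (rt O _ g v) = rt O _ g (rt O _ s v)
      rw [rt_rt, rt_rt, g4 s hs.1 g hg]
    · change rt O _ s (rt O _ _ v) = rt O _ _ (rt O _ s v)
      rw [rt_rt, rt_rt, dg_center]
    · change rt O _ _ (rt O _ s v) = rt O _ s v
      rw [rt_rt, ← sd d a hd ha, ← rt_rt, hv.tor d a (Cg.of_dvd hN hd) (Cg.of_dvd hN ha)]
  have kN : ∀ v ∈ Yn M N Q z π lam om S T, Nu O _ M M₀ q v ∈ Yn M N Q z π lam om S T := by
    intro v hv
    refine keep h hN hQ hS hT _ hv ?_ (fun g hg => ?_) (fun a => (rt_Nu_dg h a a v).symm)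
      (fun p u _ => ?_) fun a d ha hd => ?_
    · rw [Nu_apply]; exact Submodule.sum_mem _ fun x _ => rtV _ v hv.vb
    · rw [Nu_apply, Nu_apply, map_sum]
      exact Finset.sum_congr rfl fun x _ => by rw [rt_rt, rt_rt, g4 _ (un_mem _) g hg]
    · rw [Nu_apply, Nu_apply, map_sum]
      exact Finset.sum_congr rfl fun x _ => rt_T _ _ _ _ _
    · rw [rt_Nu_dg h, hv.tor a d (Cg.of_dvd hN ha) (Cg.of_dvd hN hd)]
  let D : Module.End O (FT M (RR π)) :=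
    ((q : O) • 1 - Nu O _ M M₀ q) * (rt O (RR π) s).toLinearMap * W
  have eD : ∀ v, D v = (q : O) • rt O _ s (W v) - Nu O _ M M₀ q (rt O _ s (W v)) := fun _ => rfl
  have kD : ∀ v ∈ Yn M N Q z π lam om S T ⊓ Iv O _ (Uq M M₀),
      D v ∈ Yn M N Q z π lam om S T ⊓ LinearMap.ker (Nu O _ M M₀ q) := by
    intro v hv
    have e := kS _ (kW v hv).1
    rw [eD]
    refine ⟨sub_mem (Submodule.smul_mem _ _ e) (kN _ e), ?_⟩
    change Nu O _ M M₀ q _ = 0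
    rw [map_sub, map_smul, Nu_Nu h, sub_self]
  have ker : ∀ v ∈ Yn M N Q z π lam om S T ⊓ Iv O _ (Uq M M₀), D v = 0 →
      W v ∈ Vb M π ⊓ Iv O _ (Kq M M₀) := by
    intro v hv h0
    rw [eD, sub_eq_zero] at h0
    have e := kS _ (kW v hv).1
    have e2 : rt O _ s (rt O _ s (W v)) = W v := by rw [rt_rt, ss, map_one]; rfl
    have e3 := (g6 (St O (rt O _ s (W v))) s hs (by
      rintro _ ⟨x, rfl⟩
      constructor
      · change rt O _ _ _ = _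
        apply hq.smul_left_cancel.1
        rw [← map_smul, h0, rt_Nu_un h]
      · change rt O _ _ _ = _
        rw [← rt_rt, ← rt_rt, e2, mem_Iv.1 (kW v hv).2 _ ⟨x, rfl⟩])).2
      fun d hd => e.tor 1 d (cg_one N) (Cg.of_dvd hN hd)
    have e4 : W v = rt O _ s (W v) := e2.symm.trans (e3 s hs.1)
    refine ⟨(kW v hv).1.vb, mem_Iv.2 fun g hg => ?_⟩
    rw [e4]
    exact e3 g hg
  refine Ng.add D hn kD (Ng.inj (D * W) hn (fun v hv => kD _ (kW v hv.1)) fun v hv h0 => ?_)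
  obtain ⟨g, hg, e1⟩ := ((hD M₀ M h.dvd h.odd h3).1 0 π hπ.ne).2.2.2.ge (ker v hv.1 hv.2)
  obtain ⟨f, hf, e2⟩ := ((hD M₀ M h.dvd h.odd h3).1 0 π hπ.ne).2.2.2.ge
    (ker _ (kW v hv.1) h0)
  have e3 := (hI M M₀ q 0 h π h3 hπ (-f) (neg_mem hf) g hg (by
    rw [map_neg, e1, e2, ← hW, neg_add_cancel])).2
  have e4 := ((h2 O (RR π) M M₀ q _ h s c hz hs hc).1 v hv.1.2
    (v9 0 v ((v7 0).1 hv.1.1.vb.1))).2.2.2.1 0
  rw [← hW, ← e1, e3, map_zero, map_zero, pow_zero, one_smul] at e4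
  have e5 := congrArg (rt O (RR π) (dg c c)⁻¹) e4
  rw [map_zero, rt_rt, inv_mul_cancel, map_one] at e5
  exact e5.symm

end Vale.Agent.P022D.V.Gn
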