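import Vale.Agent.P022D.V.Hk1

/-!
# P022D, block V: the theorem `hk` is proved in `Hk1`; this file only re-exports it
-/
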