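import Vale.Agent.P022D.V.IrrM

/-! # P022 route D, block V, row IRR: integrality of expansions does not depend on the cusp -/

set_option linter.all false

open UpperHalfPlane hiding I
open Matrix Filter Topology CongruenceSubgroup
open scoped MatrixGroups ModularForm Manifold IntermediateField

noncomputable section

namespace Vale.Agent.P022D.Irr

open Vale.Agent.P022 Vale.Agent.P022.H218.L3 Vale.Agent.P022.H231.L3 Vale.Agent.P022.H236.L3
  Vale.Agent.P022.H542.L3 Vale.Agent.P027M.M Vale.Agent.P022.H236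

variable {O : ValuationSubring ℂ}

/-- holomorphic functions of level `N` with expansions at all cusps -/
def WW (N : ℕ) : Subring (ℍ → ℂ) where
  carrier := {f | f ∈ Hol ∧ (∀ γ ∈ Gamma N, ∀ τ, f (γ • τ) = f τ) ∧
    ∀ γ : SL(2, ℤ), ∃ s, ExL (N * 12) s fun τ => f (γ • τ)}
  mul_mem' := by
    rintro f g ⟨a, b, c⟩ ⟨a', b', c'⟩
    refine ⟨Hol.mul_mem a a', fun γ h τ => by rw [Pi.mul_apply, Pi.mul_apply, b γ h, b' γ h],
      fun γ => ?_⟩
    obtain ⟨s, hs⟩ := c γ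
    obtain ⟨t, ht⟩ := c' γ
    exact ⟨_, hs.mul ht⟩
  one_mem' := ⟨Hol.one_mem, fun _ _ _ => rfl, fun _ => ⟨_, ExL.one _⟩⟩
  add_mem' := by
    rintro f g ⟨a, b, c⟩ ⟨a', b', c'⟩
    refine ⟨Hol.add_mem a a', fun γ h τ => by rw [Pi.add_apply, Pi.add_apply, b γ h, b' γ h],
      fun γ => ?_⟩
    obtain ⟨s, hs⟩ := c γ
    obtain ⟨t, ht⟩ := c' γ
    exact ⟨_, hs.add ht⟩
  zero_mem' := ⟨Hol.zero_mem, fun _ _ _ => rfl, fun _ => ⟨_, ExL.zero _⟩⟩
  neg_mem' := by
    rintro f ⟨a, b, c⟩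
    refine ⟨Hol.neg_mem a, fun γ h τ => by rw [Pi.neg_apply, Pi.neg_apply, b γ h], fun γ => ?_⟩
    obtain ⟨s, hs⟩ := c γ
    exact ⟨_, hs.neg⟩

theorem WW_comp {N : ℕ} (δ : SL(2, ℤ)) (f : WW N) : (fun τ => f.1 (δ • τ)) ∈ WW N := by
  obtain ⟨a, b, c⟩ := f.2
  refine ⟨comp_mem δ a, fun γ h τ => ?_, fun γ => ?_⟩
  · have := b _ ((Gamma_normal N).conj_mem γ h δ) (δ • τ)
    rwa [mul_smul, mul_smul, inv_smul_smul] at this
  · obtain ⟨s, hs⟩ := c (δ * γ)
    exact ⟨s, by simpa only [mul_smul] using hs⟩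

/-- the action -/
def phi (N : ℕ) : SL(2, ℤ) →* RingAut (WW N) where
  toFun γ :=
    { toFun := fun f => ⟨fun τ => f.1 (γ⁻¹ • τ), WW_comp _ f⟩
      invFun := fun f => ⟨fun τ => f.1 (γ • τ), WW_comp _ f⟩
      left_inv := fun f => Subtype.ext (funext fun τ => by simp)
      right_inv := fun f => Subtype.ext (funext fun τ => by simp)
      map_mul' := fun _ _ => rfl
      map_add' := fun _ _ => rfl }
  map_one' := RingEquiv.ext fun f => Subtype.ext (funext fun τ => by simp)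
  map_mul' γ δ := RingEquiv.ext fun f => Subtype.ext (funext fun τ => by
    show f.1 ((γ * δ)⁻¹ • τ) = f.1 (δ⁻¹ • γ⁻¹ • τ)
    rw [_root_.mul_inv_rev, mul_smul])

/-- the finite group -/
def GG (N : ℕ) : Type := SL(2, ℤ) ⧸ Gamma N

instance (N : ℕ) : Group (GG N) :=
  haveI := Gamma_normal N
  inferInstanceAs (Group (SL(2, ℤ) ⧸ Gamma N))

instance (N : ℕ) [NeZero N] : Fintype (GG N) :=
  haveI : Finite (GG N) := inferInstanceAs (Finite (SL(2, ℤ) ⧸ Gamma N))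
  Fintype.ofFinite _

/-- the projection -/
def pr (N : ℕ) : SL(2, ℤ) →* GG N :=
  haveI := Gamma_normal N
  QuotientGroup.mk' (Gamma N)

theorem pr_surj (N : ℕ) : Function.Surjective (pr N) :=
  haveI := Gamma_normal N
  QuotientGroup.mk'_surjective (Gamma N)

/-- the action of the finite group -/
def psi (N : ℕ) : GG N →* RingAut (WW N) :=
  haveI := Gamma_normal N
  QuotientGroup.lift (Gamma N) (phi N) fun γ h => RingEquiv.ext fun f =>
    Subtype.ext (funext fun τ => f.2.2.1 _ ((Gamma N).inv_mem h) τ)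

instance (N : ℕ) : MulSemiringAction (GG N) (WW N) := MulSemiringAction.compHom _ (psi N)

theorem smul_coe {N : ℕ} (γ : SL(2, ℤ)) (f : WW N) :
    ((pr N γ • f : WW N) : ℍ → ℂ) = fun τ => f.1 (γ⁻¹ • τ) := rfl

variable {N : ℕ} [NeZero N]

theorem pos12 : 0 < N * 12 := Nat.mul_pos (NeZero.pos N) (by norm_num)

theorem ex_one (f : WW N) : ∃ s, ExL (N * 12) s f.1 := by
  simpa only [one_smul] using f.2.2.2 1

variable (N) in
/-- the expansion -/
def exW : WW N →+* LS where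
  toFun f := (ex_one f).choose
  map_one' := (ex_one _).choose_spec.unique pos12.ne' (ExL.one _)
  map_mul' f g := (ex_one _).choose_spec.unique pos12.ne'
    ((ex_one f).choose_spec.mul (ex_one g).choose_spec)
  map_zero' := (ex_one _).choose_spec.unique pos12.ne' (ExL.zero _)
  map_add' f g := (ex_one _).choose_spec.unique pos12.ne'
    ((ex_one f).choose_spec.add (ex_one g).choose_spec)

theorem exW_spec (f : WW N) : ExL (N * 12) (exW N f) f.1 := (ex_one f).choose_spec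

theorem exW_eq {f : WW N} {s : LS} (h : ExL (N * 12) s f.1) : exW N f = s :=
  (exW_spec f).unique pos12.ne' h

variable (N) in
/-- constants -/
def cst : ℂ →+* WW N := (algebraMap ℂ (ℍ → ℂ)).codRestrict (WW N) fun c =>
  ⟨Hol.algebraMap_mem c, fun _ _ _ => rfl, fun _ => ⟨_, ExL.const _ c⟩⟩

theorem div_slash {k : ℤ} {g h : ℍ → ℂ} (γ : SL(2, ℤ)) :
    (fun τ => (g / h) (γ • τ)) = g ∣[k] γ / h ∣[k] γ := by
  funext τ
  have : denom γ τ ^ (-k) ≠ 0 := zpow_ne_zero _ (denom_ne_zero _ _)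
  simp only [Pi.div_apply, ModularForm.SL_slash_apply]
  rw [mul_div_mul_right _ _ this]

theorem conjN {k : ℤ} {g : ℍ → ℂ} (hg : IsMF (Gamma N) k g) (γ : SL(2, ℤ)) :
    IsMF (Gamma N) k (g ∣[k] γ) := hg.conj γ fun δ h => (Gamma_normal N).conj_mem δ h γ

theorem ex_form {k : ℤ} {g : ℍ → ℂ} (hg : IsMF (Gamma N) k g) : ∃ s, ExL (N * 12) s g :=
  ⟨_, isMF_exL pos12.ne' (gamma_le (T_pow_Gamma (N * 12))) hg⟩

theorem div_mem_WW {k : ℤ} {g h : ℍ → ℂ} (hg : IsMF (Gamma N) k g) (hh : IsMF (Gamma N) k h)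
    (h0 : ∀ τ, h τ ≠ 0) : g / h ∈ WW N := by
  refine ⟨MDifferentiable.div hg.hol hh.hol h0, fun γ m τ => ?_, fun γ => ?_⟩
  · have := congrFun (div_slash (k := k) (g := g) (h := h) γ) τ
    rwa [hg.slash γ m, hh.slash γ m] at this
  · obtain ⟨s, hs⟩ := ex_form (conjN hg γ)
    obtain ⟨t, ht⟩ := ex_form (conjN hh γ)
    rw [div_slash (k := k)]
    exact ⟨_, hs.div pos12.ne' ht (ht.ne_zero (conjN hh γ).hol
      (slash_ne_zero (fun e => h0 UpperHalfPlane.I (congrFun e _)) γ))⟩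

theorem exW_div {k : ℤ} {g h : ℍ → ℂ} (m : g / h ∈ WW N) (γ : SL(2, ℤ)) {s t : LS}
    (hs : ExL (N * 12) s (g ∣[k] γ)) (ht : ExL (N * 12) t (h ∣[k] γ)) (t0 : t ≠ 0) :
    exW N (pr N γ⁻¹ • ⟨_, m⟩) = s / t := by
  refine exW_eq ?_
  rw [smul_coe, inv_inv, div_slash (k := k)]
  exact hs.div pos12.ne' ht t0

variable (N) in
/-- the modular invariant -/
def jW : WW N := ⟨jf, div_mem_WW (isMF_E43.mono le_top) (isMF_disc.mono le_top)
  ModularForm.discriminant_ne_zero⟩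

theorem dat (O : ValuationSubring ℂ) : Dat (GG N) O (cst N) (exW N) (exW N (jW N)) where
  fix g c := by
    obtain ⟨γ, rfl⟩ := pr_surj N g
    rfl
  const c := exW_eq (ExL.const _ c)
  pole := by
    obtain ⟨s, h1, h2⟩ := ex_j (l := 1) one_pos
    obtain ⟨m, hm⟩ := good_red (O := O) one_pos (by simp) (pos12 (N := N)) h1
    have e : exW N (jW N) = sb (N * 12) pos12 s := exW_eq (exL_one_sb pos12 h2)
    rw [e]
    refine ⟨m, ?_⟩
    rw [hm]
    have := pos12 (N := N)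
    exact_mod_cast (by omega : ((N * 12 : ℕ) : ℤ) * -((1 : ℕ) : ℤ) < 0)
  inv w hw := by
    have h0 : ∀ γ : SL(2, ℤ), w.1 ∣[(0 : ℤ)] γ = w.1 := fun γ => by
      have := congrArg Subtype.val (hw (pr N γ⁻¹))
      rw [smul_coe, inv_inv] at this
      funext τ
      rw [ModularForm.SL_slash_apply, congrFun this τ]
      simp
    obtain ⟨d, d0, d1⟩ := ex_disc (pos12 (N := N))
    obtain ⟨m, hm⟩ : ∃ m : ℕ, -(exW N w).order ≤ m := ⟨(-(exW N w).order).toNat, by omega⟩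
    have h1 := disc_pow ⊤ m
    have h2 : ∀ γ : SL(2, ℤ), (ModularForm.discriminant ^ m * w.1) ∣[(12 * m : ℤ)] γ =
        ModularForm.discriminant ^ m * w.1 := fun γ => by
      rw [show (12 * m : ℤ) = m * 12 + 0 by ring, ModularForm.mul_slash_SL2,
        h1.slash γ (Subgroup.mem_top _), h0]
    have h3 : IsMF ⊤ (12 * m) (ModularForm.discriminant ^ m * w.1) :=
      ⟨Hol.mul_mem h1.hol w.2.1, fun γ _ => h2 γ, fun γ => by
        rw [h2]
        refine bdd_of_exL pos12.ne' ((d1.pow m).mul (exW_spec w)) fun k hk => ?_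
        by_cases e : exW N w = 0
        · rw [e, mul_zero]; rfl
        · refine HahnSeries.coeff_eq_zero_of_lt_order ?_
          rw [HahnSeries.order_mul (d0.pow m).ne e, (d0.pow m).ord]
          have := pos12 (N := N)
          have : (m : ℤ) * 1 ≤ m * ((N * 12 : ℕ) : ℤ) := by gcongr; omega
          omega⟩
    obtain ⟨P, -, hP⟩ := exists_poly_j m (toMF1 h3)
    have e : w = Polynomial.eval₂ (cst N) (jW N) P := Subtype.ext (funext fun τ => by
      have h4 : ModularForm.discriminant τ ^ m * w.1 τ = _ := hP τ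
      rw [mul_left_cancel₀ (disc_pow_ne m τ) h4]
      have := Polynomial.hom_eval₂ P (cst N) ((Pi.evalRingHom _ τ).comp (WW N).subtype) (jW N)
      exact this.symm)
    refine ⟨P, ?_⟩
    rw [e, Polynomial.hom_eval₂]
    congr 1
    exact RingHom.ext fun c => exW_eq (ExL.const _ c)

theorem T_mem : pr N ModularGroup.T⁻¹ ∈ stab (GG N) (rho O (GG N) (exW N)) := by
  intro b hb
  have e : exW N (pr N ModularGroup.T⁻¹ • (b : WW N)) = _ := exW_eq (by
    rw [smul_coe, inv_inv]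
    exact (exW_spec (b : WW N)).tauAdd pos12.ne' 1 (u := fun τ => ModularGroup.T • τ) fun τ => by
      have := ModularGroup.coe_T_zpow_smul_eq (z := τ) (n := 1)
      rwa [zpow_one] at this)
  rw [rho_apply, red_zero] at hb ⊢
  intro n
  show O.valuation ((exW N (pr N ModularGroup.T⁻¹ • (b : WW N))).coeff n) < 1
  rw [e, coeff_rsF, map_mul, map_zpow₀]
  have := val_ze (O := O) (pos12 (N := N)) 1
  rw [ze] at this
  rw [this, _root_.one_zpow, one_mul]
  exact hb n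

theorem dec' {G W K : Type*} [Field K] {O : ValuationSubring K} [Group G] [Fintype G] [CommRing W]
    [MulSemiringAction G W] {ι : K →+* W} {ex : W →+* LaurentSeries K} {J : LaurentSeries K}
    (h : Dat G O ι ex J) (y : BB O G ex) (hy : ∀ g ∈ stab G (rho O G ex), ∃ n : ℤ, 0 < n ∧
      (rho O G ex (g • y)).orderTop = n) : False := by
  classical
  have key : ∀ S : Finset (stab G (rho O G ex)), ∃ n : ℤ, (S.card : ℤ) ≤ n ∧
      (rho O G ex (∏ g ∈ S, (g : G) • y)).orderTop = n := by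
    intro S
    induction S using Finset.induction_on with
    | empty => exact ⟨0, by simp, by simp⟩
    | insert a S ha ih =>
      obtain ⟨n, h1, h2⟩ := ih
      obtain ⟨m, h3, h4⟩ := hy a a.2
      refine ⟨m + n, by rw [Finset.card_insert_of_notMem ha]; push_cast; omega, ?_⟩
      rw [Finset.prod_insert ha, map_mul, HahnSeries.orderTop_mul, h2, h4]
      rfl
  obtain ⟨n, h1, h2⟩ := key Finset.univ
  have h3 : 0 < (Finset.univ : Finset (stab G (rho O G ex))).card := Finset.card_pos.2 ⟨1, by simp⟩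
  have h4 := h.dec _ (fun g hg => by
    rw [Finset.smul_prod']
    exact Fintype.prod_equiv (Equiv.mulLeft (⟨g, hg⟩ : stab G (rho O G ex))) _ _ fun a =>
      (mul_smul g (a : G) y).symm) (by rw [h2]; exact_mod_cast (by omega : (0 : ℤ) < n))
  rw [h4, HahnSeries.orderTop_zero] at h2
  exact WithTop.top_ne_coe h2

theorem not_borel (hu : (N : ℂ)⁻¹ ∈ O) {l : ℕ} (hl : l.Prime) (hd : l ∣ N) :
    ∃ γ ∈ (stab (GG N) (rho O (GG N) (exW N))).comap (pr N), ¬ (l : ℤ) ∣ γ 1 0 := by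
  by_contra hc
  push Not at hc
  obtain ⟨c, rfl⟩ := hd
  have c0 : 0 < c := Nat.pos_of_mul_pos_left (NeZero.pos (l * c))
  have c1 : 0 < c * 12 := by omega
  have hu' : (l : ℂ)⁻¹ ∈ O := by
    have h1 : (c : ℂ) ≠ 0 := by exact_mod_cast c0.ne'
    have := O.mul_mem _ _ hu (natCast_mem O c)
    rwa [Nat.cast_mul, mul_inv, inv_mul_cancel_right₀ h1] at this
  have n1 : ¬ (l : ℤ) ∣ 1 := (Nat.prime_iff_prime_int.1 hl).not_dvd_one
  have z0 : NZ l ![0, 1] := fun h => n1 (h 1)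
  have z1 : NZ l ![1, 0] := fun h => n1 (h 0)
  have z2 : NZ l (![0, 1] - ![1, 0]) := fun h => n1 (by simpa using h 1)
  have z3 : NZ l (![0, 1] + ![1, 0]) := fun h => n1 (by simpa using h 1)
  have hW : IsMF (Gamma (l * c)) 2 (Wf l ![0, 1] ![1, 0]) :=
    (Pre.Wf_isMF hl.pos z0 z1).mono (gamma_le.trans (Gamma_le l l dvd_rfl))
  have hW6 : IsMF (Gamma (l * c)) 12 (Wf l ![0, 1] ![1, 0] ^ 6) := hW.pow 6
  have m := div_mem_WW (isMF_disc.mono le_top) hW6
    fun τ => pow_ne_zero _ (Wf_ne hl.pos z0 z1 z2 z3 τ)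
  obtain ⟨d, d0, d1⟩ := ex_disc hl.pos
  have key : ∀ γ : SL(2, ℤ), ∃ s, Good l (l - (6 : ℕ) * (A.eo (P027M.M.red l (![0, 1] ᵥ* (γ : M2)))
      (P027M.M.red l (![1, 0] ᵥ* (γ : M2))) : ℕ)) s ∧
      exW (l * c) (pr (l * c) γ⁻¹ • ⟨_, m⟩) = sb (c * 12) c1 s := by
    intro γ
    have g1 := (sa4 l hl.pos).2 _ _ (z0.vecMul γ) (z1.vecMul γ)
      (by rw [← sub_vecMul]; exact z2.vecMul γ) (by rw [← add_vecMul]; exact z3.vecMul γ)
    have g2 := (sa3 l hl.pos _ _ (z0.vecMul γ) (z1.vecMul γ)).2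
    refine ⟨_, d0.div (g1.pow 6), ?_⟩
    rw [map_div₀]
    refine exW_div (k := 12) m γ ?_ ?_ ((map_ne_zero _).2 (g1.pow 6).ne)
    · rw [isMF_disc.slash γ (Subgroup.mem_top _), mul_assoc]
      exact exL_period c1 hl.pos.ne' d1
    · have e : (Wf l ![0, 1] ![1, 0] ^ 6) ∣[(12 : ℤ)] γ =
          Wf l (![0, 1] ᵥ* (γ : M2)) (![1, 0] ᵥ* (γ : M2)) ^ 6 := by
        have := prod_slash_SL (k := 2) γ (fun _ : Fin 6 => Wf l ![0, 1] ![1, 0]) Finset.univ
        simpa [Wf_slash] using this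
      rw [e, mul_assoc]
      exact exL_period c1 hl.pos.ne' (g2.pow 6)
  have mB : (⟨_, m⟩ : WW (l * c)) ∈ BB O (GG (l * c)) (exW (l * c)) := fun g => by
    obtain ⟨γ, rfl⟩ := pr_surj _ g
    obtain ⟨s, h1, h2⟩ := key γ⁻¹
    rw [inv_inv] at h2
    rw [h2]
    exact (good_red hl.pos hu' c1 h1).1
  refine dec' (dat O) ⟨_, mB⟩ fun g hg => ?_
  obtain ⟨γ, rfl⟩ := pr_surj _ g
  obtain ⟨s, h1, h2⟩ := key γ⁻¹
  rw [inv_inv] at h2
  have h3 := hc γ⁻¹ (Subgroup.inv_mem _ hg)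
  have h4 : A.eo (P027M.M.red l (![0, 1] ᵥ* ((γ⁻¹ : SL(2, ℤ)) : M2)))
      (P027M.M.red l (![1, 0] ᵥ* ((γ⁻¹ : SL(2, ℤ)) : M2))) = 0 := by
    refine Nat.min_eq_zero_iff.2 (Or.inl (A.ab_eq_zero.2 ?_))
    rw [P027M.M.red, vm0]
    refine (ZMod.intCast_zmod_eq_zero_iff_dvd _ _).2 ?_
    simpa only [cons_val_zero, cons_val_one, zero_mul, one_mul, zero_add] using h3
  rw [h4] at h1
  obtain ⟨m1, m2⟩ := good_red hl.pos hu' c1 h1
  refine ⟨_, ?_, Eq.trans (congrArg HahnSeries.orderTop ?_) m2⟩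
  · have := hl.pos
    simp only [Nat.cast_zero, mul_zero, sub_zero]
    positivity
  · rw [rho_apply]
    congr 1
    exact Subtype.ext h2

theorem stab_top (hu : (N : ℂ)⁻¹ ∈ O) : stab (GG N) (rho O (GG N) (exW N)) = ⊤ := by
  have h := eq_top_of ((stab (GG N) (rho O (GG N) (exW N))).comap (pr N)) N (NeZero.ne N)
    (fun γ h => by
      have e : pr N γ = 1 := by
        haveI := Gamma_normal N
        exact (QuotientGroup.eq_one_iff γ).2 h
      rw [Subgroup.mem_comap, e]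
      exact Subgroup.one_mem _)
    (by
      have : ModularGroup.T⁻¹ ∈ (stab (GG N) (rho O (GG N) (exW N))).comap (pr N) := T_mem
      exact inv_mem_iff.1 this)
    fun l hl hd => not_borel hu hl hd
  rw [eq_top_iff]
  intro g _
  obtain ⟨γ, rfl⟩ := pr_surj N g
  exact Subgroup.mem_comap.1 (h ▸ Subgroup.mem_top γ)

theorem pow_slash {k : ℤ} (f : ℍ → ℂ) (n : ℕ) (γ : SL(2, ℤ)) :
    (f ^ n) ∣[k * n] γ = (f ∣[k] γ) ^ n := by
  simpa using prod_slash_SL (k := k) γ (fun _ : Fin n => f) Finset.univ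

theorem int_of_pow (hA : Arch O) {s : LS} (hr : Rat O s) {n : ℕ} (hn : 0 < n)
    (h : s ^ n ∈ Int O) : s ∈ Int O :=
  cic hA hr (IsIntegral.of_pow hn (isIntegral_algebraMap (x := (⟨_, h⟩ : Int O))))

/-- **IRR** in terms of Laurent expansions -/
theorem irrL (hA : Arch O) (hu : (N : ℂ)⁻¹ ∈ O) {k : ℕ} {f : ℍ → ℂ} (hf : IsMF (Gamma N) k f)
    {s : LS} (hs : ExL N s f) (hi : s ∈ Int O) (γ : SL(2, ℤ)) {t : LS}
    (ht : ExL N t (f ∣[(k : ℤ)] γ)) : t ∈ Int O := by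
  have p : 0 < 12 := by norm_num
  have h1 : IsMF (Gamma N) (k * 12) (f ^ 12) := by
    have := hf.pow 12
    rwa [mul_comm] at this
  have m := div_mem_WW h1 (disc_pow _ k) (disc_pow_ne k)
  obtain ⟨d, d0, d1⟩ := ex_disc (l := 1) one_pos
  obtain ⟨i1, -⟩ := good_red (O := O) one_pos (by simp) (pos12 (N := N)) d0
  obtain ⟨i2, -⟩ := good_red (O := O) one_pos (by simp) (pos12 (N := N)) d0.inv
  rw [map_inv₀] at i2
  have d2 := exL_one_sb (pos12 (N := N)) d1
  have d3 : sb (N * 12) pos12 d ≠ 0 := (map_ne_zero _).2 d0.ne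
  have key : ∀ (δ : SL(2, ℤ)) (u : LS), ExL (N * 12) u (f ∣[(k : ℤ)] δ) →
      exW N (pr N δ⁻¹ • ⟨_, m⟩) = u ^ 12 * (sb (N * 12) pos12 d)⁻¹ ^ k := by
    intro δ u hu
    rw [inv_pow, ← div_eq_mul_inv]
    refine exW_div (k := k * 12) m δ ?_ ?_ (pow_ne_zero _ d3)
    · have := pow_slash (k := k) f 12 δ
      rw [Nat.cast_ofNat] at this
      rw [this]
      exact hu.pow 12
    · rw [(disc_pow ⊤ k).slash δ (Subgroup.mem_top _)]
      exact d2.pow k
  have h2 := (dat (N := N) O).irr hA (stab_top hu) ⟨_, m⟩ (fun g => by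
    obtain ⟨δ, rfl⟩ := pr_surj N g
    obtain ⟨u, hu⟩ := ex_form (conjN hf δ⁻¹)
    have := key δ⁻¹ u hu
    rw [inv_inv] at this
    rw [this]
    exact ((rat_form (NeZero.pos N) (conjN hf δ⁻¹) hu).pow _).mul ((Rat.of_int i2).pow _)) (by
    have := key 1 _ (by
      rw [SlashAction.slash_one]
      exact exL_period p (NeZero.ne N) hs)
    rw [inv_one, map_one, one_smul] at this
    rw [this]
    exact mul_mem (pow_mem ((sb_int p).2 hi) _) (pow_mem i2 _))
  have t1 := exL_period p (NeZero.ne N) ht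
  have h3 := mul_mem (h2 (pr N γ⁻¹)) (pow_mem i1 k)
  rw [key γ _ t1, mul_assoc, ← mul_pow, inv_mul_cancel₀ d3, one_pow, mul_one] at h3
  exact (sb_int p).1 (int_of_pow hA (rat_form (NeZero.pos N) (conjN hf γ) t1) p h3)

theorem ofPS_int {F : PowerSeries ℂ} :
    HahnSeries.ofPowerSeries ℤ ℂ F ∈ Int O ↔ ∀ n, F.coeff n ∈ O := by
  rw [mem_Int]
  refine ⟨fun h n => by rw [← LaurentSeries.coeff_coe_powerSeries]; exact h n, fun h n => ?_⟩
  rw [PowerSeries.coeff_coe]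
  split_ifs
  · exact O.zero_mem
  · exact h _

/-- **IRR**: an integral expansion at one cusp gives integral expansions at all cusps -/
theorem irr (O : ValuationSubring ℂ) (hA : Arch O) {M : ℕ} (hM : 0 < M) (hu : (M : ℂ)⁻¹ ∈ O)
    {k : ℕ} {f : ℍ → ℂ} (hf : IsMF (Gamma M) k f)
    (hi : ∀ n, (qExpansion (M : ℝ) f).coeff n ∈ O) (γ : SL(2, ℤ)) (n : ℕ) :
    (qExpansion (M : ℝ) (f ∣[(k : ℤ)] γ)).coeff n ∈ O :=
  haveI : NeZero M := ⟨hM.ne'⟩
  ofPS_int.1 (irrL hA hu hf (isMF_exL hM.ne' (T_pow_Gamma M) hf) (ofPS_int.2 hi) γ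
    (isMF_exL hM.ne' (T_pow_Gamma M) (conjN hf γ))) n

end Vale.Agent.P022D.Irr
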