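import Mathlib

/-! # P022 route D, block V, row IRR: the two group theoretic lemmas -/

set_option linter.all false

open Matrix Polynomial
open scoped MatrixGroups

noncomputable section

namespace Vale.Agent.P022D.Irr

theorem det2 (γ : SL(2, ℤ)) : γ 0 0 * γ 1 1 - γ 0 1 * γ 1 0 = 1 := by
  have := γ.det_coe
  rwa [Matrix.det_fin_two] at this

theorem mul_e (γ δ : SL(2, ℤ)) (i j : Fin 2) : (γ * δ) i j = γ i 0 * δ 0 j + γ i 1 * δ 1 j := by
  simp [Matrix.mul_apply, Fin.sum_univ_two]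

theorem T_e (k : ℤ) : (ModularGroup.T ^ k : SL(2, ℤ)) 0 0 = 1 ∧ (ModularGroup.T ^ k : SL(2, ℤ)) 0 1 = k ∧
    (ModularGroup.T ^ k : SL(2, ℤ)) 1 0 = 0 ∧ (ModularGroup.T ^ k : SL(2, ℤ)) 1 1 = 1 := by
  have h := ModularGroup.coe_T_zpow k
  refine ⟨?_, ?_, ?_, ?_⟩ <;>
  · show ((ModularGroup.T ^ k : SL(2, ℤ)) : Matrix (Fin 2) (Fin 2) ℤ) _ _ = _
    rw [h]
    simp

theorem inv_e (γ : SL(2, ℤ)) : (γ⁻¹) 0 0 = γ 1 1 ∧ (γ⁻¹) 0 1 = -γ 0 1 ∧ (γ⁻¹) 1 0 = -γ 1 0 ∧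
    (γ⁻¹) 1 1 = γ 0 0 := by
  refine ⟨?_, ?_, ?_, ?_⟩ <;>
    simp [Matrix.SpecialLinearGroup.coe_inv, Matrix.adjugate_fin_two]

theorem conj_e (γ : SL(2, ℤ)) (k : ℤ) :
    (γ * ModularGroup.T ^ k * γ⁻¹) 0 0 = 1 - k * γ 0 0 * γ 1 0 ∧
    (γ * ModularGroup.T ^ k * γ⁻¹) 0 1 = k * γ 0 0 ^ 2 ∧
    (γ * ModularGroup.T ^ k * γ⁻¹) 1 0 = -(k * γ 1 0 ^ 2) ∧
    (γ * ModularGroup.T ^ k * γ⁻¹) 1 1 = 1 + k * γ 0 0 * γ 1 0 := by
  obtain ⟨a, b, c, d⟩ := T_e k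
  obtain ⟨a', b', c', d'⟩ := inv_e γ
  have h := det2 γ
  refine ⟨?_, ?_, ?_, ?_⟩ <;> rw [mul_e, mul_e, mul_e, a, b, c, d]
  · rw [a', c']; linear_combination h
  · rw [b', d']; ring
  · rw [a', c']; ring
  · rw [b', d']; linear_combination h

theorem ex_cop (D : Subgroup SL(2, ℤ)) (N : ℕ) (hT : ModularGroup.T ∈ D)
    (h2 : ∀ l : ℕ, l.Prime → l ∣ N → ∃ γ ∈ D, ¬ (l : ℤ) ∣ γ 1 0) (m : ℕ) :
    m ≠ 0 → m ∣ N → ∃ γ ∈ D, IsCoprime (γ 1 0) (m : ℤ) := by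
  induction m using induction_on_primes with
  | zero => exact fun h => absurd rfl h
  | one => exact fun _ _ => ⟨1, D.one_mem, by simpa using isCoprime_one_right⟩
  | prime_mul l m hl ih =>
    intro h0 hd
    obtain ⟨γ, hγ, hc⟩ := ih (right_ne_zero_of_mul h0) (dvd_of_mul_left_dvd hd)
    have hl' : Prime (l : ℤ) := Nat.prime_iff_prime_int.1 hl
    push_cast
    by_cases h : (l : ℤ) ∣ γ 1 0
    · obtain ⟨δ, hδ, h'⟩ := h2 l hl (dvd_of_mul_right_dvd hd)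
      obtain ⟨a, -, c, -⟩ := conj_e δ m
      refine ⟨γ * (δ * ModularGroup.T ^ (m : ℤ) * δ⁻¹), D.mul_mem hγ
        (D.mul_mem (D.mul_mem hδ (D.zpow_mem hT _)) (D.inv_mem hδ)), ?_⟩
      rw [mul_e, a, c]
      refine IsCoprime.mul_right ?_ ?_
      · refine ((Prime.coprime_iff_not_dvd hl').2 fun hh => ?_).symm
        have h3 : (l : ℤ) ∣ γ 1 1 * (m * δ 1 0 ^ 2) := by
          have := dvd_sub (h.mul_right (1 - m * δ 0 0 * δ 1 0)) hh
          rwa [show γ 1 0 * (1 - m * δ 0 0 * δ 1 0) - (γ 1 0 * (1 - m * δ 0 0 * δ 1 0) +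
            γ 1 1 * -(m * δ 1 0 ^ 2)) = γ 1 1 * (m * δ 1 0 ^ 2) by ring] at this
        rcases hl'.dvd_or_dvd h3 with h4 | h4
        · refine hl'.not_dvd_one ?_
          rw [← det2 γ]
          exact dvd_sub (h4.mul_left _) (h.mul_left _)
        · rcases hl'.dvd_or_dvd h4 with h5 | h5
          · exact hl'.not_unit (hc.isUnit_of_dvd' h h5)
          · exact h' (hl'.dvd_of_dvd_pow h5)
      · rw [show γ 1 0 * (1 - m * δ 0 0 * δ 1 0) + γ 1 1 * -(m * δ 1 0 ^ 2) =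
          γ 1 0 + m * (-(γ 1 0 * δ 0 0 * δ 1 0) - γ 1 1 * δ 1 0 ^ 2) by ring]
        exact hc.add_mul_left_left _
    · exact ⟨γ, hγ, IsCoprime.mul_right ((Prime.coprime_iff_not_dvd hl').2 h).symm hc⟩

/-- the lower unipotent matrix -/
def Lo : SL(2, ℤ) := ⟨!![1, 0; 1, 1], by simp [Matrix.det_fin_two_of]⟩

theorem S_eq : ModularGroup.S = ModularGroup.T⁻¹ * Lo * ModularGroup.T⁻¹ := by
  have h : ModularGroup.T * ModularGroup.S * ModularGroup.T = Lo := by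
    ext i j
    rw [mul_e, mul_e, mul_e]
    fin_cases i <;> fin_cases j <;> simp [ModularGroup.S, ModularGroup.T, Lo]
  rw [← h]
  group

/-- a group which contains `Γ(N)` and `T` and lies in no `Γ₀(l)`, `l ∣ N`, is everything -/
theorem eq_top_of (D : Subgroup SL(2, ℤ)) (N : ℕ) (hN : N ≠ 0)
    (h1 : CongruenceSubgroup.Gamma N ≤ D) (hT : ModularGroup.T ∈ D)
    (h2 : ∀ l : ℕ, l.Prime → l ∣ N → ∃ γ ∈ D, ¬ (l : ℤ) ∣ γ 1 0) : D = ⊤ := by
  obtain ⟨γ, hγ, u, v, huv⟩ := ex_cop D N hT h2 N hN dvd_rfl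
  obtain ⟨δ, hδ⟩ : ∃ δ, δ = ModularGroup.T ^ (-(γ 0 0 * u)) * γ := ⟨_, rfl⟩
  have m1 : δ ∈ D := hδ ▸ D.mul_mem (D.zpow_mem hT _) hγ
  obtain ⟨a, b, c, d⟩ := T_e (-(γ 0 0 * u))
  have e0 : δ 0 0 = γ 0 0 * v * N := by
    rw [hδ, mul_e, a, b]; linear_combination (-γ 0 0) * huv
  have e1 : δ 1 0 = γ 1 0 := by rw [hδ, mul_e, c, d]; ring
  obtain ⟨h, hh⟩ : ∃ h, h = δ * ModularGroup.T ^ (u ^ 2) * δ⁻¹ := ⟨_, rfl⟩
  have m2 : h ∈ D := hh ▸ D.mul_mem (D.mul_mem m1 (D.zpow_mem hT _)) (D.inv_mem m1)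
  obtain ⟨a', b', c', d'⟩ := conj_e δ (u ^ 2)
  rw [← hh, e0] at a' b' d'
  rw [← hh] at c'
  rw [e1] at a' c' d'
  have l0 : Lo 0 0 = 1 := rfl
  have l1 : Lo 0 1 = 0 := rfl
  have l2 : Lo 1 0 = 1 := rfl
  have l3 : Lo 1 1 = 1 := rfl
  have hu : ((u : ℤ) : ZMod N) * ((γ 1 0 : ℤ) : ZMod N) = 1 := by
    have := congrArg (Int.cast : ℤ → ZMod N) huv
    push_cast at this
    rwa [ZMod.natCast_self, mul_zero, add_zero] at this
  have m3 : h * Lo ∈ CongruenceSubgroup.Gamma N := by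
    rw [CongruenceSubgroup.Gamma_mem]
    refine ⟨?_, ?_, ?_, ?_⟩
    · rw [mul_e, a', b', l0, l2]; push_cast; rw [ZMod.natCast_self]; ring
    · rw [mul_e, a', b', l1, l3]; push_cast; rw [ZMod.natCast_self]; ring
    · rw [mul_e, c', d', l0, l2]; push_cast; rw [ZMod.natCast_self]
      linear_combination (-(1 + (u : ZMod N) * ((γ 1 0 : ℤ) : ZMod N))) * hu
    · rw [mul_e, c', d', l1, l3]; push_cast; rw [ZMod.natCast_self]; ring
  have m4 : Lo ∈ D := by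
    have := D.mul_mem (D.inv_mem m2) (h1 m3)
    rwa [inv_mul_cancel_left] at this
  rw [eq_top_iff, ← SpecialLinearGroup.SL2Z_generators, Subgroup.closure_le]
  rintro x (rfl | rfl)
  · rw [S_eq]
    exact D.mul_mem (D.mul_mem (D.inv_mem hT) m4) (D.inv_mem hT)
  · exact hT

section dec

variable {G B Ω : Type*} [Group G] [Fintype G] [CommRing B] [MulSemiringAction G B] [CommRing Ω]
  [IsDomain Ω]

/-- the elements which keep the kernel of `ρ` -/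
def stab (G : Type*) [Group G] [Finite G] [MulSemiringAction G B] (ρ : B →+* Ω) : Subgroup G where
  carrier := {g | ∀ b, ρ b = 0 → ρ (g • b) = 0}
  one_mem' b h := by rwa [one_smul]
  mul_mem' {g h} hg hh b hb := by rw [mul_smul]; exact hg _ (hh _ hb)
  inv_mem' {g} hg b hb := by
    have key : ∀ n : ℕ, ρ (g ^ n • b) = 0 := fun n => by
      induction n with
      | zero => rwa [pow_zero, one_smul]
      | succ n ih => rw [pow_succ', mul_smul]; exact hg _ ih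
    have h0 := orderOf_pos g
    have e : g⁻¹ = g ^ (orderOf g - 1) := by
      rw [inv_eq_iff_mul_eq_one, ← pow_succ', Nat.sub_add_cancel h0, pow_orderOf_eq_one]
    rw [e]
    exact key _

theorem mem_stab {ρ : B →+* Ω} {g : G} : g ∈ stab G ρ ↔ ∀ b, ρ b = 0 → ρ (g • b) = 0 := Iff.rfl

/-- elements fixed by the stabiliser are, up to a power and one denominator, invariants -/
theorem abs_dec (ρ : B →+* Ω) : ∃ n : ℕ, 0 < n ∧ ∃ a : B, (∀ g : G, g • a = a) ∧ ρ a ≠ 0 ∧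
    ∀ x : B, (∀ g ∈ stab G ρ, g • x = x) → ∃ c : B, (∀ g : G, g • c = c) ∧
      ρ a * ρ x ^ n = ρ c := by
  classical
  have h1 : ∀ g : G, ∃ b : B, ρ b ≠ 0 ∧ (g ∉ stab G ρ → ρ (g • b) = 0) := by
    intro g
    by_cases hg : g ∈ stab G ρ
    · exact ⟨1, by simp, fun h => absurd hg h⟩
    · have hg' : g⁻¹ ∉ stab G ρ := fun h => hg (by simpa using (stab G ρ).inv_mem h)
      rw [mem_stab] at hg'
      push Not at hg'
      obtain ⟨b, h2, h3⟩ := hg'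
      exact ⟨g⁻¹ • b, h3, fun _ => by rwa [smul_inv_smul]⟩
  choose β hβ hβ' using h1
  obtain ⟨b, hb⟩ : ∃ b, b = ∏ g, β g := ⟨_, rfl⟩
  have b0 : ρ b ≠ 0 := by
    rw [hb, map_prod]
    exact Finset.prod_ne_zero_iff.2 fun g _ => hβ g
  have b1 : ∀ g ∉ stab G ρ, ρ (g • b) = 0 := by
    intro g hg
    rw [hb, Finset.smul_prod', map_prod]
    exact Finset.prod_eq_zero (Finset.mem_univ g) (hβ' g hg)
  have b2 : ∀ g ∈ stab G ρ, ρ (g • b) ≠ 0 := fun g hg h => b0 (by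
    have := (stab G ρ).inv_mem hg _ h
    rwa [inv_smul_smul] at this)
  obtain ⟨S, hS⟩ : ∃ S : Finset G, S = Finset.univ.filter (· ∈ stab G ρ) := ⟨_, rfl⟩
  have mS : ∀ g, g ∈ S ↔ g ∈ stab G ρ := fun g => by simp [hS]
  have key : ∀ y : B, (∀ g ∉ stab G ρ, ρ (g • y) = 0) →
      ρ ((MulSemiringAction.charpoly G y).coeff Sᶜ.card) = ∏ g ∈ S, -ρ (g • y) := by
    intro y hy
    rw [← coeff_map, MulSemiringAction.charpoly_eq, Polynomial.map_prod,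
      ← Finset.prod_mul_prod_compl S]
    have e : ∏ g ∈ Sᶜ, (X - C (g • y)).map ρ = X ^ Sᶜ.card := by
      rw [← Finset.prod_const]
      refine Finset.prod_congr rfl fun g hg => ?_
      rw [Polynomial.map_sub, map_X, map_C, hy g fun h => Finset.mem_compl.1 hg ((mS g).2 h),
        map_zero, sub_zero]
    have e2 := coeff_mul_X_pow (∏ g ∈ S, (X - C (g • y)).map ρ) Sᶜ.card 0
    rw [zero_add] at e2
    rw [e, e2, coeff_zero_eq_eval_zero, eval_prod]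
    refine Finset.prod_congr rfl fun g _ => ?_
    simp
  refine ⟨S.card, Finset.card_pos.2 ⟨1, (mS 1).2 (stab G ρ).one_mem⟩,
    (MulSemiringAction.charpoly G b).coeff Sᶜ.card,
    MulSemiringAction.smul_coeff_charpoly b _, ?_, fun x hx =>
      ⟨(MulSemiringAction.charpoly G (b * x)).coeff Sᶜ.card,
        MulSemiringAction.smul_coeff_charpoly _ _, ?_⟩⟩
  · rw [key b b1]
    exact Finset.prod_ne_zero_iff.2 fun g hg => neg_ne_zero.2 (b2 g ((mS g).1 hg))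
  · rw [key b b1, key (b * x) fun g hg => by rw [smul_mul', map_mul, b1 g hg, zero_mul],
      ← Finset.prod_const, ← Finset.prod_mul_distrib]
    refine Finset.prod_congr rfl fun g hg => ?_
    rw [smul_mul', map_mul, hx g ((mS g).1 hg), neg_mul]

end dec

end Vale.Agent.P022D.Irr
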