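import Vale.Agent.P022D.V.IrrS
import Vale.Agent.P027M.M.Pre
import Vale.Agent.P027M.M.CAct
import Vale.Agent.P027M.Fo.Xf
import Vale.Agent.P022.H406.L3.ExP

/-! # P022 route D, block V, row IRR: series of modular forms, bounded denominators -/

set_option linter.all false

open UpperHalfPlane hiding I
open Matrix Filter Topology CongruenceSubgroup
open scoped MatrixGroups ModularForm Manifold IntermediateField

noncomputable section

namespace Vale.Agent.P022D.Irr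

open Vale.Agent.P022 Vale.Agent.P022.H218.L3 Vale.Agent.P022.H231.L3 Vale.Agent.P022.H236.L3
  Vale.Agent.P022.H542.L3 Vale.Agent.P027M.M Vale.Agent.P022.H236

variable {O : ValuationSubring ℂ}

theorem val_root {z : ℂ} {n : ℕ} (hn : n ≠ 0) (h : z ^ n = 1) : O.valuation z = 1 := by
  have h1 : O.valuation z ^ n = 1 := by rw [← map_pow, h, map_one]
  rcases lt_trichotomy (O.valuation z) 1 with h2 | h2 | h2
  · exact absurd h1 (pow_lt_one₀ zero_le h2 hn).ne
  · exact h2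
  · exact absurd h1 (one_lt_pow₀ h2 hn).ne'

theorem val_ze {N : ℕ} (hN : 0 < N) (b : ℤ) : O.valuation (ze N b) = 1 := by
  rw [ze_zpow, map_zpow₀, val_root hN.ne' (ze_prim hN).pow_eq_one, _root_.one_zpow]

theorem ze_int {N : ℕ} (hN : 0 < N) (b : ℤ) : ze N b ∈ O :=
  (O.valuation_le_one_iff _).1 (val_ze hN b).le

theorem ZN_le {N : ℕ} (hN : 0 < N) (hu : (N : ℂ)⁻¹ ∈ O) {z : ℂ} (hz : z ∈ ZN N) : z ∈ O := by
  refine Algebra.adjoin_induction (p := fun z _ => z ∈ O) ?_ (fun r => intCast_mem O r)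
    (fun _ _ _ _ => O.add_mem _ _) (fun _ _ _ _ => O.mul_mem _ _) hz
  rintro x (rfl | rfl)
  · exact ze_int hN 1
  · exact hu

theorem sb_int {c : ℕ} (hc : 0 < c) {s : LS} : sb c hc s ∈ Int O ↔ s ∈ Int O := by
  rw [mem_Int, mem_Int]
  refine ⟨fun h n => by rw [← coeff_sb_mul c hc]; exact h _, fun h n => ?_⟩
  by_cases hd : (c : ℤ) ∣ n
  · obtain ⟨k, rfl⟩ := hd
    rw [coeff_sb_mul]
    exact h k
  · rw [coeff_sb_of_not_dvd _ _ _ _ hd]
    exact O.zero_mem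

theorem good_red {l c : ℕ} (hl : 0 < l) (hu : (l : ℂ)⁻¹ ∈ O) (hc : 0 < c) {k : ℤ} {s : LS}
    (h : Good l k s) : ∃ m : sb c hc s ∈ Int O, (red O ⟨_, m⟩).orderTop = (c * k : ℤ) := by
  have m : sb c hc s ∈ Int O := (sb_int hc).2 (mem_Int.2 fun n => ZN_le hl hu (h.int n))
  refine ⟨m, le_antisymm (HahnSeries.orderTop_le_of_coeff_ne_zero ?_)
    (HahnSeries.le_orderTop_iff_forall.2 fun j hj => ?_)⟩
  · rw [coeff_red, Ne, res_zero, coeff_sb_mul, not_lt]
    have h1 := (O.valuation_le_one_iff _).2 (ZN_le hl hu h.unit)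
    rwa [map_inv₀, inv_le_one₀ ((Valuation.pos_iff _).2 h.lead)] at h1
  · rw [coeff_red, res_zero]
    have : (sb c hc s).coeff j = 0 := by
      by_cases hd : (c : ℤ) ∣ j
      · obtain ⟨i, rfl⟩ := hd
        rw [coeff_sb_mul]
        refine h.lt (lt_of_mul_lt_mul_left (a := (c : ℤ)) ?_ (by positivity))
        exact_mod_cast hj
      · exact coeff_sb_of_not_dvd _ _ _ _ hd
    show O.valuation ((sb c hc s).coeff j) < 1
    rw [this, map_zero]
    exact zero_lt_one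

theorem good_sb {l : ℕ} (hl : 0 < l) (k : ℤ) (A : PowerSeries ℤ)
    (hA : PowerSeries.constantCoeff A = 1) : Good l (l * k) (sb l hl (ls k (toCi A))) := by
  have e : (sb l hl (ls k (toCi A))).coeff (l * k) = 1 := by
    have := coeff_ls k (toCi A) 0
    rw [Nat.cast_zero, add_zero] at this
    rw [coeff_sb_mul, this, PowerSeries.coeff_map, PowerSeries.coeff_zero_eq_constantCoeff_apply,
      hA, map_one]
  refine Good.of (fun n => ?_) (fun n hn => ?_) (by rw [e]; exact one_ne_zero)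
    (by rw [e, inv_one]; exact one_mem _)
  · by_cases hd : (l : ℤ) ∣ n
    · obtain ⟨i, rfl⟩ := hd
      obtain ⟨z, hz⟩ := coeff_ls_int A k i
      rw [coeff_sb_mul, hz]
      exact intCast_mem _ z
    · rw [coeff_sb_of_not_dvd _ _ _ _ hd]
      exact zero_mem _
  · by_cases hd : (l : ℤ) ∣ n
    · obtain ⟨i, rfl⟩ := hd
      rw [coeff_sb_mul]
      exact coeff_ls_of_lt k _ (lt_of_mul_lt_mul_left hn (by positivity))
    · exact coeff_sb_of_not_dvd _ _ _ _ hd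

theorem exL_one_sb {l : ℕ} (hl : 0 < l) {x : LS} {f : ℍ → ℂ} (h : ExL 1 x f) :
    ExL l (sb l hl x) f := by
  have := exL_period hl one_ne_zero h
  rwa [one_mul] at this

theorem ex_disc {l : ℕ} (hl : 0 < l) :
    ∃ s, Good l l s ∧ ExL l s ModularForm.discriminant := by
  obtain ⟨D0, h, h1⟩ := P027M.Fo.Xf.exists_D0
  have e := P027M.Fo.Xf.exq_d.exL
  have e2 : ls 0 (H790.A.toC H790.A.DZ) = ls 1 (toCi D0) := by
    have := ls_X_pow 0 1 (toCi D0)
    rw [pow_one, zero_add, Nat.cast_one] at this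
    rw [← this, h, map_mul]
    congr 2
    exact PowerSeries.map_X _
  rw [e2] at e
  have := good_sb hl 1 D0 h1
  rw [mul_one] at this
  exact ⟨_, this, exL_one_sb hl e⟩

theorem ex_E4 {l : ℕ} (hl : 0 < l) : ∃ s, Good l 0 s ∧ ExL l s ModularForm.E₄ := by
  have := good_sb hl 0 E4i (by
    rw [← PowerSeries.coeff_zero_eq_constantCoeff_apply, E4i, PowerSeries.coeff_mk, if_pos rfl])
  rw [mul_zero] at this
  exact ⟨_, this, exL_one_sb hl exL_E4_one⟩

theorem ex_j {l : ℕ} (hl : 0 < l) : ∃ s, Good l (-l) s ∧ ExL l s jf := by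
  obtain ⟨s, h1, h2⟩ := ex_disc hl
  obtain ⟨t, h3, h4⟩ := ex_E4 hl
  have h5 := (h3.pow 3).div h1
  rw [mul_zero, zero_sub] at h5
  exact ⟨_, h5, (h4.pow 3).div hl.ne' h2 h1.ne⟩

theorem ex_X {l : ℕ} (hl : 0 < l) : ∃ s, s ≠ 0 ∧ s ∈ Int O ∧ ExL l s H494.L3.X := by
  have e : H494.L3.PX = toCi (PowerSeries.mk H406.L3.xc) := by
    ext n
    simp [H494.L3.PX, H406.L3.xc]
  have h := H406.L3.exL_X
  rw [e] at h
  refine ⟨_, (good_sb hl 0 _ (by
    rw [← PowerSeries.coeff_zero_eq_constantCoeff_apply, PowerSeries.coeff_mk,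
      H406.L3.xc_zero])).ne, (sb_int hl).2 (mem_Int.2 fun n => ?_), exL_one_sb hl h⟩
  obtain ⟨z, hz⟩ := coeff_ls_int (PowerSeries.mk H406.L3.xc) 0 n
  rw [hz]
  exact intCast_mem O z

theorem bdd_of_exL {n : ℕ} (hn : n ≠ 0) {s : LS} {f : ℍ → ℂ} (h : ExL n s f)
    (h0 : ∀ k < 0, s.coeff k = 0) : IsBoundedAtImInfty f := by
  have e : s = ls 0 (PowerSeries.mk fun i => s.coeff i) :=
    ls_ext (fun i => by rw [zero_add, PowerSeries.coeff_mk]) h0
  rw [e] at h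
  have h1 := h.exq
  obtain ⟨τ, hτ⟩ := h1.exists
  obtain ⟨p, e⟩ := hasFPS hτ (qne _ _)
  have t := (tendsto_q hn).mono_right nhdsWithin_le_nhds
  have h2 := p.continuousAt.tendsto.comp t
  refine (h2.congr' ?_).isBigO_one ℝ
  filter_upwards [h1, t.eventually e] with τ a b
  simpa using b.unique a

theorem rat_Xs {N : ℕ} (hN : 0 < N) (v : Fin 2 → ℤ) : Rat O (Xs N v) := by
  have h : Xs N v - HahnSeries.C (Xc N v 0) ∈ Int O := mem_Int.2 fun n => by
    rw [HahnSeries.coeff_sub, HahnSeries.C_apply]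
    rcases lt_or_ge n 0 with h | h
    · rw [Xs, coeff_ls_of_lt 0 _ h, HahnSeries.coeff_single_of_ne h.ne, sub_zero]
      exact O.zero_mem
    · obtain ⟨k, rfl⟩ : ∃ k : ℕ, n = 0 + k := ⟨n.toNat, by omega⟩
      rw [Xs, coeff_ls, PowerSeries.coeff_mk]
      rcases eq_or_ne k 0 with rfl | hk
      · rw [Nat.cast_zero, add_zero, HahnSeries.coeff_single_same, sub_self]
        exact O.zero_mem
      · rw [HahnSeries.coeff_single_of_ne (by omega), sub_zero, Xc, if_neg hk]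
        refine sum_mem fun j _ => add_mem ?_ ?_ <;> split_ifs
        · exact mul_mem (natCast_mem _ _) (ze_int hN _)
        · exact zero_mem _
        · exact mul_mem (natCast_mem _ _) (ze_int hN _)
        · exact zero_mem _
  have := (Rat.of_int h).add (Rat.const (Xc N v 0))
  rwa [sub_add_cancel] at this

theorem sc1 : SC1 := rc1 sa3 (rb1 sa3) (rb2 sa3 (rb1 sa3))

theorem rat_MF {N : ℕ} (h : Lv N) {x : Mer} (hx : x ∈ MF (Gamma N)) :
    ∃ s, ExM N s x ∧ Rat O s := by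
  have : NeZero N := ⟨h.pos.ne'⟩
  have h1 : x ∈ MF (Gt N) := mem_MF_of_fixed _ hx fun γ hγ => by
    rcases CAct.gt_cases hγ with h | h
    · exact act_eq_self hx h
    · rw [← CAct.act_neg]
      exact act_eq_self hx h
  rw [sc1 N h] at h1
  refine IntermediateField.adjoin_induction ℂ (p := fun x _ => ∃ s, ExM N s x ∧ Rat O s)
    ?_ (fun c => ⟨_, ExM.const N c, Rat.const c⟩) ?_ ?_ ?_ h1
  · rintro _ ⟨v, hv, rfl⟩
    have := Pre.rex h hv 1
    rw [inv_one, map_one, AlgEquiv.one_apply] at this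
    refine ⟨_, this, ?_⟩
    rw [div_eq_mul_inv, sub_eq_add_neg, sub_eq_add_neg]
    exact ((rat_Xs h.pos _).add (rat_Xs h.pos _).neg).mul
      ((rat_Xs h.pos _).add (rat_Xs h.pos _).neg).inv
  · rintro _ _ _ _ ⟨s, a, b⟩ ⟨t, c, d⟩
    exact ⟨_, a.add c, b.add d⟩
  · rintro _ _ ⟨s, a, b⟩
    exact ⟨_, a.inv h.pos.ne', b.inv⟩
  · rintro _ _ _ _ ⟨s, a, b⟩ ⟨t, c, d⟩
    exact ⟨_, a.mul c, b.mul d⟩

theorem gamma_dvd {a b : ℕ} (h : a ∣ b) : Gamma b ≤ Gamma a := by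
  obtain ⟨c, rfl⟩ := h
  exact gamma_le

theorem T_pow_Gamma (N : ℕ) : ModularGroup.T ^ N ∈ Gamma N := by
  obtain ⟨a, b, c, d⟩ := T_e (N : ℤ)
  rw [zpow_natCast] at a b c d
  rw [Gamma_mem, a, b, c, d]
  simp

theorem disc_pow (Γ : Subgroup SL(2, ℤ)) (k : ℕ) :
    IsMF Γ (k * 12) ((ModularForm.discriminant : ℍ → ℂ) ^ k) := (isMF_disc.pow k).mono le_top

theorem disc_pow_ne (k : ℕ) (τ : ℍ) : ((ModularForm.discriminant : ℍ → ℂ) ^ k) τ ≠ 0 :=
  pow_ne_zero _ (ModularForm.discriminant_ne_zero τ)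

/-- the expansion of a form is a quotient of integral series -/
theorem rat_form {N : ℕ} (hN : 0 < N) {k : ℕ} {f : ℍ → ℂ} (hf : IsMF (Gamma N) k f) {s : LS}
    (hs : ExL (N * 12) s f) : Rat O s := by
  have p : 0 < N * 12 := by omega
  have lv : Lv (N * 12) := ⟨p, ⟨N * 3, by ring⟩⟩
  obtain ⟨x, x0, x1, x2⟩ := ex_X (O := O) p
  obtain ⟨d, d0, d1⟩ := ex_disc (l := 1) one_pos
  obtain ⟨m, -⟩ := good_red (O := O) one_pos (by simp) p d0
  have d2 := exL_period p one_ne_zero d1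
  rw [one_mul] at d2
  have d3 : sb (N * 12) p d ≠ 0 := (map_ne_zero _).2 d0.ne
  have hX : IsMF (Gamma (N * 12)) 1 H494.L3.X := H494.L3.isMF_X.mono
    ((gamma_dvd (a := 6) ⟨N * 2, by ring⟩).trans fun γ h => by
      rw [Gamma_mem] at h
      exact (Gamma1_mem _ _).2 ⟨h.1, h.2.2.2, h.2.2.1⟩)
  have h1 : IsMF (Gamma (N * 12)) (k * 12) (f * H494.L3.X ^ (11 * k)) := by
    have := (hf.mono (gamma_le (M := 12))).mul (hX.pow (11 * k))
    rwa [show (k : ℤ) + ((11 * k : ℕ) : ℤ) * 1 = k * 12 by push_cast; ring] at this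
  have h2 := disc_pow (Gamma (N * 12)) k
  have n2 : (ModularForm.discriminant : ℍ → ℂ) ^ k ≠ 0 := fun e =>
    disc_pow_ne k UpperHalfPlane.I (congrFun e _)
  obtain ⟨t, t1, t2⟩ := rat_MF (O := O) lv ⟨_, _, _, h1, h2, n2, rfl⟩
  have e := t1.unique p.ne' ((hs.mul (x2.pow _)).exM h1.hol h2.hol n2 (d2.pow k))
  have e2 : s = t * sb (N * 12) p d ^ k * (x ^ (11 * k))⁻¹ := by
    rw [e, div_mul_cancel₀ _ (pow_ne_zero _ d3), mul_inv_cancel_right₀ (pow_ne_zero _ x0)]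
  rw [e2]
  exact (t2.mul ((Rat.of_int m).pow _)).mul ((Rat.of_int x1).pow _).inv

end Vale.Agent.P022D.Irr
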