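import Vale.Agent.P022D.V.IrrG

/-! # P022 route D, block V, row IRR: Laurent series over a valuation ring, the abstract theorem -/

set_option linter.all false

open Polynomial

noncomputable section

namespace Vale.Agent.P022D.Irr

/-- coefficientwise map -/
def mp {R S : Type*} [CommRing R] [CommRing S] (f : R →+* S) :
    LaurentSeries R →+* LaurentSeries S where
  toFun x := HahnSeries.map x f
  map_one' := HahnSeries.map_one f.toMonoidWithZeroHom
  map_mul' _ _ := HahnSeries.map_mul f.toNonUnitalRingHom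
  map_zero' := by ext n; simp
  map_add' _ _ := HahnSeries.map_add f.toAddMonoidHom

theorem coeff_mp {R S : Type*} [CommRing R] [CommRing S] (f : R →+* S) (x : LaurentSeries R)
    (n : ℤ) : (mp f x).coeff n = f (x.coeff n) := rfl

theorem mp_C {R S : Type*} [CommRing R] [CommRing S] (f : R →+* S) (a : R) :
    mp f (HahnSeries.C a) = HahnSeries.C (f a) := by
  ext n
  rw [coeff_mp, HahnSeries.C_apply, HahnSeries.C_apply, HahnSeries.coeff_single,
    HahnSeries.coeff_single]
  split_ifs <;> simp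

theorem ord_eval {k : Type*} [Field k] {s : LaurentSeries k} (hs : s.orderTop < 0) (n : ℕ) :
    ∀ P : k[X], P.natDegree = n → P ≠ 0 → (eval₂ HahnSeries.C s P).orderTop ≤ 0 := by
  induction n with
  | zero =>
    intro P h h0
    rw [eq_C_of_natDegree_eq_zero h] at h0 ⊢
    rw [eval₂_C, HahnSeries.C_apply, HahnSeries.orderTop_single fun e => h0 (by rw [e, map_zero])]
    rfl
  | succ n ih =>
    intro P h h0
    have h1 : P.divX ≠ 0 := fun e => by
      rw [divX_eq_zero_iff] at e
      rw [e, natDegree_C] at h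
      omega
    have h2 := ih P.divX (by rw [natDegree_divX_eq_natDegree_tsub_one, h]; rfl) h1
    have h3 : (eval₂ HahnSeries.C s P.divX * s).orderTop < 0 := by
      rw [HahnSeries.orderTop_mul]
      calc _ ≤ 0 + s.orderTop := add_le_add_left h2 _
        _ < 0 := by rwa [zero_add]
    have h4 : (0 : WithTop ℤ) ≤ (HahnSeries.C (P.coeff 0) : LaurentSeries k).orderTop := by
      rw [HahnSeries.C_apply]
      exact HahnSeries.orderTop_single_le
    rw [← P.divX_mul_X_add, eval₂_add, eval₂_mul, eval₂_X, eval₂_C,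
      HahnSeries.orderTop_add_eq_left (h3.trans_le h4)]
    exact h3.le

variable {K : Type*} [Field K] (O : ValuationSubring K)

/-- series with integral coefficients -/
def Int : Subring (LaurentSeries K) := (mp O.subtype).range

variable {O}

theorem mem_Int {s : LaurentSeries K} : s ∈ Int O ↔ ∀ n, s.coeff n ∈ O := by
  constructor
  · rintro ⟨t, rfl⟩ n
    exact (t.coeff n).2
  · intro h
    refine ⟨⟨fun n => ⟨s.coeff n, h n⟩, s.isPWO_support'.mono fun n hn h0 => hn ?_⟩, ?_⟩
    · exact Subtype.ext h0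
    · ext n
      rfl

theorem C_mem {a : K} (h : a ∈ O) : HahnSeries.C a ∈ Int O := ⟨HahnSeries.C ⟨a, h⟩, mp_C _ _⟩

theorem up_inj : Function.Injective (mp O.subtype) := by
  intro x y h
  ext n
  exact congrArg (fun z : LaurentSeries K => z.coeff n) h

variable (O) in
/-- reduction of integral series -/
def red : Int O →+* LaurentSeries (IsLocalRing.ResidueField O) :=
  (mp (IsLocalRing.residue O)).comp (RingEquiv.ofBijective (mp O.subtype).rangeRestrict
    ⟨fun _ _ h => up_inj (congrArg Subtype.val h), RingHom.rangeRestrict_surjective _⟩).symm.toRingHom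

theorem red_up {s : LaurentSeries K} (h : s ∈ Int O) (t : LaurentSeries O)
    (e : mp O.subtype t = s) : red O ⟨s, h⟩ = mp (IsLocalRing.residue O) t := by
  refine congrArg (mp (IsLocalRing.residue O)) ?_
  exact (RingEquiv.symm_apply_eq _).2 (Subtype.ext e.symm)

theorem coeff_red (s : Int O) (n : ℤ) :
    (red O s).coeff n = IsLocalRing.residue O ⟨s.1.coeff n, mem_Int.1 s.2 n⟩ := by
  obtain ⟨s, h⟩ := s
  obtain ⟨t, e⟩ := id h
  rw [red_up h t e]
  subst e
  rfl

theorem res_zero {a : K} (h : a ∈ O) :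
    IsLocalRing.residue O ⟨a, h⟩ = 0 ↔ O.valuation a < 1 := by
  rw [IsLocalRing.residue_eq_zero_iff, ValuationSubring.valuation_lt_one_iff]

theorem red_zero {s : Int O} : red O s = 0 ↔ ∀ n, O.valuation (s.1.coeff n) < 1 := by
  rw [HahnSeries.ext_iff, funext_iff]
  refine forall_congr' fun n => ?_
  rw [coeff_red]
  exact res_zero _

theorem red_C {a : K} (h : a ∈ O) :
    red O ⟨_, C_mem h⟩ = HahnSeries.C (IsLocalRing.residue O ⟨a, h⟩) := by
  rw [red_up (C_mem h) (HahnSeries.C ⟨a, h⟩) (mp_C _ _), mp_C]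

/-- polynomials with integral coefficients in an integral series -/
theorem eval_int {J : LaurentSeries K} (hJ : J ∈ Int O) {P : K[X]} (hP : ∀ i, P.coeff i ∈ O) :
    ∃ (h : eval₂ HahnSeries.C J P ∈ Int O) (Q : (IsLocalRing.ResidueField O)[X]),
      (∀ i, Q.coeff i = IsLocalRing.residue O ⟨_, hP i⟩) ∧
      red O ⟨_, h⟩ = eval₂ HahnSeries.C (red O ⟨J, hJ⟩) Q := by
  obtain ⟨t, et⟩ := id hJ
  obtain ⟨P', rfl⟩ := (mem_lifts P).1 ((lifts_iff_coeff_lifts (f := O.subtype) P).2
    fun i => ⟨⟨_, hP i⟩, rfl⟩)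
  have key : ∀ {S : Type _} [CommRing S] (f : O →+* S), mp f (eval₂ HahnSeries.C t P') =
      eval₂ HahnSeries.C (mp f t) (P'.map f) := by
    intro S _ f
    rw [hom_eval₂, eval₂_map]
    congr 1
    exact RingHom.ext fun a => mp_C f a
  have k1 := key O.subtype
  rw [et] at k1
  have k2 : eval₂ HahnSeries.C J (P'.map O.subtype) ∈ Int O := ⟨_, k1⟩
  refine ⟨k2, P'.map (IsLocalRing.residue O), fun i => ?_, ?_⟩
  · rw [coeff_map]
    congr 1
    exact Subtype.ext (coeff_map O.subtype i).symm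
  · rw [red_up hJ t et, red_up k2 _ k1, key]

/-- an integral series whose reduction has a pole -/
def Pole (O : ValuationSubring K) (J : LaurentSeries K) : Prop :=
  ∃ h : J ∈ Int O, (red O ⟨J, h⟩).orderTop < 0

theorem eval_ne {J : LaurentSeries K} (hJ : Pole O J) {P : K[X]} (hP : ∀ i, P.coeff i ∈ O)
    (h : eval₂ HahnSeries.C J P ∈ Int O) (h0 : 0 < (red O ⟨_, h⟩).orderTop) (i : ℕ) :
    O.valuation (P.coeff i) < 1 := by
  obtain ⟨h1, h2⟩ := hJ
  obtain ⟨_, Q, hQ, e⟩ := eval_int h1 hP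
  rw [← res_zero (hP i), ← hQ]
  by_contra h3
  have := ord_eval h2 _ Q rfl fun e => h3 (by rw [e, coeff_zero])
  rw [← e] at this
  exact h0.not_ge this

theorem small_mul {c : K} (hc : O.valuation c < 1) {s : LaurentSeries K} (hs : s ∈ Int O) :
    ∃ h : HahnSeries.C c * s ∈ Int O, red O ⟨_, h⟩ = 0 := by
  have h1 : c ∈ O := (O.valuation_le_one_iff c).1 hc.le
  refine ⟨mul_mem (C_mem h1) hs, ?_⟩
  have : red O (⟨_, C_mem h1⟩ * ⟨s, hs⟩) = 0 := by
    rw [map_mul, red_C h1, (res_zero h1).2 hc, map_zero, zero_mul]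
  exact this

theorem coeff_int {J : LaurentSeries K} (hJ : Pole O J) {P : K[X]}
    (h : eval₂ HahnSeries.C J P ∈ Int O) (i : ℕ) : P.coeff i ∈ O := by
  by_contra hi
  have hne : P.support.Nonempty := ⟨i, mem_support_iff.2 fun e => hi (e ▸ O.zero_mem)⟩
  obtain ⟨m, hm, hmax⟩ := P.support.exists_max_image (fun n => O.valuation (P.coeff n)) hne
  have m0 : P.coeff m ≠ 0 := mem_support_iff.1 hm
  have v0 : 0 < O.valuation (P.coeff m) := (Valuation.pos_iff _).2 m0
  have hle : ∀ n, O.valuation (P.coeff n) ≤ O.valuation (P.coeff m) := fun n => by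
    by_cases hn : n ∈ P.support
    · exact hmax n hn
    · rw [notMem_support_iff.1 hn, map_zero]
      exact zero_le
  have h1 : 1 < O.valuation (P.coeff m) :=
    lt_of_lt_of_le (not_le.1 fun e => hi ((O.valuation_le_one_iff _).1 e)) (hle i)
  have h2 : O.valuation (P.coeff m)⁻¹ < 1 := by
    rw [map_inv₀]
    exact inv_lt_one_of_one_lt₀ h1
  obtain ⟨h3, h4⟩ := small_mul h2 h
  have e : eval₂ HahnSeries.C J (C (P.coeff m)⁻¹ * P) =
      HahnSeries.C (P.coeff m)⁻¹ * eval₂ HahnSeries.C J P := by rw [eval₂_mul, eval₂_C]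
  have h5 := eval_ne hJ (P := C (P.coeff m)⁻¹ * P) (fun n => by
    rw [coeff_C_mul, ← O.valuation_le_one_iff, map_mul, map_inv₀, inv_mul_le_one₀ v0]
    exact hle n) (e ▸ h3) (by
      have : red O ⟨_, e ▸ h3⟩ = 0 := by
        rw [← h4]
        congr 1
        exact Subtype.ext e
      rw [this, HahnSeries.orderTop_zero]
      exact WithTop.coe_lt_top _) m
  rw [coeff_C_mul, inv_mul_cancel₀ m0, map_one] at h5
  exact lt_irrefl _ h5

/-- the valuation has rank at most one -/
def Arch (O : ValuationSubring K) : Prop := ∀ a h : K, a ∉ O → h ≠ 0 → ∃ m : ℕ, h * a ^ m ∉ O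

/-- a quotient of integral series -/
def Rat (O : ValuationSubring K) (s : LaurentSeries K) : Prop :=
  ∃ H ∈ Int O, H ≠ 0 ∧ H * s ∈ Int O

theorem almost {L : Type*} [CommRing L] (R : Subring L) {t H : L} (hH : H ∈ R) (h : H * t ∈ R)
    (hi : IsIntegral R t) : ∃ d : ℕ, ∀ m : ℕ, H ^ d * t ^ m ∈ R := by
  obtain ⟨P, hP, h0⟩ := hi
  refine ⟨P.natDegree, fun m => ?_⟩
  have e : t ^ m = aeval t (X ^ m %ₘ P) := by
    rw [aeval_modByMonic_eq_self_of_root (p := X ^ m) h0, map_pow, aeval_X]
  rw [e, aeval_eq_sum_range' (n := P.natDegree + 1)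
    (Nat.lt_succ_of_le (natDegree_modByMonic_le _ hP)), Finset.mul_sum]
  refine sum_mem fun i hi => ?_
  obtain ⟨k, hk⟩ := Nat.exists_eq_add_of_le (Nat.lt_succ_iff.1 (Finset.mem_range.1 hi))
  rw [hk, Algebra.smul_def, show H ^ (i + k) * (algebraMap R L ((X ^ m %ₘ P).coeff i) * t ^ i) =
    algebraMap R L ((X ^ m %ₘ P).coeff i) * (H ^ k * (H * t) ^ i) by ring]
  exact mul_mem (Subtype.property _) (mul_mem (pow_mem hH _) (pow_mem h _))

/-- bounded denominators -/
theorem cic (hA : Arch O) {s : LaurentSeries K} (hr : Rat O s) (hi : IsIntegral (Int O) s) :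
    s ∈ Int O := by
  obtain ⟨H, hH, h0, h1⟩ := hr
  by_contra hs
  rw [mem_Int] at hs
  push Not at hs
  have hw : ({n | s.coeff n ∉ O} : Set ℤ).IsWF :=
    s.isWF_support.mono fun n hn h => hn (by rw [h]; exact O.zero_mem)
  obtain ⟨n, hn⟩ : ∃ n, n = hw.min hs := ⟨_, rfl⟩
  have n1 : s.coeff n ∉ O := hn ▸ hw.min_mem hs
  have n2 : ∀ m < n, s.coeff m ∈ O := fun m hm => by
    by_contra h
    exact hw.not_lt_min hs h (hn ▸ hm)
  have p1 : HahnSeries.truncLT n s ∈ Int O := mem_Int.2 fun m => by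
    rw [HahnSeries.coeff_truncLT]
    split_ifs with h
    · exact n2 m h
    · exact O.zero_mem
  obtain ⟨t, ht⟩ : ∃ t, t = s - HahnSeries.truncLT n s := ⟨_, rfl⟩
  have t1 : t.coeff n = s.coeff n := by
    rw [ht, HahnSeries.coeff_sub, HahnSeries.coeff_truncLT, if_neg (lt_irrefl _), sub_zero]
  have t2 : t.coeff n ≠ 0 := fun e => n1 (by rw [← t1, e]; exact O.zero_mem)
  have t0 : t ≠ 0 := HahnSeries.ne_zero_of_coeff_ne_zero t2
  have t3 : t.order = n := le_antisymm (HahnSeries.order_le_of_coeff_ne_zero t2)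
    ((HahnSeries.le_order_iff_forall t0).2 fun m hm => by
      rw [ht, HahnSeries.coeff_sub, HahnSeries.coeff_truncLT, if_pos hm, sub_self])
  obtain ⟨d, hd⟩ := almost (Int O) hH (t := t)
    (by rw [ht, mul_sub]; exact sub_mem h1 (mul_mem hH p1))
    (ht ▸ hi.sub (isIntegral_algebraMap (x := (⟨_, p1⟩ : Int O))))
  obtain ⟨m, hm⟩ := hA (s.coeff n) (H ^ d).leadingCoeff n1
    (HahnSeries.leadingCoeff_ne_zero.2 (pow_ne_zero _ h0))
  apply hm
  have e : (H ^ d * t ^ m).leadingCoeff = (H ^ d).leadingCoeff * s.coeff n ^ m := by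
    rw [HahnSeries.leadingCoeff_mul, ← t1, ← t3, ← HahnSeries.leadingCoeff_eq]
    congr 1
    clear hm
    induction m with
    | zero => simp
    | succ m ih => rw [pow_succ, pow_succ, HahnSeries.leadingCoeff_mul, ih]
  rw [← e, HahnSeries.leadingCoeff_eq]
  exact mem_Int.1 (hd m) _

theorem Rat.of_int {s : LaurentSeries K} (h : s ∈ Int O) : Rat O s :=
  ⟨1, one_mem _, one_ne_zero, by rwa [one_mul]⟩

theorem Rat.mul {s t : LaurentSeries K} (h : Rat O s) (h' : Rat O t) : Rat O (s * t) := by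
  obtain ⟨H, a, b, c⟩ := h
  obtain ⟨H', a', b', c'⟩ := h'
  exact ⟨H * H', mul_mem a a', mul_ne_zero b b', by rw [mul_mul_mul_comm]; exact mul_mem c c'⟩

theorem Rat.add {s t : LaurentSeries K} (h : Rat O s) (h' : Rat O t) : Rat O (s + t) := by
  obtain ⟨H, a, b, c⟩ := h
  obtain ⟨H', a', b', c'⟩ := h'
  refine ⟨H * H', mul_mem a a', mul_ne_zero b b', ?_⟩
  rw [show H * H' * (s + t) = H * s * H' + H * (H' * t) by ring]
  exact add_mem (mul_mem c a') (mul_mem a c')

theorem Rat.neg {s : LaurentSeries K} (h : Rat O s) : Rat O (-s) := by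
  obtain ⟨H, a, b, c⟩ := h
  exact ⟨H, a, b, by rw [mul_neg]; exact neg_mem c⟩

theorem Rat.inv {s : LaurentSeries K} (h : Rat O s) : Rat O s⁻¹ := by
  obtain ⟨H, a, b, c⟩ := h
  by_cases h0 : s = 0
  · rw [h0, inv_zero]
    exact Rat.of_int (zero_mem _)
  · exact ⟨H * s, c, mul_ne_zero b h0, by rwa [mul_inv_cancel_right₀ h0]⟩

theorem Rat.pow {s : LaurentSeries K} (h : Rat O s) (n : ℕ) : Rat O (s ^ n) := by
  induction n with
  | zero => exact Rat.of_int (by rw [pow_zero]; exact one_mem _)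
  | succ n ih => rw [pow_succ]; exact ih.mul h

theorem Rat.const (c : K) : Rat O (HahnSeries.C c) := by
  rcases O.mem_or_inv_mem c with h | h
  · exact Rat.of_int (C_mem h)
  · have := (Rat.of_int (C_mem h)).inv
    rwa [← map_inv₀, inv_inv] at this

/-! ### the abstract theorem -/

section abs

variable {G W : Type*} [Group G] [Fintype G] [CommRing W] [MulSemiringAction G W]

/-- the data: constants, expansions, the invariants are polynomials in `j` -/
structure Dat (G : Type*) [Group G] [MulSemiringAction G W] (O : ValuationSubring K)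
    (ι : K →+* W) (ex : W →+* LaurentSeries K) (J : LaurentSeries K) : Prop where
  fix : ∀ (g : G) (c : K), g • ι c = ι c
  const : ∀ c, ex (ι c) = HahnSeries.C c
  pole : Pole O J
  inv : ∀ w : W, (∀ g : G, g • w = w) → ∃ P : K[X], ex w = eval₂ HahnSeries.C J P

variable (G O) in
/-- all conjugates are integral -/
def BB (ex : W →+* LaurentSeries K) : Subring W where
  carrier := {w | ∀ g : G, ex (g • w) ∈ Int O}
  mul_mem' h h' g := by rw [smul_mul', map_mul]; exact mul_mem (h g) (h' g)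
  one_mem' g := by rw [smul_one, map_one]; exact one_mem _
  add_mem' h h' g := by rw [smul_add, map_add]; exact add_mem (h g) (h' g)
  zero_mem' g := by rw [smul_zero, map_zero]; exact zero_mem _
  neg_mem' h g := by rw [smul_neg, map_neg]; exact neg_mem (h g)

instance (ex : W →+* LaurentSeries K) : IsInvariantSubring G (BB O G ex) :=
  ⟨fun g _ h g' => by rw [← mul_smul]; exact h _⟩

theorem BB_one {ex : W →+* LaurentSeries K} (w : BB O G ex) : ex w ∈ Int O := by
  have := w.2 1
  rwa [one_smul] at this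

variable (G O) in
/-- the reduction of the expansion -/
def rho (ex : W →+* LaurentSeries K) : BB O G ex →+* LaurentSeries (IsLocalRing.ResidueField O) :=
  (red O).comp ((ex.comp (BB O G ex).subtype).codRestrict (Int O) BB_one)

theorem rho_apply {ex : W →+* LaurentSeries K} (w : BB O G ex) :
    rho O G ex w = red O ⟨ex w, BB_one w⟩ := rfl

variable {ι : K →+* W} {ex : W →+* LaurentSeries K} {J : LaurentSeries K}

theorem Dat.ord (h : Dat G O ι ex J) (a : BB O G ex) (ha : ∀ g : G, g • a = a)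
    (h0 : rho O G ex a ≠ 0) : (rho O G ex a).orderTop ≤ 0 := by
  obtain ⟨P, hP⟩ := h.inv a fun g => congrArg Subtype.val (ha g)
  have h1 : eval₂ HahnSeries.C J P ∈ Int O := hP ▸ BB_one a
  have h2 := coeff_int h.pole h1
  have e : rho O G ex a = red O ⟨_, h1⟩ := by
    rw [rho_apply]
    congr 1
    exact Subtype.ext hP
  obtain ⟨h3, h4⟩ := h.pole
  obtain ⟨_, Q, -, e2⟩ := eval_int h3 h2
  rw [e, e2] at h0 ⊢
  exact ord_eval h4 _ Q rfl fun e => h0 (by rw [e, eval₂_zero])

/-- an element fixed by the stabiliser whose reduction vanishes at the cusp reduces to zero -/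
theorem Dat.dec (h : Dat G O ι ex J) (x : BB O G ex)
    (hx : ∀ g ∈ stab G (rho O G ex), g • x = x) (h0 : 0 < (rho O G ex x).orderTop) :
    rho O G ex x = 0 := by
  by_contra x0
  obtain ⟨n, hn, a, -, a0, ha⟩ := abs_dec (G := G) (rho O G ex)
  have o1 : 0 < (rho O G ex x).order := by
    rw [← HahnSeries.order_eq_orderTop_of_ne_zero x0] at h0
    exact_mod_cast h0
  obtain ⟨m, hm⟩ : ∃ m : ℕ, -(rho O G ex a).order < m := ⟨(-(rho O G ex a).order).toNat + 1, by omega⟩
  obtain ⟨c, hc, e⟩ := ha (x ^ m) fun g hg => by rw [smul_pow', hx g hg]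
  rw [map_pow, ← pow_mul] at e
  have c0 : rho O G ex c ≠ 0 := e ▸ mul_ne_zero a0 (pow_ne_zero _ x0)
  have h1 := h.ord c hc c0
  rw [← HahnSeries.order_eq_orderTop_of_ne_zero c0, ← e,
    HahnSeries.order_mul a0 (pow_ne_zero _ x0), HahnSeries.order_pow] at h1
  have h2 : (rho O G ex a).order + (m * n) • (rho O G ex x).order ≤ 0 := by exact_mod_cast h1
  rw [nsmul_eq_mul] at h2
  push_cast at h2
  have h3 : (0 : ℤ) < n := by exact_mod_cast hn
  have h4 : (m : ℤ) * 1 * 1 ≤ m * n * (rho O G ex x).order := by gcongr <;> omega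
  omega

theorem scale_prod {L : Type*} [CommRing L] [IsDomain L] {α : Type*} (s : Finset α) (r : α → L)
    (c : L) : (∏ g ∈ s, (X - C (r g))).scaleRoots c = ∏ g ∈ s, (X - C (r g * c)) := by
  classical
  induction s using Finset.induction_on with
  | empty => simp
  | insert a s ha ih =>
    rw [Finset.prod_insert ha, Finset.prod_insert ha, mul_scaleRoots_of_noZeroDivisors, ih,
      X_sub_C_scaleRoots]

theorem int_root {L : Type*} [CommRing L] [IsDomain L] (R : Subring L) {α : Type*} [Fintype α]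
    (r : α → L) (h : ∀ i < Fintype.card α, (∏ g, (X - C (r g))).coeff i ∈ R) (g : α) :
    IsIntegral R (r g) := by
  have hm : (∏ g, (X - C (r g))).Monic := monic_prod_of_monic _ _ fun g _ => monic_X_sub_C _
  have hd : (∏ g, (X - C (r g))).natDegree = Fintype.card α := by
    rw [natDegree_prod_of_monic _ _ fun g _ => monic_X_sub_C _]
    simp
  obtain ⟨Q, e, -, hQ⟩ := lifts_and_natDegree_eq_and_monic
    ((lifts_iff_coeff_lifts (f := R.subtype) _).2 fun i => by
      rcases lt_trichotomy i (Fintype.card α) with hi | hi | hi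
      · exact ⟨⟨_, h i hi⟩, rfl⟩
      · exact ⟨1, by rw [hi, ← hd, map_one]; exact hm.coeff_natDegree.symm⟩
      · exact ⟨0, by rw [map_zero, coeff_eq_zero_of_natDegree_lt (hd ▸ hi)]⟩) hm
  refine ⟨Q, hQ, ?_⟩
  rw [← eval_map, show algebraMap R L = R.subtype from rfl, e, eval_prod]
  exact Finset.prod_eq_zero (Finset.mem_univ g) (by simp)

/-- the characteristic polynomial in terms of `j` -/
theorem Dat.chi (h : Dat G O ι ex J) (w : W) : ∃ P : ℕ → K[X], ∀ (c : K) (i : ℕ),
    (∏ g : G, (X - C (ex (g • (w * ι c))))).coeff i =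
      eval₂ HahnSeries.C J (P i * C (c ^ (Fintype.card G - i))) := by
  choose P hP using fun i => h.inv _ (MulSemiringAction.smul_coeff_charpoly (G := G) w i)
  refine ⟨P, fun c i => ?_⟩
  have e : ∏ g : G, (X - C (ex (g • w))) = (MulSemiringAction.charpoly G w).map ex := by
    rw [MulSemiringAction.charpoly_eq, Polynomial.map_prod]
    simp
  have hd : (∏ g : G, (X - C (ex (g • w)))).natDegree = Fintype.card G := by
    rw [natDegree_prod_of_monic _ _ fun g _ => monic_X_sub_C _]
    simp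
  simp only [smul_mul', h.fix, map_mul, h.const]
  simp only [← map_mul]
  rw [← scale_prod, coeff_scaleRoots, hd, e, coeff_map, hP, eval₂_mul, eval₂_C, map_pow]

/-- bounded denominators, and the bound is attained -/
theorem Dat.bnd [IsAlgClosed K] (h : Dat G O ι ex J) (hA : Arch O) (w : W)
    (hr : ∀ g : G, Rat O (ex (g • w))) : w ∈ BB O G ex ∨ ∃ c : K, O.valuation c < 1 ∧
      ∃ m : w * ι c ∈ BB O G ex, ∃ g : G, rho O G ex (g • ⟨_, m⟩) ≠ 0 := by
  classical
  obtain ⟨P, hP⟩ := h.chi w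
  obtain ⟨J1, J2⟩ := h.pole
  have key : ∀ c : K, (∀ i < Fintype.card G, ∀ n,
      (P i).coeff n * c ^ (Fintype.card G - i) ∈ O) → w * ι c ∈ BB O G ex := by
    intro c hc g
    refine cic hA ?_ (int_root (Int O) (fun g : G => ex (g • (w * ι c))) (fun i hi => ?_) g)
    · rw [smul_mul', h.fix, map_mul, h.const]
      exact (hr g).mul (Rat.const c)
    · rw [hP]
      exact (eval_int J1 fun n => by rw [coeff_mul_C]; exact hc i hi n).1
  have rt : ∀ p : ℕ × ℕ, ∃ r : K, p.1 < Fintype.card G →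
      r ^ (Fintype.card G - p.1) = (P p.1).coeff p.2 := fun p => by
    by_cases hp : p.1 < Fintype.card G
    · obtain ⟨r, hr⟩ := IsAlgClosed.exists_pow_nat_eq ((P p.1).coeff p.2) (Nat.sub_pos_of_lt hp)
      exact ⟨r, fun _ => hr⟩
    · exact ⟨0, fun h => absurd h hp⟩
  choose r hrt using rt
  obtain ⟨S, hS⟩ : ∃ S : Finset (ℕ × ℕ), S = (Finset.range (Fintype.card G)).biUnion
    fun i => (P i).support.image fun n => (i, n) := ⟨_, rfl⟩
  have mS : ∀ i n, (i, n) ∈ S ↔ i < Fintype.card G ∧ (P i).coeff n ≠ 0 := by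
    intro i n
    simp [hS]
  by_cases hall : ∀ p ∈ S, O.valuation (r p) ≤ 1
  · left
    have := key 1 fun i hi n => by
      rw [one_pow, mul_one]
      by_cases h0 : (P i).coeff n = 0
      · rw [h0]; exact O.zero_mem
      · rw [← hrt (i, n) hi]
        exact pow_mem ((O.valuation_le_one_iff _).1 (hall _ ((mS i n).2 ⟨hi, h0⟩))) _
    rwa [map_one, mul_one] at this
  · right
    push Not at hall
    obtain ⟨p0, hp0, h1⟩ := hall
    obtain ⟨⟨i, n⟩, hp, hmax⟩ := S.exists_max_image (fun p => O.valuation (r p)) ⟨p0, hp0⟩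
    have h2 : 1 < O.valuation (r (i, n)) := h1.trans_le (hmax p0 hp0)
    have v0 : 0 < O.valuation (r (i, n)) := zero_lt_one.trans h2
    have r0 : r (i, n) ≠ 0 := (Valuation.pos_iff _).1 v0
    have hi := ((mS i n).1 hp).1
    have hc : ∀ i' < Fintype.card G, ∀ n',
        (P i').coeff n' * (r (i, n))⁻¹ ^ (Fintype.card G - i') ∈ O := fun i' hi' n' => by
      by_cases h0 : (P i').coeff n' = 0
      · rw [h0, zero_mul]; exact O.zero_mem
      · rw [← hrt (i', n') hi', ← mul_pow]
        refine pow_mem ?_ _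
        rw [← O.valuation_le_one_iff, map_mul, map_inv₀, mul_inv_le_iff₀ v0, one_mul]
        exact hmax _ ((mS i' n').2 ⟨hi', h0⟩)
    refine ⟨(r (i, n))⁻¹, by rw [map_inv₀]; exact inv_lt_one_of_one_lt₀ h2, key _ hc, ?_⟩
    by_contra hz
    push Not at hz
    obtain ⟨b, hb⟩ : ∃ b : BB O G ex, b = ⟨_, key _ hc⟩ := ⟨_, rfl⟩
    rw [← hb] at hz
    have e1 : rho O G ex ((MulSemiringAction.charpoly G b).coeff i) = 0 := by
      rw [← coeff_map, MulSemiringAction.charpoly_eq, Polynomial.map_prod]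
      simp only [Polynomial.map_sub, map_X, map_C, hz, map_zero, sub_zero, Finset.prod_const,
        Finset.card_univ]
      rw [coeff_X_pow, if_neg hi.ne]
    have e2 : ex ((MulSemiringAction.charpoly G b).coeff i : BB O G ex) =
        eval₂ HahnSeries.C J (P i * C ((r (i, n))⁻¹ ^ (Fintype.card G - i))) := by
      rw [← hP]
      show (ex.comp (BB O G ex).subtype) _ = _
      rw [← coeff_map, MulSemiringAction.charpoly_eq, Polynomial.map_prod]
      simp only [Polynomial.map_sub, map_X, map_C, hb]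
      rfl
    have h5 := eval_ne ⟨J1, J2⟩ (P := P i * C ((r (i, n))⁻¹ ^ (Fintype.card G - i)))
      (fun n' => by rw [coeff_mul_C]; exact hc i hi n') (e2 ▸ BB_one _) (by
        have : red O ⟨_, e2 ▸ BB_one _⟩ = 0 := by
          rw [← e1, rho_apply]
          congr 1
          exact Subtype.ext e2.symm
        rw [this, HahnSeries.orderTop_zero]
        exact WithTop.coe_lt_top _) n
    rw [coeff_mul_C, ← hrt (i, n) hi, ← mul_pow, mul_inv_cancel₀ r0, one_pow, map_one] at h5
    exact lt_irrefl _ h5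

/-- if the stabiliser is everything, integrality at one cusp gives integrality at all cusps -/
theorem Dat.irr [IsAlgClosed K] (h : Dat G O ι ex J) (hA : Arch O)
    (ht : stab G (rho O G ex) = ⊤) (w : W) (hr : ∀ g : G, Rat O (ex (g • w)))
    (hw : ex w ∈ Int O) : w ∈ BB O G ex := by
  rcases h.bnd hA w hr with h1 | ⟨c, hc, m, g, hg⟩
  · exact h1
  · refine absurd (mem_stab.1 (ht ▸ Subgroup.mem_top g) _ ?_) hg
    obtain ⟨h2, h3⟩ := small_mul hc hw
    rw [← h3, rho_apply]
    congr 1
    refine Subtype.ext ?_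
    show ex (w * ι c) = _
    rw [map_mul, h.const, mul_comm]

end abs

end Vale.Agent.P022D.Irr
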