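import Vale.Agent.P022D.V.Spec

/-!
# P022D, block V: formal statements (any coefficient ring)
-/

set_option linter.all false

open Matrix
open scoped MatrixGroups

noncomputable section

namespace Vale.Agent.P022D.V

/-- diagonal modulo `q` (`M = M₀ q`) -/
def Dq (M M₀ : ℕ) (g : GM M) : Prop :=
  (M₀ : ZMod M) * (g : Matrix (Fin 2) (Fin 2) (ZMod M)) 0 1 = 0 ∧
    (M₀ : ZMod M) * (g : Matrix (Fin 2) (Fin 2) (ZMod M)) 1 0 = 0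

/-- `c` is `q` modulo `M₀` and `1` modulo `q` -/
def IsC (M M₀ q : ℕ) (c : (ZMod M)ˣ) : Prop := Cg M M₀ c q ∧ Cg M q c 1

/-- the norm of the unipotent subgroup at `q` -/
def Nu (S R : Type) [CommRing S] [CommRing R] [Algebra S R] (M M₀ q : ℕ) :
    Module.End S (FT M R) :=
  ∑ x ∈ Finset.range q, (rt S R (un ((M₀ : ZMod M) * (x : ZMod M)))).toLinearMap

/-- group theory at `q` -/
def GRP : Prop := ∀ M M₀ q : ℕ, Sp M M₀ q →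
  (∃ s, IsS M M₀ s) ∧ (∃ c, IsC M M₀ q c) ∧
  (∀ s, IsS M M₀ s → s * s = 1 ∧ ∀ a d : (ZMod M)ˣ, Cg M M₀ a 1 → Cg M M₀ d 1 →
    s * dg a d = dg d a * s) ∧
  (∀ g ∈ Kq M M₀, ∀ h ∈ Kq M q, g * h = h * g) ∧
  (∀ g : GM M, ∃ k ∈ Kq M M₀, ∃ h ∈ Kq M q, g = h * k) ∧
  (∀ (H : Subgroup (GM M)) (s : GM M), IsS M M₀ s → (∀ u ∈ Uq M M₀, u ∈ H ∧ s * u * s ∈ H) →
    (∀ g ∈ Kq M M₀, Matrix.GeneralLinearGroup.det g = 1 → g ∈ H) ∧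
    ((∀ d : (ZMod M)ˣ, Cg M M₀ d 1 → dg 1 d ∈ H) → ∀ g ∈ Kq M M₀, g ∈ H)) ∧
  (∀ g ∈ Bq M M₀, ∃ u ∈ Uq M M₀, ∃ a d : (ZMod M)ˣ, Cg M M₀ a 1 ∧ Cg M M₀ d 1 ∧ g = u * dg a d) ∧
  (∀ s, IsS M M₀ s → ∀ g ∈ Kq M M₀, g ∈ Bq M M₀ ∨
    ∃ x < q, ∃ b ∈ Bq M M₀, g = un ((M₀ : ZMod M) * ((x : ℕ) : ZMod M)) * s * b)

/-- the words `T_n`, and the exponents of the expansions at diagonal elements -/
def TN : Prop := ∀ (S R : Type) [CommRing S] [CommRing R] [Algebra S R] (M : ℕ),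
  (∀ (i n : ℕ) (u : (ZMod M)ˣ), Odd n → (u : ZMod M) = n →
    ∃ t ∈ Algebra.adjoin S {t : Module.End S (FT M R) | ∃ (p : ℕ) (u : (ZMod M)ˣ), p.Prime ∧
      p ≠ 2 ∧ p ∣ n ∧ (u : ZMod M) = p ∧ (t = Tf S R i p u ∨ t = Sf S R i p u)},
    ∀ (w : FT M R) (g : GM M) (m : ℕ), Nat.Coprime m n →
      (t w g).coeff m = (w (dg 1 u * g)).coeff (n * m)) ∧
  ∀ z : R, PZ M z → ∀ w : FT M R, TC z w →
    (∀ (x : ℕ) (g : GM M) (n : ℕ), z ^ (x * n) * (w (un (x : ZMod M) * g)).coeff n =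
      (w g).coeff n) ∧
    (∀ h, TC z (rt S R h w)) ∧
    (∀ M₀ q, Sp M M₀ q → ∀ g : GM M,
      (M₀ : ZMod M) * (g : Matrix (Fin 2) (Fin 2) (ZMod M)) 1 0 = 0 → ∀ n,
      (Nu S R M M₀ q w g).coeff n = if q ∣ n then (q : R) * (w g).coeff n else 0) ∧
    (∀ (N Q : ℕ) (y : S), M = N * Q → algebraMap S R y = z ^ Q → w ∈ Wh S R M y →
      ∀ (a d : (ZMod M)ˣ) (n : ℕ), (n : ZMod M) * a ≠ Q * d → (w (dg a d)).coeff n = 0)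

/-- the values of `W` and its commutation rules -/
def WF1 : Prop := ∀ (S R : Type) [CommRing S] [CommRing R] [Algebra S R] (M M₀ q : ℕ) (z : R),
  Sp M M₀ q → z ^ M = 1 → ∀ w ∈ Iv S R (Uq M M₀),
  (∀ s c g, IsS M M₀ s → IsC M M₀ q c → Dq M M₀ g →
    Wa S R M M₀ q w g = Vo q (w (dg c 1 * g * s)) ∧ Wb S R M M₀ q z w g = 0 ∧
    Wa S R M M₀ q w (g * s) = 0 ∧ Wb S R M M₀ q z w (g * s) = Uo q (w (dg 1 c * g))) ∧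
  (Wa S R M M₀ q w ∈ Iv S R (Uq M M₀) ∧ Wb S R M M₀ q z w ∈ Iv S R (Uq M M₀)) ∧
  (∀ h ∈ Kq M q, rt S R h w ∈ Iv S R (Uq M M₀) ∧
    Wa S R M M₀ q (rt S R h w) = rt S R h (Wa S R M M₀ q w) ∧
    Wb S R M M₀ q z (rt S R h w) = rt S R h (Wb S R M M₀ q z w)) ∧
  (∀ a d : (ZMod M)ˣ, Cg M M₀ a d →
    rt S R (dg a d) w ∈ Iv S R (Uq M M₀) ∧
    Wa S R M M₀ q (rt S R (dg a d) w) = rt S R (dg d a) (Wa S R M M₀ q w) ∧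
    Wb S R M M₀ q z (rt S R (dg a d) w) = rt S R (dg d a) (Wb S R M M₀ q z w)) ∧
  (∀ (p : ℕ) (u : (ZMod M)ˣ), (u : ZMod M) = p →
    Uf S R p u w ∈ Iv S R (Uq M M₀) ∧ Vf S R p u w ∈ Iv S R (Uq M M₀) ∧
    Wa S R M M₀ q (Uf S R p u w) = Uf S R p u (Wa S R M M₀ q w) ∧
    Wb S R M M₀ q z (Uf S R p u w) = Uf S R p u (Wb S R M M₀ q z w) ∧
    Wa S R M M₀ q (Vf S R p u w) = Vf S R p u (Wa S R M M₀ q w) ∧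
    Wb S R M M₀ q z (Vf S R p u w) = Vf S R p u (Wb S R M M₀ q z w)) ∧
  (w ∈ Od S M R → Wa S R M M₀ q w ∈ Od S M R ∧ Wb S R M M₀ q z w ∈ Od S M R) ∧
  (TC z w → TC z (Wa S R M M₀ q w) ∧ TC z (Wb S R M M₀ q z w))

/-- the square of `W`, the traces -/
def WF2 : Prop := ∀ (S R : Type) [CommRing S] [CommRing R] [Algebra S R] (M M₀ q : ℕ) (z : R)
  (h : Sp M M₀ q) (s : GM M) (c : (ZMod M)ˣ), PZ M z → IsS M M₀ s → IsC M M₀ q c →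
  (∀ w ∈ Iv S R (Uq M M₀), TC z w →
    Wa S R M M₀ q (Wa S R M M₀ q w) = 0 ∧ Wb S R M M₀ q z (Wb S R M M₀ q z w) = 0 ∧
    Wa S R M M₀ q (Wb S R M M₀ q z w) + Wb S R M M₀ q z (Wa S R M M₀ q w) = rt S R (dg c c) w ∧
    (∀ k, W1 S R M M₀ q z k (W1 S R M M₀ q z k w) = (q ^ k : ℕ) • rt S R (dg c c) w) ∧
    ∀ g, Dq M M₀ g → Ts S R M₀ q s (Wa S R M M₀ q w) g = 0 ∧
      Ts S R M₀ q s (Wb S R M M₀ q z w) g = (q : ℕ) • Vo q (Uo q (Uo q (w (dg 1 c * g))))) ∧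
  (∀ w ∈ Iv S R (Bq M M₀), w + Ts S R M₀ q s w ∈ Iv S R (Kq M M₀)) ∧
  (∀ w ∈ Iv S R (Kq M M₀), w + Ts S R M₀ q s w = (q + 1 : ℕ) • w) ∧
  ∀ (u : (ZMod M₀)ˣ) (w : FT M₀ R), (u : ZMod M₀) = q → TC (z ^ q) w →
    ifl S R h.dvd w ∈ Iv S R (Kq M M₀) ∧ TC z (ifl S R h.dvd w) ∧
    ∀ i, (1 + Ts S R M₀ q s) (W1 S R M M₀ q z (i + 1) (ifl S R h.dvd w)) =
      (q : ℕ) • ifl S R h.dvd (Tf S R i q u w)

end Vale.Agent.P022D.V
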