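import Mathlib

/-!
# P022D, block V: separated points give traces
-/

set_option autoImplicit false
set_option linter.all false

open Finset

namespace Vale.Agent.P022D.V

variable {R H : Type*} [CommRing R] [Group H] [Fintype H] [DecidableEq H] [MulSemiringAction H R]

/-- the trace -/
def trH (H : Type*) [Group H] [Fintype H] [MulSemiringAction H R] (x : R) : R := ∑ g : H, g • x

/-- the norm -/
def nmH (H : Type*) [Group H] [Fintype H] [MulSemiringAction H R] (x : R) : R := ∏ g : H, g • x

theorem smul_trH (h : H) (x : R) : h • trH H x = trH H x := by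
  rw [trH, Finset.smul_sum]
  simp only [smul_smul]
  exact Fintype.sum_equiv (Equiv.mulLeft h) _ _ fun _ => rfl

theorem smul_nmH (h : H) (x : R) : h • nmH H x = nmH H x := by
  rw [nmH, Finset.smul_prod']
  simp only [smul_smul]
  exact Fintype.prod_equiv (Equiv.mulLeft h) _ _ fun _ => rfl

theorem trH_add (x y : R) : trH H (x + y) = trH H x + trH H y := by
  simp only [trH, smul_add, Finset.sum_add_distrib]

theorem trH_mul {a : R} (ha : ∀ g : H, g • a = a) (x : R) : trH H (a * x) = a * trH H x := by
  simp only [trH, smul_mul', ha, Finset.mul_sum]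

/-- a product of separating differences lies in the ideal generated by the traces -/
theorem sep_mem (a : H → R) :
    ∏ h ∈ univ.erase (1 : H), (h • a h - a h) ∈ Ideal.span (Set.range (trH H : R → R)) := by
  let e : R → H → R := fun y g => g • y
  let S : Submodule R (H → R) := Submodule.span R (Set.range e)
  have hmul : ∀ P ∈ S, ∀ y, P * e y ∈ S := by
    intro P hP y
    refine Submodule.span_induction (p := fun P _ => P * e y ∈ S) ?_ ?_ ?_ ?_ hP
    · rintro _ ⟨z, rfl⟩
      refine Submodule.subset_span ⟨z * y, ?_⟩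
      funext g
      exact smul_mul' g z y
    · rw [zero_mul]
      exact S.zero_mem
    · intro P Q _ _ h1 h2
      rw [add_mul]
      exact S.add_mem h1 h2
    · intro c P _ h1
      rw [smul_mul_assoc]
      exact S.smul_mem c h1
  have hprod : ∀ s : Finset H, (fun g => ∏ h ∈ s, (h • a h - g • a h)) ∈ S := by
    intro s
    induction s using Finset.induction_on with
    | empty =>
      refine Submodule.subset_span ⟨1, ?_⟩
      funext g
      simp [e]
    | insert h s hs ih =>
      have : (fun g => ∏ k ∈ insert h s, (k • a k - g • a k)) =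
          (h • a h) • (fun g => ∏ k ∈ s, (k • a k - g • a k)) -
            (fun g => ∏ k ∈ s, (k • a k - g • a k)) * e (a h) := by
        funext g
        simp only [Finset.prod_insert hs, Pi.sub_apply, Pi.smul_apply, Pi.mul_apply, smul_eq_mul, e]
        ring
      rw [this]
      exact S.sub_mem (S.smul_mem _ ih) (hmul _ ih _)
  have hsum : ∀ P ∈ S, ∑ g, P g ∈ Ideal.span (Set.range (trH H : R → R)) := by
    intro P hP
    refine Submodule.span_induction
      (p := fun P _ => ∑ g, P g ∈ Ideal.span (Set.range (trH H : R → R))) ?_ ?_ ?_ ?_ hP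
    · rintro _ ⟨z, rfl⟩
      exact Ideal.subset_span ⟨z, rfl⟩
    · simp
    · intro P Q _ _ h1 h2
      simp only [Pi.add_apply, Finset.sum_add_distrib]
      exact Ideal.add_mem _ h1 h2
    · intro c P _ h1
      simp only [Pi.smul_apply, smul_eq_mul, ← Finset.mul_sum]
      exact Ideal.mul_mem_left _ _ h1
  have h := hsum _ (hprod (univ.erase 1))
  rw [Finset.sum_eq_single (1 : H)] at h
  · simpa only [one_smul] using h
  · intro g _ hg
    exact Finset.prod_eq_zero (Finset.mem_erase.2 ⟨hg, Finset.mem_univ g⟩) (sub_self _)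
  · simp

/-- an invariant element of the ideal generated by the traces has a power which is a trace -/
theorem pow_trace {n : R} (hn : ∀ g : H, g • n = n)
    (h : n ∈ Ideal.span (Set.range (trH H : R → R))) : ∃ (d : ℕ) (w : R), n ^ d = trH H w := by
  let A := FixedPoints.subring R H
  let I : Ideal A :=
    { carrier := {x | ∃ w, (x : R) = trH H w}
      add_mem' := by
        rintro x y ⟨v, hv⟩ ⟨w, hw⟩
        exact ⟨v + w, by rw [trH_add, ← hv, ← hw]; rfl⟩
      zero_mem' := ⟨0, by simp [trH]⟩
      smul_mem' := by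
        rintro c x ⟨w, hw⟩
        exact ⟨c * w, by rw [trH_mul c.2, ← hw]; rfl⟩ }
  have hrad : (⟨n, hn⟩ : A) ∈ I.radical := by
    rw [Ideal.radical_eq_sInf, Submodule.mem_sInf]
    rintro p ⟨hIp, hp⟩
    haveI : Algebra.IsInvariant A R H := ⟨fun b hb => ⟨⟨b, hb⟩, rfl⟩⟩
    haveI : Algebra.IsIntegral A R := Algebra.IsInvariant.isIntegral A R H
    obtain ⟨Q, -, hQ, hQp⟩ := Ideal.exists_ideal_over_prime_of_isIntegral p (⊥ : Ideal R) (by
      intro x hx
      have : x = 0 := Subtype.ext (by simpa using hx)
      rw [this]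
      exact p.zero_mem)
    rw [← hQp, Ideal.mem_comap]
    refine (Ideal.span_le.2 ?_ : _ ≤ Q) h
    rintro _ ⟨w, rfl⟩
    have : (⟨trH H w, fun g => smul_trH g w⟩ : A) ∈ p := hIp ⟨w, rfl⟩
    rw [← hQp, Ideal.mem_comap] at this
    exact this
  obtain ⟨d, w, hw⟩ := hrad
  exact ⟨d, w, hw⟩

/-- a power of the norm of a product of separating differences is a trace -/
theorem norm_trace (a : H → R) : ∃ (d : ℕ) (w : R),
    nmH H (∏ h ∈ univ.erase (1 : H), (h • a h - a h)) ^ d = trH H w := by
  refine pow_trace (fun g => smul_nmH g _) ?_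
  rw [nmH, ← Finset.mul_prod_erase univ _ (Finset.mem_univ (1 : H)), one_smul]
  exact Ideal.mul_mem_right _ _ (sep_mem a)

/-- in a domain with a faithful action some trace is not zero -/
theorem exists_trace_ne [IsDomain R] (hf : ∀ h : H, h ≠ 1 → ∃ a : R, h • a ≠ a) :
    ∃ w : R, trH H w ≠ 0 := by
  by_contra hc
  push Not at hc
  have h1 : ∀ h : H, ∃ a : R, h ≠ 1 → h • a ≠ a := by
    intro h
    by_cases h1 : h = 1
    · exact ⟨0, fun k => absurd h1 k⟩
    · obtain ⟨a, ha⟩ := hf h h1
      exact ⟨a, fun _ => ha⟩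
  choose a ha using h1
  have h2 := sep_mem a
  have h3 : Ideal.span (Set.range (trH H : R → R)) = ⊥ := by
    rw [Ideal.span_eq_bot]
    rintro _ ⟨w, rfl⟩
    exact hc w
  rw [h3, Ideal.mem_bot, Finset.prod_eq_zero_iff] at h2
  obtain ⟨h, hh, h0⟩ := h2
  exact ha h (Finset.mem_erase.1 hh).1 (sub_eq_zero.1 h0)

section semilinear

variable {X : Type*} [AddCommGroup X] [Module R X] [DistribMulAction H X]

/-- a trace maps invariants of a semilinear module to norms -/
theorem trace_smul_inv (hs : ∀ (g : H) (r : R) (x : X), g • (r • x) = (g • r) • (g • x))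
    (w : R) {x : X} (hx : ∀ g : H, g • x = x) : trH H w • x = ∑ g : H, g • (w • x) := by
  simp only [hs, hx, trH, Finset.sum_smul]

/-- a trace maps elements of norm zero to sums of differences -/
theorem trace_smul_ker (hs : ∀ (g : H) (r : R) (x : X), g • (r • x) = (g • r) • (g • x))
    (w : R) {x : X} (hx : ∑ g : H, g • x = 0) :
    trH H w • x = ∑ g : H, (g • (w • g⁻¹ • x) - w • g⁻¹ • x) := by
  have : ∑ g : H, w • g⁻¹ • x = 0 := by
    rw [← Finset.smul_sum, Fintype.sum_equiv (Equiv.inv H) (fun g : H => g⁻¹ • x) (fun g => g • x)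
      fun _ => rfl, hx, smul_zero]
  simp only [Finset.sum_sub_distrib, this, sub_zero, hs, smul_inv_smul, trH, Finset.sum_smul]

/-- a trace kills one-cocycles up to coboundaries -/
theorem trace_smul_cocycle (hs : ∀ (g : H) (r : R) (x : X), g • (r • x) = (g • r) • (g • x))
    (w : R) {c : H → X} (hc : ∀ g h, c (g * h) = c g + g • c h) (h : H) :
    trH H w • c h = (∑ g : H, (g • w) • c g) - h • ∑ g : H, (g • w) • c g := by
  rw [Finset.smul_sum, ← Fintype.sum_equiv (Equiv.mulLeft h) (fun g => ((h * g) • w) • c (h * g))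
    (fun g => (g • w) • c g) fun _ => rfl, ← Finset.sum_sub_distrib, ← smul_trH h w, trH,
    Finset.smul_sum, Finset.sum_smul]
  refine Finset.sum_congr rfl fun g _ => ?_
  rw [hc, hs, smul_add, smul_smul h g w, add_sub_cancel_right]

end semilinear

end Vale.Agent.P022D.V
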