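import Vale.Agent.P022D.V.TrA

/-!
# P022D, block V: an element of trace one
-/

set_option autoImplicit false
set_option linter.all false

open Finset Polynomial

namespace Vale.Agent.P022D.V

variable {R H : Type*} [CommRing R] [Group H] [Fintype H] [DecidableEq H] [MulSemiringAction H R]

/-- a free action on the maximal ideals gives an element of trace one -/
theorem trace_one_of_max
    (hs : ∀ m : Ideal R, m.IsMaximal → ∀ h : H, h ≠ 1 → ∃ a : R, h • a - a ∉ m) :
    ∃ w : R, trH H w = 1 := by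
  have h1 : (1 : R) ∈ Ideal.span (Set.range (trH H : R → R)) := by
    rw [← Ideal.eq_top_iff_one]
    by_contra hc
    obtain ⟨m, hm, hle⟩ := Ideal.exists_le_maximal _ hc
    have h2 : ∀ h : H, ∃ a : R, h ≠ 1 → h • a - a ∉ m := by
      intro h
      by_cases h1 : h = 1
      · exact ⟨0, fun k => absurd h1 k⟩
      · obtain ⟨a, ha⟩ := hs m hm h h1
        exact ⟨a, fun _ => ha⟩
    choose a ha using h2
    obtain ⟨h, hh, h0⟩ := (Ideal.IsPrime.prod_mem_iff (hp := hm.isPrime)).1 (hle (sep_mem a))
    exact ha h (Finset.mem_erase.1 hh).1 h0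
  obtain ⟨d, w, hw⟩ := pow_trace (fun g : H => smul_one g) h1
  exact ⟨w, by rw [← hw, one_pow]⟩

/-- the primes which contain `y` are the cusps -/
theorem prime_cusp {G F : Type*} [Group G] [Fintype G] [MulSemiringAction G R] [CommRing F]
    (y : R) (c : R →+* F) (hinv : ∀ x : R, (∀ g : G, g • x = x) → c x = 0 → y ∣ x)
    (m : Ideal R) (hm : m.IsPrime) (hy : y ∈ m) : ∃ g : G, ∀ x, c (g • x) = 0 → x ∈ m := by
  let K : G → Ideal R := fun g => RingHom.ker (c.comp (MulSemiringAction.toRingHom G R g))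
  have h1 : (univ : Finset G).inf K ≤ m := by
    intro x hx
    have hx' : ∀ g : G, c (g • x) = 0 := fun g => (Finset.inf_le (f := K) (mem_univ g)) hx
    have e1 : (MulSemiringAction.charpoly G x).map c = X ^ Fintype.card G := by
      rw [MulSemiringAction.charpoly_eq, Polynomial.map_prod]
      simp [hx']
    have e2 := MulSemiringAction.eval_charpoly G x
    have hmon := MulSemiringAction.monic_charpoly G x
    have e3 : eval x (MulSemiringAction.charpoly G x - X ^ Fintype.card G) ∈ m := by
      rw [eval_eq_sum, Polynomial.sum]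
      refine m.sum_mem fun n _ => m.mul_mem_right _ (m.mem_of_dvd (hinv _ (fun g => ?_) ?_) hy)
      · rw [coeff_sub, smul_sub, MulSemiringAction.smul_coeff_charpoly, coeff_X_pow]
        split_ifs <;> simp
      · rw [← coeff_map, Polynomial.map_sub, e1]
        simp
    rw [eval_sub, e2, zero_sub, m.neg_mem_iff, eval_pow, eval_X] at e3
    exact hm.mem_of_pow_mem _ e3
  obtain ⟨g, -, hg⟩ := (Ideal.IsPrime.inf_le' hm).1 h1
  exact ⟨g, fun x hx => hg hx⟩

/-- separation off the cusps and at the cusps gives an element of trace one -/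
theorem trace_one {G F : Type*} [Group G] [Fintype G] [MulSemiringAction G R] [Field F]
    (y : R) (c : R →+* F) (hc : Function.Surjective c)
    (hinv : ∀ x : R, (∀ g : G, g • x = x) → c x = 0 → y ∣ x)
    (h1 : ∀ h : H, h ≠ 1 → ∃ (a : R) (n : ℕ), h • a - a ∣ y ^ n)
    (h2 : ∀ (g : G) (h : H), h ≠ 1 → ∃ a : R, c (g • (h • a - a)) ≠ 0) :
    ∃ w : R, trH H w = 1 := by
  refine trace_one_of_max fun m hm h hh => ?_
  by_cases hy : y ∈ m
  · obtain ⟨g, hg⟩ := prime_cusp y c hinv m hm.isPrime hy
    obtain ⟨a, ha⟩ := h2 g h hh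
    refine ⟨a, fun k => ha ?_⟩
    have hK : (RingHom.ker (c.comp (MulSemiringAction.toRingHom G R g))).IsMaximal :=
      RingHom.ker_isMaximal_of_surjective _
        (hc.comp (MulAction.surjective g : Function.Surjective fun x : R => g • x))
    have e := hK.eq_of_le hm.ne_top fun x hx => hg x hx
    rw [← e] at k
    exact k
  · obtain ⟨a, n, ha⟩ := h1 h hh
    exact ⟨a, fun k => hy (hm.isPrime.mem_of_pow_mem n (m.mem_of_dvd ha k))⟩

/-- cosets -/
theorem coset_bij (P : Subgroup H) :
    Function.Bijective fun x : (H ⧸ P) × P => x.1.out * (x.2 : H) := by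
  constructor
  · rintro ⟨q, p⟩ ⟨q', p'⟩ h
    have h0 : q.out * (p : H) = q'.out * (p' : H) := h
    have h1 : q = q' := by
      have := congrArg (QuotientGroup.mk : H → H ⧸ P) h0
      rwa [QuotientGroup.mk_mul_of_mem _ p.2, QuotientGroup.mk_mul_of_mem _ p'.2,
        QuotientGroup.out_eq', QuotientGroup.out_eq'] at this
    subst h1
    rw [Subtype.ext (mul_left_cancel h0)]
  · intro g
    obtain ⟨p, hp⟩ := QuotientGroup.mk_out_eq_mul P g
    exact ⟨⟨QuotientGroup.mk g, p⁻¹⟩, by simp [hp]⟩

/-- from a subgroup to the group -/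
theorem trH_sub (P : Subgroup H) [Fintype P] {w : R} (hw : trH P w = 1) :
    trH H w = (P.index : R) := by
  classical
  have e : trH H w = ∑ q : H ⧸ P, ∑ p : P, (q.out * p) • w := by
    rw [trH, ← Fintype.sum_prod_type', ← (coset_bij P).sum_comp]
  rw [e, Subgroup.index, Nat.card_eq_fintype_card, Fintype.card, Finset.card_eq_sum_ones, Nat.cast_sum]
  refine Finset.sum_congr rfl fun q _ => ?_
  simp only [mul_smul, ← Finset.smul_sum]
  rw [show (∑ p : P, (p : H) • w) = trH P w from rfl, hw, smul_one, Nat.cast_one]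

/-- from a group to a subgroup -/
theorem trH_down (P : Subgroup H) [Fintype P] (w : R) : ∃ w' : R, trH P w' = trH H w := by
  classical
  refine ⟨∑ q : H ⧸ P, (q.out)⁻¹ • w, ?_⟩
  rw [trH, trH, ← Equiv.sum_comp (Equiv.inv H), ← (coset_bij P).sum_comp, Fintype.sum_prod_type,
    Finset.sum_comm, ← Equiv.sum_comp (Equiv.inv P)]
  refine Finset.sum_congr rfl fun p _ => ?_
  rw [Finset.smul_sum]
  refine Finset.sum_congr rfl fun q _ => ?_
  change ((p⁻¹ : P) : H) • (q.out)⁻¹ • w = (q.out * (p : H))⁻¹ • w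
  rw [smul_smul, mul_inv_rev, Subgroup.coe_inv]

end Vale.Agent.P022D.V
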