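import Vale.Agent.P022D.V.TrOne
import Vale.Agent.P022D.V.Spec
import Vale.Agent.P022D.Th.One

/-!
# P022D, block V: the weight one tuple, both parities, Higman's operator
-/

set_option autoImplicit false
set_option linter.all false

open UpperHalfPlane hiding I
open Matrix Filter Topology Function.Periodic
open scoped MatrixGroups Manifold ModularForm

noncomputable section

namespace Vale.Agent.P022D.V.Tr

open Vale.Agent.P022 Vale.Agent.P022.H218.L3 Vale.Agent.P022.H542.L3 Vale.Agent.P027M.M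
  Vale.Agent.P022D.Th

variable {O : Type} [CommRing O] [Co O] {M : ℕ}

theorem lift_sub (Y : PowerSeries (Co.A O : ValuationSubring ℂ).toSubring) :
    ∃ t : PowerSeries (AA O), t.map (av O) = Y.map (Co.A O : ValuationSubring ℂ).toSubring.subtype :=
  ⟨PowerSeries.mk fun n => amk _ (Y.coeff n).2, by
    ext n
    rw [PowerSeries.coeff_map, PowerSeries.coeff_map, PowerSeries.coeff_mk]
    rfl⟩

theorem invM (hM : Odd M) : (M : ℂ)⁻¹ ∈ (Co.A O : ValuationSubring ℂ).toSubring := by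
  have := inv_mem (odd_unit (O := O) hM)
  rwa [map_natCast] at this

variable [NeZero M]

theorem Pf_cs {a b : Fin 2 → ℤ} (h : cs M a = cs M b) : Pf M a = Pf M b := by
  refine Pf_congr (NeZero.pos M) ?_
  rw [nz_iff, not_not]
  funext i
  simpa [cs, sub_eq_zero] using congrFun h i

omit [NeZero M] in
theorem map_Ps (σ : ℂ ≃+* ℂ) {m : ℕ} (h : σ (ze M 1) = ze M 1 ^ m) (a : Fin 2 → ℤ) :
    (Ps M a).map (σ : ℂ →+* ℂ) = Ps M ![a 0, m * a 1] := by
  have e : ∀ b : ℤ, (σ : ℂ →+* ℂ) (ze M b) = ze M (m * b) := fun b => by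
    rw [ze_zpow M b, ze_zpow M (m * b), map_zpow₀, RingEquiv.coe_toRingHom, h, ← zpow_natCast,
      ← _root_.zpow_mul]
  ext k
  rw [PowerSeries.coeff_map, Ps, Ps, PowerSeries.coeff_mk, PowerSeries.coeff_mk]
  simp only [Pc, apply_ite (σ : ℂ →+* ℂ), map_sum, map_add, map_mul, map_natCast, map_div₀, map_pow,
    map_sub, map_one, map_zero, map_neg, e, Matrix.cons_val_zero, Matrix.cons_val_one, mul_neg,
    mul_assoc]
  rfl

theorem P_mem (hM : Odd M) {v : Fin 2 → ZMod M} (hv : v ≠ 0) :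
    ∃ P ∈ L O M 3, ∀ g, (P g).map (av O) = Ps M (lf (vg v g)) := by
  have hp := NeZero.pos M
  have h1 : ∀ g, ∃ t : PowerSeries (AA O), t.map (av O) = Ps M (lf (vg v g)) := fun g => by
    obtain ⟨Y, hY⟩ := Ps_int hp _ (ze_memA (O := O)) (invM hM) (nz_lf (vg_ne hv g))
    obtain ⟨t, ht⟩ := lift_sub Y
    exact ⟨Xa O (vg v g) + 2 * t, by
      rw [map_add, map_mul, map_ofNat, ht, Xa_map hM (vg_ne hv g), hY]⟩
  choose P hP using h1
  refine ⟨P, ⟨⟨fun g => Pf M (lf (vg v g)), ⟨fun g => Pf_bdd hp (nz_lf (vg_ne hv g)),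
    fun γ g => ?_⟩, fun g => ?_⟩, gal_iff.2 fun σ hσ a ha g => ?_⟩, hP⟩
  · rw [Nat.cast_ofNat, Pf_slash]
    refine Pf_cs ?_
    rw [cs_mul, cs_lf, cs_lf, vg_mul, vg, Matrix.vecMul_vecMul, Units.inv_mul, Matrix.vecMul_one]
  · rw [hP]
    exact Pf_hasSum hp (nz_lf (vg_ne hv g))
  · rw [PowerSeries.map_comp, RingHom.comp_apply, hP, hP, map_Ps σ ha, vg_mul]
    have h2 := vg_ne hv g
    generalize vg v g = u at h2
    have e : ((dg 1 a)⁻¹ : GM M) = dg 1 a⁻¹ := by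
      rw [inv_eq_iff_mul_eq_one, dg_mul, mul_one, mul_inv_cancel, dg_one]
    have e2 : cs M ![lf (vg u (dg 1 a)) 0, ((a : ZMod M).val : ℤ) * lf (vg u (dg 1 a)) 1] =
        cs M (lf u) := by
      rw [cs_lf, vg, e, dg_coe]
      funext i
      fin_cases i <;> simp [cs, lf, Matrix.vecMul, dotProduct, mul_comm (u 1), ← mul_assoc]
    refine hs_unique hp (Pf_hasSum hp ?_) ((Pf_cs e2).symm ▸ Pf_hasSum hp (nz_lf h2))
    rwa [nz_iff, e2, cs_lf]

/-- **a tuple of weight one which is `1` modulo two** -/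
theorem A_mem (hM : Odd M) (h3 : 3 ≤ M) : ∃ b : FT M (AA O), 1 + 2 * b ∈ L O M 1 := by
  have hp := NeZero.pos M
  haveI : Fact (1 < M) := ⟨by omega⟩
  obtain ⟨v, hv⟩ : ∃ v : Fin 2 → ZMod M, v = ![1, 0] := ⟨_, rfl⟩
  obtain ⟨w, hw⟩ : ∃ w : Fin 2 → ZMod M, w = ![0, 1] := ⟨_, rfl⟩
  have v0 : v ≠ 0 := fun e => by simpa [hv] using congrFun e 0
  have w0 : w ≠ 0 := fun e => by simpa [hw] using congrFun e 1
  have h1 : v ≠ w := fun e => by simpa [hv, hw] using congrFun e 0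
  have h2 : v ≠ -w := fun e => by simpa [hv, hw] using congrFun e 0
  have pa : ∀ g, Pair M (lf (vg v g)) (lf (vg w g)) := fun g => by
    refine ⟨nz_lf (vg_ne v0 g), nz_lf (vg_ne w0 g), ?_, ?_⟩
    · rw [NZ_iff, red_sub, red_lf, red_lf, sub_ne_zero]
      exact fun e => h1 (vg_inj g (pr_inj e))
    · rw [NZ_iff, red_add, red_lf, red_lf, Ne, add_eq_zero_iff_eq_neg]
      exact fun e => h2 (vg_inj g ((pr_inj (v := -vg w g) e).trans (vg_neg w g).symm))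
  have h4 : ∀ g, ∃ t : PowerSeries (AA O),
      As1 M (lf (vg v g)) (lf (vg w g)) = 1 + 2 * t.map (av O) := fun g => by
    obtain ⟨Y, hY⟩ := As1_int hp _ (ze_memA (O := O)) (invM hM) (pa g)
    obtain ⟨t, ht⟩ := lift_sub Y
    exact ⟨t, by rw [ht, hY]⟩
  choose b hb using h4
  obtain ⟨P, p1, p2⟩ := P_mem (O := O) hM v0
  obtain ⟨Q, q1, q2⟩ := P_mem (O := O) hM w0
  refine ⟨b, L_div hp (l := 2) ?_ (W_mem hM v0 w0) (W_nv hM v0 w0 h1 h2)⟩
  have e : (Xw O v - Xw O w) * (1 + 2 * (b : FT M (AA O))) = P - Q := by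
    funext g
    apply PowerSeries.map_injective (av O) av_inj
    simp only [Pi.add_apply, Pi.mul_apply, Pi.one_apply, Pi.ofNat_apply, Pi.sub_apply, map_add,
      map_mul, map_one, map_ofNat, map_sub]
    rw [← hb, p2, q2, Xw, Xw, Xa_map hM (vg_ne v0 g), Xa_map hM (vg_ne w0 g), mul_comm,
      As1_mul hp (pa g)]
  rw [e]
  exact (L O M 3).sub_mem p1 q1

end Vale.Agent.P022D.V.Tr

namespace Vale.Agent.P022D.V

open Tr

variable (O : Type) [CommRing O] [Co O]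

theorem par : PAR O := by
  intro M hM h3
  haveI : NeZero M := ⟨by omega⟩
  obtain ⟨b, hb⟩ := A_mem (O := O) hM h3
  refine ⟨⟨_, hb, b, rfl⟩, fun k ϖ h2 => ?_⟩
  have e : red M ϖ (1 + 2 * b) = 1 := by
    have := red_two (M := M) (ϖ := ϖ) (n := 1) (by rwa [pow_one])
    rw [pow_one] at this
    rw [map_add, map_mul, this, zero_mul, add_zero, map_one]
  have key : ∀ k k' s, Vs M k s ϖ ≤ Vs M k' s ϖ := by
    intro k k' s
    refine iSup_le fun ⟨l, _⟩ => ?_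
    rintro _ ⟨x, hx, rfl⟩
    obtain ⟨d, hd⟩ := Nat.exists_eq_add_of_le (Nat.one_le_two_pow (n := s))
    refine Submodule.mem_iSup_of_mem ⟨l + 1 * (d * l + k'), ?_⟩ ⟨_, L_mul hx (L_pow hb _), ?_⟩
    · rw [show l + 1 * (d * l + k') = 2 ^ s * l + k' by rw [hd]; ring]
      exact Nat.ModEq.add_right k' (Nat.modEq_zero_iff_dvd.2 (dvd_mul_right _ _)) |>.trans
        (by rw [zero_add])
    · rw [AlgHom.toLinearMap_apply, AlgHom.toLinearMap_apply, map_mul, map_pow, e, one_pow, mul_one]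
  exact le_antisymm (iInf_mono fun s => key _ _ s) (iInf_mono fun s => key _ _ s)

theorem out_set {M : ℕ} [NeZero M] (h3 : 3 ≤ M) : ∃ s : Finset (GM M),
    (∀ g, g ∈ s ↔ ng M * g ∉ s) ∧ ∀ g, g ∈ s ↔ (QuotientGroup.mk g : GM M ⧸ ZZ M).out = g := by
  classical
  haveI : Fact (2 < M) := ⟨h3⟩
  have hn : ng M ≠ 1 := fun e => by
    have := congrArg (fun g : GM M => (g : Matrix (Fin 2) (Fin 2) (ZMod M)) 0 0) e
    exact ZMod.neg_one_ne_one (by simpa [ng, dg_coe] using this)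
  refine ⟨Finset.univ.filter fun g => (QuotientGroup.mk g : GM M ⧸ ZZ M).out = g, fun g => ?_,
    fun g => by simp⟩
  have e : (QuotientGroup.mk (ng M * g) : GM M ⧸ ZZ M) = QuotientGroup.mk g := by
    rw [ng_comm, QuotientGroup.mk_mul_of_mem _ (show ng M ∈ ZZ M from Or.inr rfl)]
  simp only [Finset.mem_filter, Finset.mem_univ, true_and, e]
  obtain ⟨⟨z, hz⟩, h⟩ := QuotientGroup.mk_out_eq_mul (ZZ M) g
  rw [h, ng_comm]
  rcases hz with rfl | rfl
  · simp [hn]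
  · simp [hn]

theorem tr1' (M : ℕ) [NeZero M] (ϖ : O) (hM : Odd M) (h3 : 3 ≤ M) (h0 : ϖ ≠ 0) :
    ∃ w ∈ VV M 0 ϖ, rt O _ (ng M) w = w ∧ ∃ s : Finset (GM M), (∀ g, g ∈ s ↔ ng M * g ∉ s) ∧
      ∑ g ∈ s, rt O _ g w = 1 := by
  classical
  obtain ⟨s, h1, h2⟩ := out_set h3
  obtain ⟨w, a1, a2, a3⟩ := tr_one hM h0 (⊤ : Subgroup (GM M ⧸ ZZ M))
  refine ⟨w, a1, a2, s, h1, ?_⟩
  rw [← a3]
  refine Finset.sum_bij' (fun g _ => ⟨QuotientGroup.mk g, trivial⟩) (fun q _ => q.1.out)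
    (fun _ _ => Finset.mem_univ _) (fun q _ => (h2 _).2 (by rw [QuotientGroup.out_eq']))
    (fun g hg => (h2 g).1 hg) (fun q _ => Subtype.ext (QuotientGroup.out_eq' _)) fun g hg => ?_
  rw [(h2 g).1 hg]

theorem tr1 : TR1 O := fun M _ ϖ hM h3 h0 =>
  let ⟨w, h1, _, h2⟩ := tr1' O M ϖ hM h3 h0
  ⟨w, h1, h2⟩

namespace Tr

variable {O} {M : ℕ}

theorem ep_eq {S R : Type} [CommRing S] [CommRing R] [Algebra S R] (k : ℕ) (w : FT M R) :
    ep S R M k w = (-1) ^ k * rt S R (ng M) w := by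
  rw [ep, LinearMap.smul_apply, zsmul_eq_mul]
  push_cast
  rfl

theorem ng_ng {S R : Type} [CommRing S] [CommRing R] [Algebra S R] (w : FT M R) :
    rt S R (ng M) (rt S R (ng M) w) = w := by
  rw [← AlgHom.mul_apply, ← map_mul, ng_sq, map_one, AlgHom.one_apply]

theorem mem_L2' {k : ℕ} {w : FT M (AA O)} : w ∈ L2 O M k ↔
    w + (-1) ^ k * rt O _ (ng M) w ∈ L O M k ∧ w - (-1) ^ k * rt O _ (ng M) w ∈ L O M (k + 1) := by
  rw [← ep_eq]
  rfl

theorem L2_mul (hM : 0 < M) {k j : ℕ} {u w : FT M (AA O)} (hu : u ∈ L O M (2 * j))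
    (hw : w ∈ L2 O M k) : u * w ∈ L2 O M (k + 2 * j) := by
  have e := rt_ng hM hu
  rw [pow_mul, neg_one_sq, one_pow, one_mul] at e
  rw [mem_L2'] at hw ⊢
  rw [map_mul, e, pow_add, pow_mul, neg_one_sq, one_pow, mul_one, mul_left_comm, ← mul_add,
    ← mul_sub, add_comm k, add_assoc]
  exact ⟨L_mul hu hw.1, L_mul hu hw.2⟩

theorem modEq_down {k l s : ℕ} (h : k ≡ l [MOD 2 ^ (s + 1)]) : k ≡ l [MOD 2 ^ s] :=
  h.of_dvd (pow_dvd_pow 2 (Nat.le_succ s))

theorem V2_mul (hM : 0 < M) {k : ℕ} {ϖ : O} {v x : FT M (RR ϖ)} (hv : v ∈ VV M 0 ϖ)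
    (hx : x ∈ V2 M k ϖ) : v * x ∈ V2 M k ϖ := by
  refine (Submodule.mem_iInf _).2 fun s => ?_
  have h1 := (Submodule.mem_iInf _).1 hv (s + 1)
  have h2 := (Submodule.mem_iInf _).1 hx s
  refine Submodule.iSup_induction _ (motive := fun v => v * x ∈ _) h1 ?_ (by simp)
    fun a b ha hb => by rw [add_mul]; exact add_mem ha hb
  rintro ⟨l, hl⟩ _ ⟨u, hu, rfl⟩
  refine Submodule.iSup_induction _ (motive := fun x => _ * x ∈ _) h2 ?_ (by simp)
    fun a b ha hb => by rw [mul_add]; exact add_mem ha hb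
  rintro ⟨m, hm⟩ _ ⟨w, hw, rfl⟩
  obtain ⟨c, rfl⟩ := Nat.modEq_zero_iff_dvd.1 hl
  have e : 2 ^ (s + 1) * c = 2 * (2 ^ s * c) := by ring
  refine Submodule.mem_iSup_of_mem ⟨m + 2 * (2 ^ s * c), ?_⟩
    ⟨_, L2_mul hM (by rw [← e]; exact hu) hw, map_mul (red M ϖ) _ _⟩
  exact (hm.add (Nat.modEq_zero_iff_dvd.2 ⟨2 * c, by ring⟩)).trans (by rw [add_zero])

theorem V2_map {k : ℕ} {ϖ : O} (φ : Module.End O (FT M (RR ϖ)))
    (h : ∀ s l, l ≡ k [MOD 2 ^ (s + 1)] → ∀ w ∈ L2 O M l, ∃ l', l' ≡ k [MOD 2 ^ s] ∧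
      ∃ y ∈ L2 O M l', red M ϖ y = φ (red M ϖ w)) {v : FT M (RR ϖ)} (hv : v ∈ V2 M k ϖ) :
    φ v ∈ V2 M k ϖ := by
  refine (Submodule.mem_iInf _).2 fun s => ?_
  refine Submodule.mem_comap.1
    ((iSup_le ?_ : _ ≤ Submodule.comap φ _) ((Submodule.mem_iInf _).1 hv (s + 1)))
  rintro ⟨l, hl⟩ _ ⟨w, hw, rfl⟩
  obtain ⟨l', h1, y, h2, h3⟩ := h s l hl w hw
  exact Submodule.mem_iSup_of_mem ⟨l', h1⟩ ⟨y, h2, h3⟩

theorem phi_mem (hM : 0 < M) {k : ℕ} {b w : FT M (AA O)} (hb : 1 + 2 * b ∈ L O M 1)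
    (hw : w ∈ L2 O M k) (m : ℕ) : (1 + 2 * b) ^ (2 * m + 2) * (1 + b) * w -
      (b + b ^ 2) * (1 + 2 * b) ^ (2 * m + 1) * (w - (-1) ^ k * rt O _ (ng M) w) ∈
        L2 O M (k + 2 * (m + 1)) := by
  rw [mem_L2'] at hw ⊢
  obtain ⟨y, hy⟩ : ∃ y, y = (1 + 2 * b) ^ (2 * m + 2) * (1 + b) * w -
    (b + b ^ 2) * (1 + 2 * b) ^ (2 * m + 1) * (w - (-1) ^ k * rt O _ (ng M) w) := ⟨_, rfl⟩
  rw [← hy, pow_add, pow_mul, neg_one_sq, one_pow, mul_one]
  obtain ⟨a, ha⟩ : ∃ a, a = 1 + 2 * b := ⟨_, rfl⟩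
  obtain ⟨u, hu⟩ : ∃ u, u = w + (-1) ^ k * rt O _ (ng M) w := ⟨_, rfl⟩
  obtain ⟨v, hv⟩ : ∃ v, v = w - (-1) ^ k * rt O _ (ng M) w := ⟨_, rfl⟩
  obtain ⟨c, hc⟩ : ∃ c, c = a ^ (2 * m + 1) := ⟨_, rfl⟩
  rw [← ha] at hb
  rw [← hu, ← hv] at hw
  have e1 : 4 * y = c * a * u + c * a ^ 2 * u + c * a * v + c * v := by
    rw [hy, hc, ha, hu, hv]
    ring
  have hc' : c ∈ L O M (2 * m + 1) := by simpa [hc] using L_pow hb (2 * m + 1)
  have n1 := rt_ng hM hb
  have n2 := rt_ng hM hc'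
  have n3 := rt_ng hM hw.1
  have n4 := rt_ng hM hw.2
  rw [pow_succ, pow_mul, neg_one_sq, one_pow] at n2
  have e2 := congrArg (rt O _ (ng M)) e1
  simp only [map_mul, map_add, map_pow, map_ofNat, n1, n2, n3, n4] at e2
  have e3 : ((-1 : FT M (AA O)) ^ k) ^ 2 = 1 := by rw [← pow_mul, mul_comm, pow_mul]; simp
  rw [pow_succ (-1) k] at e2
  generalize (-1 : FT M (AA O)) ^ k = ε at e2 e3 ⊢
  constructor
  · refine L_sat hM (n := 4) (by norm_num) ?_
    have h1 : c * a * u ∈ L O M (k + 2 * (m + 1)) := by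
      have := L_mul (L_mul hc' hb) hw.1
      rwa [show 2 * m + 1 + 1 + k = k + 2 * (m + 1) by ring] at this
    have h2 : c * v ∈ L O M (k + 2 * (m + 1)) := by
      have := L_mul hc' hw.2
      rwa [show 2 * m + 1 + (k + 1) = k + 2 * (m + 1) by ring] at this
    have := add_mem (add_mem h1 h2) (add_mem h1 h2)
    rwa [show c * a * u + c * v + (c * a * u + c * v) = ((4 : ℕ) : FT M (AA O)) *
      (y + ε * rt O _ (ng M) y) by
        push_cast
        linear_combination -e1 - ε * e2 - (c * a * u - c * a ^ 2 * u - c * a * v + c * v) * e3] at this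
  · refine L_sat hM (n := 4) (by norm_num) ?_
    have h1 : c * a ^ 2 * u ∈ L O M (k + 2 * (m + 1) + 1) := by
      have := L_mul (L_mul hc' (L_pow hb 2)) hw.1
      rwa [show 2 * m + 1 + 1 * 2 + k = k + 2 * (m + 1) + 1 by ring] at this
    have h2 : c * a * v ∈ L O M (k + 2 * (m + 1) + 1) := by
      have := L_mul (L_mul hc' hb) hw.2
      rwa [show 2 * m + 1 + 1 + (k + 1) = k + 2 * (m + 1) + 1 by ring] at this
    have := add_mem (add_mem h1 h2) (add_mem h1 h2)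
    rwa [show c * a ^ 2 * u + c * a * v + (c * a ^ 2 * u + c * a * v) = ((4 : ℕ) : FT M (AA O)) *
      (y - ε * rt O _ (ng M) y) by
        push_cast
        linear_combination -e1 + ε * e2 + (c * a * u - c * a ^ 2 * u - c * a * v + c * v) * e3] at this

theorem two_pow_dvd {R : Type} [CommRing R] (b : R) (t : ℕ) :
    (2 : R) ^ t ∣ (1 + 2 * b) ^ 2 ^ t - 1 := by
  induction t with
  | zero => simp
  | succ t ih =>
    rw [pow_succ 2 t, pow_succ, pow_mul, show ∀ y : R, y ^ 2 - 1 = (y - 1) * (y + 1) from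
      fun y => by ring]
    refine mul_dvd_mul ih ?_
    obtain ⟨c, hc⟩ := sub_dvd_pow_sub_pow (1 + 2 * b) 1 (2 ^ t)
    rw [one_pow, add_sub_cancel_left] at hc
    exact ⟨b * c + 1, by linear_combination hc⟩

theorem red_pow [NeZero M] {ϖ : O} {n : ℕ} (hn : ϖ ∣ 2 ^ n) (b : FT M (AA O)) (s : ℕ) :
    red M ϖ (1 + 2 * b) ^ 2 ^ (n + s) = 1 := by
  obtain ⟨c, hc⟩ := (pow_dvd_pow 2 (Nat.le_add_right n s)).trans (two_pow_dvd b (n + s))
  rw [← map_pow, eq_add_of_sub_eq hc, map_add, map_mul, red_two hn, zero_mul, zero_add, map_one]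

theorem ng_b (hM : 0 < M) {b : FT M (AA O)} (hb : 1 + 2 * b ∈ L O M 1) :
    rt O _ (ng M) b = -1 - b := by
  have h := rt_ng hM hb
  rw [map_add, map_mul, map_one, map_ofNat] at h
  funext g
  have h2 : (2 : PowerSeries (AA O)) ≠ 0 := fun e => by
    have := congrArg (fun s => av O (PowerSeries.constantCoeff s)) e
    simp only [map_ofNat, map_zero] at this
    exact two_ne_zero this
  refine mul_left_cancel₀ h2 ?_
  have := congrFun h g
  simp only [Pi.add_apply, Pi.mul_apply, Pi.one_apply, Pi.ofNat_apply, Pi.sub_apply, Pi.neg_apply,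
    pow_one] at this ⊢
  linear_combination this

/-- Higman's operator for `±1` -/
theorem exists_phi [NeZero M] (hM : Odd M) (h3 : 3 ≤ M) (k : ℕ) {ϖ : O} (h0 : ϖ ≠ 0) :
    ∃ φ : Module.End O (FT M (RR ϖ)), (∀ v ∈ V2 M k ϖ, φ v ∈ V2 M k ϖ) ∧
      ∀ v, φ v + rt O _ (ng M) (φ (rt O _ (ng M) v)) = v := by
  have hp := NeZero.pos M
  obtain ⟨b, hb⟩ := A_mem (O := O) hM h3
  obtain ⟨n, hn⟩ := dvd_two_pow h0
  obtain ⟨d, hd⟩ := Nat.exists_eq_add_of_le (Nat.one_le_two_pow (n := n))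
  obtain ⟨c, hc⟩ : ∃ c, c = red M ϖ (1 + 2 * b) ^ (2 * d + 1) := ⟨_, rfl⟩
  have h1 : c * red M ϖ (1 + 2 * b) = 1 := by
    rw [hc, ← pow_succ, ← red_pow hn b 1, pow_succ 2 n, hd]
    congr 1
    ring
  have h2 : rt O _ (ng M) c = -c := by
    rw [hc, map_pow, ← red_rt, rt_ng hp hb, map_mul, pow_one, map_neg, map_one, neg_one_mul,
      Odd.neg_pow ⟨d, rfl⟩]
  have h4 : rt O _ (ng M) (red M ϖ b) = -1 - red M ϖ b := by
    rw [← red_rt, ng_b hp hb, map_sub, map_neg, map_one]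
  refine ⟨LinearMap.mulLeft O (1 + red M ϖ b) - LinearMap.mulLeft O
    ((red M ϖ b + red M ϖ b ^ 2) * c) * (1 - ep O _ M k), fun v hv => ?_, fun v => ?_⟩
  · refine V2_map _ (fun s l hl w hw => ?_) hv
    obtain ⟨m, hm⟩ := Nat.exists_eq_add_of_le (Nat.one_le_two_pow (n := n + s))
    have e1 : 2 * m + 2 = 2 ^ (n + (s + 1)) := by rw [← add_assoc, pow_succ, hm]; ring
    have e2 := red_pow hn b (s + 1)
    have e3 : (-1 : FT M (RR ϖ)) ^ l = (-1) ^ k := by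
      rw [neg_one_pow_eq_pow_mod_two, neg_one_pow_eq_pow_mod_two (n := k),
        hl.of_dvd (dvd_pow_self 2 (Nat.succ_ne_zero s))]
    refine ⟨l + 2 * (m + 1), ?_, _, phi_mem hp hb hw m, ?_⟩
    · refine ((modEq_down hl).add (Nat.modEq_zero_iff_dvd.2 ⟨2 * 2 ^ n, ?_⟩)).trans (by rw [add_zero])
      rw [add_comm m, ← hm]
      ring
    · rw [← e1] at e2
      have e4 : red M ϖ (1 + 2 * b) ^ (2 * m + 1) = c := by
        rw [← mul_one (_ ^ (2 * m + 1)), ← h1, mul_left_comm, ← pow_succ, e2, mul_one]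
      simp only [LinearMap.sub_apply, Module.End.mul_apply,
        Module.End.one_apply, LinearMap.mulLeft_apply, ep_eq]
      rw [map_sub, map_mul, map_mul, map_mul, map_mul, map_pow, map_pow, e2, e4, map_sub, map_mul,
        map_pow, map_neg, map_one, e3, red_rt, one_mul, map_add, map_one, map_add, map_pow]
  · simp only [LinearMap.sub_apply, Module.End.mul_apply, Module.End.one_apply,
      LinearMap.mulLeft_apply, ep_eq, map_sub, map_mul, map_add, map_pow, map_neg, map_one, h2, h4,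
      ng_ng]
    ring

end Tr

theorem tr2 : TR2 O := by
  intro M _ k ϖ hM h3 h0
  classical
  obtain ⟨w, w1, w2, s, s1, s2⟩ := tr1' O M ϖ hM h3 h0
  obtain ⟨φ, p1, p2⟩ := exists_phi (O := O) hM h3 k h0
  refine ⟨LinearMap.mulLeft O w * φ, fun v hv => V2_mul (NeZero.pos M) w1 (p1 v hv), fun v => ?_⟩
  have e : ∀ f : GM M → FT M (RR ϖ), ∑ g, f g = ∑ g ∈ s, (f g + f (g * ng M)) := by
    intro f
    rw [Finset.sum_add_distrib, ← Finset.sum_add_sum_compl s]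
    congr 1
    refine Finset.sum_bij' (fun g _ => g * ng M) (fun g _ => g * ng M) (fun g hg => ?_)
      (fun g hg => ?_) (fun g _ => ?_) (fun g _ => ?_) fun g _ => ?_
    · rw [← ng_comm]
      exact not_not.1 fun k => (Finset.mem_compl.1 hg) ((s1 g).2 k)
    · rw [← ng_comm]
      exact Finset.mem_compl.2 ((s1 g).1 hg)
    all_goals simp only [mul_assoc, ng_sq, mul_one]
  have e2 : ∑ g ∈ s, rt O _ g w * v = v := by rw [← Finset.sum_mul, s2, one_mul]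
  rw [e]
  refine (Finset.sum_congr rfl fun g _ => ?_).trans e2
  rw [_root_.mul_inv_rev, inv_eq_of_mul_eq_one_right ng_sq]
  simp only [Module.End.mul_apply, LinearMap.mulLeft_apply, map_mul, AlgHom.mul_apply, w2]
  rw [← mul_add, ← map_add, p2, ← AlgHom.mul_apply, ← map_mul, mul_inv_cancel, map_one,
    AlgHom.one_apply]

end Vale.Agent.P022D.V
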