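import Vale.Agent.P022D.V.Spec2
import Vale.Agent.P022D.V.TrOne

/-!
# P022D, block V: the unions over the weights (`VS1`, `VS2`)
-/

set_option autoImplicit false
set_option linter.all false

noncomputable section

namespace Vale.Agent.P022D.V

namespace Vs57

open Vale.Agent.P022D.V.Tr

/-- unions over the classes of weights of a family which increases along the classes modulo
`2 ^ s` -/
theorem union_iff {S X : Type} [CommRing S] [AddCommGroup X] [Module S X] (F : ℕ → Submodule S X)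
    (s : ℕ) (hF : ∀ k k', k ≤ k' → k ≡ k' [MOD 2 ^ s] → F k ≤ F k') (k₀ : ℕ) (v : X) :
    v ∈ (⨅ t : ℕ, ⨆ k : {k : ℕ // k ≡ k₀ [MOD 2 ^ t]}, F k.1) ↔
      ∃ k, k ≡ k₀ [MOD 2 ^ s] ∧ v ∈ F k := by
  rw [Submodule.mem_iInf]
  constructor
  · intro h
    haveI : Nonempty {k : ℕ // k ≡ k₀ [MOD 2 ^ s]} := ⟨⟨k₀, Nat.ModEq.refl _⟩⟩
    have hd : Directed (· ≤ ·) fun k : {k : ℕ // k ≡ k₀ [MOD 2 ^ s]} => F k.1 := by
      intro a b
      rcases le_total a.1 b.1 with e | e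
      · exact ⟨b, hF _ _ e (a.2.trans b.2.symm), le_rfl⟩
      · exact ⟨a, le_rfl, hF _ _ e (b.2.trans a.2.symm)⟩
    obtain ⟨k, hk⟩ := (Submodule.mem_iSup_of_directed _ hd).1 (h s)
    exact ⟨k.1, k.2, hk⟩
  · rintro ⟨k, h1, h2⟩ t
    have e1 : k₀ + k * (2 ^ s * 2 ^ t) ≡ k₀ [MOD 2 ^ t] :=
      ((Nat.modEq_iff_dvd' (Nat.le_add_right _ _)).2 (by
        rw [Nat.add_sub_cancel_left]
        exact Dvd.dvd.mul_left (dvd_mul_left _ _) _)).symm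
    have e2 : k₀ + k * (2 ^ s * 2 ^ t) ≡ k₀ [MOD 2 ^ s] :=
      ((Nat.modEq_iff_dvd' (Nat.le_add_right _ _)).2 (by
        rw [Nat.add_sub_cancel_left]
        exact Dvd.dvd.mul_left (dvd_mul_right _ _) _)).symm
    have e3 : k ≤ k₀ + k * (2 ^ s * 2 ^ t) :=
      (Nat.le_mul_of_pos_right k (by positivity)).trans (Nat.le_add_left _ _)
    exact Submodule.mem_iSup_of_mem (⟨_, e1⟩ : {k : ℕ // k ≡ k₀ [MOD 2 ^ t]})
      (hF _ _ e3 (h1.trans e2.symm) h2)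

section formal

variable {M : ℕ} {S R : Type} [CommRing S] [CommRing R] [Algebra S R]

theorem ep_app (k : ℕ) (w : FT M R) : ep S R M k w = (-1) ^ k * rt S R (ng M) w := by
  rw [ep, LinearMap.smul_apply, AlgHom.toLinearMap_apply, zsmul_eq_mul]
  push_cast
  rfl

theorem ep_mod {k k' s : ℕ} (hs : 2 ≤ s) (h : k ≡ k' [MOD 2 ^ s]) (w : FT M R) :
    ep S R M k w = ep S R M k' w := by
  have h2 : k ≡ k' [MOD 2] := h.of_dvd (dvd_pow_self 2 (by omega))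
  rw [ep_app, ep_app, neg_one_pow_eq_pow_mod_two, h2, ← neg_one_pow_eq_pow_mod_two]

end formal

variable {O : Type} [CommRing O] [Co O] {M : ℕ}

theorem red_coeff (ϖ : O) (w : FT M (AA O)) (g : GM M) (n : ℕ) :
    (red M ϖ w g).coeff n = Ideal.Quotient.mk _ ((w g).coeff n) := rfl

theorem red_smul (ϖ : O) (y : FT M (AA O)) : red M ϖ (ϖ • y) = 0 := by
  funext g
  ext n
  rw [red_coeff, Pi.smul_apply, PowerSeries.coeff_smul, Algebra.smul_def, Pi.zero_apply, map_zero,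
    Ideal.Quotient.eq_zero_iff_mem]
  exact Ideal.mul_mem_right _ _ (Ideal.mem_span_singleton_self _)

theorem red_ker {ϖ : O} {x : FT M (AA O)} (h : red M ϖ x = 0) : ∃ y, x = ϖ • y := by
  have h1 : ∀ g n, ∃ c : AA O, c * algebraMap O (AA O) ϖ = (x g).coeff n := fun g n => by
    rw [← Ideal.mem_span_singleton', ← Ideal.Quotient.eq_zero_iff_mem, ← red_coeff, h]
    simp
  choose c hc using h1
  refine ⟨fun g => PowerSeries.mk (c g), ?_⟩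
  funext g
  ext n
  rw [Pi.smul_apply, PowerSeries.coeff_smul, PowerSeries.coeff_mk, Algebra.smul_def, mul_comm, hc]

theorem red_surj (ϖ : O) (v : FT M (RR ϖ)) : ∃ w, red M ϖ w = v := by
  have h1 : ∀ g n, ∃ c : AA O, Ideal.Quotient.mk _ c = (v g).coeff n := fun g n =>
    Ideal.Quotient.mk_surjective _
  choose c hc using h1
  refine ⟨fun g => PowerSeries.mk (c g), ?_⟩
  funext g
  ext n
  rw [red_coeff, PowerSeries.coeff_mk, hc]

theorem rho_red (ϖ ϖ' : O) (w : FT M (AA O)) :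
    rho M ϖ ϖ' (red M (ϖ * ϖ') w) = red M ϖ w := by
  funext g
  ext n
  rfl

theorem red_ep (ϖ : O) (k : ℕ) (w : FT M (AA O)) :
    red M ϖ (ep O _ M k w) = ep O _ M k (red M ϖ w) := by
  rw [ep_app, ep_app, map_mul, map_pow, map_neg, map_one]
  rfl

theorem half {x y : FT M (AA O)} (h : x + x = y + y) : x = y := by
  funext g
  ext n
  apply av_inj
  have := congrArg (fun w : FT M (AA O) => av O ((w g).coeff n)) h
  simp only [Pi.add_apply, map_add] at this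
  linear_combination (1 / 2 : ℂ) * this

theorem ep_L (hM : 0 < M) {k : ℕ} {w : FT M (AA O)} (h : w ∈ L O M k) : ep O _ M k w = w := by
  rw [ep_app, rt_ng hM h, ← mul_assoc, ← mul_pow]
  simp

theorem ep_L1 (hM : 0 < M) {k : ℕ} {w : FT M (AA O)} (h : w ∈ L O M (k + 1)) :
    ep O _ M k w = -w := by
  rw [ep_app, rt_ng hM h, pow_succ, ← mul_assoc, ← mul_assoc, ← mul_pow]
  simp

theorem mem_L2' {k : ℕ} {w : FT M (AA O)} : w ∈ L2 O M k ↔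
    w + ep O (AA O) M k w ∈ L O M k ∧ w - ep O (AA O) M k w ∈ L O M (k + 1) := Iff.rfl

variable [NeZero M]

theorem E16 (t : ℕ) : (2 : FT M (AA O)) ^ (t + 4) ∣ ET O M ^ 2 ^ t - 1 := by
  induction t with
  | zero => exact ⟨15 * sT O M, by rw [ET]; ring⟩
  | succ t ih =>
    rw [pow_succ 2 t, add_right_comm, pow_succ, pow_mul,
      show ∀ y : FT M (AA O), y ^ 2 - 1 = (y - 1) * (y + 1) from fun y => by ring]
    refine mul_dvd_mul ih ?_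
    obtain ⟨c, hc⟩ := sub_dvd_pow_sub_pow (ET O M) 1 (2 ^ t)
    rw [one_pow, ET, add_sub_cancel_left] at hc
    exact ⟨120 * sT O M * c + 1, by rw [ET]; linear_combination hc⟩

theorem red_E {ϖ : O} {t : ℕ} (h : ϖ ∣ 2 ^ (t + 4)) (m : ℕ) :
    red M ϖ (ET O M ^ (2 ^ t * m)) = 1 := by
  obtain ⟨c, hc⟩ := E16 (O := O) (M := M) t
  have e : red M ϖ (ET O M ^ 2 ^ t) = 1 := by
    rw [sub_eq_iff_eq_add.1 hc, map_add, map_mul, red_two h, zero_mul, zero_add, map_one]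
  rw [pow_mul, map_pow, e, one_pow]

theorem L2_E {k : ℕ} {w : FT M (AA O)} (h : w ∈ L2 O M k) (a : ℕ) :
    w * ET O M ^ a ∈ L2 O M (k + 4 * a) := by
  obtain ⟨h1, h2⟩ := mem_L2'.1 h
  have e : ep O _ M (k + 4 * a) (w * ET O M ^ a) = ep O _ M k w * ET O M ^ a := by
    rw [ep_app, ep_app, map_mul, map_pow, rt_E, pow_add, pow_mul,
      show (-1 : FT M (AA O)) ^ 4 = 1 by ring, one_pow, mul_one, mul_assoc]
  rw [mem_L2', e, ← add_mul, ← sub_mul, add_right_comm]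
  exact ⟨L_mul h1 (L_pow E_mem a), L_mul h2 (L_pow E_mem a)⟩

theorem mono {s : ℕ} {ϖ : O} (hs : 2 ≤ s) (h : ϖ ∣ 2 ^ (s + 2)) (k k' : ℕ) (h1 : k ≤ k')
    (h2 : k ≡ k' [MOD 2 ^ s]) : Fil M k ϖ ≤ Fil M k' ϖ ∧ Fil2 M k ϖ ≤ Fil2 M k' ϖ := by
  obtain ⟨t, rfl⟩ := Nat.exists_eq_add_of_le' hs
  obtain ⟨m, hm⟩ := (Nat.modEq_iff_dvd' h1).1 h2
  have e : k' = k + 4 * (2 ^ t * m) := by
    rw [pow_add] at hm
    have : 2 ^ t * 2 ^ 2 * m = 4 * (2 ^ t * m) := by ring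
    omega
  have e1 := red_E (M := M) (t := t) h m
  subst e
  constructor
  · rintro v ⟨w, hw, rfl⟩
    exact ⟨w * ET O M ^ (2 ^ t * m), L_mul hw (L_pow E_mem _), by
      rw [AlgHom.toLinearMap_apply, AlgHom.toLinearMap_apply, map_mul, e1, mul_one]⟩
  · rintro v ⟨w, hw, rfl⟩
    exact ⟨w * ET O M ^ (2 ^ t * m), L2_E hw _, by
      rw [AlgHom.toLinearMap_apply, AlgHom.toLinearMap_apply, map_mul, e1, mul_one]⟩

theorem mem_VV {s : ℕ} {ϖ : O} (hs : 2 ≤ s) (h : ϖ ∣ 2 ^ (s + 2)) (k₀ : ℕ) (v : FT M (RR ϖ)) :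
    v ∈ VV M k₀ ϖ ↔ ∃ k, k ≡ k₀ [MOD 2 ^ s] ∧ v ∈ Fil M k ϖ :=
  union_iff (fun k => Fil M k ϖ) s (fun k k' h1 h2 => (mono hs h k k' h1 h2).1) k₀ v

theorem mem_V2 {s : ℕ} {ϖ : O} (hs : 2 ≤ s) (h : ϖ ∣ 2 ^ (s + 2)) (k₀ : ℕ) (v : FT M (RR ϖ)) :
    v ∈ V2 M k₀ ϖ ↔ ∃ k, k ≡ k₀ [MOD 2 ^ s] ∧ v ∈ Fil2 M k ϖ :=
  union_iff (fun k => Fil2 M k ϖ) s (fun k k' h1 h2 => (mono hs h k k' h1 h2).2) k₀ v

theorem split {s : ℕ} {ϖ : O} (hs : 2 ≤ s) (h : ϖ ∣ 2 ^ (s + 1)) (k₀ : ℕ) (v : FT M (RR ϖ)) :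
    v ∈ V2 M k₀ ϖ ↔ ∃ v' : FT M (RR (ϖ * 2)), rho M ϖ 2 v' = v ∧
      v' + ep O _ M k₀ v' ∈ VV M k₀ (ϖ * 2) ∧ v' - ep O _ M k₀ v' ∈ VV M (k₀ + 1) (ϖ * 2) := by
  have hM := NeZero.pos M
  have h1 : ϖ ∣ 2 ^ (s + 2) := h.trans (pow_dvd_pow _ (by omega))
  have h2 : ϖ * 2 ∣ 2 ^ (s + 2) := by
    rw [pow_succ]
    exact mul_dvd_mul h dvd_rfl
  rw [mem_V2 hs h1]
  constructor
  · rintro ⟨k, hk, w, hw, rfl⟩
    obtain ⟨a1, a2⟩ := mem_L2'.1 hw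
    refine ⟨red M (ϖ * 2) w, rho_red _ _ _, (mem_VV hs h2 _ _).2 ⟨k, hk, _, a1, ?_⟩,
      (mem_VV hs h2 _ _).2 ⟨k + 1, hk.add_right 1, _, a2, ?_⟩⟩
    · rw [AlgHom.toLinearMap_apply, map_add, red_ep, ep_mod hs hk]
    · rw [AlgHom.toLinearMap_apply, map_sub, red_ep, ep_mod hs hk]
  · rintro ⟨v', rfl, a1, a2⟩
    obtain ⟨k1, b1, c1⟩ := (mem_VV hs h2 _ _).1 a1
    obtain ⟨k2, b2, c2⟩ := (mem_VV hs h2 _ _).1 a2
    obtain ⟨k, hk⟩ : ∃ k, k = k₀ + (k1 + k2) * 2 ^ s := ⟨_, rfl⟩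
    have e1 : k ≡ k₀ [MOD 2 ^ s] := by
      rw [hk]
      exact ((Nat.modEq_iff_dvd' (Nat.le_add_right _ _)).2 (by
        rw [Nat.add_sub_cancel_left]
        exact dvd_mul_left _ _)).symm
    have e2 : k1 + k2 ≤ k := by
      rw [hk]
      exact (Nat.le_mul_of_pos_right _ (by positivity)).trans (Nat.le_add_left _ _)
    obtain ⟨f, hf, ef⟩ := (mono hs h2 k1 k (by omega) (b1.trans e1.symm)).1 c1
    obtain ⟨g, hg, eg⟩ :=
      (mono hs h2 k2 (k + 1) (by omega) (b2.trans (e1.add_right 1).symm)).1 c2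
    rw [AlgHom.toLinearMap_apply] at ef eg
    obtain ⟨w0, rfl⟩ := red_surj _ v'
    obtain ⟨y, hy⟩ := red_ker (ϖ := ϖ * 2) (x := f + g - (w0 + w0)) (by
      rw [map_sub, map_add, map_add, ef, eg]
      abel)
    obtain ⟨w, hw⟩ : ∃ w, w = w0 + ϖ • y := ⟨_, rfl⟩
    have e3 : w + w = f + g := by
      rw [mul_comm, mul_smul, two_smul] at hy
      rw [hw, sub_eq_iff_eq_add.1 hy]
      abel
    have e4 : ep O _ M k w + ep O _ M k w = f - g := by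
      rw [← map_add, e3, map_add, ep_L hM hf, ep_L1 hM hg, sub_eq_add_neg]
    have e5 : w + ep O _ M k w = f := half (by linear_combination e3 + e4)
    have e6 : w - ep O _ M k w = g := half (by linear_combination e3 - e4)
    refine ⟨k, e1, w, mem_L2'.2 ⟨e5 ▸ hf, e6 ▸ hg⟩, ?_⟩
    rw [AlgHom.toLinearMap_apply, hw, map_add, red_smul, add_zero, rho_red]

end Vs57

variable (O : Type) [CommRing O] [Co O]

theorem vs1 : VS1 O := by
  intro M s ϖ hM hs h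
  haveI : NeZero M := ⟨hM.pos.ne'⟩
  exact ⟨Vs57.mono hs h, Vs57.mem_VV hs h⟩

theorem vs2 : VS2 O := by
  intro M s ϖ hM hs h
  haveI : NeZero M := ⟨hM.pos.ne'⟩
  exact ⟨Vs57.mem_V2 hs (h.trans (pow_dvd_pow _ (by omega))), Vs57.split hs h⟩

end Vale.Agent.P022D.V
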