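import Vale.Agent.P022D.V.Rel

/-!
# P022D, block V: values and commutation rules of `W`
-/

set_option linter.all false

open Matrix
open scoped MatrixGroups

noncomputable section

namespace Vale.Agent.P022D.V

variable {M M₀ q : ℕ} {S R : Type} [CommRing S] [CommRing R] [Algebra S R]

theorem dg00 (a d : (ZMod M)ˣ) : (dg a d).val 0 0 = a := rfl
theorem dg01 (a d : (ZMod M)ˣ) : (dg a d).val 0 1 = 0 := rfl
theorem dg10 (a d : (ZMod M)ˣ) : (dg a d).val 1 0 = 0 := rfl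
theorem dg11 (a d : (ZMod M)ˣ) : (dg a d).val 1 1 = d := rfl
theorem un00 (x : ZMod M) : (un x).val 0 0 = 1 := rfl
theorem un01 (x : ZMod M) : (un x).val 0 1 = x := rfl
theorem un10 (x : ZMod M) : (un x).val 1 0 = 0 := rfl
theorem un11 (x : ZMod M) : (un x).val 1 1 = 1 := rfl

theorem un_add (x y : ZMod M) : un (x + y) = un x * un y := by
  refine gext ?_ ?_ ?_ ?_ <;> simp only [gmul, un00, un01, un10, un11] <;> ring

theorem un_zero : un (0 : ZMod M) = 1 := gext rfl rfl rfl rfl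

theorem un_det (x : ZMod M) : (un x).val.det = 1 := by
  rw [Matrix.det_fin_two, un00, un01, un10, un11]; ring

theorem norm_Uq {b : GM M} (hb : Sm M M₀ b) (x : ZMod M) :
    ∃ y : ZMod M, un ((M₀ : ZMod M) * x) * b = b * un ((M₀ : ZMod M) * y) := by
  obtain ⟨t, ht⟩ := det_inv b
  refine ⟨x * b.val 1 1 * b.val 1 1 * t, gext ?_ ?_ ?_ ?_⟩ <;>
    simp only [gmul, un00, un01, un10, un11]
  · linear_combination x * hb
  · linear_combination (-(M₀ * x * b.val 1 1) : ZMod M) * ht - (x * b.val 1 1 * b.val 0 1 * t) * hb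
  · ring
  · linear_combination (-(x * b.val 1 1 * b.val 1 1 * t)) * hb

theorem rt_iv {b : GM M} (hb : Sm M M₀ b) {w : FT M R} (hw : w ∈ Iv S R (Uq M M₀)) :
    rt S R b w ∈ Iv S R (Uq M M₀) := by
  refine mem_iv ?_
  rintro _ ⟨x, rfl⟩ g
  obtain ⟨y, hy⟩ := norm_Uq hb x
  rw [rt_apply, rt_apply, mul_assoc, hy, ← mul_assoc]
  exact iv_val hw ⟨y, rfl⟩ _

theorem wB_q (h : Sp M M₀ q) {x : ℕ} (hx : M₀ ∣ x) : (q : ZMod M) * x = 0 := by
  obtain ⟨m, rfl⟩ := hx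
  rw [Nat.cast_mul]
  linear_combination (m : ZMod M) * h.zero

theorem exB' (h : Sp M M₀ q) {g : GM M} (hg : ¬ Sm M M₀ g) : ∃ (x : ℕ) (g' : GM M),
    (q : ZMod M) * x = 0 ∧ Rel M M₀ q !![1, (x : ℤ); 0, (q : ℤ)] g g' := by
  obtain ⟨⟨x, g'⟩, h1, h2⟩ := exB h hg
  exact ⟨x, g', wB_q h h1, h2⟩

theorem Wa_rt (h : Sp M M₀ q) {b b' : GM M} (hb : Cj M M₀ q b b') {w : FT M R}
    (hw : w ∈ Iv S R (Uq M M₀)) : Wa S R M M₀ q (rt S R b' w) = rt S R b (Wa S R M M₀ q w) := by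
  funext g
  rw [rt_apply]
  by_cases hg : Sm M M₀ g
  · obtain ⟨g', h1⟩ := exA h hg
    rw [Wa_val h (rt_iv hb.c1' hw) h1, Wa_val h hw (h1.right hb), rt_apply]
  · rw [Wa_big _ hg, Wa_big _ (mt (hb.sm h g).1 hg)]

theorem Wb_rt (h : Sp M M₀ q) {z : R} (hz : z ^ M = 1) {b b' : GM M} (hb : Cj M M₀ q b b')
    {w : FT M R} (hw : w ∈ Iv S R (Uq M M₀)) :
    Wb S R M M₀ q z (rt S R b' w) = rt S R b (Wb S R M M₀ q z w) := by
  funext g
  rw [rt_apply]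
  by_cases hg : Sm M M₀ g
  · rw [Wb_small _ _ hg, Wb_small _ _ ((hb.sm h g).2 hg)]
  · obtain ⟨x, g', hx, h1⟩ := exB' h hg
    rw [Wb_val h hz (rt_iv hb.c1' hw) hx h1, Wb_val h hz hw hx (h1.right hb), rt_apply]

theorem cj_mk {b b' : GM M} (a1 : (q : ZMod M) * b'.val 0 0 = q * b.val 0 0)
    (a2 : (q : ZMod M) * b'.val 0 1 = q * b.val 0 1) (a3 : (q : ZMod M) * b'.val 1 0 = q * b.val 1 0)
    (a4 : (q : ZMod M) * b'.val 1 1 = q * b.val 1 1) (c1 : (M₀ : ZMod M) * b.val 1 0 = 0)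
    (c1' : (M₀ : ZMod M) * b'.val 1 0 = 0) (c2 : (M₀ : ZMod M) * b'.val 0 0 = M₀ * b.val 1 1)
    (c3 : (M₀ : ZMod M) * b'.val 1 1 = M₀ * b.val 0 0) : Cj M M₀ q b b' := by
  refine ⟨fun i j => ?_, c1, c1', c2, c3⟩
  fin_cases i <;> fin_cases j
  exacts [a1, a2, a3, a4]

theorem cj_un (h : Sp M M₀ q) (x : ZMod M) : Cj M M₀ q (un ((M₀ : ZMod M) * x)) 1 := by
  rw [← un_zero]
  refine cj_mk rfl ?_ rfl rfl (mul_zero _) (mul_zero _) rfl rfl
  rw [un01, un01]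
  linear_combination (-x) * h.zero

theorem cj_K (h : Sp M M₀ q) {k : GM M} (hk : k ∈ Kq M q) : Cj M M₀ q k k := by
  have e := h.memKq.1 hk
  have e1 := e 0 0
  have e2 := e 1 0
  have e3 := e 1 1
  rw [Matrix.one_apply_eq] at e1 e3
  rw [Matrix.one_apply_ne (by decide), mul_zero] at e2
  exact ⟨fun _ _ => rfl, e2, e2, e1.trans e3.symm, e3.trans e1.symm⟩

theorem cj_dg (h : Sp M M₀ q) {a d : (ZMod M)ˣ} (e : Cg M M₀ a d) :
    Cj M M₀ q (dg d a) (dg a d) :=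
  cj_mk (h.cg0.1 e) rfl rfl (h.cg0.1 e).symm (mul_zero _) (mul_zero _) rfl rfl

theorem Wa_iv (h : Sp M M₀ q) {w : FT M R} (hw : w ∈ Iv S R (Uq M M₀)) :
    Wa S R M M₀ q w ∈ Iv S R (Uq M M₀) := by
  rintro _ ⟨x, rfl⟩
  rw [one_smul, ← Wa_rt h (cj_un h x) hw, map_one]
  rfl

theorem Wb_iv (h : Sp M M₀ q) {z : R} (hz : z ^ M = 1) {w : FT M R}
    (hw : w ∈ Iv S R (Uq M M₀)) : Wb S R M M₀ q z w ∈ Iv S R (Uq M M₀) := by
  rintro _ ⟨x, rfl⟩
  rw [one_smul, ← Wb_rt h hz (cj_un h x) hw, map_one]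
  rfl

theorem sm_left (a d : (ZMod M)ˣ) (g : GM M) : Sm M M₀ (dg a d * g) ↔ Sm M M₀ g := by
  rw [Sm, Sm, gmul, dg10, dg11]
  constructor
  · intro e
    linear_combination ((d⁻¹ : (ZMod M)ˣ) : ZMod M) * e - (M₀ * g.val 1 0 : ZMod M) * d.inv_mul
  · intro e
    linear_combination (d : ZMod M) * e

theorem sm_un (x : ZMod M) (g : GM M) : Sm M M₀ (un x * g) ↔ Sm M M₀ g := by
  rw [Sm, Sm, gmul, un10, un11, zero_mul, zero_add, one_mul]

theorem relA_dg {g g' : GM M} (h1 : Rel M M₀ q !![(q : ℤ), 0; 0, 1] g g') (a d : (ZMod M)ˣ) :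
    Rel M M₀ q !![(q : ℤ), 0; 0, 1] (dg a d * g) (dg a d * g') := by
  refine h1.left _ _ ?_ rfl
  ext i j
  fin_cases i <;> fin_cases j <;> simp [Matrix.mul_apply, Fin.sum_univ_two, dg_coe, mul_comm]

theorem relB_dg {x x' : ℕ} {g g' : GM M} (h1 : Rel M M₀ q !![1, (x : ℤ); 0, (q : ℤ)] g g')
    (a d : (ZMod M)ˣ) (e : (x' : ZMod M) * d = a * x) :
    Rel M M₀ q !![1, (x' : ℤ); 0, (q : ℤ)] (dg a d * g) (dg a d * g') := by
  refine h1.left _ _ ?_ rfl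
  ext i j
  fin_cases i <;> fin_cases j <;> simp [Matrix.mul_apply, Fin.sum_univ_two, dg_coe, mul_comm]
  rw [mul_comm, e, mul_comm]

theorem Sp.cop' (h : Sp M M₀ q) {p : ℕ} {u : (ZMod M)ˣ} (hu : (u : ZMod M) = p) :
    Nat.Coprime q p := by
  have := (ZMod.isUnit_iff_coprime p M).1 (hu ▸ u.isUnit)
  exact (Nat.Coprime.coprime_dvd_right ⟨M₀, by rw [h.eq, mul_comm]⟩ this).symm

theorem VU_comm {p : ℕ} (hc : Nat.Coprime q p) (s : PowerSeries R) :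
    Vo q (Uo p s) = Uo p (Vo q s) := by
  ext n
  simp only [Vo, Uo, PowerSeries.coeff_mk, hc.dvd_mul_left]
  split_ifs with e
  · rw [Nat.mul_div_assoc _ e]
  · rfl

theorem VV_comm {p : ℕ} (hc : Nat.Coprime q p) (s : PowerSeries R) :
    Vo q (Vo p s) = Vo p (Vo q s) := by
  ext n
  simp only [Vo, PowerSeries.coeff_mk]
  by_cases e1 : q ∣ n <;> by_cases e2 : p ∣ n
  · have e3 := hc.mul_dvd_of_dvd_of_dvd e1 e2
    rw [if_pos e1, if_pos e2, if_pos ((Nat.dvd_div_iff_mul_dvd e1).2 e3),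
      if_pos ((Nat.dvd_div_iff_mul_dvd e2).2 (mul_comm q p ▸ e3)), Nat.div_div_eq_div_mul,
      Nat.div_div_eq_div_mul, mul_comm]
  · rw [if_pos e1, if_neg e2, if_neg fun e => e2 (e.trans (Nat.div_dvd_of_dvd e1))]
  · rw [if_neg e1, if_pos e2, if_neg fun e => e1 (e.trans (Nat.div_dvd_of_dvd e2))]
  · rw [if_neg e1, if_neg e2]

theorem Uf_ap (p : ℕ) (u : (ZMod M)ˣ) (w : FT M R) (g : GM M) :
    Uf S R p u w g = Uo p (w (dg 1 u * g)) := rfl

theorem Vf_ap (p : ℕ) (u : (ZMod M)ˣ) (w : FT M R) (g : GM M) :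
    Vf S R p u w g = Vo p (w (dg u 1 * g)) := rfl

theorem Uf_iv {H : Set (GM M)} (p : ℕ) (u : (ZMod M)ˣ) {w : FT M R} (hw : w ∈ Iv S R H) :
    Uf S R p u w ∈ Iv S R H :=
  mem_iv fun k hk g => by rw [Uf_ap, Uf_ap, ← mul_assoc, iv_val hw hk]

theorem Vf_iv {H : Set (GM M)} (p : ℕ) (u : (ZMod M)ˣ) {w : FT M R} (hw : w ∈ Iv S R H) :
    Vf S R p u w ∈ Iv S R H :=
  mem_iv fun k hk g => by rw [Vf_ap, Vf_ap, ← mul_assoc, iv_val hw hk]

theorem W_UV (h : Sp M M₀ q) {z : R} (hz : z ^ M = 1) {w : FT M R} (hw : w ∈ Iv S R (Uq M M₀))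
    (p : ℕ) (u : (ZMod M)ˣ) (hu : (u : ZMod M) = p) :
    Wa S R M M₀ q (Uf S R p u w) = Uf S R p u (Wa S R M M₀ q w) ∧
    Wb S R M M₀ q z (Uf S R p u w) = Uf S R p u (Wb S R M M₀ q z w) ∧
    Wa S R M M₀ q (Vf S R p u w) = Vf S R p u (Wa S R M M₀ q w) ∧
    Wb S R M M₀ q z (Vf S R p u w) = Vf S R p u (Wb S R M M₀ q z w) := by
  have hc := h.cop' hu
  have U0 : Uo p (0 : PowerSeries R) = 0 := by ext n; simp [Uo]
  have V0 : Vo p (0 : PowerSeries R) = 0 := by ext n; simp [Vo]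
  haveI : NeZero M := ⟨h.Mpos.ne'⟩
  refine ⟨funext fun g => ?_, funext fun g => ?_, funext fun g => ?_, funext fun g => ?_⟩ <;>
    by_cases hg : Sm M M₀ g
  · obtain ⟨g', h1⟩ := exA h hg
    rw [Wa_val h (Uf_iv p u hw) h1, Uf_ap, Uf_ap, Wa_val h hw (relA_dg h1 1 u), VU_comm hc]
  · rw [Wa_big _ hg, Uf_ap, Wa_big _ (mt (sm_left _ _ g).1 hg), U0]
  · rw [Wb_small _ _ hg, Uf_ap, Wb_small _ _ ((sm_left _ _ g).2 hg), U0]
  · obtain ⟨x, g', hx, h1⟩ := exB' h hg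
    obtain ⟨x', hx'⟩ := ZMod.natCast_zmod_surjective ((x : ZMod M) * ((u⁻¹ : (ZMod M)ˣ) : ZMod M))
    have e : (x' : ZMod M) * u = (1 : (ZMod M)ˣ) * x := by
      rw [hx', mul_assoc, Units.inv_mul, Units.val_one, mul_one, one_mul]
    rw [Wb_val h hz (Uf_iv p u hw) hx h1, Uf_ap, Uf_ap,
      Wb_val h hz hw (by rw [hx', ← mul_assoc, hx, zero_mul]) (relB_dg h1 1 u e)]
    ext n
    simp only [Uo, PowerSeries.coeff_mk]
    rw [mul_left_comm p q n, pow_cg hz (x := x * n) (y := x' * (p * n))]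
    push_cast
    rw [← hu, ← mul_assoc, e, Units.val_one, one_mul]
  · obtain ⟨g', h1⟩ := exA h hg
    rw [Wa_val h (Vf_iv p u hw) h1, Vf_ap, Vf_ap, Wa_val h hw (relA_dg h1 u 1), VV_comm hc]
  · rw [Wa_big _ hg, Vf_ap, Wa_big _ (mt (sm_left _ _ g).1 hg), V0]
  · rw [Wb_small _ _ hg, Vf_ap, Wb_small _ _ ((sm_left _ _ g).2 hg), V0]
  · obtain ⟨x, g', hx, h1⟩ := exB' h hg
    have e : ((p * x : ℕ) : ZMod M) * (1 : (ZMod M)ˣ) = u * x := by
      rw [Units.val_one, mul_one, Nat.cast_mul, hu]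
    rw [Wb_val h hz (Vf_iv p u hw) hx h1, Vf_ap, Vf_ap,
      Wb_val h hz hw (by rw [Nat.cast_mul, mul_left_comm, hx, mul_zero]) (relB_dg h1 u 1 e)]
    ext n
    simp only [Vo, PowerSeries.coeff_mk, hc.symm.dvd_mul_left]
    split_ifs with e1
    · obtain ⟨m, rfl⟩ := e1
      have hp : 0 < p := Nat.pos_of_ne_zero fun e0 => by
        rw [e0, Nat.coprime_zero_right] at hc
        exact h.prime.one_lt.ne' hc
      rw [Nat.mul_div_cancel_left _ hp, mul_left_comm q p m, Nat.mul_div_cancel_left _ hp,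
        mul_left_comm x p m, mul_assoc]
    · rw [mul_zero]

theorem W_od (h : Sp M M₀ q) (z : R) {w : FT M R} (hw : w ∈ Od S M R) :
    Wa S R M M₀ q w ∈ Od S M R ∧ Wb S R M M₀ q z w ∈ Od S M R := by
  refine ⟨fun g n hn => ?_, fun g n hn => ?_⟩ <;> by_cases hg : Sm M M₀ g
  · have : Wa S R M M₀ q w g = Vo q (w (wA M M₀ q g)) := if_pos hg
    rw [this, Vo, PowerSeries.coeff_mk]
    split_ifs with e
    · obtain ⟨m, rfl⟩ := e
      rw [Nat.mul_div_cancel_left _ h.qpos]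
      exact hw _ _ ((Nat.even_mul.1 hn).resolve_left (Nat.not_even_iff_odd.2 h.qodd))
    · rfl
  · rw [Wa_big _ hg, map_zero]
  · rw [Wb_small _ _ hg, map_zero]
  · have : Wb S R M M₀ q z w g = PowerSeries.mk fun n => z ^ ((wB M M₀ q g).1 * n) *
      (w (wB M M₀ q g).2).coeff (q * n) := if_neg hg
    rw [this, PowerSeries.coeff_mk, hw _ _ (hn.mul_left q), mul_zero]

theorem tc_pow {z : R} {w : FT M R} (hw : TC z w) (x : ℕ) (g : GM M) (n : ℕ) :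
    z ^ (x * n) * (w (un (x : ZMod M) * g)).coeff n = (w g).coeff n := by
  induction x with
  | zero => rw [Nat.cast_zero, un_zero, one_mul, zero_mul, pow_zero, one_mul]
  | succ x ih =>
    rw [Nat.cast_succ, add_comm (x : ZMod M), un_add, mul_assoc, ← ih, ← hw (un (x : ZMod M) * g) n]
    ring

theorem relA_un {g g' : GM M} (h1 : Rel M M₀ q !![(q : ℤ), 0; 0, 1] g g') (y : ZMod M) :
    Rel M M₀ q !![(q : ℤ), 0; 0, 1] (un y * g) (un ((q : ZMod M) * y) * g') := by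
  refine h1.left _ _ ?_ (by rw [un_det, un_det])
  ext i j
  fin_cases i <;> fin_cases j <;> simp [Matrix.mul_apply, Fin.sum_univ_two, un_coe]

theorem relB_un {x x' : ℕ} {g g' : GM M} (h1 : Rel M M₀ q !![1, (x : ℤ); 0, (q : ℤ)] g g')
    (y t : ZMod M) (e : y + x' = x + t * q) :
    Rel M M₀ q !![1, (x' : ℤ); 0, (q : ℤ)] (un y * g) (un t * g') := by
  refine h1.left _ _ ?_ (by rw [un_det, un_det])
  ext i j
  fin_cases i <;> fin_cases j <;> simp [Matrix.mul_apply, Fin.sum_univ_two, un_coe]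
  exact e

theorem W_tc (h : Sp M M₀ q) {z : R} (hz : z ^ M = 1) {w : FT M R} (hw : w ∈ Iv S R (Uq M M₀))
    (ht : TC z w) : TC z (Wa S R M M₀ q w) ∧ TC z (Wb S R M M₀ q z w) := by
  haveI : NeZero M := ⟨h.Mpos.ne'⟩
  refine ⟨fun g n => ?_, fun g n => ?_⟩ <;> by_cases hg : Sm M M₀ g
  · obtain ⟨g', h1⟩ := exA h hg
    rw [Wa_val h hw h1, Wa_val h hw (relA_un h1 1), mul_one]
    simp only [Vo, PowerSeries.coeff_mk]
    split_ifs with e
    · obtain ⟨m, rfl⟩ := e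
      rw [Nat.mul_div_cancel_left _ h.qpos, tc_pow ht]
    · rw [mul_zero]
  · rw [Wa_big _ hg, Wa_big _ (mt (sm_un _ g).1 hg), map_zero, mul_zero]
  · rw [Wb_small _ _ hg, Wb_small _ _ ((sm_un _ g).2 hg), map_zero, mul_zero]
  · obtain ⟨x, g', hx, h1⟩ := exB' h hg
    obtain ⟨a, b, e⟩ := h.bez
    obtain ⟨x', hx'⟩ := ZMod.natCast_zmod_surjective ((x : ZMod M) - (M₀ : ZMod M) * a)
    obtain ⟨t, ht'⟩ := ZMod.natCast_zmod_surjective b
    have e1 : (1 : ZMod M) + x' = x + t * q := by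
      rw [hx', ht']
      linear_combination -e
    rw [Wb_val h hz hw hx h1, Wb_val h hz hw (by rw [hx']; linear_combination hx - a * h.zero)
      (relB_un h1 1 t e1), PowerSeries.coeff_mk, PowerSeries.coeff_mk, ← tc_pow ht t g', ← mul_assoc,
      ← mul_assoc, ← pow_add, ← pow_add, pow_cg hz (x := n + x' * n) (y := x * n + t * (q * n))]
    push_cast
    linear_combination (n : ZMod M) * e1

theorem isS_ent (h : Sp M M₀ q) {s : GM M} (hs : IsS M M₀ s) :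
    ((q : ZMod M) * s.val 0 0 = q ∧ (q : ZMod M) * s.val 0 1 = 0 ∧ (q : ZMod M) * s.val 1 0 = 0 ∧
      (q : ZMod M) * s.val 1 1 = q) ∧ (M₀ : ZMod M) * s.val 0 0 = 0 ∧
      (M₀ : ZMod M) * s.val 0 1 = M₀ ∧ (M₀ : ZMod M) * s.val 1 0 = M₀ ∧
      (M₀ : ZMod M) * s.val 1 1 = 0 := by
  have e := h.memK0.1 hs.1
  have f := fun i j => congrFun (congrFun hs.2 i) j
  exact ⟨⟨by simpa using e 0 0, by simpa using e 0 1, by simpa using e 1 0, by simpa using e 1 1⟩,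
    by simpa using f 0 0, by simpa using f 0 1, by simpa using f 1 0, by simpa using f 1 1⟩

theorem rel_dA (h : Sp M M₀ q) {s g : GM M} {c : (ZMod M)ˣ} (hs : IsS M M₀ s) (hc : IsC M M₀ q c)
    (hg : Dq M M₀ g) : Rel M M₀ q !![(q : ℤ), 0; 0, 1] g (dg c 1 * g * s) := by
  obtain ⟨⟨a1, a2, a3, a4⟩, b1, b2, b3, b4⟩ := isS_ent h hs
  have c1 := h.cg0.1 hc.1
  have c2 := h.cgq.1 hc.2
  have z := h.zero
  obtain ⟨g1, g2⟩ := hg
  rw [relA, Matrix.det_fin_two]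
  refine Rl.mk' ?_ ?_ ?_ ?_ ?_ ?_ ?_ ?_ ?_ <;>
    simp only [gmul, dg00, dg01, dg10, dg11, Units.val_one, Matrix.of_apply, Matrix.cons_val',
      Matrix.cons_val_zero, Matrix.cons_val_one, Matrix.cons_val_fin_one]
  · linear_combination (c * g.val 0 0) * a1 + (c * g.val 0 1) * a3 + g.val 0 0 * c1
  · linear_combination (c * g.val 0 0) * a2 + (c * g.val 0 1) * a4 + g.val 0 1 * c1
  · linear_combination g.val 1 0 * a1 + g.val 1 1 * a3
  · linear_combination g.val 1 0 * a2 + g.val 1 1 * a4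
  · linear_combination g.val 0 0 * z
  · exact g2
  · linear_combination (c * g.val 0 0) * b1 + (c * s.val 1 0) * g1 - g.val 0 1 * z
  · linear_combination g.val 1 0 * b1 + g.val 1 1 * b3
  · linear_combination ((g.val 0 0 * g.val 1 1 - g.val 0 1 * g.val 1 0) *
      (s.val 0 0 * s.val 1 1 - s.val 0 1 * s.val 1 0)) * c2 +
      (g.val 0 0 * g.val 1 1 - g.val 0 1 * g.val 1 0) * (s.val 1 1 * b1 - s.val 1 0 * b2 - b3)

theorem rel_dB (h : Sp M M₀ q) {s g : GM M} {c : (ZMod M)ˣ} (hs : IsS M M₀ s) (hc : IsC M M₀ q c)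
    (hg : Dq M M₀ g) : Rel M M₀ q !![1, ((0 : ℕ) : ℤ); 0, (q : ℤ)] (g * s) (dg 1 c * g) := by
  obtain ⟨⟨a1, a2, a3, a4⟩, b1, b2, b3, b4⟩ := isS_ent h hs
  have c1 := h.cg0.1 hc.1
  have c2 := h.cgq.1 hc.2
  have z := h.zero
  obtain ⟨g1, g2⟩ := hg
  rw [relB, Matrix.det_fin_two]
  refine Rl.mk' ?_ ?_ ?_ ?_ ?_ ?_ ?_ ?_ ?_ <;>
    simp only [gmul, dg00, dg01, dg10, dg11, Units.val_one, Matrix.of_apply, Matrix.cons_val',
      Matrix.cons_val_zero, Matrix.cons_val_one, Matrix.cons_val_fin_one, Nat.cast_zero]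
  · linear_combination (-g.val 0 0) * a1 - g.val 0 1 * a3
  · linear_combination (-g.val 0 0) * a2 - g.val 0 1 * a4
  · linear_combination g.val 1 0 * c1 - (q * g.val 1 0) * a1 - (q * g.val 1 1) * a3
  · linear_combination g.val 1 1 * c1 - (q * g.val 1 0) * a2 - (q * g.val 1 1) * a4
  · linear_combination g.val 0 0 * b1 + s.val 1 0 * g1
  · linear_combination (g.val 1 0 * s.val 0 0 + g.val 1 1 * s.val 1 0) * z
  · linear_combination (-g.val 0 0) * b2 - g.val 0 1 * b4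
  · linear_combination (c : ZMod M) * g2 - (g.val 1 0 * s.val 0 1 + g.val 1 1 * s.val 1 1) * z
  · linear_combination (g.val 0 0 * g.val 1 1 - g.val 0 1 * g.val 1 0) * c2 +
      (g.val 0 0 * g.val 1 1 - g.val 0 1 * g.val 1 0) * (s.val 1 1 * b1 - s.val 1 0 * b2 - b3)

theorem W_val (h : Sp M M₀ q) {z : R} (hz : z ^ M = 1) {w : FT M R} (hw : w ∈ Iv S R (Uq M M₀))
    {s g : GM M} {c : (ZMod M)ˣ} (hs : IsS M M₀ s) (hc : IsC M M₀ q c) (hg : Dq M M₀ g) :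
    Wa S R M M₀ q w g = Vo q (w (dg c 1 * g * s)) ∧ Wb S R M M₀ q z w g = 0 ∧
    Wa S R M M₀ q w (g * s) = 0 ∧ Wb S R M M₀ q z w (g * s) = Uo q (w (dg 1 c * g)) := by
  refine ⟨Wa_val h hw (rel_dA h hs hc hg), Wb_small _ _ hg.2,
    Wa_big _ (relB_small h (rel_dB h hs hc hg)).1, ?_⟩
  rw [Wb_val h hz hw (by rw [Nat.cast_zero, mul_zero]) (rel_dB h hs hc hg)]
  ext n
  simp [Uo]

theorem wf1 : WF1 := by
  intro S R _ _ _ M M₀ q z h hz w hw
  refine ⟨fun s c g hs hc hg => W_val h hz hw hs hc hg, ⟨Wa_iv h hw, Wb_iv h hz hw⟩,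
    fun k hk => ⟨rt_iv (cj_K h hk).c1 hw, Wa_rt h (cj_K h hk) hw, Wb_rt h hz (cj_K h hk) hw⟩,
    fun a d e => ⟨rt_iv (mul_zero _) hw, Wa_rt h (cj_dg h e) hw, Wb_rt h hz (cj_dg h e) hw⟩,
    fun p u hu => ⟨Uf_iv p u hw, Vf_iv p u hw, W_UV h hz hw p u hu⟩, W_od h z, W_tc h hz hw⟩

end Vale.Agent.P022D.V
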